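import Mathlib

/-!
# ROW 257, package FR1, file 3: THE ABSTRACT (PAPER-FREE) STAGE LEMMAS OF THE NORMALISATION      (architect helper249)

Mathlib only.   Every theorem is a LEAF `L-F1-A*` (30-150 lines), all independent.   They are the combinatorial steps of H `frame.tex` l.133-265, 540-577:
dyadic amplitude classes with summable threshold fractions `pn n = 1/((n+1)(n+2))`, the tuple pigeonhole, the balance algebra, heavy masks (double counting), near incidences, the ball count, retention of the masks with `e_b² ≤ M_c`, sampling bound.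
-/

set_option autoImplicit false

namespace Claimed.Agent.R257.FR1

open scoped BigOperators Classical

noncomputable section

/-- the threshold fractions `1/((n+1)(n+2))`, `∑_n = 1` -/
def pn (n : ℕ) : ℝ := 1 / (((n : ℝ) + 1) * ((n : ℝ) + 2))

theorem fa_pn_pos (n : ℕ) : 0 < pn n := by
  unfold pn
  positivity

theorem fa_pn_sum_eq (N : ℕ) : ∑ n ∈ Finset.range N, pn n = 1 - 1 / ((N : ℝ) + 1) := by
  induction N with
  | zero => simp
  | succ N ih =>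
    rw [Finset.sum_range_succ, ih]
    unfold pn
    push_cast
    field_simp
    ring

/-- **LEAF L-F1-A1**.   PLAN: induction, `∑_{n<N} pn n = 1 - 1/(N+1)`. -/
theorem fa_pn_sum (N : ℕ) : ∑ n ∈ Finset.range N, pn n ≤ 1 := by
  rw [fa_pn_sum_eq]
  have : 0 < 1 / ((N : ℝ) + 1) := by positivity
  linarith

/-- **LEAF L-F1-A2**: `1/pn n` is subpolynomial in `2^n`.   PLAN: `(n+1)(n+2) ≤ (n+2)²`; `n + 2 ≤ C' (2^n)^(β/2)`: `x ↦ (x+2) 2^{-xβ/2}` is bounded (e.g. `Real.add_one_le_exp`: `(β' x) + 1 ≤ exp (β' x)` with `β' = β log 2/2`, so `x + 2 ≤ (2 + 1/β') exp(β' x)`). -/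
theorem fa_pn_sub {β : ℝ} (hβ : 0 < β) : ∃ C : ℝ, 1 ≤ C ∧ ∀ n : ℕ, 1 / pn n ≤ C * ((2 : ℝ) ^ n) ^ β := by
  have hl : 0 < Real.log 2 := Real.log_pos one_lt_two
  set b : ℝ := β * Real.log 2 / 2 with hb
  have hb0 : 0 < b := by positivity
  refine ⟨(2 + 1 / b) ^ 2, ?_, fun n => ?_⟩
  · have : 0 < 1 / b := by positivity
    nlinarith
  · have e1 : ((2 : ℝ) ^ n) ^ β = Real.exp (b * n) ^ 2 := by
      rw [← Real.rpow_natCast 2 n, ← Real.rpow_mul (by norm_num), Real.rpow_def_of_pos (by norm_num),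
        ← Real.exp_nat_mul]
      congr 1
      rw [hb]
      push_cast
      ring
    have e2 : 1 / pn n = ((n : ℝ) + 1) * ((n : ℝ) + 2) := by
      unfold pn
      rw [one_div_one_div]
    have hn0 : (0 : ℝ) ≤ n := Nat.cast_nonneg n
    have h1 : b * n + 1 ≤ Real.exp (b * n) := Real.add_one_le_exp _
    have h2 : (n : ℝ) + 2 ≤ (2 + 1 / b) * Real.exp (b * n) := by
      have h3 : (n : ℝ) ≤ 1 / b * Real.exp (b * n) := by
        rw [div_mul_eq_mul_div, one_mul, le_div_iff₀ hb0]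
        linarith
      have h4 : 1 ≤ Real.exp (b * n) := Real.one_le_exp (by positivity)
      nlinarith
    rw [e1, e2, ← mul_pow]
    calc ((n : ℝ) + 1) * ((n : ℝ) + 2) ≤ ((n : ℝ) + 2) ^ 2 := by nlinarith
      _ ≤ _ := pow_le_pow_left₀ (by positivity) h2 2

/-- the dyadic class `2^n σ ≤ a < 2^{n+1} σ` -/
def dcl {𝓜 : Type} (W : Finset 𝓜) (a : 𝓜 → ℝ) (σ : ℝ) (n : ℕ) : Finset 𝓜 := W.filter fun S => 2 ^ n * σ ≤ a S ∧ a S < 2 ^ (n + 1) * σ

/-- **LEAF L-F1-A3: selection of one dyadic amplitude class** (H l.156-170).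
PLAN.  `W₀ = W.filter (a < σ)`: `‖∑_{W₀} φ‖ ≤ σ ∑ w ≤ σ N ≤ A/4`.   Every `S ∈ W` with `σ ≤ a S` lies in exactly one `dcl W a σ n` (`n = ⌊log₂ (a S/σ)⌋₊`; or: choose `n₁` with `a S < 2^{n₁} σ` for all `S ∈ W` and prove by induction on `n₁` that
`W.filter (a < 2^{n₁} σ) = W₀ ∪ ⋃_{n<n₁} dcl n`, disjoint).   If all classes had `‖∑‖ < (3A/4) pn n` then `A ≤ ‖∑_W φ‖ < A/4 + (3A/4) ∑_{n<n₁} pn n ≤ A` (`fa_pn_sum`). -/
theorem fa_class {𝓜 : Type} (W : Finset 𝓜) (φ : 𝓜 → ℂ) (a w : 𝓜 → ℝ) (σ N A : ℝ) (hσ : 0 < σ) (hA0 : 0 < A) (hw : ∀ S ∈ W, 0 ≤ w S)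
    (hφ : ∀ S ∈ W, ‖φ S‖ ≤ a S * w S) (hN : ∑ S ∈ W, w S ≤ N) (hσN : σ * N ≤ A / 4) (hA : A ≤ ‖∑ S ∈ W, φ S‖) :
    ∃ n : ℕ, 3 * A / 4 * pn n ≤ ‖∑ S ∈ dcl W a σ n, φ S‖ := by
  by_contra hcon
  push Not at hcon
  have hstep : ∀ n : ℕ, ‖∑ S ∈ W.filter (fun S => a S < 2 ^ n * σ), φ S‖
      ≤ A / 4 + 3 * A / 4 * ∑ j ∈ Finset.range n, pn j := by
    intro n
    induction n with
    | zero =>
      simp only [pow_zero, one_mul, Finset.range_zero, Finset.sum_empty, mul_zero, add_zero]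
      calc ‖∑ S ∈ W.filter (fun S => a S < σ), φ S‖ ≤ ∑ S ∈ W.filter (fun S => a S < σ), ‖φ S‖ := norm_sum_le _ _
        _ ≤ ∑ S ∈ W.filter (fun S => a S < σ), σ * w S := by
            refine Finset.sum_le_sum fun S hS => ?_
            obtain ⟨hSW, hSa⟩ := Finset.mem_filter.1 hS
            exact (hφ S hSW).trans (mul_le_mul_of_nonneg_right hSa.le (hw S hSW))
        _ ≤ ∑ S ∈ W, σ * w S :=
            Finset.sum_le_sum_of_subset_of_nonneg (Finset.filter_subset _ _)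
              fun S hS _ => mul_nonneg hσ.le (hw S hS)
        _ = σ * ∑ S ∈ W, w S := by rw [Finset.mul_sum]
        _ ≤ σ * N := mul_le_mul_of_nonneg_left hN hσ.le
        _ ≤ A / 4 := hσN
    | succ n ih =>
      have hsplit : W.filter (fun S => a S < 2 ^ (n + 1) * σ)
          = W.filter (fun S => a S < 2 ^ n * σ) ∪ dcl W a σ n := by
        ext S
        simp only [dcl, Finset.mem_union, Finset.mem_filter]
        constructor
        · rintro ⟨h1, h2⟩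
          by_cases h3 : a S < 2 ^ n * σ
          · exact Or.inl ⟨h1, h3⟩
          · exact Or.inr ⟨h1, not_lt.1 h3, h2⟩
        · rintro (⟨h1, h2⟩ | ⟨h1, -, h2⟩)
          · refine ⟨h1, h2.trans_le ?_⟩
            have : (2 : ℝ) ^ n ≤ 2 ^ (n + 1) := pow_le_pow_right₀ one_le_two (Nat.le_succ n)
            exact mul_le_mul_of_nonneg_right this hσ.le
          · exact ⟨h1, h2⟩
      have hdisj : Disjoint (W.filter (fun S => a S < 2 ^ n * σ)) (dcl W a σ n) := by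
        rw [Finset.disjoint_left]
        intro S h1 h2
        have h3 := (Finset.mem_filter.1 h1).2
        have h4 := (Finset.mem_filter.1 h2).2.1
        linarith
      rw [hsplit, Finset.sum_union hdisj, Finset.sum_range_succ]
      have := hcon n
      calc _ ≤ ‖∑ S ∈ W.filter (fun S => a S < 2 ^ n * σ), φ S‖ + ‖∑ S ∈ dcl W a σ n, φ S‖ := norm_add_le _ _
        _ ≤ _ := by linarith
  obtain ⟨n₁, hn₁⟩ := pow_unbounded_of_one_lt ((∑ S ∈ W, |a S|) / σ) (one_lt_two : (1 : ℝ) < 2)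
  have hall : W.filter (fun S => a S < 2 ^ n₁ * σ) = W := by
    refine Finset.filter_true_of_mem fun S hS => ?_
    have h1 : |a S| ≤ ∑ S ∈ W, |a S| := Finset.single_le_sum (f := fun S => |a S|) (fun S _ => abs_nonneg _) hS
    rw [div_lt_iff₀ hσ] at hn₁
    exact lt_of_le_of_lt ((le_abs_self _).trans h1) hn₁
  have h2 := hstep n₁
  rw [hall, fa_pn_sum_eq] at h2
  have h3 : 0 < 1 / ((n₁ : ℝ) + 1) := by positivity
  nlinarith [mul_pos hA0 h3]

/-- **LEAF L-F1-A4: a class which is high at one point is not too large** (H l.170-177).   PLAN: `‖∑_{dcl} φ‖ ≤ ∑_{dcl} a w ≤ ∑_{dcl} a² w/(2^n σ) ≤ B/(2^n σ)`. -/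
theorem fa_class_upper {𝓜 : Type} (W : Finset 𝓜) (φ : 𝓜 → ℂ) (a w : 𝓜 → ℝ) (σ B θ : ℝ) (n : ℕ) (hσ : 0 < σ) (hw : ∀ S ∈ W, 0 ≤ w S)
    (hφ : ∀ S ∈ W, ‖φ S‖ ≤ a S * w S) (hB : ∑ S ∈ W, a S ^ 2 * w S ≤ B) (hθ : θ ≤ ‖∑ S ∈ dcl W a σ n, φ S‖) : θ * (2 ^ n * σ) ≤ B := by
  have hp : 0 < (2 : ℝ) ^ n * σ := by positivity
  calc θ * (2 ^ n * σ) ≤ ‖∑ S ∈ dcl W a σ n, φ S‖ * (2 ^ n * σ) := mul_le_mul_of_nonneg_right hθ hp.le
    _ ≤ (∑ S ∈ dcl W a σ n, a S * w S) * (2 ^ n * σ) := by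
        refine mul_le_mul_of_nonneg_right ((norm_sum_le _ _).trans (Finset.sum_le_sum fun S hS => ?_)) hp.le
        exact hφ S (Finset.mem_filter.1 hS).1
    _ = ∑ S ∈ dcl W a σ n, a S * w S * (2 ^ n * σ) := by rw [Finset.sum_mul]
    _ ≤ ∑ S ∈ dcl W a σ n, a S ^ 2 * w S := by
        refine Finset.sum_le_sum fun S hS => ?_
        obtain ⟨hSW, h1, -⟩ := Finset.mem_filter.1 hS
        have h2 : 0 ≤ a S * w S := mul_nonneg (hp.le.trans h1) (hw S hSW)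
        calc a S * w S * (2 ^ n * σ) ≤ a S * w S * a S := mul_le_mul_of_nonneg_left h1 h2
          _ = _ := by ring
    _ ≤ ∑ S ∈ W, a S ^ 2 * w S :=
        Finset.sum_le_sum_of_subset_of_nonneg (Finset.filter_subset _ _)
          fun S hS _ => mul_nonneg (sq_nonneg _) (hw S hS)
    _ ≤ B := hB

/-- **LEAF L-F1-A5: the tuple pigeonhole** (H l.160-168, "this countable pigeonhole is legitimate").
PLAN.  By contradiction: `#Y = ∑_{n ∈ Y.image ν} #Y_n < #Y ∑_{n ∈ image} ∏ pn (n i)`; the image lies in `Fintype.piFinset fun _ => Finset.range N₁`; `Finset.prod_univ_sum` : `∑_{piFinset} ∏ = ∏ ∑ ≤ 1` (`fa_pn_sum`, `Finset.prod_le_one`). -/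
theorem fa_tuple {𝓨 : Type} {m : ℕ} (Y : Finset 𝓨) (ν : 𝓨 → Fin m → ℕ) (hY : Y.Nonempty) :
    ∃ n : Fin m → ℕ, (Y.card : ℝ) * ∏ i, pn (n i) ≤ ((Y.filter fun y => ν y = n).card : ℝ) := by
  by_contra hcon
  push Not at hcon
  have hc0 : (0 : ℝ) < Y.card := by exact_mod_cast hY.card_pos
  set N₁ : ℕ := (Y.sup fun y => Finset.univ.sup (ν y)) + 1 with hN₁
  have hsub : Y.image ν ⊆ Fintype.piFinset fun _ : Fin m => Finset.range N₁ := by
    intro n hn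
    obtain ⟨y, hy, rfl⟩ := Finset.mem_image.1 hn
    rw [Fintype.mem_piFinset]
    intro i
    rw [Finset.mem_range, hN₁, Nat.lt_succ_iff]
    exact (Finset.le_sup (f := ν y) (Finset.mem_univ i)).trans
      (Finset.le_sup (f := fun y => Finset.univ.sup (ν y)) hy)
  have h1 : (Y.card : ℝ) = ∑ n ∈ Y.image ν, ((Y.filter fun y => ν y = n).card : ℝ) := by
    rw [Finset.card_eq_sum_card_image ν Y]
    push_cast
    rfl
  have h2 : ∑ n ∈ Y.image ν, ((Y.filter fun y => ν y = n).card : ℝ)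
      < ∑ n ∈ Y.image ν, (Y.card : ℝ) * ∏ i, pn (n i) :=
    Finset.sum_lt_sum_of_nonempty (hY.image ν) fun n _ => hcon n
  have h3 : ∑ n ∈ Y.image ν, (Y.card : ℝ) * ∏ i, pn (n i)
      ≤ ∑ n ∈ Fintype.piFinset fun _ : Fin m => Finset.range N₁, (Y.card : ℝ) * ∏ i, pn (n i) :=
    Finset.sum_le_sum_of_subset_of_nonneg hsub fun n _ _ =>
      mul_nonneg hc0.le (Finset.prod_nonneg fun i _ => (fa_pn_pos _).le)
  have h4 : ∑ n ∈ Fintype.piFinset fun _ : Fin m => Finset.range N₁, ∏ i, pn (n i) ≤ 1 := by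
    rw [← Finset.prod_univ_sum (fun _ : Fin m => Finset.range N₁) (fun _ j => pn j)]
    exact Finset.prod_le_one (fun i _ => Finset.sum_nonneg fun j _ => (fa_pn_pos j).le) fun i _ => fa_pn_sum N₁
  have h5 := mul_le_mul_of_nonneg_left h4 hc0.le
  rw [Finset.mul_sum, mul_one] at h5
  linarith

/-- **LEAF L-F1-A6: the balance algebra** (H l.133-145, 196-205, 569-575).   `y = #Y`, `G = H_g²`, `e = k`; `hU` = the upper halves (loss `κ`), `hF` = the failure of the frame bound (constant `μ`).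
PLAN.  `D i > 0` (from `hU`, `y > 0`).   Single term of `hF` + `hU`: `μ H_i² ≤ κ G`.   Product over `i`: `μ^{m+1} ≤ κ^{m+1}`.   `G^{m+1} = H_i² ∏_{j≠i} H_j² ≤ H_i² (κ G/μ)^m` gives `G ≤ (κ/μ)^m H_i²` (`Finset.prod_erase`/`Fin.prod_univ_succAbove`).
Then `H_i² ≤ (κ/μ) G ≤ (κ/μ)^{m+1} H_j²` and `D_i ≤ y G H_i^e/μ ≤ (κ/μ)^m/μ · y H_i^{e+2}`. -/
theorem fa_balance {m : ℕ} (H D : Fin (m + 1) → ℝ) (e : ℕ) (G y κ μ : ℝ) (hH : ∀ i, 0 < H i) (hD : ∀ i, 0 ≤ D i) (hG : 0 < G) (hGm : G ^ (m + 1) = ∏ i, H i ^ 2)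
    (hy : 0 < y) (hμ : 0 < μ) (hU : ∀ i, y * H i ^ (e + 2) ≤ κ * D i) (hF : μ * ∑ i, D i / H i ^ e ≤ y * G) :
    μ ≤ κ ∧ (∀ i j, H i ^ 2 ≤ (κ / μ) ^ (m + 1) * H j ^ 2) ∧ ∀ i, D i ≤ (κ / μ) ^ m / μ * (y * H i ^ (e + 2)) := by
  have hpos : ∀ i, 0 < κ * D i := fun i => lt_of_lt_of_le (by have := hH i; positivity) (hU i)
  have hDpos : ∀ i, 0 < D i := by
    intro i
    rcases (hD i).lt_or_eq with h | h
    · exact h
    · have := hpos i
      rw [← h, mul_zero] at this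
      exact absurd this (lt_irrefl 0)
  have hκ : 0 < κ := by
    have := hpos 0
    exact (pos_iff_pos_of_mul_pos this).2 (hDpos 0)
  have hterm : ∀ i, μ * (D i / H i ^ e) ≤ y * G := by
    intro i
    refine le_trans (mul_le_mul_of_nonneg_left ?_ hμ.le) hF
    exact Finset.single_le_sum (f := fun i => D i / H i ^ e)
      (fun j _ => div_nonneg (hD j) (pow_pos (hH j) e).le) (Finset.mem_univ i)
  -- (*) `μ H_i² ≤ κ G`
  have hstar : ∀ i, μ * H i ^ 2 ≤ κ * G := by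
    intro i
    have hHe : 0 < H i ^ e := pow_pos (hH i) e
    have h1 : y * H i ^ 2 ≤ κ * (D i / H i ^ e) := by
      rw [mul_div_assoc', le_div_iff₀ hHe]
      calc y * H i ^ 2 * H i ^ e = y * H i ^ (e + 2) := by ring
        _ ≤ _ := hU i
    have h2 : μ * (y * H i ^ 2) ≤ κ * (y * G) := by
      calc μ * (y * H i ^ 2) ≤ μ * (κ * (D i / H i ^ e)) := mul_le_mul_of_nonneg_left h1 hμ.le
        _ = κ * (μ * (D i / H i ^ e)) := by ring
        _ ≤ κ * (y * G) := mul_le_mul_of_nonneg_left (hterm i) hκ.le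
    have h3 : y * (μ * H i ^ 2) ≤ y * (κ * G) := by linarith
    exact le_of_mul_le_mul_left h3 hy
  have hρ : 0 < κ / μ := div_pos hκ hμ
  have hstar' : ∀ i, H i ^ 2 ≤ κ / μ * G := by
    intro i
    rw [div_mul_eq_mul_div, le_div_iff₀ hμ]
    linarith [hstar i]
  have hP0 : 0 < ∏ i, H i ^ 2 := Finset.prod_pos fun i _ => by have := hH i; positivity
  have hμκ : μ ≤ κ := by
    have h1 : ∏ i : Fin (m + 1), μ * H i ^ 2 ≤ ∏ _i : Fin (m + 1), κ * G :=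
      Finset.prod_le_prod (fun i _ => by have := hH i; positivity) fun i _ => hstar i
    rw [Finset.prod_mul_distrib, Finset.prod_const, Finset.prod_const, Finset.card_univ, Fintype.card_fin,
      mul_pow, hGm] at h1
    have h2 : μ ^ (m + 1) ≤ κ ^ (m + 1) := le_of_mul_le_mul_right h1 hP0
    exact (pow_le_pow_iff_left₀ hμ.le hκ.le (Nat.succ_ne_zero m)).1 h2
  -- (**) `G ≤ (κ/μ)^m H_i²`
  have hss : ∀ i, G ≤ (κ / μ) ^ m * H i ^ 2 := by
    intro i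
    have h1 : ∏ j, H j ^ 2 = H i ^ 2 * ∏ j ∈ Finset.univ.erase i, H j ^ 2 :=
      (Finset.mul_prod_erase Finset.univ (fun j => H j ^ 2) (Finset.mem_univ i)).symm
    have h2 : ∏ j ∈ Finset.univ.erase i, H j ^ 2 ≤ ∏ _j ∈ Finset.univ.erase i, κ / μ * G :=
      Finset.prod_le_prod (fun j _ => by positivity) fun j _ => hstar' j
    rw [Finset.prod_const, Finset.card_erase_of_mem (Finset.mem_univ i), Finset.card_univ, Fintype.card_fin,
      Nat.add_sub_cancel] at h2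
    have h3 : G ^ m * G ≤ G ^ m * ((κ / μ) ^ m * H i ^ 2) := by
      calc G ^ m * G = G ^ (m + 1) := (pow_succ G m).symm
        _ = H i ^ 2 * ∏ j ∈ Finset.univ.erase i, H j ^ 2 := by rw [hGm, h1]
        _ ≤ H i ^ 2 * (κ / μ * G) ^ m := mul_le_mul_of_nonneg_left h2 (by positivity)
        _ = _ := by rw [mul_pow]; ring
    exact le_of_mul_le_mul_left h3 (pow_pos hG m)
  refine ⟨hμκ, fun i j => ?_, fun i => ?_⟩
  · calc H i ^ 2 ≤ κ / μ * G := hstar' i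
      _ ≤ κ / μ * ((κ / μ) ^ m * H j ^ 2) := mul_le_mul_of_nonneg_left (hss j) hρ.le
      _ = _ := by ring
  · have hHe : 0 < H i ^ e := pow_pos (hH i) e
    have h1 := hterm i
    rw [mul_div_assoc', div_le_iff₀ hHe] at h1
    have h2 : μ * D i ≤ y * ((κ / μ) ^ m * H i ^ 2) * H i ^ e :=
      h1.trans (mul_le_mul_of_nonneg_right (mul_le_mul_of_nonneg_left (hss i) hy.le) hHe.le)
    rw [div_mul_eq_mul_div, le_div_iff₀ hμ]
    calc D i * μ = μ * D i := mul_comm _ _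
      _ ≤ y * ((κ / μ) ^ m * H i ^ 2) * H i ^ e := h2
      _ = _ := by ring

theorem fa_double {α β : Type} (s : Finset α) (t : Finset β) (R : α → β → Prop) :
    ∑ a ∈ s, ((t.filter fun b => R a b).card : ℝ) = ∑ b ∈ t, ((s.filter fun a => R a b).card : ℝ) := by
  simp only [Finset.card_filter, Nat.cast_sum]
  rw [Finset.sum_comm]

/-- **LEAF L-F1-A7: few heavy masks** (H l.249-253).   PLAN: double counting of `{(S,y) : d S y ≤ r}` (`Finset.sum_card_bipartiteAbove_eq_sum_card_bipartiteBelow` or `Finset.sum_comm` on indicator sums). -/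
theorem fa_heavy {𝓜 𝓨 : Type} (U : Finset 𝓜) (Y : Finset 𝓨) (d : 𝓜 → 𝓨 → ℝ) (r Ω Nr : ℝ) (hΩ : 0 ≤ Ω)
    (hcount : ∀ y ∈ Y, ((U.filter fun S => d S y ≤ r).card : ℝ) ≤ Nr) :
    ((U.filter fun S => Ω < ((Y.filter fun y => d S y ≤ r).card : ℝ)).card : ℝ) * Ω ≤ Y.card * Nr := by
  calc ((U.filter fun S => Ω < ((Y.filter fun y => d S y ≤ r).card : ℝ)).card : ℝ) * Ω
      = ∑ _S ∈ U.filter (fun S => Ω < ((Y.filter fun y => d S y ≤ r).card : ℝ)), Ω := by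
        rw [Finset.sum_const, nsmul_eq_mul]
    _ ≤ ∑ S ∈ U.filter (fun S => Ω < ((Y.filter fun y => d S y ≤ r).card : ℝ)), ((Y.filter fun y => d S y ≤ r).card : ℝ) :=
        Finset.sum_le_sum fun S hS => (Finset.mem_filter.1 hS).2.le
    _ ≤ ∑ S ∈ U, ((Y.filter fun y => d S y ≤ r).card : ℝ) :=
        Finset.sum_le_sum_of_subset_of_nonneg (Finset.filter_subset _ _) fun S _ _ => Nat.cast_nonneg _
    _ = ∑ y ∈ Y, ((U.filter fun S => d S y ≤ r).card : ℝ) := fa_double U Y fun S y => d S y ≤ r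
    _ ≤ ∑ _y ∈ Y, Nr := Finset.sum_le_sum hcount
    _ = Y.card * Nr := by rw [Finset.sum_const, nsmul_eq_mul]

theorem fa_wt_le_one {d M : ℝ} (hd : 0 ≤ d) (hM : 0 ≤ M) : (1 + d) ^ (-M) ≤ 1 :=
  Real.rpow_le_one_of_one_le_of_nonpos (by linarith) (by linarith)

theorem fa_split {𝓜 : Type} (L : Finset 𝓜) (d : 𝓜 → ℝ) (r : ℝ) (f : 𝓜 → ℝ) :
    ∑ S ∈ L, f S = ∑ S ∈ L.filter (fun S => d S ≤ r), f S + ∑ S ∈ L.filter (fun S => r < d S), f S := by
  rw [← Finset.sum_filter_add_sum_filter_not L (fun S => d S ≤ r)]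
  congr 2
  ext S
  simp only [Finset.mem_filter, not_le]

/-- **LEAF L-F1-A8: a high point has many near masks** (H l.255-258).   PLAN: split `L` into `d ≤ r` (each term `≤ s`, as `(1+d)^(-M) ≤ 1`) and `r < d` (`htail`). -/
theorem fa_near {𝓜 : Type} (L : Finset 𝓜) (φ : 𝓜 → ℂ) (d : 𝓜 → ℝ) (s M r τ θ : ℝ) (hs : 0 ≤ s) (hM : 0 ≤ M) (hd : ∀ S ∈ L, 0 ≤ d S)
    (hφ : ∀ S ∈ L, ‖φ S‖ ≤ s * (1 + d S) ^ (-M)) (htail : ∑ S ∈ L.filter (fun S => r < d S), (1 + d S) ^ (-M) ≤ τ) (hθ : θ ≤ ‖∑ S ∈ L, φ S‖) :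
    θ ≤ s * (((L.filter fun S => d S ≤ r).card : ℝ) + τ) := by
  calc θ ≤ ‖∑ S ∈ L, φ S‖ := hθ
    _ ≤ ∑ S ∈ L, ‖φ S‖ := norm_sum_le _ _
    _ ≤ ∑ S ∈ L, s * (1 + d S) ^ (-M) := Finset.sum_le_sum hφ
    _ = s * ∑ S ∈ L, (1 + d S) ^ (-M) := by rw [Finset.mul_sum]
    _ ≤ _ := by
        refine mul_le_mul_of_nonneg_left ?_ hs
        rw [fa_split L d r]
        refine add_le_add ?_ htail
        calc ∑ S ∈ L.filter (fun S => d S ≤ r), (1 + d S) ^ (-M) ≤ ∑ _S ∈ L.filter (fun S => d S ≤ r), (1 : ℝ) :=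
              Finset.sum_le_sum fun S hS => fa_wt_le_one (hd S (Finset.mem_filter.1 hS).1) hM
          _ = _ := by rw [Finset.sum_const, nsmul_eq_mul, mul_one]

/-- **LEAF L-F1-A9: the ball count** (H l.258-265).   PLAN: double counting of `{(S,y) : S ∈ L, y ∈ Yb, d S y ≤ r}`: `≥ #Yb n₀`; `≤ ∑_{S meeting Yb} occ(S) ≤ Ω Nb`. -/
theorem fa_ball {𝓜 𝓨 : Type} (L : Finset 𝓜) (Yb : Finset 𝓨) (d : 𝓜 → 𝓨 → ℝ) (r Ω n₀ Nb : ℝ) (hΩ : 0 ≤ Ω)
    (hocc : ∀ S ∈ L, ((Yb.filter fun y => d S y ≤ r).card : ℝ) ≤ Ω) (hnear : ∀ y ∈ Yb, n₀ ≤ ((L.filter fun S => d S y ≤ r).card : ℝ))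
    (hNb : ((L.filter fun S => ∃ y ∈ Yb, d S y ≤ r).card : ℝ) ≤ Nb) : (Yb.card : ℝ) * n₀ ≤ Ω * Nb := by
  calc (Yb.card : ℝ) * n₀ = ∑ _y ∈ Yb, n₀ := by rw [Finset.sum_const, nsmul_eq_mul]
    _ ≤ ∑ y ∈ Yb, ((L.filter fun S => d S y ≤ r).card : ℝ) := Finset.sum_le_sum hnear
    _ = ∑ S ∈ L, ((Yb.filter fun y => d S y ≤ r).card : ℝ) := (fa_double L Yb fun S y => d S y ≤ r).symm
    _ = ∑ S ∈ L.filter (fun S => ∃ y ∈ Yb, d S y ≤ r), ((Yb.filter fun y => d S y ≤ r).card : ℝ) := by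
        refine (Finset.sum_subset (Finset.filter_subset _ _) fun S hS hS' => ?_).symm
        have : Yb.filter (fun y => d S y ≤ r) = ∅ := by
          rw [Finset.filter_eq_empty_iff]
          intro y hy hd
          exact hS' (Finset.mem_filter.2 ⟨hS, y, hy, hd⟩)
        rw [this]
        simp
    _ ≤ ∑ _S ∈ L.filter (fun S => ∃ y ∈ Yb, d S y ≤ r), Ω :=
        Finset.sum_le_sum fun S hS => hocc S (Finset.mem_filter.1 hS).1
    _ = ((L.filter fun S => ∃ y ∈ Yb, d S y ≤ r).card : ℝ) * Ω := by rw [Finset.sum_const, nsmul_eq_mul]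
    _ ≤ Nb * Ω := mul_le_mul_of_nonneg_right hNb hΩ
    _ = Ω * Nb := mul_comm _ _

/-- **LEAF L-F1-A10: the removed masks (`e_b²(z_S) > M_c`) are negligible at a witness with bounded clipped sum** (H l.540-549).
`bn S` = bin of the mask, `ez b` = `e_b²(z)` at the witness, `ec S` = `e_b²(z_S)` at the centre of the mask, `hcmp` = polynomial weight comparison, `hlat` = the masks of one bin, `htail` = the far masks.
PLAN.  Near removed masks (`d ≤ r`): `Mc < ec S ≤ Cp (1+r)^P ez (bn S)`, so `min (ez b) Mc ≥ Mc/(Cp (1+r)^P)` (`Cp (1+r)^P ≥ 1`) for `b = bn S`; the number of such bins is `≤ ϖ Cp (1+r)^P/Mc`; sum over the masks of one bin `≤ Cl`. -/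
theorem fa_removed {𝓜 𝓑 : Type} [Fintype 𝓑] (L : Finset 𝓜) (bn : 𝓜 → 𝓑) (φ : 𝓜 → ℂ) (d ec : 𝓜 → ℝ) (ez : 𝓑 → ℝ) (s M P r τ Mc ϖ Cp Cl : ℝ)
    (hs : 0 ≤ s) (hP : 0 ≤ P) (hr : 0 ≤ r) (hMc : 0 < Mc) (hCp : 1 ≤ Cp) (hCl : 0 ≤ Cl) (hd : ∀ S ∈ L, 0 ≤ d S) (hez : ∀ b, 0 ≤ ez b)
    (hφ : ∀ S ∈ L, ‖φ S‖ ≤ s * (1 + d S) ^ (-M)) (hcmp : ∀ S ∈ L, ec S ≤ Cp * (1 + d S) ^ P * ez (bn S))
    (hlat : ∀ b, ∑ S ∈ L.filter (fun S => bn S = b), (1 + d S) ^ (-M) ≤ Cl) (htail : ∑ S ∈ L.filter (fun S => r < d S), (1 + d S) ^ (-M) ≤ τ)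
    (hclip : ∑ b, min (ez b) Mc ≤ ϖ) :
    ‖∑ S ∈ L.filter (fun S => Mc < ec S), φ S‖ ≤ s * (ϖ * Cp * (1 + r) ^ P / Mc * Cl + τ) := by
  set f : 𝓜 → ℝ := fun S => (1 + d S) ^ (-M) with hf
  have hf0 : ∀ S ∈ L, 0 ≤ f S := fun S hS => Real.rpow_nonneg (by linarith [hd S hS]) _
  set R : Finset 𝓜 := L.filter (fun S => Mc < ec S) with hR
  have hRL : R ⊆ L := Finset.filter_subset _ _
  set K : ℝ := Cp * (1 + r) ^ P with hK
  have hrP : 1 ≤ (1 + r) ^ P := Real.one_le_rpow (by linarith) hP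
  have hK1 : 1 ≤ K := by nlinarith
  have hK0 : 0 < K := by linarith
  set B' : Finset 𝓑 := Finset.univ.filter (fun b => Mc / K ≤ min (ez b) Mc) with hB'
  have hmin0 : ∀ b, 0 ≤ min (ez b) Mc := fun b => le_min (hez b) hMc.le
  have hcardB : (B'.card : ℝ) ≤ ϖ * Cp * (1 + r) ^ P / Mc := by
    have h1 : (B'.card : ℝ) * (Mc / K) ≤ ϖ := by
      calc (B'.card : ℝ) * (Mc / K) = ∑ _b ∈ B', Mc / K := by rw [Finset.sum_const, nsmul_eq_mul]
        _ ≤ ∑ b ∈ B', min (ez b) Mc := Finset.sum_le_sum fun b hb => (Finset.mem_filter.1 hb).2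
        _ ≤ ∑ b, min (ez b) Mc :=
            Finset.sum_le_sum_of_subset_of_nonneg (Finset.subset_univ _) fun b _ _ => hmin0 b
        _ ≤ ϖ := hclip
    rw [le_div_iff₀ hMc, mul_assoc ϖ, ← hK]
    have h2 := mul_le_mul_of_nonneg_right h1 hK0.le
    have e : (B'.card : ℝ) * (Mc / K) * K = (B'.card : ℝ) * Mc := by field_simp
    rw [e] at h2
    exact h2
  have hnear : ∑ S ∈ R.filter (fun S => d S ≤ r), f S ≤ (B'.card : ℝ) * Cl := by
    have hmaps : ∀ S ∈ R.filter (fun S => d S ≤ r), bn S ∈ B' := by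
      intro S hS
      obtain ⟨hSR, hSd⟩ := Finset.mem_filter.1 hS
      obtain ⟨hSL, hSe⟩ := Finset.mem_filter.1 hSR
      refine Finset.mem_filter.2 ⟨Finset.mem_univ _, ?_⟩
      have h1 : (1 + d S) ^ P ≤ (1 + r) ^ P :=
        Real.rpow_le_rpow (by linarith [hd S hSL]) (by linarith) hP
      have h2 : ec S ≤ K * ez (bn S) := by
        refine (hcmp S hSL).trans (mul_le_mul_of_nonneg_right ?_ (hez _))
        exact mul_le_mul_of_nonneg_left h1 (by linarith)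
      have h3 : Mc / K ≤ ez (bn S) := by
        rw [div_le_iff₀ hK0]
        linarith
      have h4 : Mc / K ≤ Mc := div_le_self hMc.le hK1
      exact le_min h3 h4
    rw [← Finset.sum_fiberwise_of_maps_to hmaps]
    calc ∑ b ∈ B', ∑ S ∈ (R.filter (fun S => d S ≤ r)).filter (fun S => bn S = b), f S
        ≤ ∑ _b ∈ B', Cl := by
          refine Finset.sum_le_sum fun b _ => le_trans ?_ (hlat b)
          refine Finset.sum_le_sum_of_subset_of_nonneg ?_ fun S hS _ => hf0 S (Finset.mem_filter.1 hS).1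
          exact Finset.filter_subset_filter _ ((Finset.filter_subset _ _).trans hRL)
      _ = (B'.card : ℝ) * Cl := by rw [Finset.sum_const, nsmul_eq_mul]
  have hfar : ∑ S ∈ R.filter (fun S => r < d S), f S ≤ τ := by
    refine le_trans ?_ htail
    exact Finset.sum_le_sum_of_subset_of_nonneg (Finset.filter_subset_filter _ hRL)
      fun S hS _ => hf0 S (Finset.mem_filter.1 hS).1
  calc ‖∑ S ∈ R, φ S‖ ≤ ∑ S ∈ R, ‖φ S‖ := norm_sum_le _ _
    _ ≤ ∑ S ∈ R, s * f S := Finset.sum_le_sum fun S hS => hφ S (hRL hS)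
    _ = s * ∑ S ∈ R, f S := by rw [Finset.mul_sum]
    _ ≤ _ := by
        refine mul_le_mul_of_nonneg_left ?_ hs
        rw [fa_split R d r f]
        exact add_le_add (hnear.trans (mul_le_mul_of_nonneg_right hcardB hCl)) hfar

/-- **LEAF L-F1-A11: sampling only the retained mask centres** (H l.551-558).   PLAN: per bin `b`: `∑_{S ∈ b} w S ec S ≤ Cv ez b` (`hconv`) and `≤ Mc ∑ w S ≤ Cl Mc` (`hret`, `hlat`); so `≤ max Cv Cl · min (ez b) Mc`; fibre the sum over the bins (`Finset.sum_fiberwise`). -/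
theorem fa_sample {𝓜 𝓑 : Type} [Fintype 𝓑] (L : Finset 𝓜) (bn : 𝓜 → 𝓑) (w ec : 𝓜 → ℝ) (ez : 𝓑 → ℝ) (Mc Cv Cl : ℝ) (hMc : 0 < Mc) (hCv : 0 ≤ Cv) (hCl : 0 ≤ Cl)
    (hw : ∀ S ∈ L, 0 ≤ w S) (hec : ∀ S ∈ L, 0 ≤ ec S) (hez : ∀ b, 0 ≤ ez b) (hret : ∀ S ∈ L, ec S ≤ Mc)
    (hconv : ∀ b, ∑ S ∈ L.filter (fun S => bn S = b), w S * ec S ≤ Cv * ez b) (hlat : ∀ b, ∑ S ∈ L.filter (fun S => bn S = b), w S ≤ Cl) :
    ∑ S ∈ L, w S * ec S ≤ max Cv Cl * ∑ b, min (ez b) Mc := by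
  rw [← Finset.sum_fiberwise L bn, Finset.mul_sum]
  refine Finset.sum_le_sum fun b _ => ?_
  have h1 := hconv b
  have h2 : ∑ S ∈ L.filter (fun S => bn S = b), w S * ec S ≤ Cl * Mc := by
    calc ∑ S ∈ L.filter (fun S => bn S = b), w S * ec S ≤ ∑ S ∈ L.filter (fun S => bn S = b), w S * Mc :=
          Finset.sum_le_sum fun S hS => by
            have hS' := (Finset.mem_filter.1 hS).1
            exact mul_le_mul_of_nonneg_left (hret S hS') (hw S hS')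
      _ = (∑ S ∈ L.filter (fun S => bn S = b), w S) * Mc := by rw [Finset.sum_mul]
      _ ≤ Cl * Mc := mul_le_mul_of_nonneg_right (hlat b) hMc.le
  rcases le_total (ez b) Mc with h | h
  · rw [min_eq_left h]
    exact h1.trans (mul_le_mul_of_nonneg_right (le_max_left _ _) (hez b))
  · rw [min_eq_right h]
    exact h2.trans (mul_le_mul_of_nonneg_right (le_max_right _ _) hMc.le)

/-- **LEAF L-F1-A12: Markov**.   PLAN: `t · #bad ≤ ∑_{bad} f ≤ ∑_Y f`. -/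
theorem fa_markov {𝓨 : Type} (Y : Finset 𝓨) (f : 𝓨 → ℝ) (B t : ℝ) (hf : ∀ y ∈ Y, 0 ≤ f y) (ht : 0 < t) (hB : ∑ y ∈ Y, f y ≤ B * Y.card) :
    ((Y.filter fun y => t * B < f y).card : ℝ) * t * B ≤ B * Y.card := by
  calc ((Y.filter fun y => t * B < f y).card : ℝ) * t * B = ∑ _y ∈ Y.filter (fun y => t * B < f y), t * B := by
        rw [Finset.sum_const, nsmul_eq_mul, mul_assoc]
    _ ≤ ∑ y ∈ Y.filter (fun y => t * B < f y), f y := Finset.sum_le_sum fun y hy => (Finset.mem_filter.1 hy).2.le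
    _ ≤ ∑ y ∈ Y, f y := Finset.sum_le_sum_of_subset_of_nonneg (Finset.filter_subset _ _) fun y hy _ => hf y hy
    _ ≤ B * Y.card := hB

/-- **LEAF L-F1-A13: one parity class of unit cubes carries a fixed fraction** (witnesses of distinct cubes of one class are `1`-separated).   PLAN: pigeonhole over the `2^{k+1}` classes `q ↦ (fun i => q.1 i % 2, q.2 % 2)`
(`Finset.exists_le_card_fiber_of_mul_le_card_of_maps_to`, target `(Fintype.piFinset fun _ => {0,1}) ×ˢ {0,1}`); two different cubes of one class differ in one coordinate, by an even number. -/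
theorem fa_parity {k : ℕ} (Y : Finset ((Fin k → ℤ) × ℤ)) : ∃ Y' ⊆ Y, (Y.card : ℝ) ≤ 2 ^ (k + 1) * Y'.card ∧
    ∀ q ∈ Y', ∀ q' ∈ Y', q ≠ q' → (∃ i, 2 ≤ |q.1 i - q'.1 i|) ∨ 2 ≤ |q.2 - q'.2| := by
  set c : (Fin k → ℤ) × ℤ → (Fin k → ZMod 2) × ZMod 2 :=
    fun q => (fun i => (q.1 i : ZMod 2), (q.2 : ZMod 2)) with hc
  have hcard : Fintype.card ((Fin k → ZMod 2) × ZMod 2) = 2 ^ (k + 1) := by
    simp [Fintype.card_prod, ZMod.card, pow_succ]
  have hex : ∃ b, (Y.card : ℝ) ≤ 2 ^ (k + 1) * ((Y.filter fun q => c q = b).card : ℝ) := by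
    by_contra hcon
    push Not at hcon
    have h1 : (Y.card : ℝ) = ∑ b, ((Y.filter fun q => c q = b).card : ℝ) := by
      rw [Finset.card_eq_sum_card_fiberwise (f := c) (t := Finset.univ) (fun _ _ => Finset.mem_univ _)]
      push_cast
      rfl
    have h2 : ∑ b : (Fin k → ZMod 2) × ZMod 2, (2 : ℝ) ^ (k + 1) * ((Y.filter fun q => c q = b).card : ℝ)
        < ∑ _b : (Fin k → ZMod 2) × ZMod 2, (Y.card : ℝ) :=
      Finset.sum_lt_sum_of_nonempty Finset.univ_nonempty fun b _ => hcon b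
    rw [← Finset.mul_sum, ← h1, Finset.sum_const, Finset.card_univ, hcard, nsmul_eq_mul] at h2
    push_cast at h2
    exact lt_irrefl _ h2
  obtain ⟨b, hb⟩ := hex
  refine ⟨Y.filter fun q => c q = b, Finset.filter_subset _ _, hb, fun q hq q' hq' hne => ?_⟩
  have e : c q = c q' := by rw [(Finset.mem_filter.1 hq).2, (Finset.mem_filter.1 hq').2]
  have key : ∀ x y : ℤ, ((x : ZMod 2) = (y : ZMod 2)) → x ≠ y → 2 ≤ |x - y| := by
    intro x y hxy hne
    have h1 : (2 : ℤ) ∣ y - x := by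
      have := (ZMod.intCast_eq_intCast_iff_dvd_sub x y 2).1 hxy
      exact_mod_cast this
    have h2 : (2 : ℤ) ∣ |x - y| := by
      rw [dvd_abs]
      exact (dvd_sub_comm).1 h1
    exact Int.le_of_dvd (abs_pos.2 (sub_ne_zero.2 hne)) h2
  by_cases h2 : q.2 = q'.2
  · left
    have h1 : q.1 ≠ q'.1 := fun h => hne (Prod.ext h h2)
    obtain ⟨i, hi⟩ := Function.ne_iff.1 h1
    exact ⟨i, key _ _ (congrFun (congrArg Prod.fst e) i) hi⟩
  · right
    exact key _ _ (congrArg Prod.snd e) h2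

end

end Claimed.Agent.R257.FR1
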