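import Claimed.Agent.R257.FR1.T2
import Claimed.Agent.R257.Tree.Ok

/-!
# ROW 257, package FR1, file 5: ADAPTERS  INST (`R257/Tree/*`)  →  PLAIN TWO-HEIGHT TREES `T2`      (architect helper249)

Every theorem is a LEAF `L-F1-D*`.   Tools: the bridges `t2_good`, `t2_pre`, `t2_amp`, `t2_asm`, `t2_root`, `t2_top`, `t2_en`, `t2_adm` of `FR1/T2.lean` and the theorems of helper155 cited in the plans (they may still be sorried: cite them).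
Restriction of the masks / witnesses = record update; `T2.Good.mono`.     In all proofs with `hℓ htr`: `obtain ⟨ℓ, tr, P, Q, M, C0, ρ, χ, ρχ, Cχ, Cc, Cm⟩ := c; dsimp only at hℓ htr; subst hℓ htr` makes `c.ℓ`, `c.tr` reduce to `1`.
-/

set_option autoImplicit false

namespace Claimed.Agent.R257.FR1

open Claimed.Agent.R257 Claimed.Agent.R257.FR2 Claimed.Agent.R257.Tree
open scoped BigOperators Classical BoundedContinuousFunction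

noncomputable section

variable {k : ℕ}

/-- **LEAF L-F1-D0: `Good` is inherited by fewer masks and fewer witnesses.**   PLAN: all fields are copied except `sq0` (`ker0` is a sum of nonnegative terms over `W1`: `Finset.sum_le_sum_of_subset_of_nonneg`), `ret`, `sep`, `clip` (restriction). -/
theorem T2.Good.mono {t : T2 k} {c : TCls k} (h : t.Good c) {W1 : Finset (t.Λ1 × Lat k)} {Yf : Finset (Lat k)} (hW : W1 ⊆ t.W1) (hY : Yf ⊆ t.Yf) :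
    T2.Good { t with W1 := W1, Yf := Yf } c := by
  refine
    { one_le_κ1 := h.one_le_κ1, κ_le := h.κ_le, par_near := h.par_near, top_bdd := h.top_bdd, mult0 := h.mult0, mult1 := h.mult1, nlab0 := h.nlab0,
      nlab1 := h.nlab1, nch := h.nch, leaf := h.leaf, sep := fun q hq q' hq' => h.sep q (hY hq) q' (hY hq'), ηw_nonneg := h.ηw_nonneg,
      one_le_G1 := h.one_le_G1, G_step := h.G_step, one_le_ϖ := h.one_le_ϖ, Mc_pos := h.Mc_pos, sq0 := ?_, ret := fun S hS => h.ret S (hW hS),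
      clip := fun q hq => h.clip q (hY hq) }
  intro q hq
  refine le_trans ?_ (h.sq0 q (hY hq))
  refine Finset.sum_le_sum fun T _ => mul_le_mul_of_nonneg_left ?_ (sq_nonneg _)
  refine Finset.sum_le_sum_of_subset_of_nonneg hW fun S _ _ => ?_
  split_ifs
  · refine mul_nonneg ?_ ?_
    · unfold T2.w1 pw; positivity
    · unfold T2.w0 pw; positivity
  · exact le_rfl

/-- **LEAF L-F1-D1: the output packets are bounded by their amplitude.**   PLAN: `hc.χ_dec`: `‖χ X‖ ≤ Cχ (1+‖X‖)^(-(M+C0))`, `Real.rpow_add`; `‖pre z‖ (1+‖X‖)^(-C0) ≤ ⨆ …` (`le_ciSup`; bounded above by `‖pre‖` since `w1 ≤ 1`, cf. `TDat.amp_bdd`, `TDat.le_amp`). -/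
theorem t2_pk (t : T2 k) (c : TCls k) (hc : c.Ok) (S : t.Λ1 × Lat k) (z : ST k) : ‖t.loc c S z * t.pre S.1 z‖ ≤ t.amp c S * t.w1 c.M S z := by
  have hC0 : 0 ≤ c.C0 := by
    have h1 := hc.C0_ge
    have h2 := hc.P_lt
    have h3 := hc.P_gt
    have h4 : (0 : ℝ) ≤ k := Nat.cast_nonneg k
    linarith
  have hCχ : 0 ≤ c.Cχ := by linarith [hc.one_le_Cχ]
  obtain ⟨X, hX⟩ : ∃ X : ST k, X = natX t.κ1 (t.fr1 S.1) z - lat S.2 := ⟨_, rfl⟩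
  have hb : BddAbove (Set.range fun z => ‖t.pre S.1 z‖ * t.w1 c.C0 S z) := by
    refine ⟨‖t.pre S.1‖, ?_⟩
    rintro _ ⟨z, rfl⟩
    calc ‖t.pre S.1 z‖ * t.w1 c.C0 S z ≤ ‖t.pre S.1‖ * 1 := by
          refine mul_le_mul ((t.pre S.1).norm_coe_le_norm z) ?_ ?_ (norm_nonneg _)
          · unfold T2.w1 pw
            exact Real.rpow_le_one_of_one_le_of_nonpos (by linarith [norm_nonneg (natX t.κ1 (t.fr1 S.1) z - lat S.2)]) (by linarith)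
          · unfold T2.w1 pw; positivity
      _ = ‖t.pre S.1‖ := mul_one _
  have h1 : ‖t.pre S.1 z‖ * t.w1 c.C0 S z ≤ ⨆ z, ‖t.pre S.1 z‖ * t.w1 c.C0 S z := le_ciSup hb z
  have h2 : ‖t.loc c S z‖ ≤ c.Cχ * (t.w1 c.M S z * t.w1 c.C0 S z) := by
    unfold T2.loc T2.w1 pw
    rw [← hX, ← Real.rpow_add (by positivity)]
    have := hc.χ_dec X
    rwa [neg_add] at this
  have hw : 0 ≤ t.w1 c.M S z := by unfold T2.w1 pw; positivity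
  rw [norm_mul]
  unfold T2.amp
  calc ‖t.loc c S z‖ * ‖t.pre S.1 z‖ ≤ c.Cχ * (t.w1 c.M S z * t.w1 c.C0 S z) * ‖t.pre S.1 z‖ := by gcongr
    _ = c.Cχ * (‖t.pre S.1 z‖ * t.w1 c.C0 S z) * t.w1 c.M S z := by ring
    _ ≤ c.Cχ * (⨆ z, ‖t.pre S.1 z‖ * t.w1 c.C0 S z) * t.w1 c.M S z := by gcongr

theorem t2_amp_nonneg (t : T2 k) (c : TCls k) (hc : c.Ok) (S : t.Λ1 × Lat k) : 0 ≤ t.amp c S := by
  unfold T2.amp
  refine mul_nonneg (by linarith [hc.one_le_Cχ]) (Real.iSup_nonneg fun z => mul_nonneg (norm_nonneg _) ?_)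
  unfold T2.w1 pw
  positivity

/-- the masks of one bin are indexed by their lattice points -/
theorem t2_fib {Λ : Type} (U : Finset (Λ × Lat k)) (b : Λ) (f : Λ × Lat k → ℝ) :
    ∑ S ∈ U.filter (fun S => S.1 = b), f S = ∑ m ∈ (U.filter fun S => S.1 = b).image Prod.snd, f (b, m) := by
  rw [Finset.sum_image]
  · refine Finset.sum_congr rfl fun S hS => ?_
    obtain ⟨_, rfl⟩ := Finset.mem_filter.1 hS
    rfl
  · intro S hS S' hS' he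
    have h1 := (Finset.mem_filter.1 hS).2
    have h2 := (Finset.mem_filter.1 hS').2
    exact Prod.ext (h1.trans h2.symm) he

/-- **LEAF L-F1-D2a: lattice sum over the masks of one bin.**   PLAN: `ti_lat_sum`; the masks of `U` with the label `b` inject into `Lat k` (`Finset.sum_image` / `tg_fib`). -/
theorem t2_sum_bin {A : ℝ} (hA : (k : ℝ) + 1 < A) : ∃ C : ℝ, 1 ≤ C ∧ ∀ (t : T2 k) (U : Finset (t.Λ1 × Lat k)) (b : t.Λ1) (z : ST k),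
    ∑ S ∈ U.filter (fun S => S.1 = b), t.w1 A S z ≤ C := by
  obtain ⟨C, hC1, hC⟩ := ti_lat_sum (k := k) hA
  refine ⟨C, hC1, fun t U b z => ?_⟩
  rw [t2_fib]
  exact hC _ (natX t.κ1 (t.fr1 b) z)

/-- **LEAF L-F1-D2b: bounded counting, weighted form.**   PLAN: fibre over the labels (`Finset.sum_fiberwise`), `t2_sum_bin`, `h.nlab1`. -/
theorem t2_sum {A : ℝ} (hA : (k : ℝ) + 1 < A) : ∃ C : ℝ, 1 ≤ C ∧ ∀ (t : T2 k) (c : TCls k), t.Good c → ∀ (U : Finset (t.Λ1 × Lat k)) (z : ST k),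
    ∑ S ∈ U, t.w1 A S z ≤ C * c.Cm * t.κ1 ^ k := by
  obtain ⟨C, hC1, hC⟩ := t2_sum_bin (k := k) hA
  refine ⟨C, hC1, fun t c h U z => ?_⟩
  rw [← Finset.sum_fiberwise U (fun S => S.1)]
  calc ∑ b : t.Λ1, ∑ S ∈ U.filter (fun S => S.1 = b), t.w1 A S z ≤ ∑ _b : t.Λ1, C := Finset.sum_le_sum fun b _ => hC t U b z
    _ = (Fintype.card t.Λ1 : ℝ) * C := by rw [Finset.sum_const, nsmul_eq_mul, Finset.card_univ]
    _ ≤ c.Cm * t.κ1 ^ k * C := by gcongr; exact h.nlab1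
    _ = C * c.Cm * t.κ1 ^ k := by ring

/-- **LEAF L-F1-D2c: (p:count).**   PLAN: fibre over the labels, `ti_lat_count`, `h.nlab1`. -/
theorem t2_count (t : T2 k) (c : TCls k) (h : t.Good c) (U : Finset (t.Λ1 × Lat k)) (z : ST k) {r : ℝ} (hr : 0 ≤ r) :
    ((U.filter fun S => t.d1 S z ≤ r).card : ℝ) ≤ c.Cm * t.κ1 ^ k * (2 * (1 + r)) ^ (k + 1) := by
  have h1 : ∀ b : t.Λ1, (((U.filter fun S => t.d1 S z ≤ r).filter fun S => S.1 = b).card : ℝ) ≤ (2 * (1 + r)) ^ (k + 1) := by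
    intro b
    have hinj : Set.InjOn Prod.snd (((U.filter fun S => t.d1 S z ≤ r).filter fun S => S.1 = b : Finset (t.Λ1 × Lat k)) : Set (t.Λ1 × Lat k)) := by
      intro S hS S' hS' he
      have h1 := (Finset.mem_filter.1 hS).2
      have h2 := (Finset.mem_filter.1 hS').2
      exact Prod.ext (h1.trans h2.symm) he
    rw [← Finset.card_image_of_injOn hinj]
    refine ti_lat_count (natX t.κ1 (t.fr1 b) z) hr _ ?_
    intro m hm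
    obtain ⟨S, hS, rfl⟩ := Finset.mem_image.1 hm
    obtain ⟨hS1, rfl⟩ := Finset.mem_filter.1 hS
    exact (Finset.mem_filter.1 hS1).2
  have h2 : ((U.filter fun S => t.d1 S z ≤ r).card : ℝ) = ∑ b : t.Λ1, (((U.filter fun S => t.d1 S z ≤ r).filter fun S => S.1 = b).card : ℝ) := by
    rw [Finset.card_eq_sum_card_fiberwise (f := fun S => S.1) (t := Finset.univ) (fun S _ => Finset.mem_univ _)]
    push_cast
    rfl
  rw [h2]
  calc ∑ b : t.Λ1, (((U.filter fun S => t.d1 S z ≤ r).filter fun S => S.1 = b).card : ℝ) ≤ ∑ _b : t.Λ1, (2 * (1 + r)) ^ (k + 1) :=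
        Finset.sum_le_sum fun b _ => h1 b
    _ = (Fintype.card t.Λ1 : ℝ) * (2 * (1 + r)) ^ (k + 1) := by rw [Finset.sum_const, nsmul_eq_mul, Finset.card_univ]
    _ ≤ c.Cm * t.κ1 ^ k * (2 * (1 + r)) ^ (k + 1) := by gcongr; exact h.nlab1

/-- **LEAF L-F1-D2d: the tails.**   PLAN: for `r < d`: `(1+d)^(-A) ≤ (1+r)^(-(A-k-2)) (1+d)^(-(k+2))`; `t2_sum` with the order `k + 2` (`w1 A S z = (1 + d1 S z)^(-A)` by `rfl`). -/
theorem t2_tail (k : ℕ) : ∃ C : ℝ, 1 ≤ C ∧ ∀ (t : T2 k) (c : TCls k), t.Good c → ∀ (U : Finset (t.Λ1 × Lat k)) (z : ST k) (A r : ℝ), (k : ℝ) + 2 ≤ A → 0 ≤ r →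
    ∑ S ∈ U.filter (fun S => r < t.d1 S z), (1 + t.d1 S z) ^ (-A) ≤ C * c.Cm * t.κ1 ^ k * (1 + r) ^ (-(A - k - 2)) := by
  obtain ⟨C, hC1, hC⟩ := t2_sum (k := k) (A := (k : ℝ) + 2) (by linarith)
  refine ⟨C, hC1, fun t c h U z A r hA hr => ?_⟩
  have hg : 0 ≤ (1 + r) ^ (-(A - (k + 2))) := by positivity
  calc ∑ S ∈ U.filter (fun S => r < t.d1 S z), (1 + t.d1 S z) ^ (-A)
      ≤ ∑ S ∈ U.filter (fun S => r < t.d1 S z), (1 + r) ^ (-(A - (k + 2))) * t.w1 ((k : ℝ) + 2) S z := by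
        refine Finset.sum_le_sum fun S hS => ?_
        exact tg_gain hA hr (Finset.mem_filter.1 hS).2.le
    _ = (1 + r) ^ (-(A - (k + 2))) * ∑ S ∈ U.filter (fun S => r < t.d1 S z), t.w1 ((k : ℝ) + 2) S z := by rw [Finset.mul_sum]
    _ ≤ (1 + r) ^ (-(A - (k + 2))) * (C * c.Cm * t.κ1 ^ k) := mul_le_mul_of_nonneg_left (hC t c h _ z) hg
    _ = C * c.Cm * t.κ1 ^ k * (1 + r) ^ (-(A - k - 2)) := by
        rw [mul_comm]; congr 2; ring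

/-- **LEAF L-F1-D3: (f:original-energy).**   PLAN: `ti_l2 hc h2` for `D = t.dat c` (`t2_good`), `i = 0`, `g = t.lf c`, `a = s0` (`t2_adm`); `t2_amp`; sums over the subtypes `Cl 0`, `Cl 1` = sums over `W0`, `W1`; `κ 0 = κ0`, `κ 1 = κ1`. -/
theorem t2_l2 (c : TCls k) (hc : c.Ok) (hℓ : c.ℓ = 1) (htr : c.tr = 1) (h2 : L2At k c.M) : ∃ C : ℝ, 1 ≤ C ∧ ∀ t : T2 k, t.Good c →
    t.κ1 ^ (k + 2) * ∑ S ∈ t.W1, t.amp c S ^ 2 ≤ C * t.en := by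
  obtain ⟨C, hC, h⟩ := ti_l2 hc h2
  refine ⟨C, hC, fun t ht => ?_⟩
  have h1 := h (t.dat c) (t2_good t c hc hℓ htr ht) 0 (by omega) (t.lf c) (fun T => t.s0 T.1) (t2_adm t c ht)
  have e1 : ∑ T : (t.dat c).Cl (0 + 1), (t.dat c).κ (0 + 1) ^ (k + 2) * (t.dat c).amp 0 (t.lf c) T ^ 2 = ∑ S ∈ t.W1, t.κ1 ^ (k + 2) * t.amp c S ^ 2 := by
    rw [← Finset.sum_coe_sort t.W1 (fun S => t.κ1 ^ (k + 2) * t.amp c S ^ 2)]
    refine Finset.sum_congr rfl fun S _ => ?_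
    rw [t2_amp]
    rfl
  have e2 : ∑ T' : (t.dat c).Cl 0, (t.dat c).κ 0 ^ (k + 2) * t.s0 T'.1 ^ 2 = ∑ T ∈ t.W0, t.κ0 ^ (k + 2) * t.s0 T ^ 2 :=
    Finset.sum_coe_sort t.W0 (fun T => t.κ0 ^ (k + 2) * t.s0 T ^ 2)
  rw [e1, e2, ← Finset.mul_sum, ← Finset.mul_sum] at h1
  exact h1

theorem t2_sum_label {Λ : Type} (U : Finset (Λ × Lat k)) (b : Λ) (F : Λ × Lat k → ℝ) :
    ∑ S ∈ U, (if S.1 = b then F S else 0) = ∑ m ∈ (U.filter fun S => S.1 = b).image Prod.snd, F (b, m) := by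
  rw [← Finset.sum_filter, Finset.sum_image]
  · refine Finset.sum_congr rfl fun S hS => ?_
    rw [Finset.mem_filter] at hS
    congr 1
    exact Prod.ext hS.2 rfl
  · intro S hS S' hS' e
    rw [Finset.mem_coe, Finset.mem_filter] at hS hS'
    exact Prod.ext (hS.2.trans hS'.2.symm) e

/-- **LEAF L-F1-D4: local Cauchy + convolution** (H l.170-175), any order `k + 2 < A ≤ Q`.   PLAN: `ti_cauchy` (`amp² ≤ C (κ0/κ1)^k ∑ s0² edge Q`), `edge Q ≤ edge A` (`TDat.edge_anti`), exchange the sums, `ti_conv` (`∑_{S in the bin} w1 A S z · w0 A T (ctr1 S) ≤ C w0 A T z`, `h.par_near`). -/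
theorem t2_cauchy (c : TCls k) (hc : c.Ok) (hℓ : c.ℓ = 1) (htr : c.tr = 1) {A : ℝ} (hA : (k : ℝ) + 2 < A) (hAQ : A ≤ c.Q) : ∃ C : ℝ, 1 ≤ C ∧ ∀ t : T2 k, t.Good c → ∀ z : ST k,
    ∑ S ∈ t.W1, t.amp c S ^ 2 * t.w1 A S z ≤ C * (t.κ0 / t.κ1) ^ k * ∑ T ∈ t.W0, t.s0 T ^ 2 * t.w0 A T z := by
  obtain ⟨C₁, hC₁, hcau⟩ := ti_cauchy hc
  obtain ⟨C₂, hC₂, hconv⟩ := ti_conv (k := k) hA (by linarith [hc.one_le_Cc] : 0 ≤ c.Cc)
  refine ⟨C₁ * C₂, one_le_mul_of_one_le_of_one_le hC₁ hC₂, fun t ht z => ?_⟩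
  have hκ1 : 0 < t.κ1 := lt_of_lt_of_le one_pos ht.one_le_κ1
  have hκ0 : 0 < t.κ0 := lt_of_lt_of_le hκ1 ht.κ_le
  have hr : 0 ≤ (t.κ0 / t.κ1) ^ k := by positivity
  have hw1 : ∀ S, 0 ≤ t.w1 A S z := fun S => (Real.rpow_pos_of_pos (by positivity) _).le
  have hw0 : ∀ T z', 0 ≤ t.w0 A T z' := fun T z' => (Real.rpow_pos_of_pos (by positivity) _).le
  have h1 : ∀ S ∈ t.W1, t.amp c S ^ 2 ≤ C₁ * (t.κ0 / t.κ1) ^ k * ∑ T ∈ t.W0, (if t.par T.1 = S.1 then t.s0 T ^ 2 * t.w0 A T (t.ctr1 S) else 0) := by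
    intro S hS
    have h2 := hcau (t.dat c) (t2_good t c hc hℓ htr ht) 0 (t.lf c) (fun T => t.s0 T.1) (t2_adm t c ht) ⟨S, hS⟩
    rw [t2_amp] at h2
    refine h2.trans ?_
    have e : ∑ T' : (t.dat c).Cl 0, t.s0 T'.1 ^ 2 * (t.dat c).edge c.Q 0 T'.1 S = ∑ T ∈ t.W0, t.s0 T ^ 2 * (t.dat c).edge c.Q 0 T S :=
      Finset.sum_coe_sort t.W0 (fun T => t.s0 T ^ 2 * (t.dat c).edge c.Q 0 T S)
    have e' : (∑ T' : (t.dat c).Cl 0, (fun T : (t.dat c).Cl 0 => t.s0 T.1) T' ^ 2 * (t.dat c).edge c.Q 0 T'.1 (⟨S, hS⟩ : (t.dat c).Cl (0 + 1)).1)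
        = ∑ T ∈ t.W0, t.s0 T ^ 2 * (t.dat c).edge c.Q 0 T S := e
    rw [e']
    refine mul_le_mul_of_nonneg_left (Finset.sum_le_sum fun T _ => ?_) (mul_nonneg (by linarith) hr)
    have h3 := (t.dat c).edge_anti hAQ 0 T S
    have e3 : (t.dat c).edge A 0 T S = if t.par T.1 = S.1 then t.w0 A T (t.ctr1 S) else 0 := rfl
    rw [e3] at h3
    calc t.s0 T ^ 2 * (t.dat c).edge c.Q 0 T S ≤ t.s0 T ^ 2 * (if t.par T.1 = S.1 then t.w0 A T (t.ctr1 S) else 0) :=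
          mul_le_mul_of_nonneg_left h3 (sq_nonneg _)
      _ = _ := by split_ifs <;> simp
  calc ∑ S ∈ t.W1, t.amp c S ^ 2 * t.w1 A S z
      ≤ ∑ S ∈ t.W1, (C₁ * (t.κ0 / t.κ1) ^ k * ∑ T ∈ t.W0, (if t.par T.1 = S.1 then t.s0 T ^ 2 * t.w0 A T (t.ctr1 S) else 0)) * t.w1 A S z :=
        Finset.sum_le_sum fun S hS => mul_le_mul_of_nonneg_right (h1 S hS) (hw1 S)
    _ = C₁ * (t.κ0 / t.κ1) ^ k * ∑ T ∈ t.W0, t.s0 T ^ 2 * ∑ S ∈ t.W1, (if S.1 = t.par T.1 then t.w1 A S z * t.w0 A T (t.ctr1 S) else 0) := by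
        simp only [Finset.mul_sum, Finset.sum_mul]
        rw [Finset.sum_comm]
        refine Finset.sum_congr rfl fun T _ => Finset.sum_congr rfl fun S _ => ?_
        by_cases h : S.1 = t.par T.1
        · rw [if_pos h, if_pos h.symm]; ring
        · rw [if_neg h, if_neg (fun e => h e.symm)]; ring
    _ ≤ C₁ * (t.κ0 / t.κ1) ^ k * ∑ T ∈ t.W0, t.s0 T ^ 2 * (C₂ * t.w0 A T z) := by
        refine mul_le_mul_of_nonneg_left (Finset.sum_le_sum fun T _ => mul_le_mul_of_nonneg_left ?_ (sq_nonneg _)) (mul_nonneg (by linarith) hr)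
        rw [t2_sum_label t.W1 (t.par T.1) (fun S => t.w1 A S z * t.w0 A T (t.ctr1 S))]
        exact hconv t.κ1 t.κ0 hκ1 ht.κ_le (t.fr1 (t.par T.1)) (t.fr0 T.1) (ht.par_near T.1) (lat T.2) z _
    _ = _ := by
        simp only [Finset.mul_sum]
        refine Finset.sum_congr rfl fun T _ => ?_
        ring

/-- **LEAF L-F1-D5: near-Cauchy for a subfamily of the masks.**   PLAN: `ti_nc_top hc hN hε` for `D = t.dat c`, `g = asm 0 (lf)`, `a = amp 0 (lf)` (`ti_closure`), `S = U` as a `Finset` of the subtype (`Finset.subtype`/`attach`), `Y'` as a `Finset` of the subtype; `t2_amp`, `t2_asm`. -/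
theorem t2_nc (c : TCls k) (hc : c.Ok) (hℓ : c.ℓ = 1) (htr : c.tr = 1) (hN : NcAt k c.Q c.M) {ε : ℝ} (hε : 0 < ε) : ∃ C : ℝ, 1 ≤ C ∧ ∀ t : T2 k, t.Good c →
    ∀ (U : Finset (t.Λ1 × Lat k)) (Y' : Finset (Lat k)) (σ R : ℝ), U ⊆ t.W1 → Y' ⊆ t.Yf → 0 < σ → 1 ≤ R →
    (∀ q ∈ Y', ∑ S ∈ U, t.amp c S ^ 2 * t.w1 c.Q S (t.pt q) ≤ σ ^ 2 ∧ σ * t.κ1 ^ ((k : ℝ) / 2) / R ≤ ‖t.fldM c U (t.pt q)‖) →
      (Y'.card : ℝ) ≤ C * R ^ (qk k + ε) * (∑ S ∈ U, t.amp c S ^ 2) / σ ^ 2 := by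
  obtain ⟨ℓ, tr, P, Q, M, C0, ρ, χ, ρχ, Cχ, Cc, Cm⟩ := c
  dsimp only at hℓ htr
  subst hℓ htr
  obtain ⟨C, hC, h⟩ := ti_nc_top hc hN hε
  refine ⟨C, hC, ?_⟩
  intro t ht U Y' σ R hU hY hσ hR hyp
  have hD := t2_good t _ hc rfl rfl ht
  have hAdm := ti_closure hc (t.dat _) hD 0 _ _ (t2_adm t _ ht)
  have hs1 : ∀ z : ST k, ∑ T ∈ U.subtype (fun S => S ∈ t.W1), (t.dat ⟨1, 1, P, Q, M, C0, ρ, χ, ρχ, Cχ, Cc, Cm⟩).amp 0 (t.lf _) T ^ 2 * t.w1 Q T.1 z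
      = ∑ S ∈ U, t.amp ⟨1, 1, P, Q, M, C0, ρ, χ, ρχ, Cχ, Cc, Cm⟩ S ^ 2 * t.w1 Q S z := by
    intro z
    rw [← Finset.sum_subtype_of_mem (fun S => t.amp _ S ^ 2 * t.w1 Q S z) (fun S hS => hU hS)]
    exact Finset.sum_congr rfl fun S _ => congrArg (fun x => x ^ 2 * t.w1 Q S.1 z) (t2_amp t _ S)
  have hs2 : ∀ z : ST k, ∑ T ∈ U.subtype (fun S => S ∈ t.W1), (t.dat ⟨1, 1, P, Q, M, C0, ρ, χ, ρχ, Cχ, Cc, Cm⟩).asm 0 (t.lf _) T z
      = t.fldM ⟨1, 1, P, Q, M, C0, ρ, χ, ρχ, Cχ, Cc, Cm⟩ U z := by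
    intro z
    unfold T2.fldM
    rw [← Finset.sum_subtype_of_mem (fun S => t.loc _ S z * t.pre S.1 z) (fun S hS => hU hS)]
    exact Finset.sum_congr rfl fun S _ => t2_asm t _ S z
  have hs3 : ∑ T ∈ U.subtype (fun S => S ∈ t.W1), (t.dat ⟨1, 1, P, Q, M, C0, ρ, χ, ρχ, Cχ, Cc, Cm⟩).amp 0 (t.lf _) T ^ 2
      = ∑ S ∈ U, t.amp ⟨1, 1, P, Q, M, C0, ρ, χ, ρχ, Cχ, Cc, Cm⟩ S ^ 2 := by
    rw [← Finset.sum_subtype_of_mem (fun S => t.amp _ S ^ 2) (fun S hS => hU hS)]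
    exact Finset.sum_congr rfl fun S _ => congrArg (fun x => x ^ 2) (t2_amp t _ S)
  have key := h (t.dat _) hD _ _ hAdm (U.subtype (fun S => S ∈ t.W1)) (Y'.subtype (fun q => q ∈ t.Yf)) σ R hσ hR (by
    intro y hy
    have hy' : y.1 ∈ Y' := Finset.mem_subtype.1 hy
    obtain ⟨h1, h2⟩ := hyp y.1 hy'
    exact ⟨(hs1 (t.pt y.1)).le.trans h1, h2.trans (by rw [← hs2]; exact le_rfl)⟩)
  have e1 : (Y'.subtype (fun q => q ∈ t.Yf)).card = Y'.card := by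
    rw [Finset.card_subtype, Finset.filter_true_of_mem fun q hq => hY hq]
  have key' : ((Y'.subtype (fun q => q ∈ t.Yf)).card : ℝ) ≤ C * R ^ (qk k + ε) *
      (∑ T ∈ U.subtype (fun S => S ∈ t.W1), (t.dat ⟨1, 1, P, Q, M, C0, ρ, χ, ρχ, Cχ, Cc, Cm⟩).amp 0 (t.lf _) T ^ 2) / σ ^ 2 := key
  rw [e1, hs3] at key'
  exact key'

/-- **LEAF L-F1-D6: the weighted count for the UNMASKED leaf field** (`p:weighted` with `b = s`; H l.136-139).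
PLAN: `hW (c.ρ 0) c.Cc' c.Cm ε` at `N = κ0`, `Λ = Λ0`, `s = W0.filter (s0 ≠ 0)`, `a = b = s0`, `Y = Y'.image pt` (`USep` from `h.sep`; `pt` is injective on `Yf`);  labels bounded: `‖fr0 v‖ ≤ 2 Cc` (`par_near`, `top_bdd`, `1 ≤ κ1`).
For `z` a witness: `(∑ s0² pw)^((2-q)/2) ≥ B^((2-q)/2)` (negative exponent; the sum is positive because the field does not vanish);  `a^q b^(2-q) = s0²`. -/
theorem t2_wt (c : TCls k) (hc : c.Ok) (hW : WtAt k (qk k) c.Q c.M) {ε : ℝ} (hε : 0 < ε) : ∃ C : ℝ, 1 ≤ C ∧ ∀ t : T2 k, t.Good c →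
    ∀ (Y' : Finset (Lat k)) (θ B : ℝ), Y' ⊆ t.Yf → 0 < θ → 0 < B → (∀ q ∈ Y', θ ≤ ‖t.full (t.pt q)‖ ∧ ∑ T ∈ t.W0, t.s0 T ^ 2 * t.w0 c.Q T (t.pt q) ≤ B) →
      (Y'.card : ℝ) ≤ C * t.κ0 ^ ε * θ ^ (-qk k) * B ^ (qk k / 2 - 1) * t.en := by
  obtain ⟨C, hC, h⟩ := hW (c.ρ 0) (2 * c.Cc) c.Cm ε hε
  refine ⟨C, hC, ?_⟩
  intro t ht Y' θ B hY hθ hB hyp
  have hq : 2 < qk k := ti_qk_gt hc.k_pos
  have hκ1 : 0 < t.κ1 := lt_of_lt_of_le one_pos ht.one_le_κ1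
  have hκ0 : 1 ≤ t.κ0 := ht.one_le_κ1.trans ht.κ_le
  have hs0 : ∀ T ∈ t.W0, 0 ≤ t.s0 T := fun T hT => ti_pk_nonneg (ht.leaf T hT)
  have hlab : ∀ T ∈ t.W0, ‖t.fr0 T.1‖ ≤ 2 * c.Cc := by
    intro T _
    have h1 := ht.par_near T.1
    have h2 := ht.top_bdd (t.par T.1)
    have h3 : c.Cc / t.κ1 ≤ c.Cc := div_le_self (by linarith [hc.one_le_Cc]) ht.one_le_κ1
    have h4 : ‖t.fr0 T.1‖ ≤ ‖t.fr0 T.1 - t.fr1 (t.par T.1)‖ + ‖t.fr1 (t.par T.1)‖ := by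
      have := norm_add_le (t.fr0 T.1 - t.fr1 (t.par T.1)) (t.fr1 (t.par T.1))
      simpa using this
    linarith
  have hinj : Set.InjOn t.pt (Y' : Set (Lat k)) := by
    intro q hq' q' hq'' e
    by_contra hne
    have := ht.sep q (hY hq') q' (hY hq'') hne
    rw [e, sub_self, norm_zero] at this
    linarith
  have hsep : USep (Y'.image t.pt) := by
    intro z hz z' hz' hne
    obtain ⟨q, hq', rfl⟩ := Finset.mem_image.1 hz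
    obtain ⟨q', hq'', rfl⟩ := Finset.mem_image.1 hz'
    exact ht.sep q (hY hq') q' (hY hq'') (fun e => hne (by rw [e]))
  have key := h t.κ0 hκ0 t.Λ0 t.fr0 ht.mult0 t.W0 t.s0 t.s0 (fun T => t.g0 T) hlab ht.leaf hs0
    (fun T hT hne => lt_of_le_of_ne (hs0 T hT) (Ne.symm hne)) (Y'.image t.pt) hsep
  rw [Finset.sum_image hinj] at key
  have e1 : ∑ T ∈ t.W0, t.s0 T ^ (qk k) * t.s0 T ^ (2 - qk k) = ∑ T ∈ t.W0, t.s0 T ^ 2 := by
    refine Finset.sum_congr rfl fun T hT => ?_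
    rcases (hs0 T hT).eq_or_lt with h0 | h0
    · rw [← h0, Real.zero_rpow (by linarith)]
      simp
    · rw [← Real.rpow_add h0, ← Real.rpow_natCast]
      congr 1
      push_cast
      ring
  rw [e1] at key
  have hterm : ∀ q ∈ Y', B ^ ((2 - qk k) / 2) * θ ^ (qk k)
      ≤ (∑ T ∈ t.W0, t.s0 T ^ 2 * pw c.Q t.κ0 (t.fr0 T.1) (lat T.2) (t.pt q)) ^ ((2 - qk k) / 2) * ‖∑ T ∈ t.W0, t.g0 T (t.pt q)‖ ^ (qk k) := by
    intro q hq'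
    obtain ⟨h1, h2⟩ := hyp q hq'
    have hpos : 0 < ∑ T ∈ t.W0, t.s0 T ^ 2 * pw c.Q t.κ0 (t.fr0 T.1) (lat T.2) (t.pt q) := by
      by_contra hle
      have hnn : ∀ T ∈ t.W0, 0 ≤ t.s0 T ^ 2 * pw c.Q t.κ0 (t.fr0 T.1) (lat T.2) (t.pt q) :=
        fun T _ => mul_nonneg (sq_nonneg _) (Real.rpow_pos_of_pos (by positivity) _).le
      have hz : ∑ T ∈ t.W0, t.s0 T ^ 2 * pw c.Q t.κ0 (t.fr0 T.1) (lat T.2) (t.pt q) = 0 :=
        le_antisymm (not_lt.1 hle) (Finset.sum_nonneg hnn)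
      rw [Finset.sum_eq_zero_iff_of_nonneg hnn] at hz
      have hfull : t.full (t.pt q) = 0 := by
        unfold T2.full
        refine Finset.sum_eq_zero fun T hT => ?_
        have h3 := hz T hT
        have h4 : t.s0 T = 0 := by
          rcases mul_eq_zero.1 h3 with h5 | h5
          · exact pow_eq_zero_iff (two_ne_zero) |>.1 h5
          · exact absurd h5 (Real.rpow_pos_of_pos (by positivity) _).ne'
        have h6 := ti_pk_le (ht.leaf T hT) (t.pt q)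
        rw [h4, zero_mul] at h6
        exact norm_le_zero_iff.1 h6
      rw [hfull, norm_zero] at h1
      linarith
    refine mul_le_mul (Real.rpow_le_rpow_of_nonpos hpos h2 (by linarith)) (Real.rpow_le_rpow hθ.le h1 (by linarith)) (by positivity) (by positivity)
  have h5 : (Y'.card : ℝ) * (B ^ ((2 - qk k) / 2) * θ ^ (qk k)) ≤ C * t.κ0 ^ ε * t.κ0 ^ (k + 2) * ∑ T ∈ t.W0, t.s0 T ^ 2 := by
    refine le_trans ?_ key
    rw [← nsmul_eq_mul, ← Finset.sum_const]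
    exact Finset.sum_le_sum hterm
  have hBθ : 0 < B ^ ((2 - qk k) / 2) * θ ^ (qk k) := by positivity
  have e2 : θ ^ (-qk k) * B ^ (qk k / 2 - 1) * (B ^ ((2 - qk k) / 2) * θ ^ (qk k)) = 1 := by
    have a1 : θ ^ (-qk k) * θ ^ (qk k) = 1 := by rw [← Real.rpow_add hθ]; simp
    have a2 : B ^ (qk k / 2 - 1) * B ^ ((2 - qk k) / 2) = 1 := by
      rw [← Real.rpow_add hB]
      have : qk k / 2 - 1 + (2 - qk k) / 2 = 0 := by ring
      rw [this, Real.rpow_zero]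
    calc θ ^ (-qk k) * B ^ (qk k / 2 - 1) * (B ^ ((2 - qk k) / 2) * θ ^ (qk k))
        = (θ ^ (-qk k) * θ ^ (qk k)) * (B ^ (qk k / 2 - 1) * B ^ ((2 - qk k) / 2)) := by ring
      _ = 1 := by rw [a1, a2, one_mul]
  calc (Y'.card : ℝ) = (Y'.card : ℝ) * (B ^ ((2 - qk k) / 2) * θ ^ (qk k)) * (θ ^ (-qk k) * B ^ (qk k / 2 - 1)) := by
        rw [mul_assoc, mul_comm (B ^ ((2 - qk k) / 2) * θ ^ (qk k)), e2, mul_one]
    _ ≤ (C * t.κ0 ^ ε * t.κ0 ^ (k + 2) * ∑ T ∈ t.W0, t.s0 T ^ 2) * (θ ^ (-qk k) * B ^ (qk k / 2 - 1)) :=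
        mul_le_mul_of_nonneg_right h5 (by positivity)
    _ = _ := by
        unfold T2.en
        ring

/-- **LEAF L-F1-D7: the upper half of the balance through the masks** (H l.560-570: `p:hierarchy` from the leaves to the masks, then `p:near-cauchy` + ratio classes).
PLAN.  `ti_ok_sub hc hW h2 hN hε` gives `O : (t.dat c).sys.Ok (tp C' ε (C' Rm^ε) Rm)`.   `O.hier 0` with `g = lf`, `a = b' = s0`, `b = bb 1` (`O.dom`, `O.eh_le`): `bud q 1 (amp) (bb 1) ≤ L · en` (`s0^q s0^(2-q) = s0²`, also for `s0 = 0`).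
`O.root` with `g = asm 0 lf` (`O.closure`), `a = amp`, `b = bb 1`, `ρ = √(Γ 0)` (`O.cauchy` + `eh ≤ e`: `amp² ≤ Γ 0 · bb 1²`, so `amp ≠ 0 → 0 < bb 1`), `ϖ := ϖ0 = C' t.ϖ` (`O.sq_le 1`), `Y'` as a `Finset` of the subtype, `t2_top`.
Range condition: `Γ 0 · Γr 1 · ϖ0 = C'³ κ0^k t.ϖ ≤ (Rm θ)²` = `hR` after enlarging `C`. -/
theorem t2_upper (c : TCls k) (hc : c.Ok) (hℓ : c.ℓ = 1) (htr : c.tr = 1) (hW : WtAt k (qk k) c.Q c.M) (h2 : L2At k c.M) (hN : NcAt k c.Q c.M) {ε : ℝ} (hε : 0 < ε) :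
    ∃ C : ℝ, 1 ≤ C ∧ ∀ t : T2 k, t.Good c → ∀ (Y' : Finset (Lat k)) (θ Rm : ℝ), Y' ⊆ t.Yf → 0 < θ → 1 ≤ Rm → C * t.κ0 ^ k * t.ϖ ≤ (Rm * θ) ^ 2 →
    (∀ q ∈ Y', θ ≤ ‖t.root c (t.pt q)‖) →
      (Y'.card : ℝ) ≤ C * (t.κ0 / t.κ1) ^ ε * Rm ^ ε * θ ^ (-qk k) * t.ϖ ^ (qk k / 2 - 1) * t.en := by
  obtain ⟨ℓ, tr, P, Q, M, C0, ρ, χ, ρχ, Cχ, Cc, Cm⟩ := c
  dsimp only at hℓ htr
  subst hℓ htr
  have hq : 2 < qk k := ti_qk_gt hc.k_pos
  obtain ⟨C', hC', hok⟩ := ti_ok_sub hc hW h2 hN hε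
  have hC'0 : 0 < C' := by linarith
  have hCq : 1 ≤ C' ^ (qk k / 2 - 1) := Real.one_le_rpow hC' (by linarith)
  have hC3 : 1 ≤ C' ^ 3 := one_le_pow₀ hC'
  refine ⟨C' ^ 3 * C' ^ (qk k / 2 - 1), one_le_mul_of_one_le_of_one_le hC3 hCq, ?_⟩
  intro t ht Y' θ Rm hY hθ hRm hR hhigh
  have hD := t2_good t _ hc rfl rfl ht
  have O := hok C' le_rfl (t.dat _) hD Rm hRm
  have hκ1 : 0 < t.κ1 := lt_of_lt_of_le one_pos ht.one_le_κ1
  have hκ0 : 0 < t.κ0 := lt_of_lt_of_le hκ1 ht.κ_le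
  have hϖ : 0 < t.ϖ := lt_of_lt_of_le one_pos ht.one_le_ϖ
  have hs0 : ∀ T ∈ t.W0, 0 ≤ t.s0 T := fun T hT => ti_pk_nonneg (ht.leaf T hT)
  have hAdm := t2_adm t ⟨1, 1, P, Q, M, C0, ρ, χ, ρχ, Cχ, Cc, Cm⟩ ht
  have hb0 : ∀ T : (t.dat ⟨1, 1, P, Q, M, C0, ρ, χ, ρχ, Cχ, Cc, Cm⟩).Cl 1, 0 ≤ (t.dat _).bb 1 T := fun T => O.b_nonneg 1 T
  -- the sampled leaf squares
  have hdomE : ∀ T : (t.dat ⟨1, 1, P, Q, M, C0, ρ, χ, ρχ, Cχ, Cc, Cm⟩).Cl 1,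
      ∑ T' : (t.dat ⟨1, 1, P, Q, M, C0, ρ, χ, ρχ, Cχ, Cc, Cm⟩).Cl 0, t.s0 T'.1 ^ 2 * (t.dat _).edge Q 0 T'.1 T.1 ≤ (t.dat _).bb 1 T ^ 2 := by
    intro T
    refine le_trans (Finset.sum_le_sum fun T' _ => mul_le_mul_of_nonneg_left (O.eh_le 0 T' T) (sq_nonneg _)) ?_
    exact O.dom 0 Nat.zero_lt_one T
  -- hierarchy
  have H := O.hier 0 Nat.zero_lt_one (t.lf _) (fun T => t.s0 T.1) hAdm (fun T => t.s0 T.1) ((t.dat _).bb 1) (fun T => hs0 T.1 T.2)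
    (fun T hne => lt_of_le_of_ne (hs0 T.1 T.2) (Ne.symm hne)) hb0 hdomE
  have ebud : (t.dat ⟨1, 1, P, Q, M, C0, ρ, χ, ρχ, Cχ, Cc, Cm⟩).sys.bud (qk k) 0 (fun T => t.s0 T.1) (fun T => t.s0 T.1) = t.en := by
    have e0 : (t.dat ⟨1, 1, P, Q, M, C0, ρ, χ, ρχ, Cχ, Cc, Cm⟩).sys.bud (qk k) 0 (fun T => t.s0 T.1) (fun T => t.s0 T.1)
        = ∑ T ∈ t.W0, t.κ0 ^ (k + 2) * t.s0 T ^ (qk k) * t.s0 T ^ (2 - qk k) :=
      Finset.sum_coe_sort t.W0 (fun T => t.κ0 ^ (k + 2) * t.s0 T ^ (qk k) * t.s0 T ^ (2 - qk k))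
    rw [e0, T2.en, Finset.mul_sum]
    refine Finset.sum_congr rfl fun T hT => ?_
    rw [mul_assoc]
    congr 1
    rcases (hs0 T hT).eq_or_lt with h0 | h0
    · rw [← h0, Real.zero_rpow (by linarith)]
      simp
    · rw [← Real.rpow_add h0, ← Real.rpow_natCast]
      congr 1
      push_cast
      ring
  -- Cauchy
  have hΓ0 : 0 ≤ C' * (t.κ0 / t.κ1) ^ k := by positivity
  have hcau : ∀ T : (t.dat ⟨1, 1, P, Q, M, C0, ρ, χ, ρχ, Cχ, Cc, Cm⟩).Cl 1,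
      (t.dat _).amp 0 (t.lf _) T ≤ Real.sqrt (C' * (t.κ0 / t.κ1) ^ k) * (t.dat _).bb 1 T := by
    intro T
    have h1 := O.cauchy 0 Nat.zero_lt_one (t.lf _) (fun T => t.s0 T.1) hAdm T
    have h3 : (t.dat ⟨1, 1, P, Q, M, C0, ρ, χ, ρχ, Cχ, Cc, Cm⟩).amp 0 (t.lf _) T ^ 2 ≤ C' * (t.κ0 / t.κ1) ^ k * (t.dat _).bb 1 T ^ 2 :=
      h1.trans (mul_le_mul_of_nonneg_left (hdomE T) hΓ0)
    have h4 := Real.abs_le_sqrt h3
    rw [Real.sqrt_mul hΓ0, Real.sqrt_sq (hb0 T)] at h4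
    exact (le_abs_self _).trans h4
  have hpos : ∀ T : (t.dat ⟨1, 1, P, Q, M, C0, ρ, χ, ρχ, Cχ, Cc, Cm⟩).Cl 1, (t.dat _).amp 0 (t.lf _) T ≠ 0 → 0 < (t.dat _).bb 1 T := by
    intro T hne
    refine lt_of_le_of_ne (hb0 T) fun h0 => hne ?_
    have h1 := hcau T
    rw [← h0, mul_zero] at h1
    exact le_antisymm h1 (O.amp_nonneg 0 _ T)
  -- the root count
  have Rt := O.root ((t.dat _).asm 0 (t.lf _)) ((t.dat _).amp 0 (t.lf _)) (O.closure 0 Nat.zero_lt_one _ _ hAdm) ((t.dat _).bb 1) hb0 hpos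
    (Y'.subtype (fun q => q ∈ t.Yf)) θ (C' * t.ϖ) (Real.sqrt (C' * (t.κ0 / t.κ1) ^ k)) hθ (by positivity) hcau (by
      show Real.sqrt (C' * (t.κ0 / t.κ1) ^ k) ^ 2 * (C' * t.κ1 ^ k) * (C' * t.ϖ) ≤ (Rm * θ) ^ 2
      rw [Real.sq_sqrt hΓ0]
      refine le_trans ?_ hR
      have e : C' * (t.κ0 / t.κ1) ^ k * (C' * t.κ1 ^ k) * (C' * t.ϖ) = C' ^ 3 * t.κ0 ^ k * t.ϖ := by
        rw [div_pow]
        field_simp
      rw [e]
      refine mul_le_mul_of_nonneg_right (mul_le_mul_of_nonneg_right ?_ (by positivity)) hϖ.le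
      exact le_mul_of_one_le_right (by positivity) hCq) (by
      intro y hy
      have hy' : y.1 ∈ Y' := Finset.mem_subtype.1 hy
      refine ⟨?_, ?_⟩
      · have := hhigh y.1 hy'
        rw [← t2_top t _ rfl rfl] at this
        exact this
      · exact O.sq_le 1 le_rfl y)
  have e1 : (Y'.subtype (fun q => q ∈ t.Yf)).card = Y'.card := by
    rw [Finset.card_subtype, Finset.filter_true_of_mem fun q hq => hY hq]
  have Rt' : ((Y'.subtype (fun q => q ∈ t.Yf)).card : ℝ) ≤ C' * Rm ^ ε * θ ^ (-qk k) * (C' * t.ϖ) ^ (qk k / 2 - 1)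
      * (t.dat ⟨1, 1, P, Q, M, C0, ρ, χ, ρχ, Cχ, Cc, Cm⟩).sys.bud (qk k) 1 ((t.dat _).amp 0 (t.lf _)) ((t.dat _).bb 1) := Rt
  have H' : (t.dat ⟨1, 1, P, Q, M, C0, ρ, χ, ρχ, Cχ, Cc, Cm⟩).sys.bud (qk k) 1 ((t.dat _).amp 0 (t.lf _)) ((t.dat _).bb 1)
      ≤ C' * (t.κ0 / t.κ1) ^ ε * t.en := by
    rw [← ebud]
    exact H
  rw [e1] at Rt'
  have hen : 0 ≤ t.en := by
    unfold T2.en
    exact mul_nonneg (by positivity) (Finset.sum_nonneg fun T _ => sq_nonneg _)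
  have hRε : 0 ≤ Rm ^ ε := Real.rpow_nonneg (by linarith) _
  calc (Y'.card : ℝ) ≤ C' * Rm ^ ε * θ ^ (-qk k) * (C' * t.ϖ) ^ (qk k / 2 - 1) * (C' * (t.κ0 / t.κ1) ^ ε * t.en) :=
        Rt'.trans (mul_le_mul_of_nonneg_left H' (by positivity))
    _ = C' ^ 2 * C' ^ (qk k / 2 - 1) * (t.κ0 / t.κ1) ^ ε * Rm ^ ε * θ ^ (-qk k) * t.ϖ ^ (qk k / 2 - 1) * t.en := by
        rw [Real.mul_rpow hC'0.le hϖ.le]
        ring
    _ ≤ _ := by
        have h23 : C' ^ 2 ≤ C' ^ 3 := pow_le_pow_right₀ hC' (by norm_num)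
        have hr : 0 ≤ (t.κ0 / t.κ1) ^ ε := Real.rpow_nonneg (by positivity) _
        gcongr

/-- **LEAF L-F1-D8: polynomial weight comparison for the bin envelopes** (H l.541-543).   PLAN: termwise `ti_pw_peetre` (`K = κ1`, `K' = κ0`, `v = fr1 b`, `v' = fr0 T.1`, `h.par_near`) between the points `ctr1 S` and `z`; `natX κ1 (fr1 b) (ctr1 S) = lat S.2` (`natX_natI`). -/
theorem t2_eb_cmp (t : T2 k) (c : TCls k) (h : t.Good c) {A : ℝ} (hA : 0 ≤ A) (S : t.Λ1 × Lat k) (z : ST k) :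
    t.eb A S.1 (t.ctr1 S) ≤ (1 + 2 * c.Cc) ^ A * (1 + t.d1 S z) ^ A * t.eb A S.1 z := by
  have hκ1 : 0 < t.κ1 := lt_of_lt_of_le one_pos h.one_le_κ1
  have hCc : 0 ≤ c.Cc := (norm_nonneg _).trans (h.top_bdd S.1)
  unfold T2.eb
  rw [Finset.mul_sum]
  refine Finset.sum_le_sum fun T _ => ?_
  split_ifs with hp
  · have h1 := ti_pw_peetre hκ1 h.κ_le hCc hA (v := t.fr1 S.1) (v' := t.fr0 T.1) (by rw [← hp]; exact h.par_near T.1) (lat T.2) z (t.ctr1 S)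
    have h2 : natX t.κ1 (t.fr1 S.1) (t.ctr1 S) = lat S.2 := natX_natI hκ1.ne' _ _
    rw [h2] at h1
    calc t.s0 T ^ 2 * t.w0 A T (t.ctr1 S) ≤ t.s0 T ^ 2 * ((1 + 2 * c.Cc) ^ A * (1 + t.d1 S z) ^ A * t.w0 A T z) :=
          mul_le_mul_of_nonneg_left h1 (sq_nonneg _)
      _ = _ := by ring
  · rw [mul_zero]

/-- **LEAF L-F1-D9: convolution for the bin envelopes** (H l.553-556).   PLAN: expand `eb`, exchange the sums, `ti_conv` termwise (`h.par_near`). -/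
theorem t2_eb_conv {A : ℝ} (hA : (k : ℝ) + 2 < A) (Cc : ℝ) (hCc : 0 ≤ Cc) : ∃ C : ℝ, 1 ≤ C ∧ ∀ (t : T2 k) (c : TCls k), c.Cc = Cc → t.Good c → ∀ (U : Finset (t.Λ1 × Lat k)) (b : t.Λ1) (z : ST k),
    ∑ S ∈ U.filter (fun S => S.1 = b), t.w1 A S z * t.eb A b (t.ctr1 S) ≤ C * t.eb A b z := by
  obtain ⟨C, hC1, hC⟩ := ti_conv (k := k) hA hCc
  refine ⟨C, hC1, fun t c hcc h U b z => ?_⟩
  have hκ1 : 0 < t.κ1 := lt_of_lt_of_le one_pos h.one_le_κ1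
  unfold T2.eb
  simp only [Finset.mul_sum]
  rw [Finset.sum_comm]
  refine Finset.sum_le_sum fun T _ => ?_
  split_ifs with hp
  · have h1 := hC t.κ1 t.κ0 hκ1 h.κ_le (t.fr1 b) (t.fr0 T.1) (by rw [← hp, ← hcc]; exact h.par_near T.1) (lat T.2) z
      ((U.filter fun S => S.1 = b).image Prod.snd)
    rw [t2_fib U b (fun S => t.w1 A S z * (t.s0 T ^ 2 * t.w0 A T (t.ctr1 S)))]
    calc ∑ m ∈ (U.filter fun S => S.1 = b).image Prod.snd, t.w1 A (b, m) z * (t.s0 T ^ 2 * t.w0 A T (t.ctr1 (b, m)))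
        = t.s0 T ^ 2 * ∑ m ∈ (U.filter fun S => S.1 = b).image Prod.snd, pw A t.κ1 (t.fr1 b) (lat m) z * pw A t.κ0 (t.fr0 T.1) (lat T.2) (natI t.κ1 (t.fr1 b) (lat m)) := by
          rw [Finset.mul_sum]
          refine Finset.sum_congr rfl fun m _ => ?_
          unfold T2.w1 T2.w0 T2.ctr1
          ring
      _ ≤ t.s0 T ^ 2 * (C * pw A t.κ0 (t.fr0 T.1) (lat T.2) z) := mul_le_mul_of_nonneg_left h1 (sq_nonneg _)
      _ = C * (t.s0 T ^ 2 * t.w0 A T z) := by unfold T2.w0; ring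
  · simp

/-- **LEAF L-F1-D10: `sq0` in terms of the bin envelopes.**   PLAN: unfold `ker0`, `eb`; `Finset.sum_comm`; `Finset.mul_sum`; the conditions `S.1 = par T.1` and `par T.1 = S.1` agree (`eq_comm`). -/
theorem t2_sq0_eq (t : T2 k) (A : ℝ) (z : ST k) : ∑ T ∈ t.W0, t.s0 T ^ 2 * t.ker0 A T z = ∑ S ∈ t.W1, t.w1 A S z * t.eb A S.1 (t.ctr1 S) := by
  unfold T2.ker0 T2.eb
  simp only [Finset.mul_sum]
  rw [Finset.sum_comm]
  refine Finset.sum_congr rfl fun S _ => Finset.sum_congr rfl fun T _ => ?_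
  by_cases h : S.1 = t.par T.1
  · rw [if_pos h, if_pos h.symm]; ring
  · rw [if_neg h, if_neg (fun e => h e.symm)]; ring

/-- **LEAF L-F1-D11: the bin envelopes add up to the leaf envelope.**   PLAN: `Finset.sum_comm`, `Finset.sum_ite_eq`. -/
theorem t2_eb_sum (t : T2 k) (A : ℝ) (z : ST k) : ∑ b : t.Λ1, t.eb A b z = ∑ T ∈ t.W0, t.s0 T ^ 2 * t.w0 A T z := by
  unfold T2.eb
  rw [Finset.sum_comm]
  refine Finset.sum_congr rfl fun T _ => ?_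
  simp

end

end Claimed.Agent.R257.FR1
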