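import Claimed.Agent.R257.FR1.T2
import Claimed.Agent.R257.Tree.Geo

/-!
# ROW 257, package FR1, block HV (heavy masks, (f:ballcount), (f:Sbalance); H `frame.tex` l.147-247), file 1: RESTRICTIONS, OCCUPANCY, COUNTING GEOMETRY OF THE MASKS      (architect helper240; prefix `f1h_`)

PAPER-FREE.   Language: `FR1/T2.lean` (`T2`, `T2.Good`, `t.d1 S z` = native distance of `z` to the mask `S`, `t.w1 A S z = (1 + d1)^(-A)`), `Tree/Geo.lean` (`ti_lat_count`, `ti_lat_sum`, `ti_icc_card`, `ti_icc_mem`), `Pk/Defs` (`natX`, `natX_sub`).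
Norm of `ST k = E k × ℝ`: `‖X‖ = max ‖X.1‖ |X.2|`.       Every `sorry` is a LEAF `L-F1-HG*` (name in the docstring); all leaves are independent: edit ONLY your block.
-/

set_option autoImplicit false

namespace Claimed.Agent.R257.FR1

open Claimed.Agent.R257 Claimed.Agent.R257.FR2 Claimed.Agent.R257.Tree
open scoped BigOperators Classical BoundedContinuousFunction

noncomputable section

variable {k : ℕ}

/-! ## restrictions -/

/-- the tree with the masks `U` and the witness cubes `Y` (everything else unchanged) -/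
def T2.rs (t : T2 k) (U : Finset (t.Λ1 × Lat k)) (Y : Finset (Lat k)) : T2 k := { t with W1 := U, Yf := Y }

/-- **LEAF L-F1-HG1: restrictions of a good tree are good.**
PLAN: all fields but `sep`, `sq0`, `ret`, `clip` are literally those of `h` (`(t.rs U Y).κ0 = t.κ0` … by `rfl`: give them as `h.one_le_κ1` etc. in an anonymous-constructor/`refine { one_le_κ1 := h.one_le_κ1, … }`).
`sep`, `clip`, `ret`: use `hY`, `hU`.   `sq0`: `(t.rs U Y).ker0 A T z = ∑ S ∈ U, …  ≤ ∑ S ∈ t.W1, … = t.ker0 A T z` (`Finset.sum_le_sum_of_subset_of_nonneg`, terms `≥ 0`: `Real.rpow_nonneg`), times `s0² ≥ 0`. -/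
theorem f1h_good_rs (t : T2 k) (c : TCls k) (h : t.Good c) {U : Finset (t.Λ1 × Lat k)} (hU : U ⊆ t.W1) {Y : Finset (Lat k)} (hY : Y ⊆ t.Yf) :
    (t.rs U Y).Good c := by
  refine
    { one_le_κ1 := h.one_le_κ1, κ_le := h.κ_le, par_near := h.par_near, top_bdd := h.top_bdd, mult0 := h.mult0, mult1 := h.mult1,
      nlab0 := h.nlab0, nlab1 := h.nlab1, nch := h.nch, leaf := h.leaf, sep := fun q hq q' hq' => h.sep q (hY hq) q' (hY hq'),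
      ηw_nonneg := h.ηw_nonneg, one_le_G1 := h.one_le_G1, G_step := h.G_step, one_le_ϖ := h.one_le_ϖ, Mc_pos := h.Mc_pos,
      sq0 := ?_, ret := fun S hS => h.ret S (hU hS), clip := fun q hq => h.clip q (hY hq) }
  intro q hq
  refine le_trans ?_ (h.sq0 q (hY hq))
  refine Finset.sum_le_sum fun T _ => mul_le_mul_of_nonneg_left ?_ (sq_nonneg _)
  show ∑ S ∈ U, (if S.1 = t.par T.1 then t.w1 c.P S (t.pt q) * t.w0 c.P T (t.ctr1 S) else 0)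
    ≤ ∑ S ∈ t.W1, (if S.1 = t.par T.1 then t.w1 c.P S (t.pt q) * t.w0 c.P T (t.ctr1 S) else 0)
  refine Finset.sum_le_sum_of_subset_of_nonneg hU fun S _ _ => ?_
  split_ifs
  · unfold T2.w1 T2.w0 pw
    exact mul_nonneg (Real.rpow_nonneg (by positivity) _) (Real.rpow_nonneg (by positivity) _)
  · exact le_rfl

/-! ## occupancy, heavy and light masks -/

/-- number of witnesses of `Y` in the enlargement of native radius `r` of the mask `S` -/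
def T2.ocw (t : T2 k) (Y : Finset (Lat k)) (r : ℝ) (S : t.Λ1 × Lat k) : ℕ := (Y.filter fun q => t.d1 S (t.pt q) ≤ r).card

/-- number of masks of `U` whose enlargement of native radius `r` contains `z` -/
def T2.nr (t : T2 k) (U : Finset (t.Λ1 × Lat k)) (r : ℝ) (z : ST k) : ℕ := (U.filter fun S => t.d1 S z ≤ r).card

/-- the heavy masks: more than `Ω` witnesses in the enlargement -/
def T2.hvy (t : T2 k) (r Ω : ℝ) : Finset (t.Λ1 × Lat k) := t.W1.filter fun S => Ω < (t.ocw t.Yf r S : ℝ)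

/-- the light masks -/
def T2.lgt (t : T2 k) (r Ω : ℝ) : Finset (t.Λ1 × Lat k) := t.W1.filter fun S => (t.ocw t.Yf r S : ℝ) ≤ Ω

/-! ## lattice counts -/

/-- **LEAF L-F1-HG2: lattice points in a box.**
PLAN: as `ti_lat_count`/`ti_img_count` in `Tree/Geo.lean`: `|X.1 i - m.1 i| ≤ ‖X.1 - (lat m).1‖` (`PiLp.norm_apply_le` / `EuclideanSpace.norm_eq`; `(lat m).1 i = m.1 i` by `rfl`), so
`s ⊆ (Fintype.piFinset fun i => Finset.Icc ⌈X.1 i - r₁⌉ ⌊X.1 i + r₁⌋) ×ˢ Finset.Icc ⌈X.2 - r₂⌉ ⌊X.2 + r₂⌋` (`ti_icc_mem`), `Finset.card_product`, `Fintype.card_piFinset`, `ti_icc_card`, `Finset.prod_le_pow_card`/`Finset.prod_le_prod`. -/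
theorem f1h_box_count (X : ST k) {r₁ r₂ : ℝ} (h₁ : 0 ≤ r₁) (h₂ : 0 ≤ r₂) (s : Finset (Lat k))
    (h : ∀ m ∈ s, ‖X.1 - (lat m).1‖ ≤ r₁ ∧ |X.2 - (lat m).2| ≤ r₂) : (s.card : ℝ) ≤ (2 * r₁ + 1) ^ k * (2 * r₂ + 1) := by
  have hsub : s ⊆ (Fintype.piFinset fun i => Finset.Icc ⌈X.1 i - r₁⌉ ⌊X.1 i + r₁⌋) ×ˢ Finset.Icc ⌈X.2 - r₂⌉ ⌊X.2 + r₂⌋ := by
    intro m hm
    obtain ⟨ha, hb⟩ := h m hm
    rw [Finset.mem_product, Fintype.mem_piFinset]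
    refine ⟨fun i => ti_icc_mem ?_, ti_icc_mem ?_⟩
    · have e2 : ((m.1 i : ℤ) : ℝ) - X.1 i = -((X.1 - (lat m).1) i) := by
        simp [lat]
      rw [e2, abs_neg, ← Real.norm_eq_abs]
      exact (PiLp.norm_apply_le _ i).trans ha
    · rw [abs_sub_comm]
      exact hb
  calc (s.card : ℝ) ≤ (((Fintype.piFinset fun i => Finset.Icc ⌈X.1 i - r₁⌉ ⌊X.1 i + r₁⌋) ×ˢ Finset.Icc ⌈X.2 - r₂⌉ ⌊X.2 + r₂⌋).card : ℝ) := by
        exact_mod_cast Finset.card_le_card hsub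
    _ = (∏ i : Fin k, ((Finset.Icc ⌈X.1 i - r₁⌉ ⌊X.1 i + r₁⌋).card : ℝ)) * ((Finset.Icc ⌈X.2 - r₂⌉ ⌊X.2 + r₂⌋).card : ℝ) := by
        rw [Finset.card_product, Fintype.card_piFinset]
        push_cast
        rfl
    _ ≤ (∏ _i : Fin k, (2 * r₁ + 1)) * (2 * r₂ + 1) := by
        refine mul_le_mul ?_ (ti_icc_card _ _ h₂) (Nat.cast_nonneg _) (Finset.prod_nonneg fun _ _ => by positivity)
        exact Finset.prod_le_prod (fun i _ => Nat.cast_nonneg _) fun i _ => ti_icc_card _ _ h₁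
    _ = (2 * r₁ + 1) ^ k * (2 * r₂ + 1) := by simp

/-- **LEAF L-F1-HG3: sums over cells, label by label.**   PLAN: `Finset.sum_fiberwise` (`∑_{S ∈ U} f S = ∑_v ∑_{S ∈ U, S.1 = v} f S`), `Finset.sum_le_card_nsmul`, `Finset.card_univ`. -/
theorem f1h_fib_sum {Λ : Type} [Fintype Λ] (U : Finset (Λ × Lat k)) (f : Λ × Lat k → ℝ) (N : ℝ) (h : ∀ v : Λ, ∑ S ∈ U.filter (fun S => S.1 = v), f S ≤ N) :
    ∑ S ∈ U, f S ≤ Fintype.card Λ * N := by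
  rw [← Finset.sum_fiberwise U (fun S => S.1) f]
  calc ∑ v : Λ, ∑ S ∈ U.filter (fun S => S.1 = v), f S ≤ ∑ _v : Λ, N := Finset.sum_le_sum fun v _ => h v
    _ = Fintype.card Λ * N := by rw [Finset.sum_const, Finset.card_univ, nsmul_eq_mul]

/-- the cells of one label are indexed by their lattice points -/
theorem f1h_fib_img {Λ : Type} (U : Finset (Λ × Lat k)) (v : Λ) (F : Lat k → ℝ) :
    ∑ S ∈ U.filter (fun S => S.1 = v), F S.2 = ∑ m ∈ (U.filter fun S => S.1 = v).image Prod.snd, F m := by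
  rw [Finset.sum_image]
  intro S hS S' hS' e
  have h1 := (Finset.mem_filter.1 (Finset.mem_coe.1 hS)).2
  have h2 := (Finset.mem_filter.1 (Finset.mem_coe.1 hS')).2
  exact Prod.ext (h1.trans h2.symm) e

/-- **LEAF L-F1-HG4: number of masks near a point** (bounded counting).
PLAN: `T2.nr`; `Finset.card_eq_sum_ones`, `Nat.cast_sum`, `f1h_fib_sum` with `f = 1`, `N = (2 (1+r))^(k+1)`; the cells of `U.filter (d1 ≤ r)` with the label `v`: injective image under `Prod.snd` (`Finset.card_image_of_injOn`, cf. `f1h_fib_img`), `ti_lat_count (natX t.κ1 (t.fr1 v) z) hr`;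
`h.nlab1 : card Λ1 ≤ Cm κ1^k`. -/
theorem f1h_cnt_near (t : T2 k) (c : TCls k) (h : t.Good c) (U : Finset (t.Λ1 × Lat k)) (z : ST k) {r : ℝ} (hr : 0 ≤ r) :
    (t.nr U r z : ℝ) ≤ c.Cm * t.κ1 ^ k * (2 * (1 + r)) ^ (k + 1) := by
  unfold T2.nr
  have hN0 : (0 : ℝ) ≤ (2 * (1 + r)) ^ (k + 1) := by positivity
  have h1 : ((U.filter fun S => t.d1 S z ≤ r).card : ℝ) = ∑ S ∈ U.filter (fun S => t.d1 S z ≤ r), (1 : ℝ) := by simp
  rw [h1]
  refine (f1h_fib_sum _ _ ((2 * (1 + r)) ^ (k + 1)) fun v => ?_).trans (mul_le_mul_of_nonneg_right h.nlab1 hN0)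
  have h2 := f1h_fib_img (U.filter fun S => t.d1 S z ≤ r) v (fun _ => (1 : ℝ))
  beta_reduce at h2
  rw [h2, Finset.sum_const, nsmul_eq_mul, mul_one]
  refine ti_lat_count (natX t.κ1 (t.fr1 v) z) hr _ fun m hm => ?_
  obtain ⟨S, hS, rfl⟩ := Finset.mem_image.1 hm
  rw [Finset.mem_filter, Finset.mem_filter] at hS
  obtain ⟨⟨_, hd⟩, rfl⟩ := hS
  exact hd

/-- **LEAF L-F1-HG5: the sum of the envelopes of the masks at a point.**   PLAN: `C` from `ti_lat_sum hA`; `f1h_fib_sum`, `f1h_fib_img` (`t.w1 A S z = (1 + ‖natX κ1 (fr1 v) z - lat S.2‖)^(-A)` for `S.1 = v`: `Finset.sum_congr` + `subst`/`rw`), `h.nlab1`. -/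
theorem f1h_sum_w {A : ℝ} (hA : (k : ℝ) + 1 < A) : ∃ C : ℝ, 1 ≤ C ∧ ∀ (c : TCls k) (t : T2 k), t.Good c → ∀ (U : Finset (t.Λ1 × Lat k)) (z : ST k),
    ∑ S ∈ U, t.w1 A S z ≤ C * (c.Cm * t.κ1 ^ k) := by
  obtain ⟨C, hC, H⟩ := ti_lat_sum (k := k) hA
  refine ⟨C, hC, fun c t h U z => ?_⟩
  have h1 : ∑ S ∈ U, t.w1 A S z ≤ Fintype.card t.Λ1 * C := by
    refine f1h_fib_sum _ _ C fun v => ?_
    have h2 := f1h_fib_img U v (fun m => (1 + ‖natX t.κ1 (t.fr1 v) z - lat m‖) ^ (-A))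
    beta_reduce at h2
    have h3 : ∑ S ∈ U.filter (fun S => S.1 = v), t.w1 A S z
        = ∑ S ∈ U.filter (fun S => S.1 = v), (1 + ‖natX t.κ1 (t.fr1 v) z - lat S.2‖) ^ (-A) := by
      refine Finset.sum_congr rfl fun S hS => ?_
      have hv := (Finset.mem_filter.1 hS).2
      rw [← hv]
      rfl
    rw [h3, h2]
    exact H _ _
  calc ∑ S ∈ U, t.w1 A S z ≤ Fintype.card t.Λ1 * C := h1
    _ ≤ (c.Cm * t.κ1 ^ k) * C := mul_le_mul_of_nonneg_right h.nlab1 (by linarith)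
    _ = C * (c.Cm * t.κ1 ^ k) := mul_comm _ _

/-- **LEAF L-F1-HG6: tails.**   PLAN: for `r < d`: `(1 + d)^(-A) = (1 + d)^(-(A-B)) (1 + d)^(-B) ≤ (1 + r)^(-(A-B)) (1 + d)^(-B)` (`Real.rpow_add`, `Real.rpow_le_rpow_of_nonpos`; or `tg_gain` of `Tree/GeoD.lean`, copy its 5 lines);
then `f1h_sum_w hB` for the set `U.filter (r < d1)` (`t.w1 B S z = (1 + t.d1 S z)^(-B)` by `rfl`). -/
theorem f1h_tail {A B : ℝ} (hB : (k : ℝ) + 1 < B) (hAB : B ≤ A) : ∃ C : ℝ, 1 ≤ C ∧ ∀ (c : TCls k) (t : T2 k), t.Good c → ∀ (U : Finset (t.Λ1 × Lat k)) (z : ST k) (r : ℝ), 0 ≤ r →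
    ∑ S ∈ U.filter (fun S => r < t.d1 S z), (1 + t.d1 S z) ^ (-A) ≤ C * (c.Cm * t.κ1 ^ k) * (1 + r) ^ (-(A - B)) := by
  obtain ⟨C, hC, H⟩ := f1h_sum_w (k := k) hB
  refine ⟨C, hC, fun c t h U z r hr => ?_⟩
  have hr1 : 0 < 1 + r := by linarith
  have hp : 0 ≤ (1 + r) ^ (-(A - B)) := Real.rpow_nonneg hr1.le _
  calc ∑ S ∈ U.filter (fun S => r < t.d1 S z), (1 + t.d1 S z) ^ (-A)
      ≤ ∑ S ∈ U.filter (fun S => r < t.d1 S z), (1 + r) ^ (-(A - B)) * t.w1 B S z := by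
        refine Finset.sum_le_sum fun S hS => ?_
        have hd := (Finset.mem_filter.1 hS).2
        have hd1 : 0 < 1 + t.d1 S z := by linarith
        have e : (1 + t.d1 S z) ^ (-A) = (1 + t.d1 S z) ^ (-(A - B)) * (1 + t.d1 S z) ^ (-B) := by
          rw [← Real.rpow_add hd1]; congr 1; ring
        rw [e]
        refine mul_le_mul_of_nonneg_right ?_ (Real.rpow_nonneg hd1.le _)
        exact Real.rpow_le_rpow_of_nonpos hr1 (by linarith) (by linarith)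
    _ = (1 + r) ^ (-(A - B)) * ∑ S ∈ U.filter (fun S => r < t.d1 S z), t.w1 B S z := by rw [Finset.mul_sum]
    _ ≤ (1 + r) ^ (-(A - B)) * (C * (c.Cm * t.κ1 ^ k)) := mul_le_mul_of_nonneg_left (H c t h _ z) hp
    _ = C * (c.Cm * t.κ1 ^ k) * (1 + r) ^ (-(A - B)) := mul_comm _ _

/-- **LEAF L-F1-HG7: the image of a physical ball in the native coordinates of a mask label.**
PLAN: `natX_sub`; `natX N v w = (N⁻¹ • (w.1 - (2 w.2) • v), w.2 / N²)`; `‖w.1‖ ≤ ‖w‖`, `|w.2| ≤ ‖w‖` (`norm_fst_le`, `norm_snd_le`), `norm_smul`, `norm_sub_le`. -/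
theorem f1h_natX_ball {N Cc ϱ : ℝ} (hN : 0 < N) {v : E k} (hv : ‖v‖ ≤ Cc) {z z' : ST k} (hz : ‖z' - z‖ ≤ ϱ) :
    ‖(natX N v z').1 - (natX N v z).1‖ ≤ (1 + 2 * Cc) * ϱ / N ∧ |(natX N v z').2 - (natX N v z).2| ≤ ϱ / N ^ 2 := by
  have h1 : ‖(z' - z).1‖ ≤ ϱ := (norm_fst_le _).trans hz
  have h2 : |(z' - z).2| ≤ ϱ := (norm_snd_le _).trans hz
  have hϱ : 0 ≤ ϱ := (norm_nonneg _).trans hz
  have e := natX_sub N v z' z
  have e1 : (natX N v z').1 - (natX N v z).1 = (natX N v (z' - z)).1 := by rw [e]; rfl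
  have e2 : (natX N v z').2 - (natX N v z).2 = (natX N v (z' - z)).2 := by rw [e]; rfl
  rw [e1, e2]
  unfold natX
  constructor
  · simp only
    rw [norm_smul, norm_inv, Real.norm_eq_abs, abs_of_pos hN, inv_mul_eq_div]
    refine div_le_div_of_nonneg_right ?_ hN.le
    calc ‖(z' - z).1 - (2 * (z' - z).2) • v‖ ≤ ‖(z' - z).1‖ + ‖(2 * (z' - z).2) • v‖ := norm_sub_le _ _
      _ ≤ ϱ + 2 * ϱ * Cc := by
          refine add_le_add h1 ?_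
          rw [norm_smul, Real.norm_eq_abs, abs_mul, abs_two]
          exact mul_le_mul (by linarith) hv (norm_nonneg _) (by linarith)
      _ = (1 + 2 * Cc) * ϱ := by ring
  · simp only
    rw [abs_div, abs_of_pos (by positivity : 0 < N ^ 2)]
    exact div_le_div_of_nonneg_right h2 (by positivity)

/-- **LEAF L-F1-HG8: number of masks whose enlargement meets a physical ball of radius `ϱ ≥ κ1`** (H l.243-245).
PLAN: `f1h_fib_sum` with `f = 1`.   Fix a label `v`, `X₀ = natX κ1 (fr1 v) z`.   If `‖z' - z‖ ≤ ϱ` and `‖natX κ1 (fr1 v) z' - lat m‖ ≤ r` then (`f1h_natX_ball`, `h.top_bdd`, triangle inequality, `norm_fst_le`, `norm_snd_le`)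
`‖X₀.1 - (lat m).1‖ ≤ r₁ := r + (1 + 2 Cc) ϱ/κ1`, `|X₀.2 - (lat m).2| ≤ r₂ := r + ϱ/κ1²`;  `f1h_box_count`.
Arithmetic, `x = ϱ/κ1 ≥ 1`, `y = ϱ/κ1² ≥ 0`: `2 r₁ + 1 ≤ (3 + 4 Cc)(1 + r) x`, `2 r₂ + 1 ≤ 2 (1 + r)(1 + y)`; `mul_pow`; `h.nlab1`. -/
theorem f1h_cnt_ball (t : T2 k) (c : TCls k) (hc : c.Ok) (h : t.Good c) (U : Finset (t.Λ1 × Lat k)) (z : ST k) {r ϱ : ℝ} (hr : 0 ≤ r) (hϱ : t.κ1 ≤ ϱ) :
    ((U.filter fun S => ∃ z' : ST k, ‖z' - z‖ ≤ ϱ ∧ t.d1 S z' ≤ r).card : ℝ)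
      ≤ c.Cm * t.κ1 ^ k * (2 * (3 + 4 * c.Cc) ^ k * (1 + r) ^ (k + 1) * (ϱ / t.κ1) ^ k * (1 + ϱ / t.κ1 ^ 2)) := by
  have hκ : 0 < t.κ1 := lt_of_lt_of_le one_pos h.one_le_κ1
  have hCc := hc.one_le_Cc
  have hϱ0 : 0 < ϱ := lt_of_lt_of_le hκ hϱ
  obtain ⟨x, hx⟩ : ∃ x : ℝ, x = ϱ / t.κ1 := ⟨_, rfl⟩
  obtain ⟨y, hy⟩ : ∃ y : ℝ, y = ϱ / t.κ1 ^ 2 := ⟨_, rfl⟩
  have hx1 : 1 ≤ x := by rw [hx, le_div_iff₀ hκ]; linarith
  have hy0 : 0 ≤ y := by rw [hy]; positivity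
  rw [← hx, ← hy]
  obtain ⟨r₁, hr₁⟩ : ∃ r₁ : ℝ, r₁ = r + (1 + 2 * c.Cc) * x := ⟨_, rfl⟩
  obtain ⟨r₂, hr₂⟩ : ∃ r₂ : ℝ, r₂ = r + y := ⟨_, rfl⟩
  have hr₁0 : 0 ≤ r₁ := by rw [hr₁]; positivity
  have hr₂0 : 0 ≤ r₂ := by rw [hr₂]; positivity
  have hN0 : (0 : ℝ) ≤ (2 * r₁ + 1) ^ k * (2 * r₂ + 1) := by positivity
  have h1 : ((U.filter fun S => ∃ z' : ST k, ‖z' - z‖ ≤ ϱ ∧ t.d1 S z' ≤ r).card : ℝ)
      = ∑ S ∈ U.filter (fun S => ∃ z' : ST k, ‖z' - z‖ ≤ ϱ ∧ t.d1 S z' ≤ r), (1 : ℝ) := by simp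
  have h2 : ((U.filter fun S => ∃ z' : ST k, ‖z' - z‖ ≤ ϱ ∧ t.d1 S z' ≤ r).card : ℝ)
      ≤ c.Cm * t.κ1 ^ k * ((2 * r₁ + 1) ^ k * (2 * r₂ + 1)) := by
    rw [h1]
    refine (f1h_fib_sum _ _ ((2 * r₁ + 1) ^ k * (2 * r₂ + 1)) fun v => ?_).trans (mul_le_mul_of_nonneg_right h.nlab1 hN0)
    have h3 := f1h_fib_img (U.filter fun S => ∃ z' : ST k, ‖z' - z‖ ≤ ϱ ∧ t.d1 S z' ≤ r) v (fun _ => (1 : ℝ))
    beta_reduce at h3
    rw [h3, Finset.sum_const, nsmul_eq_mul, mul_one]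
    refine f1h_box_count (natX t.κ1 (t.fr1 v) z) hr₁0 hr₂0 _ fun m hm => ?_
    obtain ⟨S, hS, rfl⟩ := Finset.mem_image.1 hm
    rw [Finset.mem_filter, Finset.mem_filter] at hS
    obtain ⟨⟨_, z', hz', hd⟩, rfl⟩ := hS
    obtain ⟨hb1, hb2⟩ := f1h_natX_ball hκ (h.top_bdd S.1) hz'
    have hd' : ‖natX t.κ1 (t.fr1 S.1) z' - lat S.2‖ ≤ r := hd
    have hd1 : ‖(natX t.κ1 (t.fr1 S.1) z').1 - (lat S.2).1‖ ≤ r := (norm_fst_le (natX t.κ1 (t.fr1 S.1) z' - lat S.2)).trans hd'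
    have hd2 : |(natX t.κ1 (t.fr1 S.1) z').2 - (lat S.2).2| ≤ r := (norm_snd_le (natX t.κ1 (t.fr1 S.1) z' - lat S.2)).trans hd'
    constructor
    · calc ‖(natX t.κ1 (t.fr1 S.1) z).1 - (lat S.2).1‖
          = ‖((natX t.κ1 (t.fr1 S.1) z').1 - (lat S.2).1) - ((natX t.κ1 (t.fr1 S.1) z').1 - (natX t.κ1 (t.fr1 S.1) z).1)‖ := by
            congr 1; abel
        _ ≤ ‖(natX t.κ1 (t.fr1 S.1) z').1 - (lat S.2).1‖ + ‖(natX t.κ1 (t.fr1 S.1) z').1 - (natX t.κ1 (t.fr1 S.1) z).1‖ := norm_sub_le _ _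
        _ ≤ r + (1 + 2 * c.Cc) * ϱ / t.κ1 := add_le_add hd1 hb1
        _ = r₁ := by rw [hr₁, hx]; ring
    · calc |(natX t.κ1 (t.fr1 S.1) z).2 - (lat S.2).2|
          = |((natX t.κ1 (t.fr1 S.1) z').2 - (lat S.2).2) - ((natX t.κ1 (t.fr1 S.1) z').2 - (natX t.κ1 (t.fr1 S.1) z).2)| := by
            congr 1; ring
        _ ≤ |(natX t.κ1 (t.fr1 S.1) z').2 - (lat S.2).2| + |(natX t.κ1 (t.fr1 S.1) z').2 - (natX t.κ1 (t.fr1 S.1) z).2| := by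
            simpa using norm_sub_le ((natX t.κ1 (t.fr1 S.1) z').2 - (lat S.2).2) ((natX t.κ1 (t.fr1 S.1) z').2 - (natX t.κ1 (t.fr1 S.1) z).2)
        _ ≤ r + ϱ / t.κ1 ^ 2 := add_le_add hd2 hb2
        _ = r₂ := by rw [hr₂, hy]
  refine h2.trans (mul_le_mul_of_nonneg_left ?_ (by have := hc.one_le_Cm; positivity))
  have a1 : 2 * r₁ + 1 ≤ (3 + 4 * c.Cc) * (1 + r) * x := by
    rw [hr₁]
    have hrx : 0 ≤ r * x := by positivity
    have hrx2 : r ≤ r * x := le_mul_of_one_le_right hr hx1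
    have hcr : 0 ≤ c.Cc * (r * x) := by positivity
    nlinarith
  have a2 : 2 * r₂ + 1 ≤ 2 * (1 + r) * (1 + y) := by
    rw [hr₂]
    have : 0 ≤ r * y := by positivity
    nlinarith
  calc (2 * r₁ + 1) ^ k * (2 * r₂ + 1) ≤ ((3 + 4 * c.Cc) * (1 + r) * x) ^ k * (2 * (1 + r) * (1 + y)) :=
        mul_le_mul (pow_le_pow_left₀ (by positivity) a1 k) a2 (by positivity) (by positivity)
    _ = 2 * (3 + 4 * c.Cc) ^ k * (1 + r) ^ (k + 1) * x ^ k * (1 + y) := by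
        rw [mul_pow, mul_pow]; ring

end

end Claimed.Agent.R257.FR1
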