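import Claimed.Agent.R257.FR1.Bld
import Claimed.Agent.R257.FR1.Ad
import Claimed.Agent.R257.FR1.HvGeo

/-!
# ROW 257, package FR1, file 6: BLOCK BD = THE GEOMETRY OF THE CONCRETE TREES `tH`, `tK`, `tF`  (CONTRACTS)      (architect helper249)

Leaves `L-F1-B*`.    `T2.Geo` = the geometric half of `T2.Good` (scales, nets, multiplicities, leaves in the class, separated witnesses).   `Fit c K` = the class `c` of trees is large enough for the exact class `K`.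
-/

set_option autoImplicit false

namespace Claimed.Agent.R257.FR1

open Claimed.Agent.R257 Claimed.Agent.R257.FR2 Claimed.Agent.R257.Tree MeasureTheory
open scoped BigOperators Classical BoundedContinuousFunction InnerProductSpace

noncomputable section

variable {k : ℕ} {Λ : Type}

/-- the geometric half of `T2.Good` -/
structure T2.Geo (t : T2 k) (c : TCls k) : Prop where
  one_le_κ1 : 1 ≤ t.κ1
  κ_le : t.κ1 ≤ t.κ0
  par_near : ∀ v, ‖t.fr0 v - t.fr1 (t.par v)‖ ≤ c.Cc / t.κ1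
  top_bdd : ∀ b, ‖t.fr1 b‖ ≤ c.Cc
  mult0 : ∀ ξ : E k, ((Finset.univ.filter fun v => ‖t.fr0 v - ξ‖ ≤ t.κ0⁻¹).card : ℝ) ≤ c.Cm
  mult1 : ∀ ξ : E k, ((Finset.univ.filter fun b => ‖t.fr1 b - ξ‖ ≤ t.κ1⁻¹).card : ℝ) ≤ c.Cm
  nlab0 : (Fintype.card t.Λ0 : ℝ) ≤ c.Cm * t.κ0 ^ k
  nlab1 : (Fintype.card t.Λ1 : ℝ) ≤ c.Cm * t.κ1 ^ k
  nch : ∀ b, ((Finset.univ.filter fun v => t.par v = b).card : ℝ) ≤ c.Cm * (t.κ0 / t.κ1) ^ k
  leaf : ∀ T ∈ t.W0, IsPk (c.ρ 0) c.M t.κ0 (t.fr0 T.1) (lat T.2) (t.s0 T) (t.g0 T)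
  sep : ∀ q ∈ t.Yf, ∀ q' ∈ t.Yf, q ≠ q' → 1 ≤ ‖t.pt q - t.pt q'‖

/-- `Good` from its two halves -/
theorem T2.Geo.good {t : T2 k} {c : TCls k} (g : t.Geo c) (hη : 0 ≤ t.ηw) (hG1 : 1 ≤ t.G1) (hG : 2 * (1 + 2 * c.Cc) * t.G1 ≤ t.G0) (hϖ : 1 ≤ t.ϖ) (hMc : 0 < t.Mc)
    (sq0 : ∀ q ∈ t.Yf, ∑ T ∈ t.W0, t.s0 T ^ 2 * t.ker0 c.P T (t.pt q) ≤ t.ϖ) (ret : ∀ S ∈ t.W1, t.eb c.P S.1 (t.ctr1 S) ≤ t.Mc)
    (clip : ∀ q ∈ t.Yf, ∑ b : t.Λ1, min (t.eb c.P b (t.pt q)) t.Mc ≤ t.ϖ) : t.Good c :=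
  ⟨g.one_le_κ1, g.κ_le, g.par_near, g.top_bdd, g.mult0, g.mult1, g.nlab0, g.nlab1, g.nch, g.leaf, g.sep, hη, hG1, hG, hϖ, hMc, sq0, ret, clip⟩

theorem T2.Good.geo {t : T2 k} {c : TCls k} (h : t.Good c) : t.Geo c :=
  ⟨h.one_le_κ1, h.κ_le, h.par_near, h.top_bdd, h.mult0, h.mult1, h.nlab0, h.nlab1, h.nch, h.leaf, h.sep⟩

/-- the standard auxiliary parameters: no clipping (`Mc` = a bound of all the bin envelopes at the centres of the masks), `ϖ` given -/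
def auxOf (c : TCls k) (Mc ϖ : ℝ) : XCfg.Aux := ⟨2 * (1 + 2 * c.Cc), 1, Mc, 0, ϖ⟩

/-- the class `c` of trees is large enough for the exact class `K` -/
structure Fit (c : TCls k) (K : XCls) : Prop where
  ρ : max K.ρ 0 + 1 + max K.ρ 0 ^ 2 ≤ c.ρ 0
  Cc : K.Cc + 2 ≤ c.Cc
  Cm : (K.Cm + 1) * (20 * (K.Cc + 2)) ^ (2 * k) ≤ c.Cm
  J : c.M + c.C0 + k + 3 ≤ K.J

/-- the class shifted by one height is a class -/
theorem shiftC_ok {c : TCls k} (hc : c.Ok) : (shiftC c).Ok :=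
  { k_pos := hc.k_pos, tr_le := hc.tr_le, P_gt := hc.P_gt, P_lt := hc.P_lt, M_gt := hc.M_gt, C0_ge := hc.C0_ge, ρ_nonneg := fun i => hc.ρ_nonneg (i + 1), ρχ_nonneg := hc.ρχ_nonneg,
    one_le_Cχ := hc.one_le_Cχ, one_le_Cc := hc.one_le_Cc, one_le_Cm := hc.one_le_Cm, χ_fs := hc.χ_fs, χ_dec := hc.χ_dec, χ_pou := hc.χ_pou, ρ_step := fun i => hc.ρ_step (i + 1), room_M := hc.room_M, room_C0 := hc.room_C0 }

/-! ## packing -/

/-- helper of L-F1-B1, B2 (helper42): a separated family in a ball -/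
theorem fb_pack_sep {ι : Type} (t : Finset ι) (fr : ι → E k) (ξ : E k) (r A : ℝ) (hr : 0 < r) (hA : 1 ≤ A) (hsep : ∀ v ∈ t, ∀ v' ∈ t, v ≠ v' → r < ‖fr v - fr v'‖)
    (hin : ∀ v ∈ t, ‖fr v - ξ‖ ≤ A * r) : (t.card : ℝ) ≤ (5 * A) ^ k := by
  have hinj : Set.InjOn fr (t : Set ι) := by
    intro v hv v' hv' h
    by_contra hne
    have := hsep v hv v' hv' hne
    rw [h, sub_self, norm_zero] at this
    linarith
  have h1 := BD.card_le_of_sep (A := A) (r := r) (by linarith) hr (t.image fr) ξ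
    (by
      intro c hc
      obtain ⟨v, hv, rfl⟩ := Finset.mem_image.1 hc
      exact hin v hv)
    (by
      intro c hc c' hc' hne
      obtain ⟨v, hv, rfl⟩ := Finset.mem_image.1 hc
      obtain ⟨v', hv', rfl⟩ := Finset.mem_image.1 hc'
      exact (hsep v hv v' hv' (fun h => hne (by rw [h]))).le)
  rw [Finset.card_image_of_injOn hinj, finrank_euclideanSpace, Fintype.card_fin] at h1
  exact h1.trans (pow_le_pow_left₀ (by linarith) (by linarith) k)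

/-- **LEAF L-F1-B1: packing.**   A family with at most `m` points in every ball of radius `r` has at most `m (1 + 2R/r)^k`… points in a ball of radius `R ≥ r`.
PLAN: cover: take a maximal `r`-separated subset `N` of the points of `t` (`BD.exists_net_aux`); `#N ≤ (1 + 2R/r)^k` (`BD.card_le_of_sep`, see its statement in `Lib/BD/Wt.lean`; adjust the constant: `(3R/r)^k·…` is enough since `5 R / r` is allowed here); every point of `t` lies within `r` of a point of `N`. -/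
theorem fb_pack {ι : Type} (t : Finset ι) (fr : ι → E k) (ξ : E k) (r R m : ℝ) (hr : 0 < r) (hrR : r ≤ R) (hm : 0 ≤ m)
    (hmult : ∀ ζ : E k, ((t.filter fun v => ‖fr v - ζ‖ ≤ r).card : ℝ) ≤ m) (hin : ∀ v ∈ t, ‖fr v - ξ‖ ≤ R) : (t.card : ℝ) ≤ m * (5 * R / r) ^ k := by
  obtain ⟨N, hNt, hNsep, hNnet⟩ := BD.exists_net_aux t fr hr.le
  have hA : 1 ≤ R / r := (one_le_div hr).2 hrR
  have hN : (N.card : ℝ) ≤ (5 * (R / r)) ^ k :=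
    fb_pack_sep N fr ξ r (R / r) hr hA hNsep (fun v hv => by rw [div_mul_cancel₀ _ hr.ne']; exact hin v (hNt hv))
  have hsub : t ⊆ N.biUnion fun a => t.filter fun v => ‖fr v - fr a‖ ≤ r := by
    intro v hv
    obtain ⟨a, ha, hva⟩ := hNnet v hv
    exact Finset.mem_biUnion.2 ⟨a, ha, Finset.mem_filter.2 ⟨hv, hva⟩⟩
  have h1 : (t.card : ℝ) ≤ ∑ a ∈ N, ((t.filter fun v => ‖fr v - fr a‖ ≤ r).card : ℝ) := by
    exact_mod_cast (Finset.card_le_card hsub).trans Finset.card_biUnion_le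
  have h2 : ∑ a ∈ N, ((t.filter fun v => ‖fr v - fr a‖ ≤ r).card : ℝ) ≤ ∑ _a ∈ N, m := Finset.sum_le_sum fun a _ => hmult (fr a)
  rw [Finset.sum_const, nsmul_eq_mul] at h2
  calc (t.card : ℝ) ≤ (N.card : ℝ) * m := h1.trans h2
    _ ≤ (5 * (R / r)) ^ k * m := mul_le_mul_of_nonneg_right hN hm
    _ = m * (5 * R / r) ^ k := by rw [mul_comm, mul_div_assoc]

/-- **LEAF L-F1-B2: a separated family has bounded multiplicity.**   PLAN: `BD.card_le_of_sep` (injectivity of `fr` on `t` from the separation). -/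
theorem fb_sep_mult {ι : Type} (t : Finset ι) (fr : ι → E k) (ξ : E k) (r A : ℝ) (hr : 0 < r) (hA : 1 ≤ A) (hsep : ∀ v ∈ t, ∀ v' ∈ t, v ≠ v' → r < ‖fr v - fr v'‖)
    (hin : ∀ v ∈ t, ‖fr v - ξ‖ ≤ A * r) : (t.card : ℝ) ≤ (5 * A) ^ k :=
  fb_pack_sep t fr ξ r A hr hA hsep hin

/-! ## the three trees -/

section trees

variable [Fintype Λ]

omit [Fintype Λ] in
/-- helper of L-F1-B3: a packet is bounded and continuous, so `toB` evaluates -/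
theorem fb_leaf_toB {ρ M N a : ℝ} {v : E k} {u : ST k} {f : ST k → ℂ} (hM : 0 ≤ M) (ha : 0 ≤ a) (h : IsPk ρ M N v u a f) :
    IsPk ρ M N v u a (toB f) ∧ ∀ z, toB f z = f z := by
  obtain ⟨F, hFS, hdec, hrep⟩ := h
  have hval : ∀ z, toB f z = f z := by
    have hcont : Continuous f := by
      have e : f = fun z => car v z * F (natX N v z) := funext hrep
      rw [e]
      refine Continuous.mul ?_ (hFS.continuous.comp ?_)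
      · unfold car
        fun_prop
      · have := ti_natX_cont N v 0
        simpa using this
    intro z
    refine toB_apply hcont (C := a) (fun z => ?_) z
    rw [hrep z, norm_mul, norm_car, one_mul]
    refine (hdec _).trans ?_
    have h1 : (1 + ‖natX N v z - u‖) ^ (-M) ≤ 1 :=
      Real.rpow_le_one_of_one_le_of_nonpos (by linarith [norm_nonneg (natX N v z - u)]) (by linarith)
    exact mul_le_of_le_one_right ha h1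
  exact ⟨⟨F, hFS, hdec, fun z => (hval z).trans (hrep z)⟩, hval⟩

/-- **CONTRACT for the block XP (helper30), LEAF L-F1-B3: the cut exact packets are packets of the class.** -/
theorem fb_leaf (c : TCls k) (hc : c.Ok) (K : XCls) (hF : Fit c K) (cthr T₁ : ℝ) (P : ℕ) (χ₁ χh : ℝ → ℂ) (hχ : XCut T₁ χ₁ χh) : ∃ Cx : ℝ, 1 ≤ Cx ∧
    ∀ (Λ : Type) [Fintype Λ] (𝔠 : XCfg k Λ), 𝔠.Ok cthr K T₁ P → ∀ i, ∀ T ∈ 𝔠.W0 i,
      IsPk (c.ρ 0) c.M 𝔠.h (𝔠.frU i T.1) (lat T.2) (Cx * 𝔠.a i (T.1.1, T.2.1)) (toB (𝔠.lv i χ₁ T)) ∧ ∀ z, toB (𝔠.lv i χ₁ T) z = 𝔠.lv i χ₁ T z := by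
  have hk0 : (0 : ℝ) ≤ k := Nat.cast_nonneg k
  have hM0 : 0 ≤ c.M := by linarith [hc.P_gt, hc.P_lt, hc.M_gt]
  have hMJ : c.M ≤ K.J := by linarith [hF.J, hc.C0_ge, hc.P_gt, hc.P_lt]
  obtain ⟨C, hC1, hC⟩ := fxp_isPk k K.J (max K.ρ 0) c.M T₁ (le_max_right _ _) hM0 hMJ hχ
  refine ⟨C, hC1, ?_⟩
  intro Λ _ 𝔠 h𝔠 i T hT
  unfold XCfg.W0 at hT
  rw [Finset.mem_image] at hT
  obtain ⟨T', -, rfl⟩ := hT
  obtain ⟨⟨v, m⟩, hT'⟩ := T'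
  have hcl := h𝔠.cls i
  have hAmp : IflAmp K.J (max K.ρ 0) (𝔠.a i (v, m)) ((𝔠.A i).G (v, m)) :=
    ⟨hcl.smooth _ hT', fun θ hθ => (hcl.supp _ hT' θ hθ).trans (le_max_left _ _), fun j hj θ => hcl.bound _ hT' j hj θ⟩
  have hpk := hC Λ (𝔠.A i) (v, m) (𝔠.a i (v, m)) hAmp
  rw [h𝔠.scale i] at hpk
  have hpk' : IsPk (c.ρ 0) c.M 𝔠.h ((𝔠.A i).fr v) (lat (m, 0)) (C * 𝔠.a i (v, m)) (fun z => χ₁ (z.2 / 𝔠.h ^ 2) * (𝔠.A i).U (v, m) z) :=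
    ti_pk_mono_rho hpk hF.ρ
  have ha0 : 0 ≤ 𝔠.a i (v, m) := (norm_nonneg _).trans (hcl.bound _ hT' 0 (Nat.zero_le _) 0)
  exact fb_leaf_toB hM0 (by positivity) hpk'

/-- separated witnesses -/
def SepY (𝔠 : XCfg k Λ) (Yf : Finset (Lat k)) : Prop := Yf ⊆ 𝔠.Y ∧ ∀ i, ∀ q ∈ Yf, ∀ q' ∈ Yf, q ≠ q' → 1 ≤ ‖𝔠.wz i q - 𝔠.wz i q'‖

/-- the constant of the class absorbs `X^k`, `X ≤ (20 (Cc + 2))²` -/
theorem fb_g_cm {c : TCls k} {K : XCls} (hF : Fit c K) (hCm : 0 ≤ K.Cm) (X : ℝ) (h0 : 0 ≤ X) (hX : X ≤ (20 * (K.Cc + 2)) ^ 2) :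
    (K.Cm + 1) * X ^ k ≤ c.Cm := by
  refine le_trans ?_ hF.Cm
  apply mul_le_mul_of_nonneg_left _ (by linarith)
  rw [pow_mul]
  exact pow_le_pow_left₀ h0 hX k

theorem fb_g_Cm_nonneg {K : XCls} {cthr T₁ : ℝ} {P : ℕ} {𝔠 : XCfg k Λ} (h𝔠 : 𝔠.Ok cthr K T₁ P) (i : Fin (k + 1)) : 0 ≤ K.Cm :=
  le_trans (Nat.cast_nonneg _) ((h𝔠.cls i).mult 0)

theorem fb_g_freq {K : XCls} {cthr T₁ : ℝ} {P : ℕ} {𝔠 : XCfg k Λ} (h𝔠 : 𝔠.Ok cthr K T₁ P) (i : Fin (k + 1)) (v : 𝔠.UL i) : ‖𝔠.frU i v‖ ≤ K.Cc := by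
  obtain ⟨m, hm⟩ := v.2
  exact (h𝔠.cls i).freq (v.1, m) hm

theorem fb_g_mult {K : XCls} {cthr T₁ : ℝ} {P : ℕ} {𝔠 : XCfg k Λ} (h𝔠 : 𝔠.Ok cthr K T₁ P) (i : Fin (k + 1)) (t : Finset (𝔠.UL i)) (ζ : E k) :
    ((t.filter fun v => ‖𝔠.frU i v - ζ‖ ≤ 𝔠.h⁻¹).card : ℝ) ≤ K.Cm := by
  refine le_trans ?_ ((h𝔠.cls i).mult ζ)
  rw [h𝔠.scale i]
  rw [Nat.cast_le]
  apply Finset.card_le_card_of_injOn Subtype.val
  · intro v hv
    have hv' := (Finset.mem_filter.mp (Finset.mem_coe.mp hv)).2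
    exact Finset.mem_coe.mpr (Finset.mem_filter.mpr ⟨Finset.mem_univ _, hv'⟩)
  · exact Subtype.val_injective.injOn

theorem fb_g_near (𝔠 : XCfg k Λ) (i : Fin (k + 1)) {H : ℝ} (hH : 0 < H) (v : 𝔠.UL i) : ‖𝔠.frU i v - 𝔠.frU i (𝔠.piH i H v)‖ ≤ H⁻¹ :=
  ((netPi_spec (inv_pos.mpr hH) (𝔠.frU i)).1 v).1

theorem fb_g_sep (𝔠 : XCfg k Λ) (i : Fin (k + 1)) {H : ℝ} (hH : 0 < H) (v v' : 𝔠.UL i) (h : 𝔠.piH i H v ≠ 𝔠.piH i H v') :
    H⁻¹ < ‖𝔠.frU i (𝔠.piH i H v) - 𝔠.frU i (𝔠.piH i H v')‖ :=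
  (netPi_spec (inv_pos.mpr hH) (𝔠.frU i)).2 v v' h

/-- labels in a ball of radius `R ≥ 1/h` -/
theorem fb_g_lab {K : XCls} {cthr T₁ : ℝ} {P : ℕ} {𝔠 : XCfg k Λ} (h𝔠 : 𝔠.Ok cthr K T₁ P) (i : Fin (k + 1)) (t : Finset (𝔠.UL i)) (ξ : E k) (R : ℝ)
    (hR : 𝔠.h⁻¹ ≤ R) (hin : ∀ v ∈ t, ‖𝔠.frU i v - ξ‖ ≤ R) : (t.card : ℝ) ≤ K.Cm * (5 * (R * 𝔠.h)) ^ k := by
  have hh : 0 < 𝔠.h := by linarith [h𝔠.two_le]
  have := fb_pack t (𝔠.frU i) ξ 𝔠.h⁻¹ R K.Cm (inv_pos.mpr hh) hR (fb_g_Cm_nonneg h𝔠 i) (fun ζ => fb_g_mult h𝔠 i t ζ) hin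
  rwa [div_inv_eq_mul, mul_assoc] at this

/-- representatives of the `1/H`-net in a ball of radius `A/H` -/
theorem fb_g_rep (𝔠 : XCfg k Λ) (i : Fin (k + 1)) {H : ℝ} (hH : 0 < H) (t : Finset (𝔠.UL i)) (ht : ∀ u ∈ t, ∃ v, 𝔠.piH i H v = u) (ξ : E k) (A : ℝ) (hA : 1 ≤ A)
    (hin : ∀ u ∈ t, ‖𝔠.frU i u - ξ‖ ≤ A * H⁻¹) : (t.card : ℝ) ≤ (5 * A) ^ k := by
  refine fb_sep_mult t (𝔠.frU i) ξ H⁻¹ A (inv_pos.mpr hH) hA ?_ hin
  intro u hu u' hu' hne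
  obtain ⟨v, rfl⟩ := ht u hu
  obtain ⟨v', rfl⟩ := ht u' hu'
  exact fb_g_sep 𝔠 i hH v v' hne

/-- bins in a ball of radius `A/H` -/
theorem fb_g_bin (𝔠 : XCfg k Λ) (i : Fin (k + 1)) {H : ℝ} (hH : 0 < H) (t : Finset (𝔠.BinT i H)) (ξ : E k) (A : ℝ) (hA : 1 ≤ A)
    (hin : ∀ b ∈ t, ‖𝔠.frU i b.1 - ξ‖ ≤ A * H⁻¹) : (t.card : ℝ) ≤ (5 * A) ^ k := by
  have h1 := fb_g_rep 𝔠 i hH (t.image Subtype.val) (by
    intro u hu
    obtain ⟨b, -, rfl⟩ := Finset.mem_image.mp hu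
    exact b.2) ξ A hA (by
    intro u hu
    obtain ⟨b, hb, rfl⟩ := Finset.mem_image.mp hu
    exact hin b hb)
  rwa [Finset.card_image_of_injective _ Subtype.val_injective] at h1

/-- a finite type is empty or the frequency radius is nonnegative -/
theorem fb_g_Cc_nonneg {K : XCls} {cthr T₁ : ℝ} {P : ℕ} {𝔠 : XCfg k Λ} (h𝔠 : 𝔠.Ok cthr K T₁ P) (i : Fin (k + 1)) (v : 𝔠.UL i) : 0 ≤ K.Cc :=
  le_trans (norm_nonneg _) (fb_g_freq h𝔠 i v)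

/-- a count is `≤ c.Cm Z` as soon as it is `≤ (K.Cm + 1) X^k Z` -/
theorem fb_g_fin {c : TCls k} {K : XCls} (hF : Fit c K) {cthr T₁ : ℝ} {P : ℕ} {𝔠 : XCfg k Λ} (h𝔠 : 𝔠.Ok cthr K T₁ P) (i : Fin (k + 1)) {ι : Type} (t : Finset ι) (f : ι → 𝔠.UL i)
    (X Z m : ℝ) (hZ : 0 ≤ Z) (hm : m ≤ K.Cm + 1) (hX : 0 ≤ K.Cc → 0 ≤ X ∧ X ≤ (20 * (K.Cc + 2)) ^ 2) (hc : 0 ≤ K.Cc → (t.card : ℝ) ≤ m * X ^ k * Z) : (t.card : ℝ) ≤ c.Cm * Z := by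
  have hCm := fb_g_Cm_nonneg h𝔠 i
  rcases t.eq_empty_or_nonempty with rfl | ⟨a, -⟩
  · have : 0 ≤ c.Cm := le_trans (by positivity) (fb_g_cm hF hCm 0 le_rfl (by positivity))
    simp only [Finset.card_empty, Nat.cast_zero]
    positivity
  · have hCc := fb_g_Cc_nonneg h𝔠 i (f a)
    have h0 := (hX hCc).1
    calc (t.card : ℝ) ≤ m * X ^ k * Z := hc hCc
      _ ≤ (K.Cm + 1) * X ^ k * Z := by gcongr
      _ ≤ c.Cm * Z := mul_le_mul_of_nonneg_right (fb_g_cm hF hCm X h0 (hX hCc).2) hZ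

/-- **LEAF L-F1-B4: geometry of `tH`.**   PLAN: `netPi_spec` (near, separated), `fb_pack` (`nlab0`, `nch`: labels of multiplicity `K.Cm` at the scale `1/h` in a ball of radius `K.Cc`, resp. `1/H`), `fb_sep_mult` (`mult1`, `nlab1`), `hleaf`. -/
theorem fb_geo_H (c : TCls k) (K : XCls) (hF : Fit c K) (cthr T₁ : ℝ) (P : ℕ) (𝔠 : XCfg k Λ) (h𝔠 : 𝔠.Ok cthr K T₁ P) (i : Fin (k + 1)) (χ₁ : ℝ → ℂ) (Cx H : ℝ) (hH : 1 ≤ H) (hHh : H ≤ 𝔠.h)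
    (hleaf : ∀ T ∈ 𝔠.W0 i, IsPk (c.ρ 0) c.M 𝔠.h (𝔠.frU i T.1) (lat T.2) (Cx * 𝔠.a i (T.1.1, T.2.1)) (toB (𝔠.lv i χ₁ T)))
    (W1 : Finset (𝔠.BinT i H × Lat k)) (Yf : Finset (Lat k)) (hY : SepY 𝔠 Yf) (x : XCfg.Aux) : (𝔠.tH i χ₁ Cx H W1 Yf x).Geo c := by
  have hH0 : 0 < H := by linarith
  have hh : 0 < 𝔠.h := by linarith
  have hCm := fb_g_Cm_nonneg h𝔠 i
  have hinv : 𝔠.h⁻¹ ≤ H⁻¹ := inv_anti₀ hH0 hHh
  have hinv1 : H⁻¹ ≤ 1 := inv_le_one_of_one_le₀ hH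
  refine ⟨hH, hHh, ?_, ?_, ?_, ?_, ?_, ?_, ?_, hleaf, hY.2 i⟩
  · intro v
    show ‖𝔠.frU i v - 𝔠.frU i (𝔠.piH i H v)‖ ≤ c.Cc / H
    have h1 := fb_g_near 𝔠 i hH0 v
    have h2 := fb_g_Cc_nonneg h𝔠 i v
    have h3 := hF.Cc
    rw [div_eq_mul_inv]
    have : 0 < H⁻¹ := inv_pos.mpr hH0
    nlinarith
  · intro b
    show ‖𝔠.frU i b.1‖ ≤ c.Cc
    have := fb_g_freq h𝔠 i b.1
    linarith [hF.Cc]
  · intro ξ
    show (((Finset.univ : Finset (𝔠.UL i)).filter fun v => ‖𝔠.frU i v - ξ‖ ≤ 𝔠.h⁻¹).card : ℝ) ≤ c.Cm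
    have h1 := fb_g_fin hF h𝔠 i ((Finset.univ : Finset (𝔠.UL i)).filter fun v => ‖𝔠.frU i v - ξ‖ ≤ 𝔠.h⁻¹) id 1 1 K.Cm zero_le_one (by linarith)
      (fun h => ⟨zero_le_one, by nlinarith⟩) (fun _ => by
        rw [one_pow, mul_one, mul_one]
        exact fb_g_mult h𝔠 i _ ξ)
    rwa [mul_one] at h1
  · intro ξ
    show (((Finset.univ : Finset (𝔠.BinT i H)).filter fun b => ‖𝔠.frU i b.1 - ξ‖ ≤ H⁻¹).card : ℝ) ≤ c.Cm
    have h1 := fb_g_fin hF h𝔠 i ((Finset.univ : Finset (𝔠.BinT i H)).filter fun b => ‖𝔠.frU i b.1 - ξ‖ ≤ H⁻¹) Subtype.val 5 1 1 zero_le_one (by linarith)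
      (fun h => ⟨by norm_num, by nlinarith⟩) (fun _ => by
        rw [one_mul, mul_one]
        have := fb_g_bin 𝔠 i hH0 ((Finset.univ : Finset (𝔠.BinT i H)).filter fun b => ‖𝔠.frU i b.1 - ξ‖ ≤ H⁻¹) ξ 1 le_rfl (by
          intro b hb
          rw [one_mul]
          exact (Finset.mem_filter.mp hb).2)
        rwa [mul_one] at this)
    rwa [mul_one] at h1
  · show ((Finset.univ : Finset (𝔠.UL i)).card : ℝ) ≤ c.Cm * 𝔠.h ^ k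
    refine fb_g_fin hF h𝔠 i Finset.univ id (5 * (K.Cc + 1)) (𝔠.h ^ k) K.Cm (by positivity) (by linarith) (fun h => ⟨by positivity, by nlinarith⟩) (fun hCc => ?_)
    have := fb_g_lab h𝔠 i Finset.univ 0 (K.Cc + 1) (by linarith) (fun v _ => by
      rw [sub_zero]
      linarith [fb_g_freq h𝔠 i v])
    rw [mul_assoc, ← mul_pow]
    convert this using 3
    ring
  · show ((Finset.univ : Finset (𝔠.BinT i H)).card : ℝ) ≤ c.Cm * H ^ k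
    refine fb_g_fin hF h𝔠 i Finset.univ Subtype.val (5 * (K.Cc + 1)) (H ^ k) 1 (by positivity) (by linarith) (fun h => ⟨by positivity, by nlinarith⟩) (fun hCc => ?_)
    have := fb_g_bin 𝔠 i hH0 Finset.univ 0 ((K.Cc + 1) * H) (by nlinarith) (fun b _ => by
      rw [sub_zero, mul_assoc, mul_inv_cancel₀ hH0.ne', mul_one]
      linarith [fb_g_freq h𝔠 i b.1])
    rw [one_mul, ← mul_pow]
    convert this using 2
    ring
  · intro b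
    show (((Finset.univ : Finset (𝔠.UL i)).filter fun v => 𝔠.binOf i H v = b).card : ℝ) ≤ c.Cm * (𝔠.h / H) ^ k
    refine fb_g_fin hF h𝔠 i _ id 5 ((𝔠.h / H) ^ k) K.Cm (by positivity) (by linarith) (fun h => ⟨by norm_num, by nlinarith⟩) (fun hCc => ?_)
    have := fb_g_lab h𝔠 i ((Finset.univ : Finset (𝔠.UL i)).filter fun v => 𝔠.binOf i H v = b) (𝔠.frU i b.1) H⁻¹ hinv (fun v hv => by
      have e : 𝔠.binOf i H v = b := (Finset.mem_filter.mp hv).2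
      rw [← e]
      exact fb_g_near 𝔠 i hH0 v)
    rw [mul_assoc, ← mul_pow]
    convert this using 3
    ring

/-- the two representatives of a cluster are close -/
theorem fb_g_clu_near (𝔠 : XCfg k Λ) (i : Fin (k + 1)) {H Kk : ℝ} (hH : 0 < H) (hHK : H ≤ Kk) (p : 𝔠.CluT i H Kk) :
    ‖𝔠.frU i p.1.2 - 𝔠.frU i p.1.1‖ ≤ 2 * H⁻¹ := by
  obtain ⟨v, hv⟩ := p.2
  have hK : 0 < Kk := by linarith
  have h1 := fb_g_near 𝔠 i hH v
  have h2 := fb_g_near 𝔠 i hK v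
  have h3 : Kk⁻¹ ≤ H⁻¹ := inv_anti₀ hH hHK
  rw [← hv]
  have h4 : 𝔠.frU i (𝔠.piH i Kk v) - 𝔠.frU i (𝔠.piH i H v) = (𝔠.frU i v - 𝔠.frU i (𝔠.piH i H v)) - (𝔠.frU i v - 𝔠.frU i (𝔠.piH i Kk v)) := by abel
  show ‖𝔠.frU i (𝔠.piH i Kk v) - 𝔠.frU i (𝔠.piH i H v)‖ ≤ 2 * H⁻¹
  rw [h4]
  have := norm_sub_le (𝔠.frU i v - 𝔠.frU i (𝔠.piH i H v)) (𝔠.frU i v - 𝔠.frU i (𝔠.piH i Kk v))
  linarith

/-- multiplicity of the clusters -/
theorem fb_g_clu_mult (𝔠 : XCfg k Λ) (i : Fin (k + 1)) {H Kk : ℝ} (hH : 0 < H) (hHK : H ≤ Kk) (t : Finset (𝔠.CluT i H Kk)) (ξ : E k) :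
    ((t.filter fun p => ‖𝔠.frU i p.1.2 - ξ‖ ≤ Kk⁻¹).card : ℝ) ≤ 75 ^ k := by
  have hK : 0 < Kk := by linarith
  have h3 : Kk⁻¹ ≤ H⁻¹ := inv_anti₀ hH hHK
  set s := t.filter fun p => ‖𝔠.frU i p.1.2 - ξ‖ ≤ Kk⁻¹ with hs
  have hA : ((s.image fun p => p.1.1).card : ℝ) ≤ (5 * 3) ^ k := by
    refine fb_g_rep 𝔠 i hH _ ?_ ξ 3 (by norm_num) ?_
    · intro u hu
      obtain ⟨p, -, rfl⟩ := Finset.mem_image.mp hu
      obtain ⟨v, hv⟩ := p.2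
      exact ⟨v, by rw [← hv]⟩
    · intro u hu
      obtain ⟨p, hp, rfl⟩ := Finset.mem_image.mp hu
      have h1 := fb_g_clu_near 𝔠 i hH hHK p
      have h2 : ‖𝔠.frU i p.1.2 - ξ‖ ≤ Kk⁻¹ := (Finset.mem_filter.mp hp).2
      have h4 : 𝔠.frU i p.1.1 - ξ = (𝔠.frU i p.1.2 - ξ) - (𝔠.frU i p.1.2 - 𝔠.frU i p.1.1) := by abel
      rw [h4]
      have := norm_sub_le (𝔠.frU i p.1.2 - ξ) (𝔠.frU i p.1.2 - 𝔠.frU i p.1.1)
      linarith
  have hB : ((s.image fun p => p.1.2).card : ℝ) ≤ (5 * 1) ^ k := by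
    refine fb_g_rep 𝔠 i hK _ ?_ ξ 1 le_rfl ?_
    · intro u hu
      obtain ⟨p, -, rfl⟩ := Finset.mem_image.mp hu
      obtain ⟨v, hv⟩ := p.2
      exact ⟨v, by rw [← hv]⟩
    · intro u hu
      obtain ⟨p, hp, rfl⟩ := Finset.mem_image.mp hu
      rw [one_mul]
      exact (Finset.mem_filter.mp hp).2
  have hc : s.card ≤ ((s.image fun p => p.1.1) ×ˢ (s.image fun p => p.1.2)).card := by
    apply Finset.card_le_card_of_injOn Subtype.val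
    · intro p hp
      exact Finset.mem_coe.mpr (Finset.mem_product.mpr ⟨Finset.mem_image_of_mem _ (Finset.mem_coe.mp hp), Finset.mem_image_of_mem _ (Finset.mem_coe.mp hp)⟩)
    · exact Subtype.val_injective.injOn
  rw [Finset.card_product] at hc
  calc (s.card : ℝ) ≤ ((s.image fun p => p.1.1).card : ℝ) * ((s.image fun p => p.1.2).card : ℝ) := by exact_mod_cast hc
    _ ≤ (5 * 3) ^ k * (5 * 1) ^ k := by gcongr
    _ = 75 ^ k := by rw [← mul_pow]; norm_num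

/-- clusters in a ball of radius `R ≥ 1/K` -/
theorem fb_g_clu (𝔠 : XCfg k Λ) (i : Fin (k + 1)) {H Kk : ℝ} (hH : 0 < H) (hHK : H ≤ Kk) (t : Finset (𝔠.CluT i H Kk)) (ξ : E k) (R : ℝ)
    (hR : Kk⁻¹ ≤ R) (hin : ∀ p ∈ t, ‖𝔠.frU i p.1.2 - ξ‖ ≤ R) : (t.card : ℝ) ≤ (375 * (R * Kk)) ^ k := by
  have hK : 0 < Kk := by linarith
  have := fb_pack t (fun p => 𝔠.frU i p.1.2) ξ Kk⁻¹ R (75 ^ k) (inv_pos.mpr hK) hR (by positivity) (fun ζ => fb_g_clu_mult 𝔠 i hH hHK t ζ) hin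
  rw [div_inv_eq_mul, ← mul_pow] at this
  convert this using 2
  ring

/-- **LEAF L-F1-B5: geometry of `tK`.**   PLAN: as `fb_geo_H`; the clusters are PAIRS (bin, representative): at most `(5·3)^k` bins meet a cluster (the bins are `1/H`-separated, all within `3/H` of the representative), so `mult1 ≤ 5^k 15^k`. -/
theorem fb_geo_K (c : TCls k) (K : XCls) (hF : Fit c K) (cthr T₁ : ℝ) (P : ℕ) (𝔠 : XCfg k Λ) (h𝔠 : 𝔠.Ok cthr K T₁ P) (i : Fin (k + 1)) (χ₁ : ℝ → ℂ) (Cx H Kk : ℝ) (hH : 1 ≤ H) (hHK : H ≤ Kk) (hKh : Kk ≤ 𝔠.h)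
    (hleaf : ∀ T ∈ 𝔠.W0 i, IsPk (c.ρ 0) c.M 𝔠.h (𝔠.frU i T.1) (lat T.2) (Cx * 𝔠.a i (T.1.1, T.2.1)) (toB (𝔠.lv i χ₁ T)))
    (R : ℕ) (Yf : Finset (Lat k)) (hY : SepY 𝔠 Yf) (x : XCfg.Aux) : (𝔠.tK i χ₁ Cx H Kk R Yf x).Geo c := by
  have hH0 : 0 < H := by linarith
  have hK0 : 0 < Kk := by linarith
  have hK1 : 1 ≤ Kk := by linarith
  have hh : 0 < 𝔠.h := by linarith
  have hCm := fb_g_Cm_nonneg h𝔠 i
  have hinv : 𝔠.h⁻¹ ≤ Kk⁻¹ := inv_anti₀ hK0 hKh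
  have hinv1 : Kk⁻¹ ≤ 1 := inv_le_one_of_one_le₀ hK1
  refine ⟨hK1, hKh, ?_, ?_, ?_, ?_, ?_, ?_, ?_, hleaf, hY.2 i⟩
  · intro v
    show ‖𝔠.frU i v - 𝔠.frU i (𝔠.piH i Kk v)‖ ≤ c.Cc / Kk
    have h1 := fb_g_near 𝔠 i hK0 v
    have h2 := fb_g_Cc_nonneg h𝔠 i v
    have h3 := hF.Cc
    rw [div_eq_mul_inv]
    have : 0 < Kk⁻¹ := inv_pos.mpr hK0
    nlinarith
  · intro b
    show ‖𝔠.frU i b.1.2‖ ≤ c.Cc
    have := fb_g_freq h𝔠 i b.1.2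
    linarith [hF.Cc]
  · exact (fb_geo_H c K hF cthr T₁ P 𝔠 h𝔠 i χ₁ Cx H hH (hHK.trans hKh) hleaf ∅ Yf hY x).mult0
  · intro ξ
    show (((Finset.univ : Finset (𝔠.CluT i H Kk)).filter fun p => ‖𝔠.frU i p.1.2 - ξ‖ ≤ Kk⁻¹).card : ℝ) ≤ c.Cm
    have h1 := fb_g_fin hF h𝔠 i ((Finset.univ : Finset (𝔠.CluT i H Kk)).filter fun p => ‖𝔠.frU i p.1.2 - ξ‖ ≤ Kk⁻¹) (fun p => p.1.2) 75 1 1 zero_le_one (by linarith)
      (fun h => ⟨by norm_num, by nlinarith⟩) (fun _ => by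
        rw [one_mul, mul_one]
        exact fb_g_clu_mult 𝔠 i hH0 hHK _ ξ)
    rwa [mul_one] at h1
  · exact (fb_geo_H c K hF cthr T₁ P 𝔠 h𝔠 i χ₁ Cx H hH (hHK.trans hKh) hleaf ∅ Yf hY x).nlab0
  · show ((Finset.univ : Finset (𝔠.CluT i H Kk)).card : ℝ) ≤ c.Cm * Kk ^ k
    refine fb_g_fin hF h𝔠 i Finset.univ (fun p => p.1.2) (375 * (K.Cc + 1)) (Kk ^ k) 1 (by positivity) (by linarith) (fun h => ⟨by positivity, by nlinarith⟩) (fun hCc => ?_)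
    have := fb_g_clu 𝔠 i hH0 hHK Finset.univ 0 (K.Cc + 1) (by linarith) (fun p _ => by
      rw [sub_zero]
      linarith [fb_g_freq h𝔠 i p.1.2])
    rw [one_mul, ← mul_pow]
    convert this using 2
    ring
  · intro p
    show (((Finset.univ : Finset (𝔠.UL i)).filter fun v => 𝔠.cluOf i H Kk v = p).card : ℝ) ≤ c.Cm * (𝔠.h / Kk) ^ k
    refine fb_g_fin hF h𝔠 i _ id 5 ((𝔠.h / Kk) ^ k) K.Cm (by positivity) (by linarith) (fun h => ⟨by norm_num, by nlinarith⟩) (fun hCc => ?_)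
    have := fb_g_lab h𝔠 i ((Finset.univ : Finset (𝔠.UL i)).filter fun v => 𝔠.cluOf i H Kk v = p) (𝔠.frU i p.1.2) Kk⁻¹ hinv (fun v hv => by
      have e : 𝔠.cluOf i H Kk v = p := (Finset.mem_filter.mp hv).2
      rw [← e]
      exact fb_g_near 𝔠 i hK0 v)
    rw [mul_assoc, ← mul_pow]
    convert this using 3
    ring

theorem fb_B6_eb_nonneg (t : T2 k) (A : ℝ) (b : t.Λ1) (z : ST k) : 0 ≤ t.eb A b z := by
  unfold T2.eb
  refine Finset.sum_nonneg fun T _ => ?_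
  split_ifs
  · unfold T2.w0 pw
    exact mul_nonneg (sq_nonneg _) (Real.rpow_nonneg (by positivity) _)
  · exact le_rfl

theorem fb_B6_ker0_nonneg (t : T2 k) (A : ℝ) (T : t.Λ0 × Lat k) (z : ST k) : 0 ≤ t.ker0 A T z := by
  unfold T2.ker0
  refine Finset.sum_nonneg fun S _ => ?_
  split_ifs
  · unfold T2.w1 T2.w0 pw
    exact mul_nonneg (Real.rpow_nonneg (by positivity) _) (Real.rpow_nonneg (by positivity) _)
  · exact le_rfl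

/-- **LEAF L-F1-B6: every tree with `Geo` becomes `Good` for suitable `Mc`, `ϖ`** (finite sums are bounded).   PLAN: `Mc := 1 + ∑_{S ∈ W1} eb …`, `ϖ := 1 + ∑_{q ∈ Yf} (…)`; all terms are nonnegative (`Finset.single_le_sum`); `min a b ≤ a`. -/
theorem fb_good_aux (t : T2 k) (c : TCls k) (g : t.Geo c) : ∃ Mc ϖ : ℝ, T2.Good { t with G0 := 2 * (1 + 2 * c.Cc), G1 := 1, Mc := Mc, ηw := 0, ϖ := ϖ } c := by
  have hA : ∀ q, 0 ≤ ∑ T ∈ t.W0, t.s0 T ^ 2 * t.ker0 c.P T (t.pt q) := fun q =>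
    Finset.sum_nonneg fun T _ => mul_nonneg (sq_nonneg _) (fb_B6_ker0_nonneg t _ _ _)
  have hB : ∀ q, 0 ≤ ∑ b : t.Λ1, t.eb c.P b (t.pt q) := fun q => Finset.sum_nonneg fun b _ => fb_B6_eb_nonneg t _ _ _
  have hM : 0 ≤ ∑ S ∈ t.W1, t.eb c.P S.1 (t.ctr1 S) := Finset.sum_nonneg fun S _ => fb_B6_eb_nonneg t _ _ _
  have hAs : 0 ≤ ∑ q ∈ t.Yf, ∑ T ∈ t.W0, t.s0 T ^ 2 * t.ker0 c.P T (t.pt q) := Finset.sum_nonneg fun q _ => hA q
  have hBs : 0 ≤ ∑ q ∈ t.Yf, ∑ b : t.Λ1, t.eb c.P b (t.pt q) := Finset.sum_nonneg fun q _ => hB q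
  refine ⟨1 + ∑ S ∈ t.W1, t.eb c.P S.1 (t.ctr1 S),
    1 + ∑ q ∈ t.Yf, (∑ T ∈ t.W0, t.s0 T ^ 2 * t.ker0 c.P T (t.pt q)) + ∑ q ∈ t.Yf, ∑ b : t.Λ1, t.eb c.P b (t.pt q), ?_⟩
  refine
    { one_le_κ1 := g.one_le_κ1, κ_le := g.κ_le, par_near := g.par_near, top_bdd := g.top_bdd, mult0 := g.mult0, mult1 := g.mult1,
      nlab0 := g.nlab0, nlab1 := g.nlab1, nch := g.nch, leaf := g.leaf, sep := g.sep,
      ηw_nonneg := le_rfl, one_le_G1 := le_rfl, G_step := ?_, one_le_ϖ := ?_, Mc_pos := ?_,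
      sq0 := ?_, ret := ?_, clip := ?_ }
  · show 2 * (1 + 2 * c.Cc) * 1 ≤ 2 * (1 + 2 * c.Cc)
    rw [mul_one]
  · show 1 ≤ 1 + ∑ q ∈ t.Yf, (∑ T ∈ t.W0, t.s0 T ^ 2 * t.ker0 c.P T (t.pt q)) + ∑ q ∈ t.Yf, ∑ b : t.Λ1, t.eb c.P b (t.pt q)
    linarith
  · show 0 < 1 + ∑ S ∈ t.W1, t.eb c.P S.1 (t.ctr1 S)
    linarith
  · intro q hq
    show ∑ T ∈ t.W0, t.s0 T ^ 2 * t.ker0 c.P T (t.pt q)
      ≤ 1 + ∑ q ∈ t.Yf, (∑ T ∈ t.W0, t.s0 T ^ 2 * t.ker0 c.P T (t.pt q)) + ∑ q ∈ t.Yf, ∑ b : t.Λ1, t.eb c.P b (t.pt q)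
    have := Finset.single_le_sum (f := fun q => ∑ T ∈ t.W0, t.s0 T ^ 2 * t.ker0 c.P T (t.pt q)) (fun q _ => hA q) hq
    beta_reduce at this
    linarith
  · intro S hS
    show t.eb c.P S.1 (t.ctr1 S) ≤ 1 + ∑ S ∈ t.W1, t.eb c.P S.1 (t.ctr1 S)
    have := Finset.single_le_sum (f := fun S : t.Λ1 × Lat k => t.eb c.P S.1 (t.ctr1 S)) (fun S _ => fb_B6_eb_nonneg t _ _ _) hS
    beta_reduce at this
    linarith
  · intro q hq
    show ∑ b : t.Λ1, min (t.eb c.P b (t.pt q)) (1 + ∑ S ∈ t.W1, t.eb c.P S.1 (t.ctr1 S))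
      ≤ 1 + ∑ q ∈ t.Yf, (∑ T ∈ t.W0, t.s0 T ^ 2 * t.ker0 c.P T (t.pt q)) + ∑ q ∈ t.Yf, ∑ b : t.Λ1, t.eb c.P b (t.pt q)
    have h1 : ∑ b : t.Λ1, min (t.eb c.P b (t.pt q)) (1 + ∑ S ∈ t.W1, t.eb c.P S.1 (t.ctr1 S)) ≤ ∑ b : t.Λ1, t.eb c.P b (t.pt q) :=
      Finset.sum_le_sum fun b _ => min_le_left _ _
    have := Finset.single_le_sum (f := fun q => ∑ b : t.Λ1, t.eb c.P b (t.pt q)) (fun q _ => hB q) hq
    beta_reduce at this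
    linarith

/-- **LEAF L-F1-B7: geometry of `tF`** (class `shiftC c`).   PLAN: nets as before (`par_near`: `1/K + 1/H ≤ 2/H`); `leaf` = `ti_closure` for the tree `tK` (`fb_geo_K`, `fb_good_aux`, `t2_good`, `t2_adm`; `asmB`, `amp` do not depend on the auxiliary parameters; `t2_asm`, `t2_amp`);
`(shiftC c).ρ 0 = c.ρ 1`. -/
theorem fb_geo_F (c : TCls k) (hc : c.Ok) (hℓ : c.ℓ = 1) (htr : c.tr = 1) (K : XCls) (hF : Fit c K) (cthr T₁ : ℝ) (P : ℕ) (𝔠 : XCfg k Λ) (h𝔠 : 𝔠.Ok cthr K T₁ P) (i : Fin (k + 1)) (χ₁ : ℝ → ℂ) (Cx H Kk : ℝ)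
    (hH : 1 ≤ H) (hHK : H ≤ Kk) (hKh : Kk ≤ 𝔠.h)
    (hleaf : ∀ T ∈ 𝔠.W0 i, IsPk (c.ρ 0) c.M 𝔠.h (𝔠.frU i T.1) (lat T.2) (Cx * 𝔠.a i (T.1.1, T.2.1)) (toB (𝔠.lv i χ₁ T)))
    (R : ℕ) (W1 : Finset (𝔠.BinT i H × Lat k)) (Yf : Finset (Lat k)) (hY : SepY 𝔠 Yf) (x : XCfg.Aux) : (𝔠.tF i c χ₁ Cx H Kk R W1 Yf x).Geo (shiftC c) := by
  have hH0 : 0 < H := by linarith
  have hK0 : 0 < Kk := by linarith
  have hCm := fb_g_Cm_nonneg h𝔠 i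
  have hinv : Kk⁻¹ ≤ H⁻¹ := inv_anti₀ hH0 hHK
  have hHi : 0 < H⁻¹ := inv_pos.mpr hH0
  have gH := fb_geo_H c K hF cthr T₁ P 𝔠 h𝔠 i χ₁ Cx H hH (hHK.trans hKh) hleaf W1 Yf hY x
  have gK := fb_geo_K c K hF cthr T₁ P 𝔠 h𝔠 i χ₁ Cx H Kk hH hHK hKh hleaf R Yf hY x
  refine ⟨hH, hHK, ?_, gH.top_bdd, gK.mult1, gH.mult1, gK.nlab1, gH.nlab1, ?_, ?_, hY.2 i⟩
  · intro p
    show ‖𝔠.frU i p.1.2 - 𝔠.frU i p.1.1‖ ≤ c.Cc / H
    have h1 := fb_g_clu_near 𝔠 i hH0 hHK p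
    have h2 := fb_g_Cc_nonneg h𝔠 i p.1.1
    have h3 := hF.Cc
    rw [div_eq_mul_inv]
    nlinarith
  · intro b
    show (((Finset.univ : Finset (𝔠.CluT i H Kk)).filter fun p => 𝔠.cluBin i H Kk p = b).card : ℝ) ≤ c.Cm * (Kk / H) ^ k
    refine fb_g_fin hF h𝔠 i _ (fun p => p.1.2) 750 ((Kk / H) ^ k) 1 (by positivity) (by linarith) (fun h => ⟨by norm_num, by nlinarith⟩) (fun hCc => ?_)
    have := fb_g_clu 𝔠 i hH0 hHK ((Finset.univ : Finset (𝔠.CluT i H Kk)).filter fun p => 𝔠.cluBin i H Kk p = b) (𝔠.frU i b.1) (2 * H⁻¹) (by linarith) (fun p hp => by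
      have e : 𝔠.cluBin i H Kk p = b := (Finset.mem_filter.mp hp).2
      rw [← e]
      exact fb_g_clu_near 𝔠 i hH0 hHK p)
    rw [one_mul, ← mul_pow]
    convert this using 2
    ring
  · intro T hT
    obtain ⟨Mc, ϖ, hgood⟩ := fb_good_aux _ c gK
    let t' : T2 k := { 𝔠.tK i χ₁ Cx H Kk R Yf x with G0 := 2 * (1 + 2 * c.Cc), G1 := 1, Mc := Mc, ηw := 0, ϖ := ϖ }
    have hgood' : t'.Good c := hgood
    have hD := t2_good t' c hc hℓ htr hgood'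
    have hadm := t2_adm t' c hgood'
    have hcl := ti_closure hc _ hD 0 _ _ hadm ⟨T, hT⟩
    rw [t2_amp] at hcl
    have e : (t'.dat c).asm 0 (t'.lf c) ⟨T, hT⟩ = (𝔠.tK i χ₁ Cx H Kk R Yf x).asmB c T := by
      ext z
      rw [t2_asm]
      rfl
    rw [e] at hcl
    exact hcl

/-- **LEAF L-F1-B8: identities for the leaves of `tH`, `tK`.**   PLAN: `Finset.sum_image` (the map `T ↦ (label, (T.2, 0))` is injective on `(𝔠.s i).attach`), `Finset.sum_attach`, `hval`. -/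
theorem fb_leaf_sums (𝔠 : XCfg k Λ) (i : Fin (k + 1)) (F : Λ × (Fin k → ℤ) → ℝ) : ∑ T ∈ 𝔠.W0 i, F (T.1.1, T.2.1) = ∑ T ∈ 𝔠.s i, F T := by
  unfold XCfg.W0
  rw [Finset.sum_image]
  · exact Finset.sum_attach (𝔠.s i) F
  · intro T _ T' _ e
    have h1 := congrArg (fun p => p.1.1) e
    have h2 := congrArg (fun p => p.2.1) e
    exact Subtype.ext (Prod.ext h1 h2)

theorem fb_leaf_sumsC (𝔠 : XCfg k Λ) (i : Fin (k + 1)) (F : Λ × (Fin k → ℤ) → ℂ) : ∑ T ∈ 𝔠.W0 i, F (T.1.1, T.2.1) = ∑ T ∈ 𝔠.s i, F T := by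
  unfold XCfg.W0
  rw [Finset.sum_image]
  · exact Finset.sum_attach (𝔠.s i) F
  · intro T _ T' _ e
    have h1 := congrArg (fun p => p.1.1) e
    have h2 := congrArg (fun p => p.2.1) e
    exact Subtype.ext (Prod.ext h1 h2)

/-- **LEAF L-F1-B9: the partition of unity on big windows.**   PLAN: `hc.χ_pou X : HasSum (fun m => χ (X - lat m)) 1`; `HasSum` = convergence along `Finset`s (`HasSum`/`tendsto_order`/`Metric.tendsto_atTop`): there is a finite `F₀` with `‖1 - ∑_{m ∈ F} …‖ ≤ η` for all `F ⊇ F₀`;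
`F₀ ⊆ latBox k R₀` for `R₀` large; finitely many points: take the maximum. -/
theorem fb_window (c : TCls k) (hc : c.Ok) (Xs : Finset (ST k)) {η : ℝ} (hη : 0 < η) : ∃ R₀ : ℕ, ∀ R, R₀ ≤ R → ∀ X ∈ Xs, ‖1 - ∑ m ∈ latBox k R, c.χ (X - lat m)‖ ≤ η := by
  have hbox : Filter.Tendsto (latBox k) Filter.atTop Filter.atTop := by
    refine Filter.tendsto_atTop_finset_of_monotone ?_ ?_
    · intro R R' hRR' m hm
      unfold latBox at hm ⊢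
      simp only [Finset.mem_product, Fintype.mem_piFinset, Finset.mem_Icc] at hm ⊢
      have : (R : ℤ) ≤ R' := by exact_mod_cast hRR'
      exact ⟨fun i => ⟨by linarith [(hm.1 i).1], by linarith [(hm.1 i).2]⟩, by linarith [hm.2.1], by linarith [hm.2.2]⟩
    · intro m
      refine ⟨(∑ i, (m.1 i).natAbs) + m.2.natAbs, ?_⟩
      unfold latBox
      simp only [Finset.mem_product, Fintype.mem_piFinset, Finset.mem_Icc]
      have h1 : ∀ i, ((m.1 i).natAbs : ℤ) ≤ ((∑ i, (m.1 i).natAbs) + m.2.natAbs : ℕ) := by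
        intro i
        have : (m.1 i).natAbs ≤ ∑ i, (m.1 i).natAbs :=
          Finset.single_le_sum (f := fun i => (m.1 i).natAbs) (fun _ _ => Nat.zero_le _) (Finset.mem_univ i)
        exact_mod_cast this.trans (Nat.le_add_right _ _)
      have h2 : ((m.2).natAbs : ℤ) ≤ ((∑ i, (m.1 i).natAbs) + m.2.natAbs : ℕ) := by
        exact_mod_cast Nat.le_add_left _ _
      refine ⟨fun i => ?_, ?_⟩
      · have := h1 i
        constructor <;> omega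
      · constructor <;> omega
  have hev : ∀ X ∈ Xs, ∀ᶠ R in Filter.atTop, ‖1 - ∑ m ∈ latBox k R, c.χ (X - lat m)‖ ≤ η := by
    intro X _
    have h1 : Filter.Tendsto (fun s : Finset (Lat k) => ∑ m ∈ s, c.χ (X - lat m)) Filter.atTop (nhds 1) := hc.χ_pou X
    have h2 := h1.comp hbox
    have h3 := (Metric.tendsto_nhds.1 h2) η hη
    filter_upwards [h3] with R hR
    rw [← dist_eq_norm, dist_comm]
    exact hR.le
  obtain ⟨R₀, hR₀⟩ := Filter.eventually_atTop.1 ((Filter.eventually_all_finset Xs).2 hev)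
  exact ⟨R₀, hR₀⟩

/-- helper of L-F1-B10, B11 (helper42): the pre-cutoff field pointwise -/
theorem fb_pre_apply (t : T2 k) (b : t.Λ1) (z : ST k) : t.pre b z = ∑ T ∈ t.W0, if t.par T.1 = b then t.g0 T z else 0 := by
  unfold T2.pre
  rw [BoundedContinuousFunction.coe_sum, Finset.sum_apply]
  refine Finset.sum_congr rfl fun T _ => ?_
  split_ifs
  · rfl
  · rfl

/-- helper of L-F1-B11 (helper42): the same with any decidability instances -/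
theorem fb_pre_apply_dec (t : T2 k) (b : t.Λ1) (z : ST k) {D : ∀ T : t.Λ0 × Lat k, Decidable (t.par T.1 = b)} :
    t.pre b z = ∑ T ∈ t.W0, @ite ℂ (t.par T.1 = b) (D T) (t.g0 T z) 0 := by
  rw [fb_pre_apply]
  refine Finset.sum_congr rfl fun T _ => ?_
  congr

/-- helper of L-F1-B10 (helper42): the unmasked field is the sum of the pre-cutoff fields of the bins -/
theorem fb_full_eq (t : T2 k) (z : ST k) : t.full z = ∑ b, t.pre b z := by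
  unfold T2.full
  simp only [fb_pre_apply]
  rw [Finset.sum_comm]
  refine Finset.sum_congr rfl fun T _ => ?_
  rw [Finset.sum_ite_eq]
  simp

/-- helper of L-F1-B10 (helper42): the masked field of a full window -/
theorem fb_root_eq (t : T2 k) (c : TCls k) (L : Finset (Lat k)) (hW : t.W1 = Finset.univ ×ˢ L) (z : ST k) :
    t.root c z = ∑ b, (∑ m ∈ L, c.χ (natX t.κ1 (t.fr1 b) z - lat m)) * t.pre b z := by
  unfold T2.root T2.fldM T2.loc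
  rw [hW, Finset.sum_product]
  refine Finset.sum_congr rfl fun b _ => ?_
  rw [Finset.sum_mul]

/-- helper of L-F1-B10 (helper42): the window defect of a tree -/
theorem fb_root_sub_full (t : T2 k) (c : TCls k) (L : Finset (Lat k)) (hW : t.W1 = Finset.univ ×ˢ L) (z : ST k) {η : ℝ}
    (h : ∀ b, ‖1 - ∑ m ∈ L, c.χ (natX t.κ1 (t.fr1 b) z - lat m)‖ ≤ η) : ‖t.root c z - t.full z‖ ≤ η * ∑ b, ‖t.pre b z‖ := by
  rw [fb_root_eq t c L hW, fb_full_eq, ← Finset.sum_sub_distrib, Finset.mul_sum]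
  refine (norm_sum_le _ _).trans (Finset.sum_le_sum fun b _ => ?_)
  have e : (∑ m ∈ L, c.χ (natX t.κ1 (t.fr1 b) z - lat m)) * t.pre b z - t.pre b z = -((1 - ∑ m ∈ L, c.χ (natX t.κ1 (t.fr1 b) z - lat m)) * t.pre b z) := by ring
  rw [e, norm_neg, norm_mul]
  exact mul_le_mul_of_nonneg_right (h b) (norm_nonneg _)

/-- **LEAF L-F1-B10: the full window of `tH` reproduces the leaf field at the witnesses.**   PLAN: `root = ∑_b (∑_{m ∈ latBox R} χ(X_b z - lat m)) pre b z` (`Finset.sum_product`), `full z = ∑_b pre b z` (fibre `W0` over the bins);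
`fb_window` for the finitely many points `natX H (fr1 b) (wz q)`, with `η' = η/(1 + ∑_{b,q} ‖pre b (wz q)‖)`. -/
theorem fb_window_H (c : TCls k) (hc : c.Ok) (𝔠 : XCfg k Λ) (i : Fin (k + 1)) (χ₁ : ℝ → ℂ) (Cx H : ℝ) (Yf : Finset (Lat k)) (x : XCfg.Aux) {η : ℝ} (hη : 0 < η) : ∃ R₀ : ℕ, ∀ R, R₀ ≤ R → ∀ q ∈ Yf,
    ‖(𝔠.tH i χ₁ Cx H (Finset.univ ×ˢ latBox k R) Yf x).root c (𝔠.wz i q) - (𝔠.tH i χ₁ Cx H (Finset.univ ×ˢ latBox k R) Yf x).full (𝔠.wz i q)‖ ≤ η := by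
  obtain ⟨A, hA⟩ : ∃ A : ℝ, A = ∑ q ∈ Yf, ∑ b, ‖(𝔠.tH i χ₁ Cx H ∅ Yf x).pre b (𝔠.wz i q)‖ := ⟨_, rfl⟩
  have hA0 : 0 ≤ A := by
    rw [hA]
    exact Finset.sum_nonneg fun q _ => Finset.sum_nonneg fun b _ => norm_nonneg _
  obtain ⟨R₀, hR₀⟩ := fb_window c hc (((Finset.univ : Finset (𝔠.BinT i H)) ×ˢ Yf).image fun p => natX H (𝔠.frU i p.1.1) (𝔠.wz i p.2)) (η := η / (1 + A)) (by positivity)
  refine ⟨R₀, fun R hR q hq => ?_⟩
  have h1 := fb_root_sub_full (𝔠.tH i χ₁ Cx H (Finset.univ ×ˢ latBox k R) Yf x) c (latBox k R) rfl (𝔠.wz i q) (η := η / (1 + A))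
    (fun b => hR₀ R hR _ (Finset.mem_image.2 ⟨(b, q), Finset.mem_product.2 ⟨Finset.mem_univ _, hq⟩, rfl⟩))
  refine h1.trans ?_
  have h2 : ∑ b, ‖(𝔠.tH i χ₁ Cx H (Finset.univ ×ˢ latBox k R) Yf x).pre b (𝔠.wz i q)‖ ≤ A := by
    rw [hA]
    exact Finset.single_le_sum (f := fun q => ∑ b, ‖(𝔠.tH i χ₁ Cx H ∅ Yf x).pre b (𝔠.wz i q)‖) (fun q _ => Finset.sum_nonneg fun b _ => norm_nonneg _) hq
  calc η / (1 + A) * ∑ b, ‖(𝔠.tH i χ₁ Cx H (Finset.univ ×ˢ latBox k R) Yf x).pre b (𝔠.wz i q)‖ ≤ η / (1 + A) * (1 + A) :=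
        mul_le_mul_of_nonneg_left (by linarith) (by positivity)
    _ = η := by field_simp

/-- helper of L-F1-B11 (helper42): the pre-cutoff fields of `tF` through the clusters -/
theorem fb_pre_F (c : TCls k) (𝔠 : XCfg k Λ) (i : Fin (k + 1)) (χ₁ : ℝ → ℂ) (Cx H Kk : ℝ) (R : ℕ) (W1 : Finset (𝔠.BinT i H × Lat k)) (Yf : Finset (Lat k)) (x : XCfg.Aux) (b : 𝔠.BinT i H) (z : ST k) :
    (𝔠.tF i c χ₁ Cx H Kk R W1 Yf x).pre b z
      = ∑ p : 𝔠.CluT i H Kk, if 𝔠.cluBin i H Kk p = b then (∑ m ∈ latBox k R, c.χ (natX Kk (𝔠.frU i p.1.2) z - lat m)) * (𝔠.tK i χ₁ Cx H Kk 0 Yf x).pre p z else 0 := by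
  have eF : (𝔠.tF i c χ₁ Cx H Kk R W1 Yf x).pre b z
      = ∑ T ∈ (Finset.univ : Finset (𝔠.CluT i H Kk)) ×ˢ latBox k R, (if 𝔠.cluBin i H Kk T.1 = b then (𝔠.tK i χ₁ Cx H Kk R Yf x).asmB c T z else 0) :=
    fb_pre_apply_dec (𝔠.tF i c χ₁ Cx H Kk R W1 Yf x) b z
  rw [eF, Finset.sum_product]
  refine Finset.sum_congr rfl fun p _ => ?_
  split_ifs with h
  · rw [Finset.sum_mul]
    rfl
  · exact Finset.sum_const_zero

/-- helper of L-F1-B11 (helper42): the pre-cutoff fields of `tH` through the clusters -/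
theorem fb_pre_H (𝔠 : XCfg k Λ) (i : Fin (k + 1)) (χ₁ : ℝ → ℂ) (Cx H Kk : ℝ) (W1 : Finset (𝔠.BinT i H × Lat k)) (Yf : Finset (Lat k)) (x : XCfg.Aux) (b : 𝔠.BinT i H) (z : ST k) :
    (𝔠.tH i χ₁ Cx H W1 Yf x).pre b z = ∑ p : 𝔠.CluT i H Kk, if 𝔠.cluBin i H Kk p = b then (𝔠.tK i χ₁ Cx H Kk 0 Yf x).pre p z else 0 := by
  have eK : ∀ p : 𝔠.CluT i H Kk, (𝔠.tK i χ₁ Cx H Kk 0 Yf x).pre p z = ∑ T ∈ 𝔠.W0 i, (if 𝔠.cluOf i H Kk T.1 = p then toB (𝔠.lv i χ₁ T) z else 0) :=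
    fun p => fb_pre_apply_dec (𝔠.tK i χ₁ Cx H Kk 0 Yf x) p z
  have eH : (𝔠.tH i χ₁ Cx H W1 Yf x).pre b z = ∑ T ∈ 𝔠.W0 i, (if 𝔠.binOf i H T.1 = b then toB (𝔠.lv i χ₁ T) z else 0) :=
    fb_pre_apply_dec (𝔠.tH i χ₁ Cx H W1 Yf x) b z
  rw [eH]
  simp only [eK]
  have e : ∀ p : 𝔠.CluT i H Kk, (if 𝔠.cluBin i H Kk p = b then ∑ T ∈ 𝔠.W0 i, (if 𝔠.cluOf i H Kk T.1 = p then toB (𝔠.lv i χ₁ T) z else 0) else 0)
      = ∑ T ∈ 𝔠.W0 i, if 𝔠.cluOf i H Kk T.1 = p then (if 𝔠.cluBin i H Kk p = b then toB (𝔠.lv i χ₁ T) z else 0) else 0 := by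
    intro p
    split_ifs with h
    · rfl
    · simp
  simp only [e]
  rw [Finset.sum_comm]
  refine Finset.sum_congr rfl fun T _ => ?_
  rw [Finset.sum_ite_eq, if_pos (Finset.mem_univ _), XCfg.cluBin_cluOf]

/-- helper of L-F1-B11 (helper42): the defect of the pre-cutoff fields -/
theorem fb_pre_sub (c : TCls k) (𝔠 : XCfg k Λ) (i : Fin (k + 1)) (χ₁ : ℝ → ℂ) (Cx H Kk : ℝ) (R : ℕ) (W1 : Finset (𝔠.BinT i H × Lat k)) (Yf : Finset (Lat k)) (x : XCfg.Aux) (b : 𝔠.BinT i H) (z : ST k) {η : ℝ}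
    (hη : 0 ≤ η) (h : ∀ p : 𝔠.CluT i H Kk, ‖1 - ∑ m ∈ latBox k R, c.χ (natX Kk (𝔠.frU i p.1.2) z - lat m)‖ ≤ η) :
    ‖(𝔠.tF i c χ₁ Cx H Kk R W1 Yf x).pre b z - (𝔠.tH i χ₁ Cx H W1 Yf x).pre b z‖ ≤ η * ∑ p : 𝔠.CluT i H Kk, ‖(𝔠.tK i χ₁ Cx H Kk 0 Yf x).pre p z‖ := by
  rw [fb_pre_F, fb_pre_H 𝔠 i χ₁ Cx H Kk, ← Finset.sum_sub_distrib, Finset.mul_sum]
  refine (norm_sum_le _ _).trans (Finset.sum_le_sum fun p _ => ?_)
  split_ifs with hb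
  · have e : (∑ m ∈ latBox k R, c.χ (natX Kk (𝔠.frU i p.1.2) z - lat m)) * (𝔠.tK i χ₁ Cx H Kk 0 Yf x).pre p z - (𝔠.tK i χ₁ Cx H Kk 0 Yf x).pre p z
        = -((1 - ∑ m ∈ latBox k R, c.χ (natX Kk (𝔠.frU i p.1.2) z - lat m)) * (𝔠.tK i χ₁ Cx H Kk 0 Yf x).pre p z) := by ring
    rw [e, norm_neg, norm_mul]
    exact mul_le_mul_of_nonneg_right (h p) (norm_nonneg _)
  · rw [sub_zero, norm_zero]
    exact mul_nonneg hη (norm_nonneg _)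

/-- **LEAF L-F1-B11: the masked fields of `tF` and `tH` agree at the witnesses up to the window defect of `tK`.**
PLAN: `(tF).pre b = ∑_{p ∈ cluIn b} (∑_{m ∈ latBox R} χ(X_p z - lat m)) (tK).pre p`, `(tH).pre b = ∑_{p ∈ cluIn b} (tK).pre p` (`cluBin_cluOf`); the localisers of the masks are the same; `fb_window` for the finitely many points `natX K (fr p) (wz q)`. -/
theorem fb_window_F (c : TCls k) (hc : c.Ok) (𝔠 : XCfg k Λ) (i : Fin (k + 1)) (χ₁ : ℝ → ℂ) (Cx H Kk : ℝ) (W : Finset (𝔠.BinT i H × Lat k)) (Yf : Finset (Lat k)) (x : XCfg.Aux) {η : ℝ} (hη : 0 < η) :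
    ∃ R₀ : ℕ, ∀ R, R₀ ≤ R → ∀ W1 ⊆ W, ∀ q ∈ Yf, ‖(𝔠.tF i c χ₁ Cx H Kk R W1 Yf x).root c (𝔠.wz i q) - (𝔠.tH i χ₁ Cx H W1 Yf x).root c (𝔠.wz i q)‖ ≤ η := by
  obtain ⟨F, hF⟩ : ∃ F : Lat k → ℝ, F = fun q => (∑ S ∈ W, ‖c.χ (natX H (𝔠.frU i S.1.1) (𝔠.wz i q) - lat S.2)‖) * ∑ p : 𝔠.CluT i H Kk, ‖(𝔠.tK i χ₁ Cx H Kk 0 Yf x).pre p (𝔠.wz i q)‖ := ⟨_, rfl⟩
  have hF0 : ∀ q, 0 ≤ F q := by
    intro q
    rw [hF]
    exact mul_nonneg (Finset.sum_nonneg fun _ _ => norm_nonneg _) (Finset.sum_nonneg fun _ _ => norm_nonneg _)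
  obtain ⟨A, hA⟩ : ∃ A : ℝ, A = ∑ q ∈ Yf, F q := ⟨_, rfl⟩
  have hA0 : 0 ≤ A := by
    rw [hA]
    exact Finset.sum_nonneg fun q _ => hF0 q
  have hη' : 0 < η / (1 + A) := by positivity
  obtain ⟨R₀, hR₀⟩ := fb_window c hc (((Finset.univ : Finset (𝔠.CluT i H Kk)) ×ˢ Yf).image fun p => natX Kk (𝔠.frU i p.1.1.2) (𝔠.wz i p.2)) hη'
  refine ⟨R₀, fun R hR W1 hW1 q hq => ?_⟩
  have h1 : ∀ b : 𝔠.BinT i H, ‖(𝔠.tF i c χ₁ Cx H Kk R W1 Yf x).pre b (𝔠.wz i q) - (𝔠.tH i χ₁ Cx H W1 Yf x).pre b (𝔠.wz i q)‖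
      ≤ η / (1 + A) * ∑ p : 𝔠.CluT i H Kk, ‖(𝔠.tK i χ₁ Cx H Kk 0 Yf x).pre p (𝔠.wz i q)‖ := fun b =>
    fb_pre_sub c 𝔠 i χ₁ Cx H Kk R W1 Yf x b (𝔠.wz i q) hη'.le
      (fun p => hR₀ R hR _ (Finset.mem_image.2 ⟨(p, q), Finset.mem_product.2 ⟨Finset.mem_univ _, hq⟩, rfl⟩))
  have e : (𝔠.tF i c χ₁ Cx H Kk R W1 Yf x).root c (𝔠.wz i q) - (𝔠.tH i χ₁ Cx H W1 Yf x).root c (𝔠.wz i q)
      = ∑ S ∈ W1, c.χ (natX H (𝔠.frU i S.1.1) (𝔠.wz i q) - lat S.2) * ((𝔠.tF i c χ₁ Cx H Kk R W1 Yf x).pre S.1 (𝔠.wz i q) - (𝔠.tH i χ₁ Cx H W1 Yf x).pre S.1 (𝔠.wz i q)) := by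
    simp only [mul_sub, Finset.sum_sub_distrib]
    rfl
  rw [e]
  have h2 : F q ≤ A := by
    rw [hA]
    exact Finset.single_le_sum (fun q _ => hF0 q) hq
  calc ‖∑ S ∈ W1, c.χ (natX H (𝔠.frU i S.1.1) (𝔠.wz i q) - lat S.2) * ((𝔠.tF i c χ₁ Cx H Kk R W1 Yf x).pre S.1 (𝔠.wz i q) - (𝔠.tH i χ₁ Cx H W1 Yf x).pre S.1 (𝔠.wz i q))‖
      ≤ ∑ S ∈ W1, ‖c.χ (natX H (𝔠.frU i S.1.1) (𝔠.wz i q) - lat S.2)‖ * (η / (1 + A) * ∑ p : 𝔠.CluT i H Kk, ‖(𝔠.tK i χ₁ Cx H Kk 0 Yf x).pre p (𝔠.wz i q)‖) := by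
        refine (norm_sum_le _ _).trans (Finset.sum_le_sum fun S _ => ?_)
        rw [norm_mul]
        exact mul_le_mul_of_nonneg_left (h1 S.1) (norm_nonneg _)
    _ ≤ ∑ S ∈ W, ‖c.χ (natX H (𝔠.frU i S.1.1) (𝔠.wz i q) - lat S.2)‖ * (η / (1 + A) * ∑ p : 𝔠.CluT i H Kk, ‖(𝔠.tK i χ₁ Cx H Kk 0 Yf x).pre p (𝔠.wz i q)‖) :=
        Finset.sum_le_sum_of_subset_of_nonneg hW1 fun S _ _ => mul_nonneg (norm_nonneg _) (mul_nonneg hη'.le (Finset.sum_nonneg fun _ _ => norm_nonneg _))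
    _ = η / (1 + A) * F q := by
        rw [hF, ← Finset.sum_mul]
        ring
    _ ≤ η / (1 + A) * (1 + A) := mul_le_mul_of_nonneg_left (by linarith) hη'.le
    _ = η := by field_simp

/-- **LEAF L-F1-B12: slab count of the bins** (hypothesis `slab` of the block SM).   PLAN: the bin centres are `1/H`-separated in the ball `K.Cc`; the balls of radius `1/(2H)` about the centres in the slab are disjoint and lie in the slab of half width `lam + 1/(2H)` intersected with the ball `K.Cc + 1`: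
volume comparison; or: project to `e^⊥` and use `fb_sep_mult` on a grid of boxes of side `1/H`: the slab ∩ ball is covered by `≤ C H^{k-1} (lam H + 1)` balls of radius `1/H`. -/
theorem fb_slab (k : ℕ) (Cc : ℝ) : ∃ Cs : ℝ, 0 ≤ Cs ∧ ∀ {ι : Type} (t : Finset ι) (fr : ι → E k) (H : ℝ), 1 ≤ H → (∀ v ∈ t, ‖fr v‖ ≤ Cc) → (∀ v ∈ t, ∀ v' ∈ t, v ≠ v' → H⁻¹ < ‖fr v - fr v'‖) →
    ∀ (e : E k) (a lam : ℝ), ‖e‖ = 1 → 0 ≤ lam → ((t.filter fun v => |⟪fr v, e⟫_ℝ - a| ≤ lam).card : ℝ) ≤ Cs * H ^ k * (lam + 1 / H) := by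
  obtain ⟨D, hD⟩ : ∃ D, D = max Cc 1 := ⟨_, rfl⟩
  have hD1 : 1 ≤ D := by rw [hD]; exact le_max_right _ _
  have hDc : Cc ≤ D := by rw [hD]; exact le_max_left _ _
  have hD0 : 0 < D := by linarith
  refine ⟨2 * (30 * D) ^ k, by positivity, ?_⟩
  intro ι t fr H hH hbd hsep e a lam he hlam
  have hH0 : 0 < H := by linarith
  have hHi : 0 < H⁻¹ := inv_pos.2 hH0
  obtain ⟨T, hT⟩ : ∃ T, T = t.filter fun v => |⟪fr v, e⟫_ℝ - a| ≤ lam := ⟨_, rfl⟩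
  rw [← hT]
  have hTt : ∀ v ∈ T, v ∈ t := fun v hv => by rw [hT] at hv; exact (Finset.mem_filter.1 hv).1
  have hTs : ∀ v ∈ T, |⟪fr v, e⟫_ℝ - a| ≤ lam := fun v hv => by rw [hT] at hv; exact (Finset.mem_filter.1 hv).2
  have hHk : 0 < H ^ k := by positivity
  by_cases hcase : lam ≤ D
  · -- translate the slab
    obtain ⟨s, hs⟩ : ∃ s, s = 2 * lam + 2 * H⁻¹ := ⟨_, rfl⟩
    have hs0 : 0 < s := by rw [hs]; positivity
    have hHi1 : H⁻¹ ≤ 1 := inv_le_one_of_one_le₀ hH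
    have hs4 : s ≤ 4 * D := by rw [hs]; linarith
    obtain ⟨n, hn⟩ : ∃ n : ℕ, n = ⌈D / s⌉₊ := ⟨_, rfl⟩
    have hn1 : D / s ≤ n := by rw [hn]; exact Nat.le_ceil _
    have hn2 : (n : ℝ) < D / s + 1 := by rw [hn]; exact Nat.ceil_lt_add_one (by positivity)
    have hns1 : D ≤ n * s := by rwa [div_le_iff₀ hs0] at hn1
    have hns2 : (n : ℝ) * s ≤ D + s := by
      have : (n : ℝ) * s < (D / s + 1) * s := mul_lt_mul_of_pos_right hn2 hs0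
      rw [add_mul, div_mul_cancel₀ _ hs0.ne', one_mul] at this
      exact this.le
    have hn0 : (0 : ℝ) < n := by
      have : 0 < D / s := by positivity
      linarith
    obtain ⟨p, hp⟩ : ∃ p : ι × ℕ → E k, p = fun x => fr x.1 + ((x.2 : ℝ) * s) • e := ⟨_, rfl⟩
    have hee : ⟪e, e⟫_ℝ = 1 := by rw [real_inner_self_eq_norm_sq, he, one_pow]
    have hcard := fb_pack_sep (T ×ˢ Finset.range n) p 0 H⁻¹ (H * (6 * D)) hHi (by nlinarith)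
      (by
        rintro ⟨v, j⟩ hx ⟨v', j'⟩ hx' hne
        obtain ⟨hv, hj⟩ := Finset.mem_product.1 hx
        obtain ⟨hv', hj'⟩ := Finset.mem_product.1 hx'
        simp only at hv hv' hj hj'
        rw [hp]
        simp only
        by_cases hjj : j = j'
        · subst hjj
          have hvv : v ≠ v' := fun h => hne (by rw [h])
          rw [add_sub_add_right_eq_sub]
          exact hsep v (hTt v hv) v' (hTt v' hv') hvv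
        · have h1 : |⟪fr v + ((j : ℝ) * s) • e - (fr v' + ((j' : ℝ) * s) • e), e⟫_ℝ|
              ≤ ‖fr v + ((j : ℝ) * s) • e - (fr v' + ((j' : ℝ) * s) • e)‖ := by
            have := abs_real_inner_le_norm (fr v + ((j : ℝ) * s) • e - (fr v' + ((j' : ℝ) * s) • e)) e
            rwa [he, mul_one] at this
          have h2 : ⟪fr v + ((j : ℝ) * s) • e - (fr v' + ((j' : ℝ) * s) • e), e⟫_ℝ
              = (⟪fr v, e⟫_ℝ - a) - (⟪fr v', e⟫_ℝ - a) + ((j : ℝ) - j') * s := by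
            rw [inner_sub_left, inner_add_left, inner_add_left, real_inner_smul_left, real_inner_smul_left, hee]
            ring
          have h3 : (1 : ℝ) ≤ |(j : ℝ) - j'| := by
            have : (j : ℤ) - j' ≠ 0 := by omega
            have h4 : (1 : ℤ) ≤ |(j : ℤ) - j'| := Int.one_le_abs this
            exact_mod_cast h4
          have h5 : s ≤ |((j : ℝ) - j') * s| := by
            rw [abs_mul, abs_of_pos hs0]
            nlinarith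
          have b1 := abs_le.1 (hTs v hv)
          have b2 := abs_le.1 (hTs v' hv')
          refine lt_of_lt_of_le ?_ h1
          rw [h2]
          rcases le_abs'.1 h5 with h6 | h6
          · have : (⟪fr v, e⟫_ℝ - a) - (⟪fr v', e⟫_ℝ - a) + ((j : ℝ) - j') * s ≤ -(2 * H⁻¹) := by
              linarith [b1.2, b2.1, hs]
            rw [abs_of_nonpos (by linarith)]
            linarith
          · have : 2 * H⁻¹ ≤ (⟪fr v, e⟫_ℝ - a) - (⟪fr v', e⟫_ℝ - a) + ((j : ℝ) - j') * s := by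
              linarith [b1.1, b2.2, hs]
            rw [abs_of_nonneg (by linarith)]
            linarith)
      (by
        rintro ⟨v, j⟩ hx
        obtain ⟨hv, hj⟩ := Finset.mem_product.1 hx
        simp only at hv hj
        rw [hp, sub_zero]
        simp only
        have hjn : (j : ℝ) ≤ n := by exact_mod_cast (Finset.mem_range.1 hj).le
        have h1 : ‖((j : ℝ) * s) • e‖ ≤ n * s := by
          rw [norm_smul, he, mul_one, Real.norm_of_nonneg (by positivity)]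
          exact mul_le_mul_of_nonneg_right hjn hs0.le
        have h2 : H * (6 * D) * H⁻¹ = 6 * D := by
          field_simp
        rw [h2]
        calc ‖fr v + ((j : ℝ) * s) • e‖ ≤ ‖fr v‖ + ‖((j : ℝ) * s) • e‖ := norm_add_le _ _
          _ ≤ D + (D + s) := add_le_add ((hbd v (hTt v hv)).trans hDc) (h1.trans hns2)
          _ ≤ 6 * D := by linarith)
    rw [Finset.card_product, Finset.card_range] at hcard
    push_cast at hcard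
    have e1 : (5 * (H * (6 * D))) ^ k = (30 * D) ^ k * H ^ k := by
      rw [← mul_pow]
      congr 1
      ring
    rw [e1] at hcard
    -- divide by `n ≥ D / s`
    have hB0 : 0 ≤ (30 * D) ^ k * H ^ k := by positivity
    have h7 : (T.card : ℝ) * D ≤ (30 * D) ^ k * H ^ k * s := by
      calc (T.card : ℝ) * D ≤ (T.card : ℝ) * (n * s) := mul_le_mul_of_nonneg_left hns1 (Nat.cast_nonneg _)
        _ = (T.card : ℝ) * n * s := by ring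
        _ ≤ (30 * D) ^ k * H ^ k * s := mul_le_mul_of_nonneg_right hcard hs0.le
    have h8 : (T.card : ℝ) ≤ (T.card : ℝ) * D := le_mul_of_one_le_right (Nat.cast_nonneg _) hD1
    calc (T.card : ℝ) ≤ (30 * D) ^ k * H ^ k * s := h8.trans h7
      _ = 2 * (30 * D) ^ k * H ^ k * (lam + 1 / H) := by rw [hs, one_div]; ring
  · have hcase' : D < lam := not_le.1 hcase
    have hcard := fb_pack_sep T fr 0 H⁻¹ (H * D) hHi (by nlinarith)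
      (fun v hv v' hv' hne => hsep v (hTt v hv) v' (hTt v' hv') hne)
      (by
        intro v hv
        have h2 : H * D * H⁻¹ = D := by field_simp
        rw [h2, sub_zero]
        exact (hbd v (hTt v hv)).trans hDc)
    have e1 : (5 * (H * D)) ^ k = (5 * D) ^ k * H ^ k := by
      rw [← mul_pow]
      congr 1
      ring
    rw [e1] at hcard
    have h1 : (5 * D) ^ k ≤ (30 * D) ^ k := pow_le_pow_left₀ (by positivity) (by linarith) k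
    have h2 : (1 : ℝ) ≤ lam + 1 / H := by
      have : 0 < 1 / H := by positivity
      linarith
    calc (T.card : ℝ) ≤ (5 * D) ^ k * H ^ k := hcard
      _ ≤ (30 * D) ^ k * H ^ k := mul_le_mul_of_nonneg_right h1 hHk.le
      _ ≤ 2 * (30 * D) ^ k * H ^ k := by nlinarith [mul_pos (pow_pos (by positivity : 0 < 30 * D) k) hHk]
      _ ≤ 2 * (30 * D) ^ k * H ^ k * (lam + 1 / H) := le_mul_of_one_le_right (by positivity) h2

/-- **LEAF L-F1-B13: the masks meeting a ball** (H l.261-263).   PLAN: per label `b` (`‖fr1 b‖ ≤ Cc`): `natX κ1 (fr1 b)` maps the ball `‖z - z₀‖ ≤ ρ` into `{‖X.1 - X₀.1‖ ≤ (1 + 2Cc) ρ/κ1, |X.2 - X₀.2| ≤ ρ/κ1²}`; the lattice points within `r` of this box: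
`≤ (2((1+2Cc)ρ/κ1 + r) + 1)^k (2(ρ/κ1² + r) + 1)`; for `ρ ≥ κ1`, `r ≥ 1`: `≤ (8 (1 + Cc) r)^{k+1} (ρ/κ1)^k (1 + ρ/κ1²)`;  `h.nlab1`. -/
theorem fb_ball_masks (t : T2 k) (c : TCls k) (hc : c.Ok) (h : t.Geo c) (U : Finset (t.Λ1 × Lat k)) (z₀ : ST k) (ρ r : ℝ) (hρ : t.κ1 ≤ ρ) (hr : 1 ≤ r) :
    ((U.filter fun S => ∃ z, ‖z - z₀‖ ≤ ρ ∧ t.d1 S z ≤ r).card : ℝ) ≤ c.Cm * t.κ1 ^ k * (8 * (1 + c.Cc) * r) ^ (k + 1) * ((ρ / t.κ1) ^ k * (1 + ρ / t.κ1 ^ 2)) := by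
  obtain ⟨Mc, ϖ, hg⟩ := fb_good_aux t c h
  have h1 : ((U.filter fun S => ∃ z, ‖z - z₀‖ ≤ ρ ∧ t.d1 S z ≤ r).card : ℝ)
      ≤ c.Cm * t.κ1 ^ k * (2 * (3 + 4 * c.Cc) ^ k * (1 + r) ^ (k + 1) * (ρ / t.κ1) ^ k * (1 + ρ / t.κ1 ^ 2)) :=
    f1h_cnt_ball _ c hc hg U z₀ (by linarith) hρ
  refine h1.trans ?_
  have hκ : 0 < t.κ1 := lt_of_lt_of_le one_pos h.one_le_κ1
  have hρ0 : 0 < ρ := lt_of_lt_of_le hκ hρ
  have hCc := hc.one_le_Cc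
  have hCm := hc.one_le_Cm
  have a1 : 2 * (3 + 4 * c.Cc) ^ k ≤ (4 * (1 + c.Cc)) ^ (k + 1) := by
    rw [pow_succ, mul_comm]
    exact mul_le_mul (pow_le_pow_left₀ (by positivity) (by linarith) k) (by linarith) (by norm_num) (by positivity)
  have a2 : (1 + r) ^ (k + 1) ≤ (2 * r) ^ (k + 1) := pow_le_pow_left₀ (by positivity) (by linarith) _
  have a3 : 2 * (3 + 4 * c.Cc) ^ k * (1 + r) ^ (k + 1) ≤ (8 * (1 + c.Cc) * r) ^ (k + 1) := by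
    calc 2 * (3 + 4 * c.Cc) ^ k * (1 + r) ^ (k + 1) ≤ (4 * (1 + c.Cc)) ^ (k + 1) * (2 * r) ^ (k + 1) :=
          mul_le_mul a1 a2 (by positivity) (by positivity)
      _ = (8 * (1 + c.Cc) * r) ^ (k + 1) := by rw [← mul_pow]; congr 1; ring
  have hx : 0 ≤ (ρ / t.κ1) ^ k * (1 + ρ / t.κ1 ^ 2) := by positivity
  calc c.Cm * t.κ1 ^ k * (2 * (3 + 4 * c.Cc) ^ k * (1 + r) ^ (k + 1) * (ρ / t.κ1) ^ k * (1 + ρ / t.κ1 ^ 2))
      = c.Cm * t.κ1 ^ k * ((2 * (3 + 4 * c.Cc) ^ k * (1 + r) ^ (k + 1)) * ((ρ / t.κ1) ^ k * (1 + ρ / t.κ1 ^ 2))) := by ring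
    _ ≤ c.Cm * t.κ1 ^ k * ((8 * (1 + c.Cc) * r) ^ (k + 1) * ((ρ / t.κ1) ^ k * (1 + ρ / t.κ1 ^ 2))) :=
        mul_le_mul_of_nonneg_left (mul_le_mul_of_nonneg_right a3 hx) (by positivity)
    _ = _ := by ring

end trees

end

end Claimed.Agent.R257.FR1
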