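import Claimed.Agent.R257.FR1.Defs
import Claimed.Agent.R257.Infra.Lay.PktDecay
import Claimed.Agent.R257.Infra.Lay.Ext
import Claimed.Agent.R257.Infra.Lay.Gram
import Claimed.Agent.R257.Tree.GeoK
import Claimed.Agent.Lib.BD.Ker

/-!
# ROW 257 (S0497), package FR1, block XP: EXACT PACKETS ARE BAND LIMITED PACKETS      (architect helper30; captain FR1 helper249)          CONTRACT

PAPER-FREE (H `frame.tex` l.117-130).   Every `sorry` is a leaf `L-F1-XP*` (name in the docstring).   Statements are frozen; auxiliary lemmas directly above your theorem, prefix `fxp_`; edit only your block.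
TOOLS (all proved): `Infra/Lay` (`iflG`, `iflH`, `ifl_ext`, `ifl_pkt_decay`, `ifl_G_reg`, `IflAmp`), `Infra/Alg` (`inf_ext_translate`, `inf_car_*`), `Lib/BD/Ker` (`exists_bump_pair`, `bde_lower`), `Tree/GeoK` (`latE`).

* `XFam.dat A T`    the PHYSICAL data of the exact packet: `A.U T = ext (A.dat T)`   (`fxp_U_eq`)
* `fxp_ext_decay`   `|ext G X| ≤ C a (1 + |X.2|)^J (1 + |X.1|)^{-J}`
* `XCut T₁ χ χh`    time cutoff: `χ s = ∫ e^{isσ} χh σ dσ`, `χh` continuous, supported in `[-1,1]`; `|χ| ≤ 1`, `|χ| ≥ 1/2` on `|s| ≤ T₁`, rapid decay      (`fxp_cutoff`: existence)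
* `fxp_isPk`        `χ(t/h²) U_T` is a band limited packet `IsPk ρ' M h (fr v) (lat (m,0)) (C a_T)`, `ρ' = ρ + 1 + ρ²`
-/

set_option autoImplicit false

namespace Claimed.Agent.R257.FR1

open Claimed.Agent.R257 Claimed.Agent.R257.Tree MeasureTheory Metric Set
open scoped BigOperators Classical ContDiff InnerProductSpace Real

noncomputable section

variable {k : ℕ} {Λ : Type}

/-- the physical data of the exact packet `U_T`:   `h^k G(h(ξ - v)) e^{-i m·h(ξ - v)}` -/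
def XFam.dat (A : XFam k Λ) (T : Λ × (Fin k → ℤ)) (ξ : E k) : ℂ :=
  ((A.h ^ k : ℝ) : ℂ) * A.G T (A.h • (ξ - A.fr T.1)) * iflE (-⟪A.h • latE T.2, ξ - A.fr T.1⟫_ℝ)

/-- the data of a class of cells -/
theorem XFam.In.amp [Fintype Λ] {A : XFam k Λ} {s : Finset (Λ × (Fin k → ℤ))} {K : XCls} {a : Λ × (Fin k → ℤ) → ℝ}
    (hA : A.In s K a) {T : Λ × (Fin k → ℤ)} (hT : T ∈ s) : IflAmp K.J K.ρ (a T) (A.G T) :=
  ⟨hA.smooth T hT, hA.supp T hT, hA.bound T hT⟩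

theorem XFam.In.h_pos [Fintype Λ] {A : XFam k Λ} {s : Finset (Λ × (Fin k → ℤ))} {K : XCls} {a : Λ × (Fin k → ℤ) → ℝ}
    (hA : A.In s K a) : 0 < A.h := lt_of_lt_of_le one_pos hA.one_le

/-- **LEAF L-F1-XP1.**  `dat` is a multiple of the exact input `iflG` of `Infra/Lay`.   PLAN: unfold `XFam.dat`, `iflG`; `sub_zero`; `h^k = h^{k/2} h^{k/2}` (`Real.rpow_add`, `Real.rpow_natCast`); `(2π)^k ((2π)^k)⁻¹ = 1`. -/
theorem fxp_dat_eq (A : XFam k Λ) (hh : 0 < A.h) (T : Λ × (Fin k → ℤ)) (ξ : E k) :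
    A.dat T ξ = (((2 * π) ^ k * A.h ^ ((k : ℝ) / 2) : ℝ) : ℂ) * iflG A.h (A.fr T.1) (A.h • latE T.2) 0 (A.G T) ξ := by
  unfold XFam.dat iflG
  rw [sub_zero]
  have e : ((A.h ^ k : ℝ)) = ((2 * π) ^ k * A.h ^ ((k : ℝ) / 2)) * (((2 * π) ^ k)⁻¹ * A.h ^ ((k : ℝ) / 2)) := by
    have h1 : A.h ^ ((k : ℝ) / 2) * A.h ^ ((k : ℝ) / 2) = A.h ^ k := by
      rw [← Real.rpow_add hh, add_halves, Real.rpow_natCast]
    have h2 : (2 * π) ^ k ≠ 0 := by positivity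
    calc A.h ^ k = ((2 * π) ^ k * ((2 * π) ^ k)⁻¹) * (A.h ^ ((k : ℝ) / 2) * A.h ^ ((k : ℝ) / 2)) := by
          rw [mul_inv_cancel₀ h2, one_mul, h1]
      _ = _ := by ring
  rw [e, Complex.ofReal_mul]
  ring

/-- **LEAF L-F1-XP2.**  `ext G = (2π)^k iflH G 0`.   PLAN: unfold `ext`, `iflH`, `car`, `iflE`; `zero_add`; `mul_comm` under the integral (`integral_congr_ae`), `integral_const_mul`. -/
theorem fxp_ext_eq_iflH (G : E k → ℂ) (X : ST k) : ext G X = (((2 * π) ^ k : ℝ) : ℂ) * iflH G 0 X := by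
  unfold ext iflH
  rw [← mul_assoc, ← Complex.ofReal_mul, mul_inv_cancel₀ (by positivity), Complex.ofReal_one, one_mul]
  refine integral_congr_ae (Filter.Eventually.of_forall fun ξ => ?_)
  simp only [zero_add]
  rw [mul_comm]
  rfl

/-- **LEAF L-F1-XP3: an exact packet is an exact solution.**   PLAN: `fxp_dat_eq` under the integral, `ext` is linear (`integral_const_mul`), `ifl_ext`, `fxp_ext_eq_iflH`;
`chart h v (h • latE m) 0 z = natX h v z - lat (m, 0)` (`Prod.ext`; `smul_sub`, `smul_smul`, `inv_mul_cancel₀`; second component `sub_zero`, `Int.cast_zero`);  `h^{k/2} h^{-k/2} = 1`. -/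
theorem fxp_U_eq (A : XFam k Λ) (hh : 0 < A.h) (T : Λ × (Fin k → ℤ)) (z : ST k) : A.U T z = ext (A.dat T) z := by
  have e1 : ext (A.dat T) z = (((2 * π) ^ k * A.h ^ ((k : ℝ) / 2) : ℝ) : ℂ) * ext (iflG A.h (A.fr T.1) (A.h • latE T.2) 0 (A.G T)) z := by
    unfold ext
    rw [← integral_const_mul]
    refine integral_congr_ae (Filter.Eventually.of_forall fun ξ => ?_)
    simp only
    rw [fxp_dat_eq A hh T ξ]
    ring
  have e2 : chart A.h (A.fr T.1) (A.h • latE T.2) 0 z = natX A.h (A.fr T.1) z - lat (T.2, 0) := by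
    unfold chart natX
    refine Prod.ext ?_ ?_
    · show A.h⁻¹ • (z.1 - A.h • latE T.2 - (2 * z.2) • A.fr T.1) = A.h⁻¹ • (z.1 - (2 * z.2) • A.fr T.1) - latE T.2
      have : z.1 - A.h • latE T.2 - (2 * z.2) • A.fr T.1 = (z.1 - (2 * z.2) • A.fr T.1) - A.h • latE T.2 := by abel
      rw [this, smul_sub, inv_smul_smul₀ hh.ne']
    · show z.2 / A.h ^ 2 - 0 = z.2 / A.h ^ 2 - (((0 : ℤ) : ℝ))
      simp
  have e3 : A.h ^ ((k : ℝ) / 2) * A.h ^ (-(k : ℝ) / 2) = 1 := by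
    rw [← Real.rpow_add hh]
    have : (k : ℝ) / 2 + -(k : ℝ) / 2 = 0 := by ring
    rw [this, Real.rpow_zero]
  rw [e1, ifl_ext hh, e2]
  unfold XFam.U
  rw [fxp_ext_eq_iflH]
  have e4 : (((2 * π) ^ k * A.h ^ ((k : ℝ) / 2) : ℝ) : ℂ) * ((A.h ^ (-(k : ℝ) / 2) : ℝ) : ℂ) = (((2 * π) ^ k : ℝ) : ℂ) := by
    rw [← Complex.ofReal_mul, mul_assoc, e3, mul_one]
  calc car (A.fr T.1) z * ((((2 * π) ^ k : ℝ) : ℂ) * iflH (A.G T) 0 (natX A.h (A.fr T.1) z - lat (T.2, 0)))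
      = ((((2 * π) ^ k : ℝ) : ℂ)) * (car (A.fr T.1) z * iflH (A.G T) 0 (natX A.h (A.fr T.1) z - lat (T.2, 0))) := by ring
    _ = ((((2 * π) ^ k * A.h ^ ((k : ℝ) / 2) : ℝ) : ℂ) * ((A.h ^ (-(k : ℝ) / 2) : ℝ) : ℂ))
          * (car (A.fr T.1) z * iflH (A.G T) 0 (natX A.h (A.fr T.1) z - lat (T.2, 0))) := by rw [e4]
    _ = _ := by ring

/-- **LEAF L-F1-XP4: regularity of the data.**   PLAN: `fxp_dat_eq`, `ifl_G_reg` (`IflAmp 0` from `IflAmp J`), `Continuous.integrable_of_hasCompactSupport`; `smul_zero`, `add_zero`. -/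
theorem fxp_dat_reg (A : XFam k Λ) (hh : 0 < A.h) (T : Λ × (Fin k → ℤ)) {J : ℕ} {ρ a : ℝ} (hG : IflAmp J ρ a (A.G T)) :
    Continuous (A.dat T) ∧ HasCompactSupport (A.dat T) ∧ Integrable (A.dat T) ∧ MemLp (A.dat T) 2 volume ∧
      ∀ ξ, A.dat T ξ ≠ 0 → ‖ξ - A.fr T.1‖ ≤ ρ / A.h := by
  have hG0 : IflAmp 0 ρ a (A.G T) := ⟨hG.smooth, hG.supp, fun j hj θ => hG.bound j (hj.trans (Nat.zero_le _)) θ⟩
  obtain ⟨r1, r2, r3, r4⟩ := ifl_G_reg hh (A.fr T.1) (A.h • latE T.2) 0 hG0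
  have e : A.dat T = fun ξ => (((2 * π) ^ k * A.h ^ ((k : ℝ) / 2) : ℝ) : ℂ) * iflG A.h (A.fr T.1) (A.h • latE T.2) 0 (A.G T) ξ := by
    funext ξ
    exact fxp_dat_eq A hh T ξ
  have c1 : Continuous (A.dat T) := by
    rw [e]
    exact continuous_const.mul r1
  have c2 : HasCompactSupport (A.dat T) := by
    rw [e]
    exact r2.mul_left
  refine ⟨c1, c2, c1.integrable_of_hasCompactSupport c2, ?_, fun ξ hξ => ?_⟩
  · rw [e]
    exact r3.const_mul _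
  · have h1 : iflG A.h (A.fr T.1) (A.h • latE T.2) 0 (A.G T) ξ ≠ 0 := by
      intro h0
      apply hξ
      rw [fxp_dat_eq A hh T ξ, h0, mul_zero]
    have := r4 ξ h1
    rwa [smul_zero, add_zero] at this

/-- **LEAF L-F1-XP5: decay of an exact field in native coordinates, all times.**   PLAN: `ifl_pkt_decay k J ρ` with native shift `0` (`norm_zero`, `add_zero`, `one_pow`), `fxp_ext_eq_iflH`. -/
theorem fxp_ext_decay (k J : ℕ) (ρ : ℝ) (hρ : 0 ≤ ρ) :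
    ∃ C : ℝ, 0 ≤ C ∧ ∀ (G : E k → ℂ) (a : ℝ) (X : ST k), IflAmp J ρ a G →
      ‖ext G X‖ ≤ C * a * (1 + |X.2|) ^ J * (1 + ‖X.1‖) ^ (-(J : ℤ)) := by
  obtain ⟨C, hC0, hC⟩ := ifl_pkt_decay k J ρ hρ
  refine ⟨(2 * π) ^ k * C, by positivity, fun G a X hG => ?_⟩
  have h := hC G a 0 X hG
  rw [norm_zero, add_zero, one_pow, mul_one] at h
  rw [fxp_ext_eq_iflH, norm_mul, Complex.norm_real, Real.norm_eq_abs, abs_of_pos (by positivity)]
  calc (2 * π) ^ k * ‖iflH G 0 X‖ ≤ (2 * π) ^ k * (C * a * (1 + |X.2|) ^ J * (1 + ‖X.1‖) ^ (-(J : ℤ))) :=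
        mul_le_mul_of_nonneg_left h (by positivity)
    _ = _ := by ring

/-- a time cutoff with compact Fourier support -/
structure XCut (T₁ : ℝ) (χ χh : ℝ → ℂ) : Prop where
  cont : Continuous χh
  cont' : Continuous χ
  supp : ∀ σ, 1 < |σ| → χh σ = 0
  repr : ∀ s, χ s = ∫ σ, BD.ch (s * σ) * χh σ
  le_one : ∀ s, ‖χ s‖ ≤ 1
  lower : ∀ s, |s| ≤ T₁ → 1 / 2 ≤ ‖χ s‖
  decay : ∀ M : ℝ, ∃ C : ℝ, 0 ≤ C ∧ ∀ s, ‖χ s‖ ≤ C * (1 + |s|) ^ (-M)

/-- **LEAF L-F1-XP6: existence of the cutoff.**   PLAN: `BD.exists_bump_pair ℝ (r₁ := 1/4) (r₂ := 1/2)` gives `φ, K`;  `I = ∫ φ > 0` (`BD.bde_int_pos`), `‖K y‖ ≤ I` (norm of the integral), `I / 2 ≤ ‖K y‖` for `|y| ≤ 1` (`BD.bde_lower`).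
`T = max T₁ 1`,  `χ s = I⁻¹ K (s / T)`,  `χh σ = I⁻¹ T φ (T σ)` (substitution `Measure.integral_comp_mul_left`/`integral_comp_mul_left`; inner product of `ℝ`: `real_inner_eq...`/`inner ℝ y w = w * y`, `simp [inner]`);
support: `|T σ| ≥ |σ| > 1 ≥ 1/2`;   decay: `(1 + |s|/T)^{-M} ≤ T^{M} (1 + |s|)^{-M}` for `M ≥ 0`; for `M < 0` use the bound `1 ≤ (1+|s|)^{-M}`. -/
theorem fxp_cutoff (T₁ : ℝ) : ∃ χ χh : ℝ → ℂ, XCut T₁ χ χh := by
  obtain ⟨φ, K, c, hφc, hφn, hφ1, hφ0, hKc, hK, hKd, -, -⟩ :=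
    BD.exists_bump_pair ℝ (r₁ := 1 / 4) (r₂ := 1 / 2) (by norm_num) (by norm_num)
  obtain ⟨I, hIdef⟩ : ∃ I : ℝ, I = ∫ w, φ w := ⟨_, rfl⟩
  have hI : 0 < I := hIdef ▸ BD.bde_int_pos hφc hφn hφ1 hφ0
  obtain ⟨T, hTdef⟩ : ∃ T : ℝ, T = max T₁ 1 := ⟨_, rfl⟩
  have hT : 1 ≤ T := hTdef ▸ le_max_right _ _
  have hT1 : T₁ ≤ T := hTdef ▸ le_max_left _ _
  have hT0 : 0 < T := by linarith
  have hφi : Integrable φ := BD.bde_int_phi hφc hφ0
  have hKle : ∀ y, ‖K y‖ ≤ I := by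
    intro y
    rw [hK y, hIdef]
    refine (norm_integral_le_integral_norm _).trans (le_of_eq ?_)
    refine integral_congr_ae (Filter.Eventually.of_forall fun w => ?_)
    simp only [norm_mul, BD.bde_norm_ch, one_mul, Complex.norm_real, Real.norm_of_nonneg (hφn w).1]
  have hnorm : ∀ s, ‖((I⁻¹ : ℝ) : ℂ) * K (s / T)‖ = I⁻¹ * ‖K (s / T)‖ := by
    intro s
    rw [norm_mul, Complex.norm_real, Real.norm_of_nonneg (by positivity)]
  refine ⟨fun s => ((I⁻¹ : ℝ) : ℂ) * K (s / T), fun σ => ((I⁻¹ * T * φ (T * σ) : ℝ) : ℂ), ?_, ?_, ?_, ?_, ?_, ?_, ?_⟩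
  · fun_prop
  · fun_prop
  · intro σ hσ
    rw [hφ0 (T * σ) (by
      rw [Real.norm_eq_abs, abs_mul, abs_of_pos hT0]
      nlinarith), mul_zero, Complex.ofReal_zero]
  · intro s
    rw [hK (s / T)]
    have h1 := Measure.integral_comp_mul_left (fun w : ℝ => BD.ch (inner ℝ (s / T) w) * (φ w : ℂ)) T
    have h2 : ∫ w, BD.ch (inner ℝ (s / T) w) * (φ w : ℂ) = (T : ℂ) * ∫ σ, BD.ch (inner ℝ (s / T) (T * σ)) * (φ (T * σ) : ℂ) := by
      rw [h1, abs_of_pos (by positivity), Complex.real_smul, ← mul_assoc]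
      push_cast
      rw [mul_inv_cancel₀ (by exact_mod_cast hT0.ne'), one_mul]
    rw [h2, ← mul_assoc, ← integral_const_mul]
    refine integral_congr_ae (Filter.Eventually.of_forall fun σ => ?_)
    have h3 : inner ℝ (s / T) (T * σ) = s * σ := by
      simp only [RCLike.inner_apply, conj_trivial]
      field_simp
    simp only [h3]
    push_cast
    ring
  · intro s
    rw [hnorm, inv_mul_le_iff₀ hI, mul_one]
    exact hKle _
  · intro s hs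
    rw [hnorm]
    have h1 := BD.bde_lower hφc hφn hφ0 hK (s / T) (by
      rw [Real.norm_eq_abs, abs_div, abs_of_pos hT0, div_le_one hT0]
      linarith)
    rw [← hIdef] at h1
    rw [le_inv_mul_iff₀ hI]
    linarith
  · intro M
    rcases le_or_gt 0 M with hM | hM
    · obtain ⟨C, hC⟩ := hKd M
      have hC0 : 0 ≤ C := by
        have := hC 0
        simp only [norm_zero, add_zero, Real.one_rpow, mul_one] at this
        exact (norm_nonneg _).trans this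
      refine ⟨I⁻¹ * C * T ^ M, by positivity, fun s => ?_⟩
      rw [hnorm]
      have h1 : (1 + ‖s / T‖) ^ (-M) ≤ T ^ M * (1 + |s|) ^ (-M) := by
        rw [Real.norm_eq_abs, abs_div, abs_of_pos hT0]
        have h2 : (1 + |s|) / T ≤ 1 + |s| / T := by
          rw [add_div]
          have : 1 / T ≤ 1 := by rw [div_le_one hT0]; exact hT
          linarith
        have h3 : (1 + |s| / T) ^ (-M) ≤ ((1 + |s|) / T) ^ (-M) :=
          Real.rpow_le_rpow_of_nonpos (by positivity) h2 (by linarith)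
        refine h3.trans (le_of_eq ?_)
        rw [Real.div_rpow (by positivity) hT0.le, Real.rpow_neg hT0.le, div_inv_eq_mul, mul_comm]
      calc I⁻¹ * ‖K (s / T)‖ ≤ I⁻¹ * (C * (1 + ‖s / T‖) ^ (-M)) := by gcongr; exact hC _
        _ ≤ I⁻¹ * (C * (T ^ M * (1 + |s|) ^ (-M))) := by gcongr
        _ = I⁻¹ * C * T ^ M * (1 + |s|) ^ (-M) := by ring
    · refine ⟨1, zero_le_one, fun s => ?_⟩
      rw [hnorm, one_mul]
      have h1 : I⁻¹ * ‖K (s / T)‖ ≤ 1 := by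
        rw [inv_mul_le_iff₀ hI, mul_one]
        exact hKle _
      exact h1.trans (Real.one_le_rpow (by linarith [abs_nonneg s]) (by linarith))

/-- the shear `(η, τ) ↦ (η, τ + |η|²)` preserves the volume -/
theorem fxp_shear : MeasurePreserving (fun p : ST k => ((p.1, p.2 + ‖p.1‖ ^ 2) : ST k)) volume volume := by
  have := MeasurePreserving.skew_product (μa := (volume : Measure (E k))) (μb := (volume : Measure (E k)))
    (μc := (volume : Measure ℝ)) (μd := (volume : Measure ℝ))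
    (f := id) (MeasurePreserving.id _) (g := fun η τ => τ + ‖η‖ ^ 2)
    ((by fun_prop : Continuous (Function.uncurry fun (η : E k) (τ : ℝ) => τ + ‖η‖ ^ 2)).measurable)
    (Filter.Eventually.of_forall fun η => (measurePreserving_add_right volume (‖η‖ ^ 2)).map_eq)
  exact this

/-- a continuous function vanishing outside a ball is integrable -/
theorem fxp_int_of_supp {V : Type} [NormedAddCommGroup V] [NormedSpace ℝ V] [FiniteDimensional ℝ V] [MeasurableSpace V] [BorelSpace V]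
    (μ : Measure V) [IsFiniteMeasureOnCompacts μ] {f : V → ℂ} (hc : Continuous f) {r : ℝ} (hs : ∀ x, f x ≠ 0 → ‖x‖ ≤ r) : Integrable f μ := by
  refine hc.integrable_of_hasCompactSupport (HasCompactSupport.intro (isCompact_closedBall (0 : V) r) fun x hx => ?_)
  by_contra h
  exact hx (mem_closedBall_zero_iff.2 (hs x h))

theorem fxp_cut_int {T₁ : ℝ} {χ χh : ℝ → ℂ} (hχ : XCut T₁ χ χh) : Integrable χh :=
  fxp_int_of_supp volume hχ.cont (r := 1) fun σ h => by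
    by_contra h'
    exact h (hχ.supp σ (by rwa [Real.norm_eq_abs, not_le] at h'))

/-- **LEAF L-F1-XP7: Fourier support of a cut exact field.**   `F X = χ (X.2) ext G X = ∫ ch (pr X w) D w`,  `D (η, τ) = G η χh (τ + |η|²)`.
PLAN: `D` is integrable: `(η,τ) ↦ G η * χh τ` is (`Integrable.mul_prod`; both continuous with compact support) and the shear `(η,τ) ↦ (η, τ + ‖η‖²)` is measure preserving (`MeasurePreserving.skew_product`, `measurePreserving_add_right`;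
model: `MR.mr_shear`, `Lib/MR/Fam.lean`).   `D w ≠ 0 ⟹ ‖w.1‖ ≤ ρ, |w.2 + ‖w.1‖²| ≤ 1 ⟹ ‖w‖ ≤ ρ + 1 + ρ²`.   Formula: `integral_prod`, inner integral `∫ ch (X.2 τ) χh (τ + ‖η‖²) dτ = ch (-X.2 ‖η‖²) χ (X.2)` (`integral_add_right_eq_self`, `BD.ch_add`),
`car η X = ch (⟪X.1,η⟫ - X.2 ‖η‖²)` (`mul_comm` in the exponent). -/
theorem fxp_cut_fs {T₁ ρ : ℝ} {χ χh : ℝ → ℂ} (hχ : XCut T₁ χ χh) (hρ : 0 ≤ ρ) {G : E k → ℂ} (hc : Continuous G)
    (hs : ∀ η, G η ≠ 0 → ‖η‖ ≤ ρ) : BD.FS (closedBall (0 : ST k) (ρ + 1 + ρ ^ 2)) (fun X => χ X.2 * ext G X) := by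
  have hG : Integrable G := fxp_int_of_supp volume hc hs
  have hh : Integrable χh := fxp_cut_int hχ
  have hΦ : Integrable (fun p : ST k => G p.1 * χh p.2) := by
    rw [Measure.volume_eq_prod]
    exact hG.mul_prod hh
  refine ⟨fun w => G w.1 * χh (w.2 + ‖w.1‖ ^ 2), (fxp_shear.integrable_comp hΦ.aestronglyMeasurable).2 hΦ, fun w hw => ?_, fun X => ?_⟩
  · by_contra h
    apply hw
    have h1 : ‖w.1‖ ≤ ρ := hs _ (left_ne_zero_of_mul h)
    have h2 : |w.2 + ‖w.1‖ ^ 2| ≤ 1 := by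
      by_contra h'
      exact right_ne_zero_of_mul h (hχ.supp _ (not_le.1 h'))
    rw [mem_closedBall_zero_iff, Prod.norm_def, max_le_iff, Real.norm_eq_abs]
    have h3 : ‖w.1‖ ^ 2 ≤ ρ ^ 2 := pow_le_pow_left₀ (norm_nonneg _) h1 2
    rw [abs_le] at h2
    refine ⟨by nlinarith, ?_⟩
    rw [abs_le]
    constructor <;> nlinarith [norm_nonneg w.1]
  · beta_reduce
    have hcf : Continuous fun p : ST k => (car p.1 X * G p.1) * (BD.ch (X.2 * p.2) * χh p.2) := by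
      have h1 := inf_A2_car_cont X
      have h2 := BD.bde_ch_cont
      have h3 := hχ.cont
      fun_prop
    have e1 : χ X.2 * ext G X = ∫ p : ST k, (car p.1 X * G p.1) * (BD.ch (X.2 * p.2) * χh p.2) := by
      rw [Measure.volume_eq_prod, integral_prod_mul (fun η : E k => car η X * G η) (fun σ : ℝ => BD.ch (X.2 * σ) * χh σ), hχ.repr, mul_comm]
      rfl
    rw [e1]
    conv_lhs => rw [← fxp_shear.map_eq]
    rw [integral_map fxp_shear.measurable.aemeasurable hcf.aestronglyMeasurable]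
    refine integral_congr_ae (Filter.Eventually.of_forall fun w => ?_)
    beta_reduce
    have h4 : BD.ch (BD.pr X w) = car w.1 X * BD.ch (X.2 * (w.2 + ‖w.1‖ ^ 2)) := by
      have : car w.1 X = BD.ch (⟪X.1, w.1⟫_ℝ - X.2 * ‖w.1‖ ^ 2) := by
        unfold car BD.ch
        rw [mul_comm]
      rw [this, ← BD.ch_add]
      unfold BD.pr
      congr 1
      ring
    rw [h4]
    ring

/-- **LEAF L-F1-XP8: decay of a cut exact field.**   PLAN: `fxp_ext_decay`, `hχ.decay (J + M)`;  `(1+|X.2|)^{-(J+M)} (1+|X.2|)^J = (1+|X.2|)^{-M}`, `(1+‖X.1‖)^{-J} ≤ (1+‖X.1‖)^{-M}`,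
`1 + ‖X‖ ≤ (1+‖X.1‖)(1+|X.2|)` (`Prod.norm_def`), `Real.rpow_le_rpow_of_nonpos`/`Real.mul_rpow`; conversion `zpow`/`pow` → `rpow`: `Real.rpow_natCast`, `Real.rpow_neg`. -/
theorem fxp_cut_decay (k J : ℕ) (ρ M T₁ : ℝ) (hρ : 0 ≤ ρ) (hM0 : 0 ≤ M) (hM : M ≤ J) {χ χh : ℝ → ℂ} (hχ : XCut T₁ χ χh) :
    ∃ C : ℝ, 1 ≤ C ∧ ∀ (G : E k → ℂ) (a : ℝ) (X : ST k), IflAmp J ρ a G → ‖χ X.2 * ext G X‖ ≤ C * a * (1 + ‖X‖) ^ (-M) := by
  obtain ⟨C₁, hC₁0, hC₁⟩ := fxp_ext_decay k J ρ hρ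
  obtain ⟨C₂, hC₂0, hC₂⟩ := hχ.decay ((J : ℝ) + M)
  refine ⟨C₂ * C₁ + 1, by nlinarith, fun G a X hG => ?_⟩
  have ha : 0 ≤ a := (norm_nonneg _).trans (hG.bound 0 (Nat.zero_le _) 0)
  obtain ⟨t, ht⟩ : ∃ t : ℝ, t = 1 + |X.2| := ⟨_, rfl⟩
  obtain ⟨x, hx⟩ : ∃ x : ℝ, x = 1 + ‖X.1‖ := ⟨_, rfl⟩
  have ht1 : 1 ≤ t := by rw [ht]; linarith [abs_nonneg X.2]
  have hx1 : 1 ≤ x := by rw [hx]; linarith [norm_nonneg X.1]
  have ht0 : 0 < t := by linarith
  have hx0 : 0 < x := by linarith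
  have h1 := hC₁ G a X hG
  have h2 := hC₂ X.2
  rw [← ht, ← hx] at h1
  rw [← ht] at h2
  have e1 : t ^ (-((J : ℝ) + M)) * t ^ J = t ^ (-M) := by
    rw [← Real.rpow_natCast t J, ← Real.rpow_add ht0]
    congr 1
    ring
  have e2 : x ^ (-(J : ℤ)) ≤ x ^ (-M) := by
    rw [← Real.rpow_intCast]
    refine Real.rpow_le_rpow_of_exponent_le hx1 ?_
    push_cast
    linarith
  have e3 : t ^ (-M) * x ^ (-M) ≤ (1 + ‖X‖) ^ (-M) := by
    rw [← Real.mul_rpow ht0.le hx0.le]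
    refine Real.rpow_le_rpow_of_nonpos (by positivity) ?_ (by linarith)
    have h3 : ‖X‖ ≤ ‖X.1‖ + |X.2| := by
      rw [Prod.norm_def, Real.norm_eq_abs]
      exact max_le (by linarith [abs_nonneg X.2]) (by linarith [norm_nonneg X.1])
    rw [ht, hx]
    nlinarith [abs_nonneg X.2, norm_nonneg X.1, mul_nonneg (abs_nonneg X.2) (norm_nonneg X.1)]
  have hw : 0 ≤ (1 + ‖X‖) ^ (-M) := by positivity
  rw [norm_mul]
  calc ‖χ X.2‖ * ‖ext G X‖ ≤ (C₂ * t ^ (-((J : ℝ) + M))) * (C₁ * a * t ^ J * x ^ (-(J : ℤ))) :=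
        mul_le_mul h2 h1 (norm_nonneg _) (by positivity)
    _ = C₂ * C₁ * a * (t ^ (-((J : ℝ) + M)) * t ^ J) * x ^ (-(J : ℤ)) := by ring
    _ = C₂ * C₁ * a * t ^ (-M) * x ^ (-(J : ℤ)) := by rw [e1]
    _ ≤ C₂ * C₁ * a * t ^ (-M) * x ^ (-M) := mul_le_mul_of_nonneg_left e2 (by positivity)
    _ = C₂ * C₁ * a * (t ^ (-M) * x ^ (-M)) := by ring
    _ ≤ C₂ * C₁ * a * (1 + ‖X‖) ^ (-M) := mul_le_mul_of_nonneg_left e3 (by positivity)
    _ ≤ (C₂ * C₁ + 1) * a * (1 + ‖X‖) ^ (-M) := by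
        refine mul_le_mul_of_nonneg_right (mul_le_mul_of_nonneg_right (by linarith) ha) hw

/-- **LEAF L-F1-XP9: a cut exact packet is a band limited packet.**   `F X = χ (X.2) ext G (X - lat (m,0)) = (fun Y => χ Y.2 * ext G Y) (X + (-lat (m,0)))` since `(lat (m,0)).2 = 0`.
PLAN: `fxp_cut_fs` + `BD.FS.shift`; `fxp_cut_decay` at `X - lat (m,0)`; `(natX h v z).2 = z.2 / h²`; `mul_left_comm`. -/
theorem fxp_isPk (k J : ℕ) (ρ M T₁ : ℝ) (hρ : 0 ≤ ρ) (hM0 : 0 ≤ M) (hM : M ≤ J) {χ χh : ℝ → ℂ} (hχ : XCut T₁ χ χh) :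
    ∃ C : ℝ, 1 ≤ C ∧ ∀ (Λ : Type) (A : XFam k Λ) (T : Λ × (Fin k → ℤ)) (a : ℝ), IflAmp J ρ a (A.G T) →
      IsPk (ρ + 1 + ρ ^ 2) M A.h (A.fr T.1) (lat (T.2, 0)) (C * a) (fun z => χ (z.2 / A.h ^ 2) * A.U T z) := by
  obtain ⟨C, hC1, hC⟩ := fxp_cut_decay k J ρ M T₁ hρ hM0 hM hχ
  refine ⟨C, hC1, fun Λ A T a hG => ?_⟩
  have hl : ∀ X : ST k, (X + -lat (T.2, 0)).2 = X.2 := by
    intro X
    show X.2 + -(((0 : ℤ) : ℝ)) = X.2
    simp
  refine ⟨fun X => χ (X + -lat (T.2, 0)).2 * ext (A.G T) (X + -lat (T.2, 0)), ?_, fun X => ?_, fun z => ?_⟩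
  · exact (fxp_cut_fs hχ hρ hG.smooth.continuous hG.supp).shift (-lat (T.2, 0))
  · have := hC (A.G T) a (X + -lat (T.2, 0)) hG
    rwa [← sub_eq_add_neg] at this
  · simp only
    rw [hl, ← sub_eq_add_neg]
    unfold XFam.U
    have : (natX A.h (A.fr T.1) z).2 = z.2 / A.h ^ 2 := rfl
    rw [this]
    ring

end

end Claimed.Agent.R257.FR1
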