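import Claimed.Agent.R257.FR1.T2
import Claimed.Agent.R257.FR1.Xp
import Claimed.Agent.Lib.BD.Wt

/-!
# ROW 257, package FR1, file 4: THE CONCRETE TREES OF AN EXACT CONFIGURATION  (DEFINITIONS)      (helper249)

NOTHING is sorried in this file.    Fix an exact configuration `𝔠 : XCfg k Λ`, a field `i`, a time cutoff `χ₁` (`XCut`), a constant `Cx`, a class `c`.
* `toB f`              a bounded continuous function as an element of `ST k →ᵇ ℂ` (`0` if `f` is not bounded continuous)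
* `XCut T₁ χ₁ χh`      time cutoff (`FR1/Xp.lean`, helper30): Fourier support in `[-1,1]`, `|χ₁| ≤ 1`, `|χ₁| ≥ 1/2` on `|s| ≤ T₁`, rapid decay        (existence: `fxp_cutoff`)
* `𝔠.UL i`             the USED labels of the field `i` (so that ALL the labels of the trees are transversal)
* `netPi σ fr`         assignment to a maximal `σ`-separated subset (`BD.exists_net`)
* `𝔠.BinT i H`         the bins = representatives of the `1/H`-net;      `𝔠.CluT i H K`  the clusters INSIDE the bins = pairs (bin, representative of the `1/K`-net)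
* `latBox R`           the lattice window `[-R,R]^{k+1}`
* `𝔠.tH …`             THE TREE `h → H`:   leaves = `χ₁(t/h²) U_T`, sizes `Cx a_T`;  masks: ANY `W1`
* `𝔠.tK …`             THE TREE `h → K`:   same leaves, parents = the clusters, `W1 = univ ×ˢ latBox R`
* `𝔠.tF …`             THE TREE `K → H`:   leaves = the output packets of `tK` with their fresh amplitudes;  masks: ANY `W1` (the same type as for `tH`)
* `𝔠.gD i T`           the PHYSICAL data of the exact packet: `ext (gD T) = U_T`;   `𝔠.gC …` the data of a cluster (input of the block SM)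
-/

set_option autoImplicit false

namespace Claimed.Agent.R257.FR1

open Claimed.Agent.R257 Claimed.Agent.R257.FR2 Claimed.Agent.R257.Tree MeasureTheory
open scoped BigOperators Classical BoundedContinuousFunction InnerProductSpace

noncomputable section

variable {k : ℕ} {Λ : Type}

/-- a bounded continuous function as an element of `ST k →ᵇ ℂ` -/
def toB (f : ST k → ℂ) : ST k →ᵇ ℂ :=
  if h : Continuous f ∧ ∃ C : ℝ, ∀ z, ‖f z‖ ≤ C then BoundedContinuousFunction.ofNormedAddCommGroup f h.1 h.2.choose h.2.choose_spec else 0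

theorem toB_apply {f : ST k → ℂ} (h1 : Continuous f) {C : ℝ} (h2 : ∀ z, ‖f z‖ ≤ C) (z : ST k) : toB f z = f z := by
  unfold toB
  rw [dif_pos ⟨h1, C, h2⟩]
  rfl

/-- assignment of every point to a representative of a maximal `σ`-separated subset -/
def netPi {ι : Type} [Fintype ι] (σ : ℝ) (fr : ι → E k) : ι → ι :=
  if h : 0 < σ then (BD.exists_net Finset.univ fr h).choose else id

theorem netPi_spec {ι : Type} [Fintype ι] {σ : ℝ} (h : 0 < σ) (fr : ι → E k) :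
    (∀ θ, ‖fr θ - fr (netPi σ fr θ)‖ ≤ σ ∧ netPi σ fr (netPi σ fr θ) = netPi σ fr θ) ∧
      ∀ θ θ', netPi σ fr θ ≠ netPi σ fr θ' → σ < ‖fr (netPi σ fr θ) - fr (netPi σ fr θ')‖ := by
  unfold netPi
  rw [dif_pos h]
  have := (BD.exists_net Finset.univ fr h).choose_spec
  exact ⟨fun θ => (this.1 θ (Finset.mem_univ _)).2, fun θ θ' => this.2 θ (Finset.mem_univ _) θ' (Finset.mem_univ _)⟩

/-- the lattice window -/
def latBox (k : ℕ) (R : ℕ) : Finset (Lat k) := (Fintype.piFinset fun _ => Finset.Icc (-(R : ℤ)) R) ×ˢ Finset.Icc (-(R : ℤ)) R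

namespace T2

variable (t : T2 k)

/-- the localiser of a mask as a bounded continuous function -/
def locB (c : TCls k) (S : t.Λ1 × Lat k) : ST k →ᵇ ℂ :=
  c.χ.compContinuous ⟨fun z => natX t.κ1 (t.fr1 S.1) z - lat S.2, ti_natX_cont _ _ _⟩

/-- the output packet `χ_S V_{b(S)}` -/
def asmB (c : TCls k) (S : t.Λ1 × Lat k) : ST k →ᵇ ℂ := t.locB c S * t.pre S.1

end T2

namespace XCfg

variable (𝔠 : XCfg k Λ) (i : Fin (k + 1))

/-- the used labels of the field `i` -/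
abbrev UL : Type := {v : Λ // ∃ m, (v, m) ∈ 𝔠.s i}

/-- their frequencies -/
def frU (v : 𝔠.UL i) : E k := (𝔠.A i).fr v.1

variable [Fintype Λ]

/-- the bin map: representative of the `1/H`-net -/
def piH (H : ℝ) : 𝔠.UL i → 𝔠.UL i := netPi H⁻¹ (𝔠.frU i)

/-- the bins -/
abbrev BinT (H : ℝ) : Type := {u : 𝔠.UL i // ∃ v, 𝔠.piH i H v = u}

/-- the bin of a label -/
def binOf (H : ℝ) (v : 𝔠.UL i) : 𝔠.BinT i H := ⟨𝔠.piH i H v, v, rfl⟩

/-- the clusters inside the bins -/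
abbrev CluT (H K : ℝ) : Type := {p : 𝔠.UL i × 𝔠.UL i // ∃ v, (𝔠.piH i H v, 𝔠.piH i K v) = p}

/-- the cluster of a label -/
def cluOf (H K : ℝ) (v : 𝔠.UL i) : 𝔠.CluT i H K := ⟨(𝔠.piH i H v, 𝔠.piH i K v), v, rfl⟩

/-- the bin of a cluster -/
def cluBin (H K : ℝ) (p : 𝔠.CluT i H K) : 𝔠.BinT i H := ⟨p.1.1, by obtain ⟨v, hv⟩ := p.2; exact ⟨v, by rw [← hv]⟩⟩

theorem cluBin_cluOf (H K : ℝ) (v : 𝔠.UL i) : 𝔠.cluBin i H K (𝔠.cluOf i H K v) = 𝔠.binOf i H v := rfl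

/-- the leaf cells: time index `0` -/
def W0 : Finset (𝔠.UL i × Lat k) := (𝔠.s i).attach.image fun T => (⟨T.1.1, T.1.2, T.2⟩, (T.1.2, 0))

/-- the leaf packet `χ₁(t/h²) U_T` -/
def lv (χ₁ : ℝ → ℂ) (T : 𝔠.UL i × Lat k) : ST k → ℂ := fun z => χ₁ (z.2 / 𝔠.h ^ 2) * (𝔠.A i).U (T.1.1, T.2.1) z

/-- free parameters of a tree which do not matter for the fields -/
structure Aux where
  G0 : ℝ
  G1 : ℝ
  Mc : ℝ
  ηw : ℝ
  ϖ : ℝ

/-- **the tree `h → H`** with the masks `W1` -/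
def tH (χ₁ : ℝ → ℂ) (Cx H : ℝ) (W1 : Finset (𝔠.BinT i H × Lat k)) (Yf : Finset (Lat k)) (x : Aux) : T2 k where
  κ0 := 𝔠.h
  κ1 := H
  Λ0 := 𝔠.UL i
  f0 := inferInstance
  Λ1 := 𝔠.BinT i H
  f1 := inferInstance
  fr0 := 𝔠.frU i
  fr1 := fun b => 𝔠.frU i b.1
  par := 𝔠.binOf i H
  W0 := 𝔠.W0 i
  W1 := W1
  Yf := Yf
  pt := 𝔠.wz i
  g0 := fun T => toB (𝔠.lv i χ₁ T)
  s0 := fun T => Cx * 𝔠.a i (T.1.1, T.2.1)
  G0 := x.G0
  G1 := x.G1
  Mc := x.Mc
  ηw := x.ηw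
  ϖ := x.ϖ

/-- **the tree `h → K`**: parents = the clusters inside the bins, window `latBox R` -/
def tK (χ₁ : ℝ → ℂ) (Cx H K : ℝ) (R : ℕ) (Yf : Finset (Lat k)) (x : Aux) : T2 k where
  κ0 := 𝔠.h
  κ1 := K
  Λ0 := 𝔠.UL i
  f0 := inferInstance
  Λ1 := 𝔠.CluT i H K
  f1 := inferInstance
  fr0 := 𝔠.frU i
  fr1 := fun p => 𝔠.frU i p.1.2
  par := 𝔠.cluOf i H K
  W0 := 𝔠.W0 i
  W1 := Finset.univ ×ˢ latBox k R
  Yf := Yf
  pt := 𝔠.wz i
  g0 := fun T => toB (𝔠.lv i χ₁ T)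
  s0 := fun T => Cx * 𝔠.a i (T.1.1, T.2.1)
  G0 := x.G0
  G1 := x.G1
  Mc := x.Mc
  ηw := x.ηw
  ϖ := x.ϖ

/-- **the tree `K → H`**: leaves = the output packets of `tK` (class `c`), masks `W1` -/
def tF (c : TCls k) (χ₁ : ℝ → ℂ) (Cx H K : ℝ) (R : ℕ) (W1 : Finset (𝔠.BinT i H × Lat k)) (Yf : Finset (Lat k)) (x : Aux) : T2 k where
  κ0 := K
  κ1 := H
  Λ0 := 𝔠.CluT i H K
  f0 := inferInstance
  Λ1 := 𝔠.BinT i H
  f1 := inferInstance
  fr0 := fun p => 𝔠.frU i p.1.2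
  fr1 := fun b => 𝔠.frU i b.1
  par := 𝔠.cluBin i H K
  W0 := Finset.univ ×ˢ latBox k R
  W1 := W1
  Yf := Yf
  pt := 𝔠.wz i
  g0 := fun T => (𝔠.tK i χ₁ Cx H K R Yf x).asmB c T
  s0 := fun T => (𝔠.tK i χ₁ Cx H K R Yf x).amp c T
  G0 := x.G0
  G1 := x.G1
  Mc := x.Mc
  ηw := x.ηw
  ϖ := x.ϖ

/-- the physical data of the exact packet `T = (v, m)`: `ext (gD T) = U_T` -/
def gD (T : Λ × (Fin k → ℤ)) (ξ : E k) : ℂ :=
  ((𝔠.h ^ k : ℝ) : ℂ) * Complex.exp (-Complex.I * ((⟪(lat (T.2, 0) : ST k).1, 𝔠.h • (ξ - (𝔠.A i).fr T.1)⟫_ℝ : ℝ) : ℂ)) * (𝔠.A i).G T (𝔠.h • (ξ - (𝔠.A i).fr T.1))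

/-- the physical data of the cluster `p` -/
def gC (H K : ℝ) (p : 𝔠.CluT i H K) (ξ : E k) : ℂ :=
  ∑ T ∈ (𝔠.s i).attach, if 𝔠.cluOf i H K ⟨T.1.1, T.1.2, T.2⟩ = p then 𝔠.gD i T.1 ξ else 0

/-- the clusters of a bin -/
def cluIn (H K : ℝ) (b : 𝔠.BinT i H) : Finset (𝔠.CluT i H K) := Finset.univ.filter fun p => 𝔠.cluBin i H K p = b

end XCfg

end

end Claimed.Agent.R257.FR1
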