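import Claimed.Agent.R257.Infra.Defs

/-!
# R257 / FR1 / SmDefs : DEFINITIONS OF THE BLOCK `SM` = POSITIVE SMOOTHING PART OF H f:smoothing      (architect helper94; prefix `fsm`)

Paper H frame.tex l.266-453 (units U11-U15, U17 of report 844).  PAPER-FREE, discrete version (T5, T6 of report 844) with three simplifications:
* scales `K n = 2^n K0`; spatial law `sp n = j_{K n} * ... * j_{K 0} * heat(K n)`, `j_K = c K^{-k} (1 + |x/K|^2)^{-Q/2}`; time law along `(2b,1)`: centred Gaussian of VARIANCE `v n = max (K_n^2 H) (K_n H^3)`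
  (`= (K H / P_K)^2` with `P_K = min(H, K/H)^{1/2}`, i.e. `θ = 1/2`);
* no densities `ρ_K`: everything is written with the Markov operators `fsmCv ν f z = ∫ f (z - w) dν(w)`;  `I n = H^{k+2} ∑_b ∑_{z ∈ Y} G_{n,b} [φ (G_{n,b} F_b)] (z)`;
* the heat factor makes the multiplier of (f:rho-generator) `≤ C H^k (K/T + 1/H) ×` ONE Gaussian of width `1/K`: no dyadic sums.
-/

set_option autoImplicit false

namespace Claimed.Agent.R257

open MeasureTheory ProbabilityTheory Metric Set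
open scoped ENNReal NNReal InnerProductSpace

variable {k : ℕ}

/-- the Markov (convolution) operator of a measure -/
noncomputable def fsmCv {V : Type*} [AddGroup V] [MeasurableSpace V] (ν : Measure V) (f : V → ℝ) (z : V) : ℝ := ∫ w, f (z - w) ∂ν

/-- bounded continuous -/
def fsmBC {V : Type*} [TopologicalSpace V] (f : V → ℝ) : Prop := Continuous f ∧ ∃ B : ℝ, ∀ z, |f z| ≤ B

/-- the polynomial weight `(1 + |x|²)^{-Q/2}` -/
noncomputable def fsmW (Q : ℕ) (x : E k) : ℝ := (1 + ‖x‖ ^ 2) ^ (-(Q : ℝ) / 2)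

/-- `j_K(x) = c_Q K^{-k} (1 + |x/K|²)^{-Q/2}`, `∫ j_K = 1` -/
noncomputable def fsmJ (Q : ℕ) (K : ℝ) (x : E k) : ℝ := (∫ y : E k, fsmW Q y)⁻¹ * (K ^ k)⁻¹ * fsmW Q (K⁻¹ • x)

/-- the law `j_K dx` -/
noncomputable def fsmJm (Q : ℕ) (K : ℝ) : Measure (E k) := volume.withDensity fun x => ENNReal.ofReal (fsmJ Q K x)

/-- the heat kernel with standard deviation `s` in every coordinate -/
noncomputable def fsmHk (s : ℝ) (x : E k) : ℝ := (Real.sqrt (2 * Real.pi * s ^ 2) ^ k)⁻¹ * Real.exp (-‖x‖ ^ 2 / (2 * s ^ 2))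

/-- the heat law -/
noncomputable def fsmHm (s : ℝ) : Measure (E k) := volume.withDensity fun x => ENNReal.ofReal (fsmHk s x)

/-- a spatial law as a law on space-time -/
noncomputable def fsmSx (ν : Measure (E k)) : Measure (ST k) := ν.map fun y => (y, (0 : ℝ))

/-- the space-time direction `(2b, 1)` -/
noncomputable def fsmDir (b : E k) (s : ℝ) : ST k := (s • ((2 : ℝ) • b), s)

/-- a law on the time axis, transported to the line `ℝ (2b, 1)` -/
noncomputable def fsmSt (b : E k) (γ : Measure ℝ) : Measure (ST k) := γ.map (fsmDir b)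

/-- the centred Gaussian law of variance `v` on `ℝ` -/
noncomputable def fsmGs (v : ℝ) : Measure ℝ := gaussianReal 0 v.toNNReal

/-- Harnack inequality along `(2b,1)` with rate `c` -/
def fsmHar (b : E k) (c : ℝ) (f : ST k → ℝ) : Prop := ∀ (z : ST k) (s : ℝ), f (z + fsmDir b s) ≤ Real.exp (c * |s|) * f z

/-- the clipping function `φ(u) = M (1 - e^{-u/M})` -/
noncomputable def fsmPhi (M u : ℝ) : ℝ := M * (1 - Real.exp (-u / M))

/-- data of the abstract smoothing problem -/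
structure Sm (k : ℕ) (β : Type) where
  /-- order of the polynomial kernels -/
  Q : ℕ
  /-- inverse cap width -/
  H : ℝ
  /-- bottom scale -/
  K0 : ℝ
  /-- clipping level -/
  Mc : ℝ
  /-- witnesses -/
  Y : Finset (ST k)
  /-- caps -/
  caps : Finset β
  /-- cap centres -/
  cb : β → E k
  /-- the positive densities -/
  F : β → ST k → ℝ

variable {β : Type}

namespace Sm

variable (P : Sm k β)

/-- the scales -/
noncomputable def K (n : ℕ) : ℝ := 2 ^ n * P.K0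

/-- `μ_n = min(H, K_n/H)` -/
noncomputable def mu (n : ℕ) : ℝ := min P.H (P.K n / P.H)

/-- variance of the time Gaussian, `= (K_n H)² / μ_n` -/
noncomputable def v (n : ℕ) : ℝ := max (P.K n ^ 2 * P.H) (P.K n * P.H ^ 3)

/-- the jumps strictly below the scale `K n` -/
noncomputable def jq : ℕ → Measure (E k)
  | 0 => Measure.dirac 0
  | n + 1 => fsmJm P.Q (P.K n) ∗ jq n

/-- all jumps up to the scale `K n` -/
noncomputable def jp (n : ℕ) : Measure (E k) := fsmJm P.Q (P.K n) ∗ P.jq n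

/-- the spatial law at step `n` -/
noncomputable def sp (n : ℕ) : Measure (E k) := P.jp n ∗ fsmHm (P.K n)

/-- the space-time law at step `n` -/
noncomputable def G (n : ℕ) (b : β) : Measure (ST k) := fsmSx (P.sp n) ∗ fsmSt (P.cb b) (fsmGs (P.v n))

/-- spatial increment -/
noncomputable def mx (n : ℕ) : Measure (E k) := fsmJm P.Q (P.K (n + 1)) ∗ fsmHm (Real.sqrt 3 * P.K n)

/-- time increment -/
noncomputable def mt (n : ℕ) : Measure ℝ := fsmGs (P.v (n + 1) - P.v n)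

/-- the smoothed density -/
noncomputable def f (n : ℕ) (b : β) : ST k → ℝ := fsmCv (P.G n b) (P.F b)

/-- the clipped smoothed density -/
noncomputable def psi (n : ℕ) (b : β) (z : ST k) : ℝ := fsmPhi P.Mc (P.f n b z)

/-- the functional `I(K_n) = ∑_b ∫ ρ_{K,b} φ(F_{K,b})` -/
noncomputable def I (n : ℕ) : ℝ := P.H ^ (k + 2) * ∑ b ∈ P.caps, ∑ z ∈ P.Y, fsmCv (P.G n b) (P.psi n b) z

/-- time error -/
noncomputable def Et (n : ℕ) : ℝ := P.H ^ (k + 2) * ∑ b ∈ P.caps, ∑ z ∈ P.Y,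
  fsmCv (P.G n b) (fun w => P.psi n b w - fsmCv (fsmSt (P.cb b) (P.mt n ∗ P.mt n)) (P.psi n b) w) z

/-- spatial error -/
noncomputable def Ex (n : ℕ) : ℝ := P.H ^ (k + 2) * ∑ b ∈ P.caps, ∑ z ∈ P.Y,
  fsmCv (P.G n b) (fsmCv (fsmSt (P.cb b) (P.mt n ∗ P.mt n)) (fun w => P.psi n b w - fsmCv (fsmSx (P.mx n ∗ P.mx n)) (P.psi n b) w)) z

/-- the exit density: spatial smoothing at the bottom scale, no smoothing in time -/
noncomputable def f0 (b : β) : ST k → ℝ := fsmCv (fsmSx (fsmJm P.Q P.K0)) (P.F b)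

/-- hypotheses of the abstract smoothing problem; `N` = number of steps -/
structure Ok (N : ℕ) (Rc Cs N0 N1 cH : ℝ) : Prop where
  hk : 1 ≤ k
  hQ : k + 3 ≤ P.Q
  hH : 1 ≤ P.H
  hK : P.H ≤ P.K0
  hMc : 0 < P.Mc
  hCs : 0 ≤ Cs
  hN0 : 0 ≤ N0
  hN1 : 0 ≤ N1
  hcH : 0 ≤ cH
  hRc : 1 ≤ Rc
  /-- cap centres in a fixed ball -/
  cb_le : ∀ b ∈ P.caps, ‖P.cb b‖ ≤ Rc
  /-- slab count of the cap centres -/
  slab : ∀ (e : E k) (c lam : ℝ), ‖e‖ = 1 → 0 ≤ lam →
    ((P.caps.filter fun b => |⟪P.cb b, e⟫_ℝ - c| ≤ lam).card : ℝ) ≤ Cs * P.H ^ k * (lam + 1 / P.H)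
  /-- (f:ballcount), sup metric of `ST k` -/
  ball : ∀ z ∈ P.Y, ∀ r : ℝ, P.H ≤ r → ((P.Y.filter fun z' => ‖z' - z‖ ≤ r).card : ℝ) ≤ N0 * (r / P.H) ^ k * (1 + r / P.H ^ 2)
  F_nonneg : ∀ b ∈ P.caps, ∀ z, 0 ≤ P.F b z
  F_bc : ∀ b ∈ P.caps, fsmBC (P.F b)
  F_int : ∀ b ∈ P.caps, Integrable (P.F b)
  /-- (f:auxiliary-energy) and `D ≤ S^C ‖ρ‖₁` -/
  energy : ∑ b ∈ P.caps, ∫ z, P.F b z ≤ N1 * (P.H ^ (k + 2) * P.Y.card)
  /-- (f:current), integrated -/
  har : ∀ b ∈ P.caps, ∀ n ≤ N, fsmHar (P.cb b) (cH / (P.H * P.K n)) (fsmCv (fsmSx (fsmJm P.Q (P.K n))) (P.F b))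

/-- the bound at the top scale (from (f:original-witness-Gram)) -/
def Top (N : ℕ) (G0 : ℝ) (M1 M2 : ℕ) : Prop :=
  ∀ z ∈ P.Y, ∀ (a : E k) (s : ℝ), ∑ b ∈ P.caps, fsmCv (fsmSx (fsmJm P.Q (P.K N))) (P.F b) (z - ((a, (0 : ℝ)) + fsmDir (P.cb b) s))
    ≤ G0 * (1 + ‖a‖ / P.K N) ^ M2 * (1 + |s| / (P.H * P.K N)) ^ M1

end Sm

end Claimed.Agent.R257
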