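import Claimed.Agent.R257.FR1.Xp
import Claimed.Agent.R257.FR1.SmDefs
import Claimed.Agent.R257.Infra.Lay.Bessel
import Claimed.Agent.R257.Tree.Geo
import Claimed.Agent.Lib.BD.Loc

/-!
# ROW 257 (S0497), package FR1, block GR: GRAM BOUNDS FOR EXACT PACKETS      (architect helper30; captain FR1 helper249)          CONTRACT

H `frame.tex` (f:auxiliary-energy) l.283-292 and (f:original-witness-Gram) l.432-443, in the form consumed by `SmHyp` (`FR1/SmMain.lean`, helper94).     PAPER-FREE.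
Every `sorry` is a leaf `L-F1-GR*` (name in the docstring).   Statements are frozen; auxiliary lemmas directly above your theorem, prefix `fgr_`; edit only your block.

CAPS = SETS OF CELLS.   `A.sdat t = ∑_{T ∈ t} A.dat T` is the data of the set of cells `t`;  `ext (A.sdat t) = A.fld t`.    ALL EXITS ARE FOR ONE SET `t ⊆ s`; sums over disjoint sets are trivial because the right sides are additive.
* `fgr_energy`   `∫ |sdat t|² ≤ C h^k ∑_{T ∈ t} a_T²`                                      (`ifl_bessel`: no new analysis)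
* `fgr_gram`     `h^{-k} ∫ (1 + |(x - x_z - 2τb)/h|²)^{-Qg/2} |fld t (x, t_z + τ)|² dx ≤ C (1 + |t_z|/h²)^{M₁} (1 + |τ|/(Hh))^{M₁} env t a P z`   if all labels of `t` are within `C₀/H` of `b`;  `M₁ = 2J + P`, `P + k < Qg`, `k < P ≤ J`.
   PROOF: (1) weighted orthogonality of the labels at a FIXED time (`fgr_orth`) = `BD.orth` (space-time, proved) applied to `ext g (x,t) · χ(s/R)` (tensor trick: `fgr_tensor`, `fgr_slice`);
          (2) one label: Cauchy-Schwarz + `fxp_ext_decay` + lattice sum (`fgr_label`);   (3) integral of two polynomial weights + Peetre (`fgr_wint`, `fgr_cell`).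
* `fgr_sm_energy`, `fgr_sm_gram`, `fgr_sdat_reg`   the fields `energy`, `gram`, `meas`, `l2`, `supp` of `SmHyp` for `g v = A.sdat (s.filter (gp · = v))`.
-/

set_option autoImplicit false

namespace Claimed.Agent.R257.FR1

open Claimed.Agent.R257 Claimed.Agent.R257.Tree MeasureTheory Metric Set
open scoped BigOperators Classical ContDiff InnerProductSpace Real ENNReal

noncomputable section

variable {k : ℕ} {Λ : Type}

/-- the data of a set of cells -/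
def XFam.sdat (A : XFam k Λ) (t : Finset (Λ × (Fin k → ℤ))) (ξ : E k) : ℂ := ∑ T ∈ t, A.dat T ξ

/-! ## 1. regularity, energy -/

/-- **LEAF L-F1-GR1: regularity of the data of a set of cells.**   PLAN: finite sums of `fxp_dat_reg` (`continuous_finsetSum`, `integrable_finsetSum`, `memLp_finsetSum`); `ext` of a finite sum: `integral_finsetSum` (integrands `car ξ z * dat T ξ`:
`Integrable.bdd_mul` with `inf_car_norm`, `inf_A2_car_cont`), `fxp_U_eq`;  support: `Finset.exists_ne_zero_of_sum_ne_zero`. -/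
theorem fgr_sdat_reg [Fintype Λ] {A : XFam k Λ} {s : Finset (Λ × (Fin k → ℤ))} {K : XCls} {a : Λ × (Fin k → ℤ) → ℝ} (hA : A.In s K a)
    {t : Finset (Λ × (Fin k → ℤ))} (ht : t ⊆ s) :
    Continuous (A.sdat t) ∧ Integrable (A.sdat t) ∧ MemLp (A.sdat t) 2 volume ∧ (∀ z, ext (A.sdat t) z = A.fld t z) ∧
      ∀ ξ, A.sdat t ξ ≠ 0 → ∃ T ∈ t, ‖ξ - A.fr T.1‖ ≤ K.ρ / A.h := by
  have hreg := fun T (hT : T ∈ t) => fxp_dat_reg A hA.h_pos T (hA.amp (ht hT))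
  refine ⟨?_, ?_, ?_, fun z => ?_, fun ξ hξ => ?_⟩
  · unfold XFam.sdat
    exact continuous_finsetSum t fun T hT => (hreg T hT).1
  · unfold XFam.sdat
    exact integrable_finsetSum t fun T hT => (hreg T hT).2.2.1
  · unfold XFam.sdat
    exact memLp_finsetSum t fun T hT => (hreg T hT).2.2.2.1
  · unfold ext XFam.sdat XFam.fld
    simp_rw [Finset.mul_sum]
    rw [integral_finsetSum]
    · refine Finset.sum_congr rfl fun T _ => ?_
      rw [fxp_U_eq A hA.h_pos T z]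
      rfl
    · intro T hT
      refine (hreg T hT).2.2.1.bdd_mul (c := 1) (inf_A2_car_cont z).aestronglyMeasurable (Filter.Eventually.of_forall fun ξ => ?_)
      rw [inf_car_norm]
  · obtain ⟨T, hT, hne⟩ := Finset.exists_ne_zero_of_sum_ne_zero hξ
    exact ⟨T, hT, (hreg T hT).2.2.2.2 ξ hne⟩

/-- **LEAF L-F1-GR2: phase space multiplicity of the cells.**   PLAN: if `(h fr λ, m) ∈ closedBall q 1` (sup metric of `E k × E k`: `Prod.dist_eq`/`closedBall_prod_same`) then `‖fr λ - h⁻¹ • q.1‖ ≤ h⁻¹` and `|m i - q.2 i| ≤ 1` for all `i` (`PiLp.norm_apply_le`).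
So `u ⊆ (univ.filter fun λ => ‖fr λ - h⁻¹ • q.1‖ ≤ h⁻¹) ×ˢ Fintype.piFinset fun i => Finset.Icc ⌈q.2 i - 1⌉ ⌊q.2 i + 1⌋`; `Finset.card_product`, `hA.mult` (`Nat.le_floor`), `Fintype.card_piFinset`, `ti_icc_card`, `ti_icc_mem` (`Tree/Geo.lean`): `≤ 3` each. -/
theorem fgr_mult [Fintype Λ] {A : XFam k Λ} {s : Finset (Λ × (Fin k → ℤ))} {K : XCls} {a : Λ × (Fin k → ℤ) → ℝ} (hA : A.In s K a) :
    IflMult s (fun T => ((A.h • A.fr T.1, A.h⁻¹ • (A.h • latE T.2)) : E k × E k)) (⌊K.Cm⌋₊ * 3 ^ k) := by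
  intro q u _ hq
  have hh := hA.h_pos
  have hsub : u ⊆ (Finset.univ.filter fun l => ‖A.fr l - A.h⁻¹ • q.1‖ ≤ A.h⁻¹) ×ˢ
      Fintype.piFinset fun i => Finset.Icc ⌈q.2 i - 1⌉ ⌊q.2 i + 1⌋ := by
    intro T hT
    have h1 := hq T hT
    rw [mem_closedBall, Prod.dist_eq] at h1
    have h2 : dist (A.h • A.fr T.1) q.1 ≤ 1 := (le_max_left _ _).trans h1
    have h3 : dist (A.h⁻¹ • (A.h • latE T.2)) q.2 ≤ 1 := (le_max_right _ _).trans h1
    rw [inv_smul_smul₀ hh.ne', dist_eq_norm] at h3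
    rw [dist_eq_norm] at h2
    rw [Finset.mem_product]
    constructor
    · rw [Finset.mem_filter]
      refine ⟨Finset.mem_univ _, ?_⟩
      have e : A.fr T.1 - A.h⁻¹ • q.1 = A.h⁻¹ • (A.h • A.fr T.1 - q.1) := by
        rw [smul_sub, inv_smul_smul₀ hh.ne']
      rw [e, norm_smul, Real.norm_eq_abs, abs_of_pos (inv_pos.2 hh)]
      calc A.h⁻¹ * ‖A.h • A.fr T.1 - q.1‖ ≤ A.h⁻¹ * 1 := mul_le_mul_of_nonneg_left h2 (inv_pos.2 hh).le
        _ = _ := mul_one _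
    · rw [Fintype.mem_piFinset]
      intro i
      apply ti_icc_mem
      have h4 := PiLp.norm_apply_le (latE T.2 - q.2) i
      rw [Real.norm_eq_abs] at h4
      have e : (latE T.2 - q.2) i = (T.2 i : ℝ) - q.2 i := by simp [latE]
      rw [e] at h4
      exact h4.trans h3
  refine (Finset.card_le_card hsub).trans ?_
  rw [Finset.card_product]
  refine Nat.mul_le_mul (Nat.le_floor (hA.mult _)) ?_
  rw [Fintype.card_piFinset]
  calc ∏ i : Fin k, (Finset.Icc ⌈q.2 i - 1⌉ ⌊q.2 i + 1⌋).card ≤ ∏ _i : Fin k, 3 := by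
        refine Finset.prod_le_prod' fun i _ => ?_
        have := ti_icc_card (q.2 i) 1 zero_le_one
        have h5 : ((Finset.Icc ⌈q.2 i - 1⌉ ⌊q.2 i + 1⌋).card : ℝ) ≤ ((3 : ℕ) : ℝ) := by
          push_cast
          linarith
        exact_mod_cast h5
    _ = 3 ^ k := by rw [Finset.prod_const, Finset.card_univ, Fintype.card_fin]

/-- **LEAF L-F1-GR3: Bessel bound with individual amplitudes.**   PLAN: `ifl_bessel n r` with `b = 1`, amplitudes `a' α = (b α)⁻¹ • a α` (`IflAmp N r 1`: `iteratedFDeriv_const_smul_apply`, `inv_mul_le_iff₀`; if `b α = 0` then `a α = 0`, everything vanishes), coefficients `c α = b α`;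
`c α * iflG .. (a' α) ξ = iflG .. (a α) ξ` (unfold `iflG`; `mul_inv_cancel₀`);  `energy t c = ∑ (b α)²` (`Complex.norm_real`, `sq_abs`). -/
theorem fgr_bessel (n : ℕ) (r : ℝ) (hr : 0 ≤ r) :
    ∃ C : ℝ, 0 ≤ C ∧ ∀ (ι : Type) (s : Finset ι) (L : ℝ) (b : ι → ℝ) (om y : ι → E n) (a : ι → E n → ℂ) (m₀ : ℕ),
      0 < L → (∀ α ∈ s, IflAmp (2 * n + 1) r (b α) (a α)) → IflMult s (fun α => (L • om α, L⁻¹ • y α)) m₀ →
      ∀ t ⊆ s, ∫ ξ, ‖∑ α ∈ t, iflG L (om α) (y α) 0 (a α) ξ‖ ^ 2 ≤ C * m₀ * ∑ α ∈ t, b α ^ 2 := by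
  obtain ⟨C, hC0, hC⟩ := ifl_bessel n r hr
  refine ⟨C, hC0, fun ι s L b om y a m₀ hL ha hm t hts => ?_⟩
  have hb0 : ∀ α ∈ s, 0 ≤ b α := fun α hα => (norm_nonneg _).trans ((ha α hα).bound 0 (Nat.zero_le _) 0)
  have ha' : ∀ α ∈ s, IflAmp (2 * n + 1) r 1 ((b α)⁻¹ • a α) := by
    intro α hα
    refine ⟨(ha α hα).smooth.const_smul ((b α)⁻¹), fun θ hθ => (ha α hα).supp θ ?_, fun j hj θ => ?_⟩
    · intro h0
      apply hθ
      simp [h0]
    · rw [iteratedFDeriv_const_smul_apply ((ha α hα).smooth.contDiffAt.of_le (by exact_mod_cast le_top)), norm_smul, Real.norm_eq_abs,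
        abs_of_nonneg (inv_nonneg.2 (hb0 α hα))]
      rcases eq_or_lt_of_le (hb0 α hα) with h0 | h0
      · rw [← h0, inv_zero, zero_mul]
        exact zero_le_one
      · rw [inv_mul_le_iff₀ h0, mul_one]
        exact (ha α hα).bound j hj θ
  have h := hC ι s L 1 om y 0 (fun α => (b α)⁻¹ • a α) m₀ hL ha' hm t hts fun α => (b α : ℂ)
  have e1 : ∀ ξ, ∑ α ∈ t, (b α : ℂ) * iflG L (om α) (y α) 0 ((b α)⁻¹ • a α) ξ = ∑ α ∈ t, iflG L (om α) (y α) 0 (a α) ξ := by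
    intro ξ
    refine Finset.sum_congr rfl fun α hα => ?_
    unfold iflG
    simp only [Pi.smul_apply, Complex.real_smul]
    rcases eq_or_lt_of_le (hb0 α (hts hα)) with h0 | h0
    · have hz : a α (L • (ξ - om α) - 0) = 0 := by
        have := (ha α (hts hα)).bound 0 (Nat.zero_le _) (L • (ξ - om α) - 0)
        rw [norm_iteratedFDeriv_zero, ← h0] at this
        exact norm_le_zero_iff.1 this
      rw [hz]
      simp
    · have hne : (b α : ℂ) ≠ 0 := by exact_mod_cast h0.ne'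
      push_cast
      field_simp
  have e2 : energy t (fun α => (b α : ℂ)) = ∑ α ∈ t, b α ^ 2 := by
    unfold energy
    refine Finset.sum_congr rfl fun α _ => ?_
    rw [Complex.norm_real, Real.norm_eq_abs, sq_abs]
  simp only [e1] at h
  rw [e2, one_pow, mul_one] at h
  exact h

/-- **LEAF L-F1-GR4 = (f:auxiliary-energy) for one set of cells.**   PLAN: `fxp_dat_eq` (pull the constant `(2π)^k h^{k/2}` out of the sum and of the norm: its square is `(2π)^{2k} h^k`), `fgr_bessel`, `fgr_mult`;  `IflAmp` of lower order from `hJ`. -/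
theorem fgr_energy (k : ℕ) (K : XCls) (hJ : 2 * k + 1 ≤ K.J) (hρ : 0 ≤ K.ρ) :
    ∃ C : ℝ, 0 ≤ C ∧ ∀ (Λ : Type) [Fintype Λ] (A : XFam k Λ) (s : Finset (Λ × (Fin k → ℤ))) (a : Λ × (Fin k → ℤ) → ℝ), A.In s K a →
      ∀ t ⊆ s, ∫ ξ, ‖A.sdat t ξ‖ ^ 2 ≤ C * A.h ^ k * ∑ T ∈ t, a T ^ 2 := by
  obtain ⟨C, hC0, hC⟩ := fgr_bessel k K.ρ hρ
  refine ⟨(2 * π) ^ (2 * k) * (C * ((⌊K.Cm⌋₊ * 3 ^ k : ℕ) : ℝ)), by positivity, fun Λ _ A s a hA t hts => ?_⟩
  have hh := hA.h_pos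
  have h := hC (Λ × (Fin k → ℤ)) s A.h a (fun T => A.fr T.1) (fun T => A.h • latE T.2) A.G (⌊K.Cm⌋₊ * 3 ^ k) hh
    (fun T hT => ⟨(hA.amp hT).smooth, (hA.amp hT).supp, fun j hj θ => (hA.amp hT).bound j (hj.trans hJ) θ⟩) (fgr_mult hA) t hts
  have e1 : ∀ ξ, ‖A.sdat t ξ‖ ^ 2 = ((2 * π) ^ (2 * k) * A.h ^ k) * ‖∑ T ∈ t, iflG A.h (A.fr T.1) (A.h • latE T.2) 0 (A.G T) ξ‖ ^ 2 := by
    intro ξ
    unfold XFam.sdat
    simp_rw [fxp_dat_eq A hh]
    rw [← Finset.mul_sum, norm_mul, mul_pow, Complex.norm_real, Real.norm_eq_abs, sq_abs, mul_pow, ← pow_mul, mul_comm k 2]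
    congr 2
    rw [← Real.rpow_natCast (A.h ^ ((k : ℝ) / 2)) 2, ← Real.rpow_mul hh.le, ← Real.rpow_natCast A.h k]
    congr 1
    push_cast
    ring
  simp_rw [e1]
  rw [integral_const_mul]
  calc (2 * π) ^ (2 * k) * A.h ^ k * ∫ ξ, ‖∑ T ∈ t, iflG A.h (A.fr T.1) (A.h • latE T.2) 0 (A.G T) ξ‖ ^ 2
      ≤ (2 * π) ^ (2 * k) * A.h ^ k * (C * ((⌊K.Cm⌋₊ * 3 ^ k : ℕ) : ℝ) * ∑ T ∈ t, a T ^ 2) :=
        mul_le_mul_of_nonneg_left h (by positivity)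
    _ = _ := by ring

/-! ## 2. weighted orthogonality at a fixed time -/

/-- **LEAF L-F1-GR5: tensor product with a band limited function of a new variable.**   Density `D (ξ,σ) = car ξ (0,t) g ξ · κh σ` (`Integrable.mul_prod`, `Integrable.bdd_mul`, `inf_car_norm`);
`integral_prod_mul`;  `car ξ (x,t) = ch ⟪x,ξ⟫ * car ξ (0,t)` (`inf_car_add` or unfold), `BD.ch_add`, `BD.pr`. -/
theorem fgr_tensor {g : E k → ℂ} (hg : Integrable g) {v : E k} {r : ℝ} (hs : ∀ ξ, g ξ ≠ 0 → ‖ξ - v‖ ≤ r) {κ κh : ℝ → ℂ}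
    (hκh : Integrable κh) (hκ : ∀ s, κ s = ∫ σ, BD.ch (s * σ) * κh σ) (t : ℝ) :
    BD.FS {w : ST k | ‖w.1 - v‖ ≤ r} (fun y => ext g (y.1, t) * κ y.2) := by
  have hc : Continuous fun ξ : E k => car ξ ((0 : E k), t) := by
    unfold car
    fun_prop
  have h1 : Integrable fun ξ : E k => car ξ ((0 : E k), t) * g ξ :=
    hg.bdd_mul (c := 1) hc.aestronglyMeasurable (Filter.Eventually.of_forall fun ξ => (inf_car_norm _ _).le)
  refine ⟨fun w => (car w.1 ((0 : E k), t) * g w.1) * κh w.2, ?_, fun w hw => ?_, fun z => ?_⟩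
  · rw [Measure.volume_eq_prod]
    exact h1.mul_prod hκh
  · have : g w.1 = 0 := by
      by_contra h
      exact hw (hs _ h)
    simp [this]
  · have e := integral_prod_mul (μ := (volume : Measure (E k))) (ν := (volume : Measure ℝ))
      (fun ξ => car ξ (z.1, t) * g ξ) (fun σ => BD.ch (z.2 * σ) * κh σ)
    rw [← Measure.volume_eq_prod] at e
    show ext g (z.1, t) * κ z.2 = _
    rw [hκ z.2]
    unfold ext
    rw [← e]
    refine integral_congr_ae (Filter.Eventually.of_forall fun w => ?_)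
    show car w.1 (z.1, t) * g w.1 * (BD.ch (z.2 * w.2) * κh w.2) = BD.ch (BD.pr z w) * ((car w.1 ((0 : E k), t) * g w.1) * κh w.2)
    have e2 : car w.1 (z.1, t) * BD.ch (z.2 * w.2) = BD.ch (BD.pr z w) * car w.1 ((0 : E k), t) := by
      unfold car BD.ch BD.pr
      rw [← Complex.exp_add, ← Complex.exp_add]
      congr 1
      simp only [inner_zero_left]
      push_cast
      ring
    calc car w.1 (z.1, t) * g w.1 * (BD.ch (z.2 * w.2) * κh w.2) = (car w.1 (z.1, t) * BD.ch (z.2 * w.2)) * (g w.1 * κh w.2) := by ring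
      _ = _ := by rw [e2]; ring

/-- `∫⁻ |χ|² < ∞` -/
theorem fgr_slice_fin {T₁ : ℝ} {χ χh : ℝ → ℂ} (hχ : XCut T₁ χ χh) : ∫⁻ s, ENNReal.ofReal (‖χ s‖ ^ 2) ≠ ⊤ := by
  obtain ⟨C, hC0, hC⟩ := hχ.decay 1
  have h1 : Integrable (fun s : ℝ => C ^ 2 * (1 + ‖s‖) ^ (-(2 : ℝ))) :=
    (integrable_one_add_norm (by rw [Module.finrank_self]; norm_num)).const_mul _
  have h2 : Integrable (fun s : ℝ => ‖χ s‖ ^ 2) := by
    refine h1.mono' (by have := hχ.cont'; fun_prop) (Filter.Eventually.of_forall fun s => ?_)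
    rw [Real.norm_of_nonneg (by positivity)]
    have h3 : (0 : ℝ) < 1 + ‖s‖ := by positivity
    calc ‖χ s‖ ^ 2 ≤ (C * (1 + |s|) ^ (-(1 : ℝ))) ^ 2 := pow_le_pow_left₀ (norm_nonneg _) (hC s) 2
      _ = C ^ 2 * (1 + ‖s‖) ^ (-(2 : ℝ)) := by
        rw [mul_pow, ← Real.rpow_natCast ((1 + |s|) ^ (-(1 : ℝ))), ← Real.rpow_mul (by positivity), Real.norm_eq_abs]
        norm_num
  exact (h2.lintegral_lt_top).ne

/-- dilation -/
theorem fgr_slice_dil {R : ℝ} (hR : 0 < R) {B : ℝ → ℝ≥0∞} (hB : Measurable B) :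
    ∫⁻ s, B (s / R) = ENNReal.ofReal R * ∫⁻ s, B s := by
  have h1 := Real.map_volume_mul_left (a := R⁻¹) (inv_ne_zero hR.ne')
  have h2 : ∫⁻ s, B s ∂(Measure.map (fun x => R⁻¹ * x) volume) = ∫⁻ s, B (R⁻¹ * s) :=
    lintegral_map hB (measurable_const_mul _)
  rw [h1, lintegral_smul_measure, inv_inv, abs_of_pos hR] at h2
  rw [← smul_eq_mul, h2]
  refine lintegral_congr fun s => ?_
  rw [div_eq_inv_mul]

/-- **LEAF L-F1-GR6: a space-time average of a tensor product is a spatial average.**   `I f = ∫⁻ |f x|² (1 + |x - x₀|/R)^{-Ew} dx`.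
PLAN: Tonelli (`lintegral_prod`, `volume_eq_prod`; everything measurable), `‖(x - x₀, s)‖ = max ‖x - x₀‖ |s|`.   UPPER: `(1 + max(a,|s|)/R)^{-Ew} ≤ (1 + a/R)^{-Ew}`, `∫⁻ |χ(s/R)|² ds = R ∫⁻ |χ|²` (`lintegral_comp_mul_left`-type: `Measure.lintegral_comp_smul`… or
`MeasureTheory.lintegral_map_equiv` with `Real.map_volume_mul_left`), `c₂ = ∫ |χ|² < ∞` (`hχ.decay 1`, `integrable_one_add_norm`).   LOWER: restrict to `|s| ≤ R`: `|χ(s/R)| ≥ 1/2`, `1 + max(a,|s|)/R ≤ 2 (1 + a/R)`, `volume (Icc (-R) R) = 2R`:  `c₁ = 2^{-Ew-1}`. -/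
theorem fgr_slice (k : ℕ) (Ew : ℝ) (hE : 0 ≤ Ew) {χ χh : ℝ → ℂ} (hχ : XCut 1 χ χh) :
    ∃ c₁ c₂ : ℝ, 0 < c₁ ∧ 0 < c₂ ∧ ∀ (R : ℝ) (f : E k → ℂ) (x₀ : E k), 0 < R → Continuous f →
      ENNReal.ofReal (c₁ * R) * ∫⁻ x, ‖f x‖ₑ ^ 2 * ENNReal.ofReal ((1 + ‖x - x₀‖ / R) ^ (-Ew))
          ≤ ∫⁻ y : ST k, ‖f y.1 * χ (y.2 / R)‖ₑ ^ (2 : ℝ) * BD.wt Ew R (y - (x₀, 0)) ∧
      ∫⁻ y : ST k, ‖f y.1 * χ (y.2 / R)‖ₑ ^ (2 : ℝ) * BD.wt Ew R (y - (x₀, 0))
          ≤ ENNReal.ofReal (c₂ * R) * ∫⁻ x, ‖f x‖ₑ ^ 2 * ENNReal.ofReal ((1 + ‖x - x₀‖ / R) ^ (-Ew)) := by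
  have hfin := fgr_slice_fin hχ
  obtain ⟨c₂, hc₂⟩ : ∃ c₂ : ℝ, c₂ = (∫⁻ s, ENNReal.ofReal (‖χ s‖ ^ 2)).toReal + 1 := ⟨_, rfl⟩
  have hc₂0 : 0 < c₂ := by rw [hc₂]; positivity
  have hc₂le : ∫⁻ s, ENNReal.ofReal (‖χ s‖ ^ 2) ≤ ENNReal.ofReal c₂ := by
    rw [← ENNReal.ofReal_toReal hfin]
    exact ENNReal.ofReal_le_ofReal (by rw [hc₂]; linarith)
  have hχc := hχ.cont'
  refine ⟨(2 : ℝ) ^ (-Ew) / 2, c₂, by positivity, hc₂0, fun R f x₀ hR hf => ?_⟩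
  obtain ⟨a, ha⟩ : ∃ a : E k → ℝ, a = fun x => ‖f x‖ ^ 2 * (1 + ‖x - x₀‖ / R) ^ (-Ew) := ⟨_, rfl⟩
  have hpos : ∀ x : E k, 0 < 1 + ‖x - x₀‖ / R := fun x => by positivity
  have ha0 : ∀ x, 0 ≤ a x := fun x => by rw [ha]; have := hpos x; positivity
  have hac : Continuous a := by
    rw [ha]
    refine (hf.norm.pow 2).mul (Continuous.rpow_const (by fun_prop) fun x => Or.inl (hpos x).ne')
  have e1 : ∀ x, ‖f x‖ₑ ^ 2 * ENNReal.ofReal ((1 + ‖x - x₀‖ / R) ^ (-Ew)) = ENNReal.ofReal (a x) := by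
    intro x
    rw [ha, ENNReal.ofReal_mul (by positivity), ENNReal.ofReal_pow (norm_nonneg _), ofReal_norm]
  have e2 : ∀ y : ST k, ‖f y.1 * χ (y.2 / R)‖ₑ ^ (2 : ℝ) * BD.wt Ew R (y - (x₀, 0))
      = ENNReal.ofReal (‖f y.1‖ ^ 2 * ‖χ (y.2 / R)‖ ^ 2 * (1 + max ‖y.1 - x₀‖ |y.2| / R) ^ (-Ew)) := by
    intro y
    have h1 : ‖y - (x₀, (0 : ℝ))‖ = max ‖y.1 - x₀‖ |y.2| := by
      rw [Prod.norm_def, Prod.fst_sub, Prod.snd_sub, sub_zero, Real.norm_eq_abs]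
    unfold BD.wt
    rw [h1, ENNReal.ofReal_mul (by positivity), ← mul_pow, ← norm_mul, ENNReal.ofReal_pow (norm_nonneg _), ofReal_norm,
      ENNReal.rpow_ofNat]
  simp only [e1, e2]
  have hma : AEMeasurable (fun x => ENNReal.ofReal (a x)) (volume : Measure (E k)) := hac.measurable.ennreal_ofReal.aemeasurable
  constructor
  · -- lower bound
    have hmb : AEMeasurable ((Icc (-R) R).indicator fun _ : ℝ => ENNReal.ofReal ((2 : ℝ) ^ (-Ew) / 4)) (volume : Measure ℝ) :=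
      (measurable_const.indicator measurableSet_Icc).aemeasurable
    have h3 := lintegral_prod_mul (μ := (volume : Measure (E k))) (ν := (volume : Measure ℝ)) hma hmb
    rw [lintegral_indicator measurableSet_Icc, lintegral_const, Measure.restrict_apply MeasurableSet.univ, univ_inter, Real.volume_Icc,
      ← ENNReal.ofReal_mul (by positivity)] at h3
    have h4 : (2 : ℝ) ^ (-Ew) / 4 * (R - -R) = (2 : ℝ) ^ (-Ew) / 2 * R := by ring
    rw [h4, mul_comm] at h3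
    rw [← h3, ← Measure.volume_eq_prod]
    refine lintegral_mono fun y => ?_
    by_cases hy : y.2 ∈ Icc (-R) R
    · rw [indicator_of_mem hy, ← ENNReal.ofReal_mul (ha0 _)]
      refine ENNReal.ofReal_le_ofReal ?_
      have hy' : |y.2| ≤ R := abs_le.2 hy
      have h5 : 1 / 2 ≤ ‖χ (y.2 / R)‖ := hχ.lower _ (by rw [abs_div, abs_of_pos hR, div_le_one hR]; exact hy')
      have h6 : (1 : ℝ) / 4 ≤ ‖χ (y.2 / R)‖ ^ 2 := by nlinarith
      have h7 : 1 + max ‖y.1 - x₀‖ |y.2| / R ≤ 2 * (1 + ‖y.1 - x₀‖ / R) := by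
        have : max ‖y.1 - x₀‖ |y.2| / R ≤ ‖y.1 - x₀‖ / R + 1 := by
          rw [div_le_iff₀ hR, add_mul, div_mul_cancel₀ _ hR.ne', one_mul]
          exact max_le (by linarith) (by linarith [norm_nonneg (y.1 - x₀)])
        have h0 : 0 ≤ ‖y.1 - x₀‖ / R := by positivity
        linarith
      have h8 : (2 : ℝ) ^ (-Ew) * (1 + ‖y.1 - x₀‖ / R) ^ (-Ew) ≤ (1 + max ‖y.1 - x₀‖ |y.2| / R) ^ (-Ew) := by
        rw [← Real.mul_rpow (by norm_num) (hpos _).le]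
        exact Real.rpow_le_rpow_of_nonpos (by positivity) h7 (by linarith)
      have h9 : 0 ≤ (1 + ‖y.1 - x₀‖ / R) ^ (-Ew) := by have := hpos y.1; positivity
      rw [ha]
      calc ‖f y.1‖ ^ 2 * (1 + ‖y.1 - x₀‖ / R) ^ (-Ew) * ((2 : ℝ) ^ (-Ew) / 4)
          = ‖f y.1‖ ^ 2 * (1 / 4) * ((2 : ℝ) ^ (-Ew) * (1 + ‖y.1 - x₀‖ / R) ^ (-Ew)) := by ring
        _ ≤ ‖f y.1‖ ^ 2 * ‖χ (y.2 / R)‖ ^ 2 * (1 + max ‖y.1 - x₀‖ |y.2| / R) ^ (-Ew) := by gcongr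
    · rw [indicator_of_notMem hy, mul_zero]
      exact zero_le
  · -- upper bound
    have hmb : Measurable (fun s : ℝ => ENNReal.ofReal (‖χ s‖ ^ 2)) := by fun_prop
    have hmb' : AEMeasurable (fun s : ℝ => ENNReal.ofReal (‖χ (s / R)‖ ^ 2)) (volume : Measure ℝ) :=
      (by fun_prop : Measurable fun s : ℝ => ENNReal.ofReal (‖χ (s / R)‖ ^ 2)).aemeasurable
    have h3 := lintegral_prod_mul (μ := (volume : Measure (E k))) (ν := (volume : Measure ℝ)) hma hmb'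
    rw [fgr_slice_dil hR hmb, ← Measure.volume_eq_prod] at h3
    calc ∫⁻ y : ST k, ENNReal.ofReal (‖f y.1‖ ^ 2 * ‖χ (y.2 / R)‖ ^ 2 * (1 + max ‖y.1 - x₀‖ |y.2| / R) ^ (-Ew))
        ≤ ∫⁻ y : ST k, ENNReal.ofReal (a y.1) * ENNReal.ofReal (‖χ (y.2 / R)‖ ^ 2) := by
          refine lintegral_mono fun y => ?_
          rw [← ENNReal.ofReal_mul (ha0 _)]
          refine ENNReal.ofReal_le_ofReal ?_
          have h8 : (1 + max ‖y.1 - x₀‖ |y.2| / R) ^ (-Ew) ≤ (1 + ‖y.1 - x₀‖ / R) ^ (-Ew) := by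
            refine Real.rpow_le_rpow_of_nonpos (hpos _) ?_ (by linarith)
            gcongr
            exact le_max_left _ _
          rw [ha]
          calc ‖f y.1‖ ^ 2 * ‖χ (y.2 / R)‖ ^ 2 * (1 + max ‖y.1 - x₀‖ |y.2| / R) ^ (-Ew)
              ≤ ‖f y.1‖ ^ 2 * ‖χ (y.2 / R)‖ ^ 2 * (1 + ‖y.1 - x₀‖ / R) ^ (-Ew) := by gcongr
            _ = ‖f y.1‖ ^ 2 * (1 + ‖y.1 - x₀‖ / R) ^ (-Ew) * ‖χ (y.2 / R)‖ ^ 2 := by ring
      _ = (∫⁻ x, ENNReal.ofReal (a x)) * (ENNReal.ofReal R * ∫⁻ s, ENNReal.ofReal (‖χ s‖ ^ 2)) := h3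
      _ ≤ (∫⁻ x, ENNReal.ofReal (a x)) * (ENNReal.ofReal R * ENNReal.ofReal c₂) := by gcongr
      _ = ENNReal.ofReal (c₂ * R) * ∫⁻ x, ENNReal.ofReal (a x) := by
          rw [ENNReal.ofReal_mul hc₂0.le]
          ring

/-- exact fields of integrable data are continuous -/
theorem fgr_ext_cont {g : E k → ℂ} (hg : Integrable g) : Continuous (ext g) := by
  unfold ext
  refine continuous_of_dominated (bound := fun ξ => ‖g ξ‖) (fun z => ?_) (fun z => ?_) hg.norm ?_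
  · exact ((inf_A2_car_cont z).aestronglyMeasurable).mul hg.aestronglyMeasurable
  · exact Filter.Eventually.of_forall fun ξ => by rw [norm_mul, inf_car_norm, one_mul]
  · exact Filter.Eventually.of_forall fun ξ =>
      (inf_car_continuous.comp (continuous_const.prodMk continuous_id)).mul continuous_const

/-- the dilated cutoff -/
theorem fgr_orth_dil {T₁ : ℝ} {χ χh : ℝ → ℂ} (hχ : XCut T₁ χ χh) {R : ℝ} (hR : 0 < R) :
    Integrable (fun σ => (R : ℂ) * χh (R * σ)) ∧ ∀ s, χ (s / R) = ∫ σ, BD.ch (s * σ) * ((R : ℂ) * χh (R * σ)) := by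
  refine ⟨((fxp_cut_int hχ).comp_mul_left' hR.ne').const_mul _, fun s => ?_⟩
  rw [hχ.repr]
  have h1 := Measure.integral_comp_mul_left (fun w : ℝ => BD.ch (s / R * w) * χh w) R
  have h2 : ∫ w, BD.ch (s / R * w) * χh w = (R : ℂ) * ∫ σ, BD.ch (s / R * (R * σ)) * χh (R * σ) := by
    rw [h1, abs_of_pos (by positivity), Complex.real_smul, ← mul_assoc]
    push_cast
    rw [mul_inv_cancel₀ (by exact_mod_cast hR.ne'), one_mul]
  rw [h2, ← integral_const_mul]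
  refine integral_congr_ae (Filter.Eventually.of_forall fun σ => ?_)
  have h3 : s / R * (R * σ) = s * σ := by field_simp
  simp only [h3]
  ring

/-- **LEAF L-F1-GR7: weighted `L²` orthogonality of exact fields at a fixed time.**
PLAN: `fxp_cutoff 1` gives `χ`; `κ s = χ (s / R)`, `κh σ = R χh (R σ)` (substitution as in `fxp_cutoff`; integrable: continuous, compact support);  `F j y = ext (g j) (y.1, t) * κ y.2 ∈ FS {‖w.1 - v j‖ ≤ C/R}` (`fgr_tensor`);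
`BD.orth C Ew` at `z = (x₀, 0)`; unfold `BD.avp` and cancel the common factor `ofReal (R^(-d)) ≠ 0, ∞` (`ENNReal.mul_le_mul_left`);  `∑ j, F j y = (∑ j, ext (g j) (y.1,t)) * κ y.2` (`Finset.sum_mul`);  `fgr_slice` (lower for the sum, upper for the terms;
`x ↦ ext (g j) (x,t)` is continuous: `continuous_of_dominated` with bound `‖g j‖`, or `BD.FS.continuous` of the tensor at `s = 0`).    `A' = A c₂ / c₁`. -/
theorem fgr_orth (k : ℕ) (C Ew : ℝ) (hC : 0 ≤ C) (hE : 0 ≤ Ew) :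
    ∃ A : ℝ, 0 ≤ A ∧ ∀ (R : ℝ) (ι : Type) (s : Finset ι) (v : ι → E k) (g : ι → E k → ℂ), 0 < R → (∀ j ∈ s, Integrable (g j)) →
      (∀ j ∈ s, ∀ ξ, g j ξ ≠ 0 → ‖ξ - v j‖ ≤ C / R) →
      (∀ ξ : E k, ∀ u ⊆ s, (∀ j ∈ u, ‖v j - ξ‖ ≤ 1 / R) → (u.card : ℝ) ≤ C) → ∀ (x₀ : E k) (t : ℝ),
      ∫⁻ x, ‖∑ j ∈ s, ext (g j) (x, t)‖ₑ ^ 2 * ENNReal.ofReal ((1 + ‖x - x₀‖ / R) ^ (-Ew))
        ≤ ENNReal.ofReal A * ∑ j ∈ s, ∫⁻ x, ‖ext (g j) (x, t)‖ₑ ^ 2 * ENNReal.ofReal ((1 + ‖x - x₀‖ / R) ^ (-Ew)) := by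
  obtain ⟨χ, χh, hχ⟩ := fxp_cutoff 1
  obtain ⟨c₁, c₂, hc₁, hc₂, hsl⟩ := fgr_slice k Ew hE hχ
  obtain ⟨A₀, hA₀⟩ := BD.orth (V := E k) C Ew hC hE
  refine ⟨c₁⁻¹ * (max A₀ 0 * c₂), by positivity, fun R ι s v g hR hg hsupp hmult x₀ t => ?_⟩
  obtain ⟨hκi, hκ⟩ := fgr_orth_dil hχ hR
  have hFS : ∀ j ∈ s, BD.FS {w : ST k | ‖w.1 - v j‖ ≤ C / R} (fun y => ext (g j) (y.1, t) * χ (y.2 / R)) := fun j hj =>
    fgr_tensor (hg j hj) (hsupp j hj) hκi hκ t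
  have h1 := hA₀ R ι s v (fun j y => ext (g j) (y.1, t) * χ (y.2 / R)) hR hFS hmult (x₀, 0)
  unfold BD.avp at h1
  have hc0 : ENNReal.ofReal (R ^ (-(BD.dd (E k) : ℝ))) ≠ 0 := by
    rw [Ne, ENNReal.ofReal_eq_zero, not_le]
    positivity
  rw [← Finset.mul_sum, mul_left_comm, ENNReal.mul_le_mul_iff_right hc0 ENNReal.ofReal_ne_top] at h1
  have hcj : ∀ j ∈ s, Continuous fun x : E k => ext (g j) (x, t) := fun j hj =>
    (fgr_ext_cont (hg j hj)).comp (continuous_id.prodMk continuous_const)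
  have hcs : Continuous fun x : E k => ∑ j ∈ s, ext (g j) (x, t) := continuous_finsetSum _ hcj
  have h2 := (hsl R (fun x => ∑ j ∈ s, ext (g j) (x, t)) x₀ hR hcs).1
  simp only [Finset.sum_mul] at h2
  have h3 : ENNReal.ofReal (c₁ * R) * ∫⁻ x, ‖∑ j ∈ s, ext (g j) (x, t)‖ₑ ^ 2 * ENNReal.ofReal ((1 + ‖x - x₀‖ / R) ^ (-Ew))
      ≤ ENNReal.ofReal (c₁ * R) * (ENNReal.ofReal (c₁⁻¹ * (max A₀ 0 * c₂)) *
        ∑ j ∈ s, ∫⁻ x, ‖ext (g j) (x, t)‖ₑ ^ 2 * ENNReal.ofReal ((1 + ‖x - x₀‖ / R) ^ (-Ew))) := by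
    calc _ ≤ _ := h2
      _ ≤ _ := h1
      _ ≤ ENNReal.ofReal (max A₀ 0) * ∑ j ∈ s, (ENNReal.ofReal (c₂ * R) *
            ∫⁻ x, ‖ext (g j) (x, t)‖ₑ ^ 2 * ENNReal.ofReal ((1 + ‖x - x₀‖ / R) ^ (-Ew))) := by
          gcongr with j hj
          · exact le_max_left _ _
          · exact (hsl R (fun x => ext (g j) (x, t)) x₀ hR (hcj j hj)).2
      _ = _ := by
          rw [← Finset.mul_sum, ← mul_assoc, ← mul_assoc, ← ENNReal.ofReal_mul (by positivity), ← ENNReal.ofReal_mul (by positivity)]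
          congr 2
          field_simp
  have hc1 : ENNReal.ofReal (c₁ * R) ≠ 0 := by
    rw [Ne, ENNReal.ofReal_eq_zero, not_le]
    positivity
  exact (ENNReal.mul_le_mul_iff_right hc1 ENNReal.ofReal_ne_top).1 h3

/-! ## 3. one label, one cell -/

/-! ## 3. one label, one cell -/

/-- **LEAF L-F1-GR8: the cells of one label, pointwise.**   `X = natX h (fr λ) z`, `|U_T z| = |ext G_T (X - lat (m,0))| ≤ C a_T (1 + |X.2|)^J (1 + ‖X.1 - m‖)^{-J}` (`fxp_ext_decay`, `inf_car_norm`);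
Cauchy-Schwarz `(∑ a_T w_T)² ≤ (∑ a_T² w_T)(∑ w_T)` (`Finset.sum_mul_sq_le_sq_mul_sq` with `√w`, or `Finset.inner_mul_le_norm_mul_norm`), `∑_T w_T ≤ C_lat`: `tg_sum_latE k (A := J)` at `r = 1` over `t.image (·.2)` (injective on `t` because `T.1 = λ`). -/
theorem fgr_label (k J : ℕ) (ρ : ℝ) (hρ : 0 ≤ ρ) (hJ : k < J) :
    ∃ C : ℝ, 0 ≤ C ∧ ∀ (Λ : Type) (A : XFam k Λ) (t : Finset (Λ × (Fin k → ℤ))) (a : Λ × (Fin k → ℤ) → ℝ) (l : Λ), 0 < A.h →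
      (∀ T ∈ t, T.1 = l) → (∀ T ∈ t, IflAmp J ρ (a T) (A.G T)) → ∀ z : ST k,
      ‖A.fld t z‖ ^ 2 ≤ C * (1 + |z.2| / A.h ^ 2) ^ (2 * J) * ∑ T ∈ t, a T ^ 2 * (1 + ‖(natX A.h (A.fr l) z).1 - latE T.2‖) ^ (-(J : ℝ)) := by
  obtain ⟨C₁, hC₁, hD⟩ := fxp_ext_decay k J ρ hρ
  obtain ⟨C₂, hC₂, hL⟩ := tg_sum_latE k (A := (J : ℝ)) (by exact_mod_cast hJ)
  refine ⟨C₁ ^ 2 * C₂, by positivity, ?_⟩
  intro Λ A t a l hh hl hamp z
  set X : ST k := natX A.h (A.fr l) z with hX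
  set w : Λ × (Fin k → ℤ) → ℝ := fun T => (1 + ‖X.1 - latE T.2‖) ^ (-(J : ℝ)) with hw
  have hw0 : ∀ T, 0 ≤ w T := fun T => by positivity
  set τ : ℝ := 1 + |z.2| / A.h ^ 2 with hτ
  have hτ0 : 0 ≤ τ := by positivity
  have hU : ∀ T ∈ t, ‖A.U T z‖ ≤ C₁ * τ ^ J * (a T * w T) := by
    intro T hT
    unfold XFam.U
    rw [norm_mul, inf_car_norm, one_mul, hl T hT]
    have h1 := hD (A.G T) (a T) (X - lat (T.2, 0)) (hamp T hT)
    have e1 : (X - lat (T.2, 0)).2 = z.2 / A.h ^ 2 := by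
      show X.2 - (lat (T.2, 0)).2 = _
      rw [tg_lat_snd, hX]
      unfold natX
      simp
    have e2 : (X - lat (T.2, 0)).1 = X.1 - latE T.2 := rfl
    rw [e1, e2, abs_div, abs_of_pos (by positivity : (0 : ℝ) < A.h ^ 2)] at h1
    refine h1.trans (le_of_eq ?_)
    have e3 : (1 + ‖X.1 - latE T.2‖) ^ (-(J : ℤ)) = w T := by
      rw [hw]
      simp only
      rw [← Real.rpow_intCast]
      push_cast
      rfl
    rw [e3]
    ring
  have hsum : ∑ T ∈ t, w T ≤ C₂ := by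
    have hinj : Set.InjOn (fun T : Λ × (Fin k → ℤ) => T.2) t := by
      intro T hT T' hT' e
      exact Prod.ext ((hl T hT).trans (hl T' hT').symm) e
    have h1 := hL 1 (t.image fun T => T.2) X.1 one_pos le_rfl
    rw [Finset.sum_image hinj] at h1
    simp only [one_smul, inv_one, one_pow, mul_one] at h1
    refine le_trans (le_of_eq ?_) h1
    refine Finset.sum_congr rfl fun T _ => ?_
    rw [hw]
    simp only
    rw [norm_sub_rev]
  have hcs : (∑ T ∈ t, a T * w T) ^ 2 ≤ (∑ T ∈ t, a T ^ 2 * w T) * ∑ T ∈ t, w T := by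
    have h1 := Finset.sum_mul_sq_le_sq_mul_sq t (fun T => a T * Real.sqrt (w T)) (fun T => Real.sqrt (w T))
    have e1 : ∀ T, a T * Real.sqrt (w T) * Real.sqrt (w T) = a T * w T := fun T => by
      rw [mul_assoc, Real.mul_self_sqrt (hw0 T)]
    have e2 : ∀ T, (a T * Real.sqrt (w T)) ^ 2 = a T ^ 2 * w T := fun T => by
      rw [mul_pow, Real.sq_sqrt (hw0 T)]
    have e3 : ∀ T, Real.sqrt (w T) ^ 2 = w T := fun T => Real.sq_sqrt (hw0 T)
    simp only [e1, e2, e3] at h1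
    exact h1
  have hS0 : 0 ≤ ∑ T ∈ t, a T ^ 2 * w T := Finset.sum_nonneg fun T _ => mul_nonneg (sq_nonneg _) (hw0 T)
  have hfld : ‖A.fld t z‖ ≤ C₁ * τ ^ J * ∑ T ∈ t, a T * w T := by
    unfold XFam.fld
    refine (norm_sum_le _ _).trans ?_
    rw [Finset.mul_sum]
    exact Finset.sum_le_sum hU
  calc ‖A.fld t z‖ ^ 2 ≤ (C₁ * τ ^ J * ∑ T ∈ t, a T * w T) ^ 2 := pow_le_pow_left₀ (norm_nonneg _) hfld 2
    _ = C₁ ^ 2 * τ ^ (2 * J) * (∑ T ∈ t, a T * w T) ^ 2 := by ring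
    _ ≤ C₁ ^ 2 * τ ^ (2 * J) * ((∑ T ∈ t, a T ^ 2 * w T) * C₂) := by
        gcongr
        exact hcs.trans (mul_le_mul_of_nonneg_left hsum hS0)
    _ = _ := by ring

theorem fgr_wint_scale (f : E k → ℝ≥0∞) (hf : Measurable f) {h : ℝ} (hh : 0 < h) (x₀ : E k) :
    ∫⁻ x, f (h⁻¹ • (x - x₀)) = ENNReal.ofReal (h ^ k) * ∫⁻ y, f y := by
  rw [lintegral_sub_right_eq_self (fun x => f (h⁻¹ • x)) x₀]
  have h1 := Measure.map_addHaar_smul (volume : Measure (E k)) (r := h⁻¹) (inv_ne_zero hh.ne')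
  have h2 : ∫⁻ x, f (h⁻¹ • x) = ∫⁻ y, f y ∂(Measure.map (fun x : E k => h⁻¹ • x) volume) :=
    (lintegral_map hf (measurable_const_smul _)).symm
  rw [h2, h1, lintegral_smul_measure, finrank_euclideanSpace_fin, smul_eq_mul]
  congr 2
  rw [inv_pow, inv_inv, abs_of_pos (by positivity)]

theorem fgr_wint_peetre {P : ℝ} (hP : 0 ≤ P) (y p : E k) :
    (1 + ‖y + p‖) ^ (-P) ≤ (1 + ‖y‖) ^ P * (1 + ‖p‖) ^ (-P) := by
  have h1 : 1 + ‖p‖ ≤ (1 + ‖y + p‖) * (1 + ‖y‖) := by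
    have : ‖p‖ ≤ ‖y + p‖ + ‖y‖ := by
      have := norm_sub_le (y + p) y
      simpa using this
    nlinarith [norm_nonneg (y + p), norm_nonneg y]
  have h2 : (1 + ‖p‖) ^ P ≤ (1 + ‖y + p‖) ^ P * (1 + ‖y‖) ^ P := by
    rw [← Real.mul_rpow (by positivity) (by positivity)]
    exact Real.rpow_le_rpow (by positivity) h1 hP
  rw [Real.rpow_neg (by positivity), Real.rpow_neg (by positivity), ← div_eq_mul_inv, le_div_iff₀ (by positivity),
    inv_mul_le_iff₀ (by positivity)]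
  exact h2

/-- **LEAF L-F1-GR9: integral of two polynomial weights.**   PLAN: substitute `x = x₀ + h • y` (`lintegral_add_left_eq_self`-type + `Measure.lintegral_comp_smul`/`addHaar_smul`: factor `h^k`): `∫⁻ (1+‖y‖)^{-Ew} (1 + ‖y + p‖)^{-P} dy`, `p = h⁻¹ • (x₀ - c) - m`;
Peetre `1 + ‖p‖ ≤ (1 + ‖y + p‖)(1 + ‖y‖)`, so `(1+‖y+p‖)^{-P} ≤ (1+‖p‖)^{-P} (1+‖y‖)^P`;  `∫ (1+‖y‖)^{-(Ew-P)} < ∞` (`integrable_one_add_norm`, `finrank_euclideanSpace_fin`). -/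
theorem fgr_wint (k : ℕ) (Ew P : ℝ) (hP : 0 ≤ P) (hE : P + k < Ew) :
    ∃ C : ℝ, 0 ≤ C ∧ ∀ (h : ℝ) (x₀ c m : E k), 0 < h →
      ∫⁻ x, ENNReal.ofReal ((1 + ‖x - x₀‖ / h) ^ (-Ew)) * ENNReal.ofReal ((1 + ‖h⁻¹ • (x - c) - m‖) ^ (-P))
        ≤ ENNReal.ofReal (C * h ^ k * (1 + ‖h⁻¹ • (x₀ - c) - m‖) ^ (-P)) := by
  have hint : Integrable fun y : E k => (1 + ‖y‖) ^ (-(Ew - P)) := by
    refine integrable_one_add_norm ?_
    rw [finrank_euclideanSpace_fin]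
    linarith
  refine ⟨∫ y : E k, (1 + ‖y‖) ^ (-(Ew - P)), integral_nonneg fun y => by positivity, ?_⟩
  intro h x₀ c m hh
  set p : E k := h⁻¹ • (x₀ - c) - m with hp
  have hm : Measurable fun y : E k => ENNReal.ofReal ((1 + ‖y‖) ^ (-(Ew - P))) := by fun_prop
  have hpt : ∀ x : E k, ENNReal.ofReal ((1 + ‖x - x₀‖ / h) ^ (-Ew)) * ENNReal.ofReal ((1 + ‖h⁻¹ • (x - c) - m‖) ^ (-P)) ≤
      ENNReal.ofReal ((1 + ‖h⁻¹ • (x - x₀)‖) ^ (-(Ew - P))) * ENNReal.ofReal ((1 + ‖p‖) ^ (-P)) := by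
    intro x
    have e1 : ‖x - x₀‖ / h = ‖h⁻¹ • (x - x₀)‖ := by
      rw [norm_smul, Real.norm_of_nonneg (inv_nonneg.2 hh.le), div_eq_inv_mul]
    have e2 : h⁻¹ • (x - c) - m = h⁻¹ • (x - x₀) + p := by
      rw [hp, ← add_sub_assoc, ← smul_add]
      congr 2
      abel
    rw [e1, e2, ← ENNReal.ofReal_mul (by positivity), ← ENNReal.ofReal_mul (by positivity)]
    refine ENNReal.ofReal_le_ofReal ?_
    have h3 := fgr_wint_peetre hP (h⁻¹ • (x - x₀)) p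
    calc (1 + ‖h⁻¹ • (x - x₀)‖) ^ (-Ew) * (1 + ‖h⁻¹ • (x - x₀) + p‖) ^ (-P)
        ≤ (1 + ‖h⁻¹ • (x - x₀)‖) ^ (-Ew) * ((1 + ‖h⁻¹ • (x - x₀)‖) ^ P * (1 + ‖p‖) ^ (-P)) := by gcongr
      _ = _ := by
          rw [← mul_assoc, ← Real.rpow_add (by positivity)]
          congr 2
          ring
  calc ∫⁻ x, ENNReal.ofReal ((1 + ‖x - x₀‖ / h) ^ (-Ew)) * ENNReal.ofReal ((1 + ‖h⁻¹ • (x - c) - m‖) ^ (-P))
      ≤ ∫⁻ x, ENNReal.ofReal ((1 + ‖h⁻¹ • (x - x₀)‖) ^ (-(Ew - P))) * ENNReal.ofReal ((1 + ‖p‖) ^ (-P)) := lintegral_mono hpt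
    _ = (ENNReal.ofReal (h ^ k) * ∫⁻ y : E k, ENNReal.ofReal ((1 + ‖y‖) ^ (-(Ew - P)))) * ENNReal.ofReal ((1 + ‖p‖) ^ (-P)) := by
        rw [lintegral_mul_const' _ _ ENNReal.ofReal_ne_top, fgr_wint_scale _ hm hh x₀]
    _ = _ := by
        rw [← ofReal_integral_eq_lintegral_ofReal hint (Filter.Eventually.of_forall fun y => by positivity),
          ← ENNReal.ofReal_mul (by positivity), ← ENNReal.ofReal_mul (mul_nonneg (by positivity) (integral_nonneg fun y => by positivity))]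
        congr 1
        ring

/-- **LEAF L-F1-GR10: one cell seen from a witness** (geometry of (f:original-witness-Gram)).   `x₀ = z.1 + τ • (2 • b)`, time `z.2 + τ`, `c = (2 (z.2 + τ)) • w`:
`h⁻¹ • (x₀ - c) - m = ((natX h w z).1 - m) + h⁻¹ • ((2τ) • (b - w))`, the last vector has norm `≤ 2 C₀ |τ|/(H h)`.   Peetre: `(1 + ‖u + e‖)^{-P} ≤ (1 + ‖e‖)^P (1 + ‖u‖)^{-P}`;   `1 + 2 C₀ x ≤ (1 + 2 C₀)(1 + x)`;
`1 + ‖X - lat (m,0)‖ ≤ (1 + ‖X.1 - m‖)(1 + |X.2|)` (`Prod.norm_def`), `X.2 = z.2/h²`.    `fgr_wint` + `(1+·)^{-J} ≤ (1+·)^{-P}`. -/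
theorem fgr_cell (k : ℕ) (Ew P J C₀ : ℝ) (hP : 0 ≤ P) (hE : P + k < Ew) (hJ : P ≤ J) (hC₀ : 0 ≤ C₀) :
    ∃ C : ℝ, 0 ≤ C ∧ ∀ (h H : ℝ) (w b : E k) (m : Fin k → ℤ) (z : ST k) (τ : ℝ), 0 < H → 0 < h → ‖w - b‖ ≤ C₀ / H →
      ∫⁻ x, ENNReal.ofReal ((1 + ‖x - (z.1 + τ • ((2 : ℝ) • b))‖ / h) ^ (-Ew)) * ENNReal.ofReal ((1 + ‖(natX h w (x, z.2 + τ)).1 - latE m‖) ^ (-J))
        ≤ ENNReal.ofReal (C * h ^ k * (1 + |z.2| / h ^ 2) ^ P * (1 + |τ| / (H * h)) ^ P * pw P h w (lat (m, 0)) z) := by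
  obtain ⟨C', hC', hW⟩ := fgr_wint k Ew P hP hE
  refine ⟨C' * (1 + 2 * C₀) ^ P, by positivity, ?_⟩
  intro h H w b m z τ hH hh hwb
  set x₀ : E k := z.1 + τ • ((2 : ℝ) • b) with hx₀
  set c : E k := (2 * (z.2 + τ)) • w with hc
  set u : E k := (natX h w z).1 - latE m with hu
  set e : E k := h⁻¹ • ((2 * τ) • (b - w)) with he
  have h1 := hW h x₀ c (latE m) hh
  have e1 : h⁻¹ • (x₀ - c) - latE m = e + u := by
    rw [hu, he, hx₀, hc]
    unfold natX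
    simp only [smul_sub, smul_add, smul_smul, add_smul, mul_add]
    module
  have hen : ‖e‖ ≤ 2 * C₀ * (|τ| / (H * h)) := by
    rw [he, norm_smul, norm_smul, Real.norm_of_nonneg (inv_nonneg.2 hh.le), Real.norm_eq_abs, abs_mul, abs_two, norm_sub_rev]
    calc h⁻¹ * (2 * |τ| * ‖w - b‖) ≤ h⁻¹ * (2 * |τ| * (C₀ / H)) := by gcongr
      _ = _ := by field_simp
  have hτ0 : 0 ≤ |τ| / (H * h) := by positivity
  have h2 : (1 + ‖e‖) ^ P ≤ (1 + 2 * C₀) ^ P * (1 + |τ| / (H * h)) ^ P := by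
    rw [← Real.mul_rpow (by positivity) (by positivity)]
    refine Real.rpow_le_rpow (by positivity) ?_ hP
    nlinarith
  have h3 : (1 + ‖u‖) ^ (-P) ≤ (1 + |z.2| / h ^ 2) ^ P * pw P h w (lat (m, 0)) z := by
    unfold pw
    have h4 : 1 + ‖natX h w z - lat (m, 0)‖ ≤ (1 + ‖u‖) * (1 + |z.2| / h ^ 2) := by
      have h5 : ‖natX h w z - lat (m, 0)‖ = max ‖u‖ (|z.2| / h ^ 2) := by
        rw [Prod.norm_def]
        congr 1
        show ‖(natX h w z).2 - (lat (m, 0)).2‖ = _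
        rw [tg_lat_snd]
        unfold natX
        simp only [Int.cast_zero, sub_zero, Real.norm_eq_abs, abs_div]
        rw [abs_of_pos (by positivity : (0 : ℝ) < h ^ 2)]
      rw [h5]
      have a1 : 0 ≤ ‖u‖ := norm_nonneg _
      have a2 : 0 ≤ |z.2| / h ^ 2 := by positivity
      rcases le_total ‖u‖ (|z.2| / h ^ 2) with hle | hle
      · rw [max_eq_right hle]; nlinarith
      · rw [max_eq_left hle]; nlinarith
    have h6 : (1 + ‖natX h w z - lat (m, 0)‖) ^ P ≤ (1 + ‖u‖) ^ P * (1 + |z.2| / h ^ 2) ^ P := by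
      rw [← Real.mul_rpow (by positivity) (by positivity)]
      exact Real.rpow_le_rpow (by positivity) h4 hP
    rw [Real.rpow_neg (by positivity), Real.rpow_neg (by positivity), ← div_eq_mul_inv, le_div_iff₀ (by positivity),
      inv_mul_le_iff₀ (by positivity)]
    exact h6
  calc ∫⁻ x, ENNReal.ofReal ((1 + ‖x - x₀‖ / h) ^ (-Ew)) * ENNReal.ofReal ((1 + ‖(natX h w (x, z.2 + τ)).1 - latE m‖) ^ (-J))
      ≤ ∫⁻ x, ENNReal.ofReal ((1 + ‖x - x₀‖ / h) ^ (-Ew)) * ENNReal.ofReal ((1 + ‖h⁻¹ • (x - c) - latE m‖) ^ (-P)) := by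
        refine lintegral_mono fun x => ?_
        refine mul_le_mul_right (ENNReal.ofReal_le_ofReal ?_) _
        show (1 + ‖h⁻¹ • (x - (2 * (z.2 + τ)) • w) - latE m‖) ^ (-J) ≤ (1 + ‖h⁻¹ • (x - c) - latE m‖) ^ (-P)
        exact Real.rpow_le_rpow_of_exponent_le (by linarith [norm_nonneg (h⁻¹ • (x - c) - latE m)]) (by linarith)
    _ ≤ ENNReal.ofReal (C' * h ^ k * (1 + ‖h⁻¹ • (x₀ - c) - latE m‖) ^ (-P)) := h1
    _ ≤ _ := by
        refine ENNReal.ofReal_le_ofReal ?_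
        rw [e1]
        have hpw : 0 ≤ pw P h w (lat (m, 0)) z := by unfold pw; positivity
        calc C' * h ^ k * (1 + ‖e + u‖) ^ (-P) ≤ C' * h ^ k * ((1 + ‖e‖) ^ P * (1 + ‖u‖) ^ (-P)) := by
              gcongr
              exact fgr_wint_peetre hP e u
          _ ≤ C' * h ^ k * (((1 + 2 * C₀) ^ P * (1 + |τ| / (H * h)) ^ P) * ((1 + |z.2| / h ^ 2) ^ P * pw P h w (lat (m, 0)) z)) := by
              gcongr
          _ = _ := by ring

/-! ## 4. the Gram bound -/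

/-- **LEAF L-F1-GR11: (f:original-witness-Gram), `lintegral` form, weight `(1 + |x - x₀|/h)^{-Ew}`.**
PLAN.  `t_l = t.filter (·.1 = l)`, `g l = A.sdat t_l`;  `A.fld t z' = ∑ l, ext (g l) z'` (`fgr_sdat_reg`, `Finset.sum_fiberwise`).   `fgr_orth k (max K.ρ K.Cm) Ew` with `R = h`, index set `univ : Finset Λ`, centres `fr` (support: `fgr_sdat_reg`; multiplicity: `hA.mult`, `one_div`,
`Finset.card_le_card` into the filter).   `fgr_label` for every `t_l` at `z' = (x, z.2 + τ)` (`ENNReal.ofReal` of the real inequality; `‖·‖ₑ ^ 2 = ofReal (‖·‖²)`), `lintegral_finset_sum`, `lintegral_const_mul`, `fgr_cell` for every cell.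
Time factor: `1 + |z.2 + τ|/h² ≤ (1 + |z.2|/h²)(1 + |τ|/(H h))` since `H ≤ h`.    Sum over `l` and `T ∈ t_l` = sum over `t`. -/
theorem fgr_gram_l (k P : ℕ) (K : XCls) (Ew C₀ : ℝ) (hkP : k < P) (hE : (P : ℝ) + k < Ew) (hJ : P ≤ K.J) (hρ : 0 ≤ K.ρ) (hC₀ : 0 ≤ C₀) :
    ∃ C : ℝ, 0 ≤ C ∧ ∀ (Λ : Type) [Fintype Λ] (A : XFam k Λ) (s : Finset (Λ × (Fin k → ℤ))) (a : Λ × (Fin k → ℤ) → ℝ), A.In s K a →
      ∀ t ⊆ s, ∀ (H : ℝ) (b : E k), 1 ≤ H → H ≤ A.h → (∀ T ∈ t, ‖A.fr T.1 - b‖ ≤ C₀ / H) → ∀ (z : ST k) (τ : ℝ),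
      ∫⁻ x, ‖A.fld t (x, z.2 + τ)‖ₑ ^ 2 * ENNReal.ofReal ((1 + ‖x - (z.1 + τ • ((2 : ℝ) • b))‖ / A.h) ^ (-Ew))
        ≤ ENNReal.ofReal (C * A.h ^ k * (1 + |z.2| / A.h ^ 2) ^ (2 * K.J + P) * (1 + |τ| / (H * A.h)) ^ (2 * K.J + P) * A.env t a P z) := by
  have hEw : 0 ≤ Ew := by
    have : (0 : ℝ) ≤ (P : ℝ) + k := by positivity
    linarith
  obtain ⟨A₁, hA₁, hO⟩ := fgr_orth k (max K.ρ K.Cm) Ew (le_trans hρ (le_max_left _ _)) hEw
  obtain ⟨C₂, hC₂, hL⟩ := fgr_label k K.J K.ρ hρ (lt_of_lt_of_le hkP hJ)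
  obtain ⟨C₃, hC₃, hCl⟩ := fgr_cell k Ew (P : ℝ) (K.J : ℝ) C₀ (by positivity) hE (by exact_mod_cast hJ) hC₀
  refine ⟨A₁ * (C₂ * C₃), by positivity, ?_⟩
  intro Λ _ A s a hA t ht H b hH hHh hb z τ
  have hh : 0 < A.h := hA.h_pos
  have hH0 : 0 < H := by linarith
  set x₀ : E k := z.1 + τ • ((2 : ℝ) • b) with hx₀
  set w : E k → ℝ≥0∞ := fun x => ENNReal.ofReal ((1 + ‖x - x₀‖ / A.h) ^ (-Ew)) with hw
  set tl : Λ → Finset (Λ × (Fin k → ℤ)) := fun l => t.filter fun T => T.1 = l with htl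
  have htls : ∀ l, tl l ⊆ s := fun l => (Finset.filter_subset _ _).trans ht
  set Zf : ℝ := 1 + |z.2| / A.h ^ 2 with hZf
  set Tf : ℝ := 1 + |τ| / (H * A.h) with hTf
  have hZf1 : 1 ≤ Zf := by
    have : 0 ≤ |z.2| / A.h ^ 2 := by positivity
    linarith
  have hTf1 : 1 ≤ Tf := by
    have : 0 ≤ |τ| / (H * A.h) := by positivity
    linarith
  -- the field is the sum over the labels
  have hfld : ∀ z' : ST k, A.fld t z' = ∑ l : Λ, ext (A.sdat (tl l)) z' := by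
    intro z'
    have h1 : ∀ l, ext (A.sdat (tl l)) z' = ∑ T ∈ t with T.1 = l, A.U T z' := fun l => (fgr_sdat_reg hA (htls l)).2.2.2.1 z'
    simp only [h1]
    unfold XFam.fld
    exact (Finset.sum_fiberwise t (fun T => T.1) fun T => A.U T z').symm
  -- orthogonality
  have h1 := hO A.h Λ Finset.univ A.fr (fun l => A.sdat (tl l)) hh (fun l _ => (fgr_sdat_reg hA (htls l)).2.1)
    (fun l _ ξ hξ => by
      obtain ⟨T, hT, hTn⟩ := (fgr_sdat_reg hA (htls l)).2.2.2.2 ξ hξ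
      rw [(Finset.mem_filter.1 hT).2] at hTn
      exact hTn.trans (div_le_div_of_nonneg_right (le_max_left _ _) hh.le))
    (fun ξ u _ hu => by
      have h2 := hA.mult ξ
      have h3 : u ⊆ Finset.univ.filter fun v => ‖A.fr v - ξ‖ ≤ A.h⁻¹ := fun j hj =>
        Finset.mem_filter.2 ⟨Finset.mem_univ _, by rw [← one_div]; exact hu j hj⟩
      have h4 : (u.card : ℝ) ≤ ((Finset.univ.filter fun v => ‖A.fr v - ξ‖ ≤ A.h⁻¹).card : ℝ) := by
        exact_mod_cast Finset.card_le_card h3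
      exact (h4.trans h2).trans (le_max_right _ _)) x₀ (z.2 + τ)
  -- time factor
  have htime : 1 + |z.2 + τ| / A.h ^ 2 ≤ Zf * Tf := by
    have h2 : |z.2 + τ| / A.h ^ 2 ≤ |z.2| / A.h ^ 2 + |τ| / (H * A.h) := by
      have h3 : |τ| / A.h ^ 2 ≤ |τ| / (H * A.h) := by
        refine div_le_div_of_nonneg_left (abs_nonneg _) (by positivity) ?_
        nlinarith
      have h4 : |z.2 + τ| / A.h ^ 2 ≤ |z.2| / A.h ^ 2 + |τ| / A.h ^ 2 := by
        rw [← add_div]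
        exact div_le_div_of_nonneg_right (abs_add_le _ _) (by positivity)
      linarith
    have h5 : 0 ≤ |z.2| / A.h ^ 2 * (|τ| / (H * A.h)) := by positivity
    rw [hZf, hTf]
    nlinarith
  -- one label
  have hlab : ∀ l : Λ, ∫⁻ x, ‖ext (A.sdat (tl l)) (x, z.2 + τ)‖ₑ ^ 2 * w x ≤
      ENNReal.ofReal (C₂ * (Zf * Tf) ^ (2 * K.J) * ∑ T ∈ tl l, a T ^ 2 * (C₃ * A.h ^ k * Zf ^ (P : ℝ) * Tf ^ (P : ℝ) * pw P A.h (A.fr T.1) (lat (T.2, 0)) z)) := by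
    intro l
    set c : ℝ := C₂ * (Zf * Tf) ^ (2 * K.J) with hc
    have hc0 : 0 ≤ c := by positivity
    set q : Λ × (Fin k → ℤ) → E k → ℝ := fun T x => (1 + ‖(natX A.h (A.fr l) (x, z.2 + τ)).1 - latE T.2‖) ^ (-(K.J : ℝ)) with hq
    have hq0 : ∀ T x, 0 ≤ q T x := fun T x => by positivity
    have hpt : ∀ x, ‖ext (A.sdat (tl l)) (x, z.2 + τ)‖ₑ ^ 2 * w x ≤ ∑ T ∈ tl l, ENNReal.ofReal (c * a T ^ 2) * (w x * ENNReal.ofReal (q T x)) := by
      intro x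
      have h2 := hL Λ A (tl l) a l hh (fun T hT => (Finset.mem_filter.1 hT).2) (fun T hT => hA.amp (htls l hT)) (x, z.2 + τ)
      have h3 : ‖A.fld (tl l) (x, z.2 + τ)‖ ^ 2 ≤ ∑ T ∈ tl l, c * a T ^ 2 * q T x := by
        refine h2.trans ?_
        rw [Finset.mul_sum]
        refine Finset.sum_le_sum fun T _ => ?_
        have h4 : C₂ * (1 + |z.2 + τ| / A.h ^ 2) ^ (2 * K.J) ≤ c := by
          rw [hc]
          refine mul_le_mul_of_nonneg_left (pow_le_pow_left₀ (by positivity) htime _) hC₂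
        calc C₂ * (1 + |z.2 + τ| / A.h ^ 2) ^ (2 * K.J) * (a T ^ 2 * q T x) ≤ c * (a T ^ 2 * q T x) :=
              mul_le_mul_of_nonneg_right h4 (mul_nonneg (sq_nonneg _) (hq0 T x))
          _ = _ := by ring
      rw [(fgr_sdat_reg hA (htls l)).2.2.2.1, ← ofReal_norm, ← ENNReal.ofReal_pow (norm_nonneg _)]
      calc ENNReal.ofReal (‖A.fld (tl l) (x, z.2 + τ)‖ ^ 2) * w x ≤ ENNReal.ofReal (∑ T ∈ tl l, c * a T ^ 2 * q T x) * w x := by
            gcongr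
        _ = _ := by
            rw [ENNReal.ofReal_sum_of_nonneg fun T _ => mul_nonneg (mul_nonneg hc0 (sq_nonneg _)) (hq0 T x), Finset.sum_mul]
            refine Finset.sum_congr rfl fun T _ => ?_
            rw [ENNReal.ofReal_mul (mul_nonneg hc0 (sq_nonneg _))]
            ring
    have hmeas : ∀ T ∈ tl l, Measurable fun x : E k => ENNReal.ofReal (c * a T ^ 2) * (w x * ENNReal.ofReal (q T x)) := by
      intro T _
      have m1 : Measurable w := by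
        have : Continuous fun x : E k => (1 + ‖x - x₀‖ / A.h) ^ (-Ew) :=
          Continuous.rpow_const (by fun_prop) fun x => Or.inl (by positivity)
        exact this.measurable.ennreal_ofReal
      have m2 : Measurable fun x : E k => ENNReal.ofReal (q T x) := by
        have : Continuous fun x : E k => q T x := by
          rw [hq]
          unfold natX
          exact Continuous.rpow_const (by fun_prop) fun x => Or.inl (by positivity)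
        exact this.measurable.ennreal_ofReal
      exact (m1.mul m2).const_mul _
    calc ∫⁻ x, ‖ext (A.sdat (tl l)) (x, z.2 + τ)‖ₑ ^ 2 * w x
        ≤ ∫⁻ x, ∑ T ∈ tl l, ENNReal.ofReal (c * a T ^ 2) * (w x * ENNReal.ofReal (q T x)) := lintegral_mono hpt
      _ = ∑ T ∈ tl l, ENNReal.ofReal (c * a T ^ 2) * ∫⁻ x, w x * ENNReal.ofReal (q T x) := by
          rw [lintegral_finsetSum _ hmeas]
          refine Finset.sum_congr rfl fun T _ => ?_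
          rw [lintegral_const_mul' _ _ ENNReal.ofReal_ne_top]
      _ ≤ ∑ T ∈ tl l, ENNReal.ofReal (c * a T ^ 2) * ENNReal.ofReal (C₃ * A.h ^ k * Zf ^ (P : ℝ) * Tf ^ (P : ℝ) * pw P A.h (A.fr T.1) (lat (T.2, 0)) z) := by
          refine Finset.sum_le_sum fun T hT => ?_
          have hT1 : T.1 = l := (Finset.mem_filter.1 hT).2
          have hTt : T ∈ t := (Finset.mem_filter.1 hT).1
          have h5 := hCl A.h H (A.fr l) b T.2 z τ hH0 hh (by rw [← hT1]; exact hb T hTt)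
          rw [hT1]
          exact mul_le_mul_right h5 _
      _ = _ := by
          have hpw : ∀ T : Λ × (Fin k → ℤ), 0 ≤ pw P A.h (A.fr T.1) (lat (T.2, 0)) z := fun T => by unfold pw; positivity
          rw [Finset.mul_sum, ENNReal.ofReal_sum_of_nonneg fun T _ => by
            have := hpw T
            positivity]
          refine Finset.sum_congr rfl fun T _ => ?_
          rw [← ENNReal.ofReal_mul (mul_nonneg hc0 (sq_nonneg _))]
          congr 1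
          ring
  simp only [hfld]
  refine h1.trans ?_
  have hpw : ∀ T : Λ × (Fin k → ℤ), 0 ≤ pw P A.h (A.fr T.1) (lat (T.2, 0)) z := fun T => by unfold pw; positivity
  calc ENNReal.ofReal A₁ * ∑ l : Λ, ∫⁻ x, ‖ext (A.sdat (tl l)) (x, z.2 + τ)‖ₑ ^ 2 * w x
      ≤ ENNReal.ofReal A₁ * ∑ l : Λ, ENNReal.ofReal (C₂ * (Zf * Tf) ^ (2 * K.J) * ∑ T ∈ tl l, a T ^ 2 * (C₃ * A.h ^ k * Zf ^ (P : ℝ) * Tf ^ (P : ℝ) * pw P A.h (A.fr T.1) (lat (T.2, 0)) z)) := by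
        gcongr with l _
        exact hlab l
    _ = _ := by
        rw [← ENNReal.ofReal_sum_of_nonneg fun l _ => by
          refine mul_nonneg (by positivity) (Finset.sum_nonneg fun T _ => ?_)
          have := hpw T
          positivity, ← ENNReal.ofReal_mul hA₁, ← Finset.mul_sum]
        congr 1
        have e1 : ∑ l : Λ, ∑ T ∈ tl l, a T ^ 2 * (C₃ * A.h ^ k * Zf ^ (P : ℝ) * Tf ^ (P : ℝ) * pw P A.h (A.fr T.1) (lat (T.2, 0)) z)
            = ∑ T ∈ t, a T ^ 2 * (C₃ * A.h ^ k * Zf ^ (P : ℝ) * Tf ^ (P : ℝ) * pw P A.h (A.fr T.1) (lat (T.2, 0)) z) :=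
          Finset.sum_fiberwise t (fun T => T.1) _
        rw [e1]
        unfold XFam.env
        rw [Real.rpow_natCast, Real.rpow_natCast, Finset.mul_sum, Finset.mul_sum, Finset.mul_sum]
        refine Finset.sum_congr rfl fun T _ => ?_
        rw [pow_add Zf, pow_add Tf, mul_pow]
        ring

theorem fgr_gram_W (Qg : ℕ) (y : E k) : fsmW Qg y ≤ 2 ^ ((Qg : ℝ) / 2) * (1 + ‖y‖) ^ (-(Qg : ℝ)) := by
  unfold fsmW
  have h1 : (1 + ‖y‖) ^ 2 ≤ 2 * (1 + ‖y‖ ^ 2) := by nlinarith [sq_nonneg (1 - ‖y‖)]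
  have h2 : ((1 + ‖y‖) ^ 2) ^ ((Qg : ℝ) / 2) ≤ (2 * (1 + ‖y‖ ^ 2)) ^ ((Qg : ℝ) / 2) :=
    Real.rpow_le_rpow (by positivity) h1 (by positivity)
  have e1 : ((1 + ‖y‖) ^ 2) ^ ((Qg : ℝ) / 2) = (1 + ‖y‖) ^ (Qg : ℝ) := by
    rw [← Real.rpow_natCast, ← Real.rpow_mul (by positivity)]
    congr 1
    push_cast
    ring
  rw [e1, Real.mul_rpow (by positivity) (by positivity)] at h2
  have e2 : -(Qg : ℝ) / 2 = -((Qg : ℝ) / 2) := by ring
  rw [e2, Real.rpow_neg (by positivity), Real.rpow_neg (by positivity), ← div_eq_mul_inv, le_div_iff₀ (by positivity),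
    inv_mul_le_iff₀ (by positivity)]
  linarith

/-- **LEAF L-F1-GR12 = (f:original-witness-Gram) for one set of cells, in the form of `SmHyp.gram`.**
PLAN: `fsmW Qg y = (1 + ‖y‖²)^{-Qg/2} ≤ 2^{Qg/2} (1 + ‖y‖)^{-Qg}` (`(1+a)² ≤ 2 (1+a²)`), `‖h⁻¹ • u‖ = ‖u‖/h`, `x - z.1 - τ • (2 • b) = x - (z.1 + τ • (2 • b))`;   `integral_eq_lintegral_of_nonneg_ae` (measurability: continuity, `fgr_sdat_reg`,
`inf_ext_continuous`-type), `ENNReal.toReal_le_of_le_ofReal`, `fgr_gram_l` with `Ew = Qg`;  `(h^k)⁻¹ h^k = 1`. -/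
theorem fgr_gram (k P Qg : ℕ) (K : XCls) (C₀ : ℝ) (hkP : k < P) (hQ : P + k < Qg) (hJ : P ≤ K.J) (hρ : 0 ≤ K.ρ) (hC₀ : 0 ≤ C₀) :
    ∃ C : ℝ, 0 ≤ C ∧ ∀ (Λ : Type) [Fintype Λ] (A : XFam k Λ) (s : Finset (Λ × (Fin k → ℤ))) (a : Λ × (Fin k → ℤ) → ℝ), A.In s K a →
      ∀ t ⊆ s, ∀ (H : ℝ) (b : E k), 1 ≤ H → H ≤ A.h → (∀ T ∈ t, ‖A.fr T.1 - b‖ ≤ C₀ / H) → ∀ (z : ST k) (τ : ℝ),
      (A.h ^ k)⁻¹ * ∫ x : E k, fsmW Qg (A.h⁻¹ • (x - z.1 - τ • ((2 : ℝ) • b))) * ‖ext (A.sdat t) (x, z.2 + τ)‖ ^ 2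
        ≤ C * (1 + |z.2| / A.h ^ 2) ^ (2 * K.J + P) * (1 + |τ| / (H * A.h)) ^ (2 * K.J + P) * A.env t a P z := by
  obtain ⟨C, hC, hG⟩ := fgr_gram_l k P K (Qg : ℝ) C₀ hkP (by exact_mod_cast hQ) hJ hρ hC₀
  refine ⟨2 ^ ((Qg : ℝ) / 2) * C, by positivity, ?_⟩
  intro Λ _ A s a hA t ht H b hH hHh hb z τ
  have hh : 0 < A.h := hA.h_pos
  have hH0 : 0 < H := by linarith
  have henv : 0 ≤ A.env t a P z := by
    unfold XFam.env pw
    exact Finset.sum_nonneg fun T _ => by positivity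
  set B : ℝ := (1 + |z.2| / A.h ^ 2) ^ (2 * K.J + P) * (1 + |τ| / (H * A.h)) ^ (2 * K.J + P) * A.env t a P z with hB
  have hB0 : 0 ≤ B := by positivity
  set F : E k → ℝ := fun x => fsmW Qg (A.h⁻¹ • (x - z.1 - τ • ((2 : ℝ) • b))) * ‖ext (A.sdat t) (x, z.2 + τ)‖ ^ 2 with hF
  have hF0 : ∀ x, 0 ≤ F x := fun x => mul_nonneg (by unfold fsmW; positivity) (by positivity)
  have hmain : ∫ x, F x ≤ 2 ^ ((Qg : ℝ) / 2) * (C * A.h ^ k * B) := by
    by_cases hi : Integrable F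
    · have h1 := hG Λ A s a hA t ht H b hH hHh hb z τ
      have h2 : ENNReal.ofReal (∫ x, F x) ≤ ENNReal.ofReal (2 ^ ((Qg : ℝ) / 2) * (C * A.h ^ k * B)) := by
        rw [ofReal_integral_eq_lintegral_ofReal hi (Filter.Eventually.of_forall hF0), ENNReal.ofReal_mul (by positivity)]
        have e3 : C * A.h ^ k * B = C * A.h ^ k * (1 + |z.2| / A.h ^ 2) ^ (2 * K.J + P) * (1 + |τ| / (H * A.h)) ^ (2 * K.J + P) * A.env t a P z := by
          rw [hB]; ring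
        rw [e3]
        refine le_trans ?_ (mul_le_mul_right h1 _)
        rw [← lintegral_const_mul' _ _ ENNReal.ofReal_ne_top]
        refine lintegral_mono fun x => ?_
        show ENNReal.ofReal (fsmW Qg (A.h⁻¹ • (x - z.1 - τ • ((2 : ℝ) • b))) * ‖ext (A.sdat t) (x, z.2 + τ)‖ ^ 2) ≤
          ENNReal.ofReal (2 ^ ((Qg : ℝ) / 2)) * (‖A.fld t (x, z.2 + τ)‖ₑ ^ 2 * ENNReal.ofReal ((1 + ‖x - (z.1 + τ • ((2 : ℝ) • b))‖ / A.h) ^ (-(Qg : ℝ))))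
        rw [(fgr_sdat_reg hA ht).2.2.2.1, ← ofReal_norm, ← ENNReal.ofReal_pow (norm_nonneg _), ← ENNReal.ofReal_mul (by positivity),
          ← ENNReal.ofReal_mul (by positivity)]
        refine ENNReal.ofReal_le_ofReal ?_
        have h3 := fgr_gram_W Qg (A.h⁻¹ • (x - z.1 - τ • ((2 : ℝ) • b)))
        have e4 : ‖A.h⁻¹ • (x - z.1 - τ • ((2 : ℝ) • b))‖ = ‖x - (z.1 + τ • ((2 : ℝ) • b))‖ / A.h := by
          rw [norm_smul, Real.norm_of_nonneg (inv_nonneg.2 hh.le), div_eq_inv_mul, sub_sub]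
        rw [e4] at h3
        calc fsmW Qg (A.h⁻¹ • (x - z.1 - τ • ((2 : ℝ) • b))) * ‖A.fld t (x, z.2 + τ)‖ ^ 2
            ≤ (2 ^ ((Qg : ℝ) / 2) * (1 + ‖x - (z.1 + τ • ((2 : ℝ) • b))‖ / A.h) ^ (-(Qg : ℝ))) * ‖A.fld t (x, z.2 + τ)‖ ^ 2 := by gcongr
          _ = _ := by ring
      exact (ENNReal.ofReal_le_ofReal_iff (by positivity)).1 h2
    · rw [integral_undef hi]
      positivity
  calc (A.h ^ k)⁻¹ * ∫ x, F x ≤ (A.h ^ k)⁻¹ * (2 ^ ((Qg : ℝ) / 2) * (C * A.h ^ k * B)) := by gcongr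
    _ = 2 ^ ((Qg : ℝ) / 2) * C * B := by field_simp
    _ = _ := by rw [hB]; ring

/-! ## 5. the fields of `SmHyp` for a grouping `gp` of the cells -/

/-- **LEAF L-F1-GR13: additivity over a grouping.**   For `F ≥ 0`:  `∑_{b ∈ caps} ∑_{v ∈ cl b} ∑_{T ∈ s, gp T = v} F T ≤ ∑_{T ∈ s} F T` if the `cl b` are pairwise disjoint.
PLAN: `Finset.sum_biUnion` (twice: `caps.biUnion cl`, then the fibres `s.filter (gp · = v)` are pairwise disjoint), `Finset.sum_le_sum_of_subset_of_nonneg`. -/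
theorem fgr_sum_group {β ι κ : Type} (s : Finset κ) (gp : κ → ι) (caps : Finset β) (cl : β → Finset ι)
    (hd : ∀ b ∈ caps, ∀ b' ∈ caps, b ≠ b' → Disjoint (cl b) (cl b')) (F : κ → ℝ) (hF : ∀ T ∈ s, 0 ≤ F T) :
    ∑ b ∈ caps, ∑ v ∈ cl b, ∑ T ∈ s.filter (fun T => gp T = v), F T ≤ ∑ T ∈ s, F T := by
  have h1 : ∑ b ∈ caps, ∑ v ∈ cl b, ∑ T ∈ s.filter (fun T => gp T = v), F T
      = ∑ v ∈ caps.biUnion cl, ∑ T ∈ s.filter (fun T => gp T = v), F T := by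
    rw [Finset.sum_biUnion]
    intro b hb b' hb' hne
    exact hd b hb b' hb' hne
  rw [h1]
  have h2 : ∑ v ∈ caps.biUnion cl, ∑ T ∈ s.filter (fun T => gp T = v), F T = ∑ T ∈ s.filter (fun T => gp T ∈ caps.biUnion cl), F T := by
    rw [← Finset.sum_fiberwise_of_maps_to (s := s.filter fun T => gp T ∈ caps.biUnion cl) (t := caps.biUnion cl) (g := gp)
      (fun T hT => (Finset.mem_filter.1 hT).2)]
    refine Finset.sum_congr rfl fun v hv => ?_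
    congr 1
    ext T
    simp only [Finset.mem_filter]
    constructor
    · rintro ⟨h, rfl⟩
      exact ⟨⟨h, hv⟩, rfl⟩
    · rintro ⟨⟨h, _⟩, e⟩
      exact ⟨h, e⟩
  rw [h2]
  exact Finset.sum_le_sum_of_subset_of_nonneg (Finset.filter_subset _ _) fun T hT _ => hF T hT

/-- **LEAF L-F1-GR14: `SmHyp.energy`.**   `fgr_energy` for every fibre + `fgr_sum_group`;  `h² h^k = h^{k+2}`, `XFam.en`. -/
theorem fgr_sm_energy (k : ℕ) (K : XCls) (hJ : 2 * k + 1 ≤ K.J) (hρ : 0 ≤ K.ρ) :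
    ∃ C : ℝ, 0 ≤ C ∧ ∀ (Λ β ι : Type) [Fintype Λ] (A : XFam k Λ) (s : Finset (Λ × (Fin k → ℤ))) (a : Λ × (Fin k → ℤ) → ℝ), A.In s K a →
      ∀ (gp : Λ × (Fin k → ℤ) → ι) (caps : Finset β) (cl : β → Finset ι), (∀ b ∈ caps, ∀ b' ∈ caps, b ≠ b' → Disjoint (cl b) (cl b')) →
      A.h ^ 2 * ∑ b ∈ caps, ∑ v ∈ cl b, ∫ ξ, ‖A.sdat (s.filter fun T => gp T = v) ξ‖ ^ 2 ≤ C * A.en s a := by
  obtain ⟨C, hC0, hC⟩ := fgr_energy k K hJ hρ
  refine ⟨C, hC0, fun Λ β ι _ A s a hA gp caps cl hd => ?_⟩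
  have hh := hA.h_pos
  have h1 := fgr_sum_group s gp caps cl hd (fun T => a T ^ 2) fun T _ => sq_nonneg _
  calc A.h ^ 2 * ∑ b ∈ caps, ∑ v ∈ cl b, ∫ ξ, ‖A.sdat (s.filter fun T => gp T = v) ξ‖ ^ 2
      ≤ A.h ^ 2 * ∑ b ∈ caps, ∑ v ∈ cl b, C * A.h ^ k * ∑ T ∈ s.filter (fun T => gp T = v), a T ^ 2 := by
        refine mul_le_mul_of_nonneg_left ?_ (by positivity)
        exact Finset.sum_le_sum fun b _ => Finset.sum_le_sum fun v _ => hC Λ A s a hA _ (Finset.filter_subset _ _)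
    _ = C * A.h ^ (k + 2) * ∑ b ∈ caps, ∑ v ∈ cl b, ∑ T ∈ s.filter (fun T => gp T = v), a T ^ 2 := by
        simp_rw [← Finset.mul_sum]
        ring
    _ ≤ C * A.h ^ (k + 2) * ∑ T ∈ s, a T ^ 2 := mul_le_mul_of_nonneg_left h1 (by positivity)
    _ = _ := by
        unfold XFam.en
        ring

/-- **LEAF L-F1-GR15: `SmHyp.gram`.**   `fgr_gram` for every fibre (`Finset.mul_sum`) + `fgr_sum_group` with `F T = a T ^ 2 * pw P ..` (`XFam.env`);  `(1 + |z.2|/h²) ≤ 1 + T₁`. -/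
theorem fgr_sm_gram (k P Qg : ℕ) (K : XCls) (C₀ T₁ : ℝ) (hkP : k < P) (hQ : P + k < Qg) (hJ : P ≤ K.J) (hρ : 0 ≤ K.ρ) (hC₀ : 0 ≤ C₀) :
    ∃ C : ℝ, 0 ≤ C ∧ ∀ (Λ β ι : Type) [Fintype Λ] (A : XFam k Λ) (s : Finset (Λ × (Fin k → ℤ))) (a : Λ × (Fin k → ℤ) → ℝ), A.In s K a →
      ∀ (gp : Λ × (Fin k → ℤ) → ι) (caps : Finset β) (cl : β → Finset ι) (cb : β → E k) (H : ℝ),
      (∀ b ∈ caps, ∀ b' ∈ caps, b ≠ b' → Disjoint (cl b) (cl b')) → 1 ≤ H → H ≤ A.h →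
      (∀ b ∈ caps, ∀ v ∈ cl b, ∀ T ∈ s, gp T = v → ‖A.fr T.1 - cb b‖ ≤ C₀ / H) → ∀ (z : ST k) (τ : ℝ), |z.2| ≤ T₁ * A.h ^ 2 →
      (A.h ^ k)⁻¹ * ∑ b ∈ caps, ∑ v ∈ cl b, ∫ x : E k, fsmW Qg (A.h⁻¹ • (x - z.1 - τ • ((2 : ℝ) • cb b))) *
          ‖ext (A.sdat (s.filter fun T => gp T = v)) (x, z.2 + τ)‖ ^ 2
        ≤ C * A.env s a P z * (1 + |τ| / (H * A.h)) ^ (2 * K.J + P) := by
  obtain ⟨C, hC0, hC⟩ := fgr_gram k P Qg K C₀ hkP hQ hJ hρ hC₀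
  refine ⟨C * (1 + |T₁|) ^ (2 * K.J + P), by positivity, fun Λ β ι _ A s a hA gp caps cl cb H hd hH1 hHh hcb z τ hz => ?_⟩
  have hh := hA.h_pos
  have hH0 : 0 < H := by linarith
  have hpw : ∀ T, 0 ≤ a T ^ 2 * pw P A.h (A.fr T.1) (lat (T.2, 0)) z := fun T => by
    unfold pw
    positivity
  have h1 := fgr_sum_group s gp caps cl hd (fun T => a T ^ 2 * pw P A.h (A.fr T.1) (lat (T.2, 0)) z) fun T _ => hpw T
  obtain ⟨u, hu⟩ : ∃ u : ℝ, u = (1 + |z.2| / A.h ^ 2) ^ (2 * K.J + P) := ⟨_, rfl⟩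
  obtain ⟨w, hw⟩ : ∃ w : ℝ, w = (1 + |τ| / (H * A.h)) ^ (2 * K.J + P) := ⟨_, rfl⟩
  have hw0 : 0 ≤ w := by rw [hw]; positivity
  have hu0 : 0 ≤ u := by rw [hu]; positivity
  have hu1 : u ≤ (1 + |T₁|) ^ (2 * K.J + P) := by
    rw [hu]
    refine pow_le_pow_left₀ (by positivity) ?_ _
    have : |z.2| / A.h ^ 2 ≤ T₁ := by
      rw [div_le_iff₀ (by positivity)]
      exact hz
    linarith [le_abs_self T₁]
  have henv0 : 0 ≤ A.env s a P z := Finset.sum_nonneg fun T _ => hpw T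
  rw [← hw, Finset.mul_sum]
  calc ∑ b ∈ caps, (A.h ^ k)⁻¹ * ∑ v ∈ cl b, ∫ x : E k, fsmW Qg (A.h⁻¹ • (x - z.1 - τ • ((2 : ℝ) • cb b))) *
          ‖ext (A.sdat (s.filter fun T => gp T = v)) (x, z.2 + τ)‖ ^ 2
      ≤ ∑ b ∈ caps, ∑ v ∈ cl b, C * u * w * A.env (s.filter fun T => gp T = v) a P z := by
        refine Finset.sum_le_sum fun b hb => ?_
        rw [Finset.mul_sum]
        refine Finset.sum_le_sum fun v hv => ?_
        rw [hu, hw]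
        exact hC Λ A s a hA _ (Finset.filter_subset _ _) H (cb b) hH1 hHh
          (fun T hT => hcb b hb v hv T (Finset.mem_filter.1 hT).1 (Finset.mem_filter.1 hT).2) z τ
    _ = C * u * w * ∑ b ∈ caps, ∑ v ∈ cl b, ∑ T ∈ s.filter (fun T => gp T = v), a T ^ 2 * pw P A.h (A.fr T.1) (lat (T.2, 0)) z := by
        simp_rw [← Finset.mul_sum]
        rfl
    _ ≤ C * u * w * A.env s a P z := mul_le_mul_of_nonneg_left h1 (by positivity)
    _ ≤ C * (1 + |T₁|) ^ (2 * K.J + P) * w * A.env s a P z := by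
        refine mul_le_mul_of_nonneg_right (mul_le_mul_of_nonneg_right (mul_le_mul_of_nonneg_left hu1 hC0) hw0) henv0
    _ = _ := by ring

end

end Claimed.Agent.R257.FR1
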