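import Claimed.Agent.R257.FR1.Defs
import Claimed.Agent.R257.Infra.Repro
import Claimed.Agent.R257.Tree.GeoK

/-!
# ROW 257 (S0497), package FR1, block RC = RECOVERY OF PACKET ENVELOPES (H `frame.tex` l.455-511)      (architect helper16; captain FR1 helper249)      PAPER-FREE.   Prefix `frc_`.

SETTING.  One `1/K₀`-cluster of exact packets: `U = ext g`, `supp g ⊆ B(v, ρ/K₀)`.  Native coordinates `X = natX K₀ v z`:  `U z = K₀^{-k/2} car v z · q X`, `q = ext G`, `G = capD K₀⁻¹ v g`, `Dat ρ G` (`inf_ext_rescale`, `inf_capD_dat`).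
Scale-`K₀` packets of the ACTUAL field `τ_h U` (`τ_h(t) = τ((t - t₀)/h²)`, `K₀ ≤ h`):  `g0 (v,n) = χ(X - lat n) · τ_h U`,  size = weighted supremum `rcSz C0 K₀ v (τ_h U) n` (times `Cχ`).
EXITS (physical coordinates):
* `frc_env`   `∑_n s_n² w_n(z) ≤ C (j_{K₀} *_x |U(·,t_z)|²)(x_z)`  AT EQUAL TIMES, `j_K(x) = K^{-k} (1 + |x|²/K²)^{-Qj/2}`     (H l.474-502; no weighted Bessel: caps = grouping of labels)
* `frc_en`    `K₀^{k+2} ∑_n s_n² ≤ C B₁² h² sup_t ‖U(·,t)‖₂²`                                                                 (H (f:actual-packet-energy))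
* `frc_leaf`  `g0 (v,n)` is `IsPk` with amplitude `Cχ · size`                                                                  (H l.459-465)
* `frc_Sz_mono`  the bounded multiplier `τ_h` only changes the constant in `frc_env`.
ORDERS are EXISTENTIAL: `Qj` (order of `j`) is given, `Pw₀ = Pw₀(k, ρ, Qj)`; every `Pw ≥ Pw₀` and every `C0 ≥ Pw` is allowed (the exponent `m` of `⟨σ⟩` in the kernel bound is not explicit).
CHAIN:  `frc_ker` (propagation kernels `L_σ`, `|L_σ(r)| ≤ C ⟨σ⟩^m ⟨r⟩^{-N}`)  →  `frc_prop` (`q(·,s+σ) = L_σ * q(·,s)`)  →  `frc_pt` (`RcPt`: Cauchy-Schwarz)  →  `frc_size`  →  `frc_core`, `frc_energy` (native)  →  exits.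
Every `sorry` is a LEAF `L-F1-RC*` (name in the docstring).  Statements frozen (tell helper16 at once if one looks false or awkward); prove IN PLACE, helper lemmas directly above your theorem, prefix `frc_`.
-/

set_option autoImplicit false

namespace Claimed.Agent.R257.FR1

open Claimed.Agent.R257 Claimed.Agent.R257.Tree MeasureTheory Metric Set
open scoped ENNReal BigOperators

noncomputable section

variable {k : ℕ}

/-! ## 1. the propagation kernels -/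

section ker

open scoped FourierTransform SchwartzMap ContDiff

theorem frc_ker_ch_deriv (n : ℕ) : iteratedDeriv n (fun θ : ℝ => BD.ch θ) = fun θ => Complex.I ^ n * BD.ch θ := by
  induction n with
  | zero => simp
  | succ n ih =>
    rw [iteratedDeriv_succ, ih]
    funext θ
    have h1 : HasDerivAt (fun θ : ℝ => BD.ch θ) (BD.ch θ * Complex.I) θ := by
      unfold BD.ch
      have := ((hasDerivAt_id θ).ofReal_comp.mul_const Complex.I).cexp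
      simpa using this
    rw [(h1.const_mul (Complex.I ^ n)).deriv]
    ring

theorem frc_ker_ch_temp : Function.HasTemperateGrowth (fun θ : ℝ => BD.ch θ) := by
  refine ⟨?_, fun n => ⟨0, 1, fun θ => ?_⟩⟩
  · unfold BD.ch
    exact (Complex.ofRealCLM.contDiff.mul contDiff_const).cexp
  · rw [norm_iteratedFDeriv_eq_norm_iteratedDeriv, frc_ker_ch_deriv]
    simp [BD.norm_ch]

/-- the joint symbol -/
def frcTh (b : E k → ℝ) (p : ℝ × E k) : ℂ := ((b p.2 : ℝ) : ℂ) * BD.ch (-(p.1 * ‖(2 * Real.pi) • p.2‖ ^ 2))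

theorem frc_ker_th_temp {b : E k → ℝ} (hb : HasCompactSupport b) (hs : ContDiff ℝ ∞ b) : Function.HasTemperateGrowth (frcTh b) := by
  unfold frcTh
  have h1 : Function.HasTemperateGrowth b := hb.hasTemperateGrowth hs
  have h2 : Function.HasTemperateGrowth (fun p : ℝ × E k => p.2) := (ContinuousLinearMap.snd ℝ ℝ (E k)).hasTemperateGrowth
  have h3 : Function.HasTemperateGrowth (fun p : ℝ × E k => p.1) := (ContinuousLinearMap.fst ℝ ℝ (E k)).hasTemperateGrowth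
  have h4 : Function.HasTemperateGrowth (fun p : ℝ × E k => ((b p.2 : ℝ) : ℂ)) := Function.Complex.hasTemperateGrowth_ofReal.comp (h1.comp h2)
  have h5 : Function.HasTemperateGrowth (fun p : ℝ × E k => ‖(2 * Real.pi) • p.2‖ ^ 2) :=
    (Function.hasTemperateGrowth_norm_sq (E k)).comp (((2 * Real.pi) • ContinuousLinearMap.snd ℝ ℝ (E k)).hasTemperateGrowth)
  have h6 : Function.HasTemperateGrowth (fun p : ℝ × E k => -(p.1 * ‖(2 * Real.pi) • p.2‖ ^ 2)) := (h3.mul h5).neg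
  exact h4.mul (frc_ker_ch_temp.comp h6)

theorem frc_ker_slice {b : E k → ℝ} (hb : HasCompactSupport b) (hs : ContDiff ℝ ∞ b) (j : ℕ) : ∃ (κ : ℕ) (C : ℝ), 0 ≤ C ∧ ∀ i ≤ j, ∀ (σ : ℝ) (x : E k),
    ‖iteratedFDeriv ℝ i (fun x => frcTh b (σ, x)) x‖ ≤ C * (1 + ‖((σ, x) : ℝ × E k)‖) ^ κ := by
  have hT := frc_ker_th_temp hb hs
  obtain ⟨κ, C, hC, h⟩ := hT.norm_iteratedFDeriv_le_uniform j
  refine ⟨κ, C, hC, fun i hi σ x => ?_⟩
  have e : (fun x => frcTh b (σ, x)) = (fun p => frcTh b ((σ, 0) + p)) ∘ (ContinuousLinearMap.inr ℝ ℝ (E k)) := by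
    funext x
    simp
  have hcd : ContDiff ℝ ∞ (fun p => frcTh b ((σ, 0) + p)) := hT.1.comp (contDiff_const.add contDiff_id)
  rw [e, ContinuousLinearMap.iteratedFDeriv_comp_right _ hcd x (by exact_mod_cast le_top)]
  refine (ContinuousMultilinearMap.norm_compContinuousLinearMap_le _ _).trans ?_
  rw [iteratedFDeriv_comp_add_left]
  have h1 : ∏ _l : Fin i, ‖ContinuousLinearMap.inr ℝ ℝ (E k)‖ ≤ 1 :=
    Finset.prod_le_one (fun _ _ => norm_nonneg _) fun _ _ => ContinuousLinearMap.norm_inr_le_one ℝ ℝ (E k)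
  have h2 := h i hi ((σ, 0) + (ContinuousLinearMap.inr ℝ ℝ (E k)) x)
  have e2 : ((σ, 0) + (ContinuousLinearMap.inr ℝ ℝ (E k)) x : ℝ × E k) = (σ, x) := by simp
  rw [e2] at h2 ⊢
  calc _ ≤ ‖iteratedFDeriv ℝ i (frcTh b) (σ, x)‖ * 1 := mul_le_mul_of_nonneg_left h1 (norm_nonneg _)
    _ ≤ _ := by rw [mul_one]; exact h2

theorem frc_ker_int {b : E k → ℝ} {R : ℝ} (hR : 0 ≤ R) (hb0 : ∀ x, R < ‖x‖ → b x = 0) (hb : HasCompactSupport b) (hs : ContDiff ℝ ∞ b) (j : ℕ) :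
    ∃ (κ : ℕ) (C : ℝ), 0 ≤ C ∧ ∀ i ≤ j, ∀ σ : ℝ, ∫ x, ‖iteratedFDeriv ℝ i (fun x => frcTh b (σ, x)) x‖ ≤ C * (1 + |σ|) ^ κ := by
  obtain ⟨κ, C, hC, h⟩ := frc_ker_slice hb hs j
  refine ⟨κ, C * (1 + R) ^ κ * (volume : Measure (E k)).real (closedBall 0 R), by positivity, fun i hi σ => ?_⟩
  have hsupp : ∀ x, x ∉ closedBall (0 : E k) R → ‖iteratedFDeriv ℝ i (fun x => frcTh b (σ, x)) x‖ = 0 := by
    intro x hx
    have h1 : tsupport (fun x => frcTh b (σ, x)) ⊆ closedBall (0 : E k) R := by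
      refine closure_minimal (fun y hy => ?_) isClosed_closedBall
      by_contra hy'
      rw [mem_closedBall, dist_zero_right, not_le] at hy'
      exact hy (by simp [frcTh, hb0 y hy'])
    have h2 : x ∉ Function.support (iteratedFDeriv ℝ i (fun x => frcTh b (σ, x))) := fun hx' =>
      hx (h1 (support_iteratedFDeriv_subset i hx'))
    rw [Function.notMem_support] at h2
    rw [h2, norm_zero]
  rw [← setIntegral_eq_integral_of_forall_compl_eq_zero hsupp]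
  have h3 : ‖∫ x in closedBall (0 : E k) R, ‖iteratedFDeriv ℝ i (fun x => frcTh b (σ, x)) x‖‖ ≤
      (C * (1 + R) ^ κ * (1 + |σ|) ^ κ) * (volume : Measure (E k)).real (closedBall 0 R) := by
    refine norm_setIntegral_le_of_norm_le_const measure_closedBall_lt_top fun x hx => ?_
    rw [norm_norm]
    refine (h i hi σ x).trans ?_
    rw [mul_assoc, ← mul_pow]
    refine mul_le_mul_of_nonneg_left (pow_le_pow_left₀ (by positivity) ?_ κ) hC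
    rw [mem_closedBall, dist_zero_right] at hx
    have : ‖((σ, x) : ℝ × E k)‖ ≤ |σ| + R := by
      rw [Prod.norm_mk, Real.norm_eq_abs]
      exact max_le (by linarith) (by linarith [abs_nonneg σ])
    nlinarith [abs_nonneg σ]
  calc _ ≤ _ := le_abs_self _
    _ ≤ _ := h3
    _ = _ := by ring

theorem frc_ker_pow (t : ℝ) (ht : 0 ≤ t) (n : ℕ) : (1 + t) ^ n ≤ 2 ^ n * (1 + t ^ n) := by
  rcases le_total t 1 with h | h
  · calc (1 + t) ^ n ≤ 2 ^ n := pow_le_pow_left₀ (by linarith) (by linarith) n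
      _ ≤ 2 ^ n * (1 + t ^ n) := le_mul_of_one_le_right (by positivity) (by linarith [pow_nonneg ht n])
  · calc (1 + t) ^ n ≤ (2 * t) ^ n := pow_le_pow_left₀ (by linarith) (by linarith) n
      _ = 2 ^ n * t ^ n := mul_pow _ _ _
      _ ≤ 2 ^ n * (1 + t ^ n) := mul_le_mul_of_nonneg_left (by linarith) (by positivity)

/-- L-F1-RC1 (helper16).  **The propagation kernels.**   `b` = smooth bump, `= 1` on the ball `ρ/(2π)`; `Ψ_σ(x) = b(x) e^{-iσ|2πx|²}` (Schwartz), `L_σ = 𝓕⁻ Ψ_σ` (pattern: `BD.bdb_ker1`).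
Decay: `Real.pow_mul_norm_iteratedFDeriv_fourier_le` (`k = 0`); `‖D^j Ψ_σ‖ ≤ C (1 + |σ|)^{m}`: `(σ,x) ↦ b(x) e^{-iσ|2πx|²}` has temperate growth on `ℝ × E k`, restrict to the affine subspace `{σ} × E k`. -/
theorem frc_ker (k : ℕ) (ρ N : ℝ) : ∃ (m : ℕ) (C : ℝ), 0 ≤ C ∧ ∀ σ : ℝ, ∃ L : E k → ℂ, Continuous L ∧ Integrable L ∧
    (∀ r, ‖L r‖ ≤ C * (1 + |σ|) ^ m * (1 + ‖r‖) ^ (-N)) ∧
    ∀ η : E k, ‖η‖ ≤ ρ → ∫ y, BD.ch (-(inner ℝ y η)) * L y = BD.ch (-(σ * ‖η‖ ^ 2)) := by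
  have hpi : (0 : ℝ) < (2 * Real.pi)⁻¹ := by positivity
  set R : ℝ := max ρ 1 with hRdef
  have hR : 0 < R := lt_of_lt_of_le one_pos (le_max_right _ _)
  have hpiR : (0 : ℝ) < (2 * Real.pi)⁻¹ * R := by positivity
  let b : ContDiffBump (0 : E k) := ⟨(2 * Real.pi)⁻¹ * R, 2 * ((2 * Real.pi)⁻¹ * R), hpiR, by linarith⟩
  have hbc : HasCompactSupport (b : E k → ℝ) := b.hasCompactSupport
  have hbs : ContDiff ℝ ∞ (b : E k → ℝ) := b.contDiff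
  have hb0 : ∀ x : E k, 2 * ((2 * Real.pi)⁻¹ * R) < ‖x‖ → b x = 0 := by
    intro x hx
    refine b.zero_of_le_dist ?_
    rw [dist_zero_right]
    exact hx.le
  obtain ⟨n, hn⟩ := exists_nat_ge N
  obtain ⟨κ, C, hC, hint⟩ := frc_ker_int (R := 2 * ((2 * Real.pi)⁻¹ * R)) (by positivity) hb0 hbc hbs n
  refine ⟨κ, 2 ^ n * (C + 2 ^ n * ((n + 1) * C)), by positivity, fun σ => ?_⟩
  have hT := frc_ker_th_temp hbc hbs
  have hs : ContDiff ℝ ((⊤ : ℕ∞) : WithTop ℕ∞) (fun x : E k => frcTh b (σ, x)) := hT.1.comp (contDiff_const.prodMk contDiff_id)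
  have hc : HasCompactSupport (fun x : E k => frcTh b (σ, x)) := by
    refine hbc.mono fun x hx => ?_
    intro h0
    exact hx (by simp [frcTh, h0])
  let Ψ : 𝓢(E k, ℂ) := hc.toSchwartzMap hs
  have hΨ : ∀ x, Ψ x = frcTh b (σ, x) := fun x => rfl
  have hΨf : (Ψ : E k → ℂ) = fun x => frcTh b (σ, x) := rfl
  refine ⟨((𝓕⁻ Ψ : 𝓢(E k, ℂ)) : E k → ℂ), (𝓕⁻ Ψ : 𝓢(E k, ℂ)).continuous, (𝓕⁻ Ψ : 𝓢(E k, ℂ)).integrable, fun r => ?_, fun w hw => ?_⟩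
  · -- decay
    have key : ∀ j ≤ n, ∀ w : E k, ‖w‖ ^ j * ‖𝓕 (Ψ : E k → ℂ) w‖ ≤ 2 ^ j * ((j + 1) * (C * (1 + |σ|) ^ κ)) := by
      intro j hj w
      have h1 := Real.pow_mul_norm_iteratedFDeriv_fourier_le (K := ⊤) (N := ⊤) (Ψ.smooth ⊤)
        (fun k n _hk _hn => SchwartzMap.integrable_pow_mul_iteratedFDeriv _ Ψ k n) (k := 0) (n := j) le_top le_top w
      rw [norm_iteratedFDeriv_zero] at h1
      refine h1.trans ?_
      simp only [pow_zero, one_mul, Nat.cast_zero, mul_zero, zero_add, Finset.range_one, Finset.singleton_product, Finset.sum_map,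
        Function.Embedding.coeFn_mk]
      refine mul_le_mul_of_nonneg_left ?_ (by positivity)
      calc ∑ x ∈ Finset.range (j + 1), ∫ v, ‖iteratedFDeriv ℝ x (Ψ : E k → ℂ) v‖
          ≤ ∑ _x ∈ Finset.range (j + 1), C * (1 + |σ|) ^ κ := by
            refine Finset.sum_le_sum fun x hx => ?_
            rw [hΨf]
            exact hint x ((Nat.lt_succ_iff.1 (Finset.mem_range.1 hx)).trans hj) σ
        _ = _ := by simp
    have e1 : (𝓕⁻ Ψ) r = 𝓕 (Ψ : E k → ℂ) (-r) := by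
      rw [SchwartzMap.fourierInv_coe, Real.fourierInv_eq_fourier_neg]
    rw [e1]
    have k0 := key 0 (Nat.zero_le _) (-r)
    have kn := key n le_rfl (-r)
    simp only [pow_zero, one_mul, Nat.cast_zero, zero_add, norm_neg] at k0 kn
    have hpos : (0 : ℝ) < 1 + ‖r‖ := by positivity
    have hS : (0 : ℝ) ≤ (1 + |σ|) ^ κ := by positivity
    have h2 : (1 + ‖r‖) ^ n * ‖𝓕 (Ψ : E k → ℂ) (-r)‖ ≤ 2 ^ n * (C + 2 ^ n * ((n + 1) * C)) * (1 + |σ|) ^ κ := by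
      calc (1 + ‖r‖) ^ n * ‖𝓕 (Ψ : E k → ℂ) (-r)‖ ≤ 2 ^ n * (1 + ‖r‖ ^ n) * ‖𝓕 (Ψ : E k → ℂ) (-r)‖ :=
            mul_le_mul_of_nonneg_right (frc_ker_pow _ (norm_nonneg _) n) (norm_nonneg _)
        _ = 2 ^ n * (‖𝓕 (Ψ : E k → ℂ) (-r)‖ + ‖r‖ ^ n * ‖𝓕 (Ψ : E k → ℂ) (-r)‖) := by ring
        _ ≤ 2 ^ n * (C * (1 + |σ|) ^ κ + 2 ^ n * ((n + 1) * (C * (1 + |σ|) ^ κ))) := by gcongr
        _ = _ := by ring
    have h3 : (1 + ‖r‖) ^ (-(n : ℝ)) ≤ (1 + ‖r‖) ^ (-N) :=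
      Real.rpow_le_rpow_of_exponent_le (by linarith [norm_nonneg r]) (by linarith)
    have h4 : ‖𝓕 (Ψ : E k → ℂ) (-r)‖ ≤ 2 ^ n * (C + 2 ^ n * ((n + 1) * C)) * (1 + |σ|) ^ κ * (1 + ‖r‖) ^ (-(n : ℝ)) := by
      rw [Real.rpow_neg hpos.le, Real.rpow_natCast, ← div_eq_mul_inv, le_div_iff₀ (by positivity)]
      linarith
    exact h4.trans (mul_le_mul_of_nonneg_left h3 (by positivity))
  · -- transform
    have h1 : 𝓕 (𝓕⁻ Ψ) = Ψ := FourierInvPair.fourier_fourierInv_eq Ψ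
    have h2 : (𝓕 (𝓕⁻ Ψ)) ((2 * Real.pi)⁻¹ • w) = BD.ch (-(σ * ‖w‖ ^ 2)) := by
      rw [h1, hΨ]
      unfold frcTh
      simp only
      rw [b.one_of_mem_closedBall, smul_smul, mul_inv_cancel₀ (by positivity), one_smul]
      · simp
      · rw [Metric.mem_closedBall, dist_zero_right, norm_smul, Real.norm_of_nonneg hpi.le]
        show (2 * Real.pi)⁻¹ * ‖w‖ ≤ (2 * Real.pi)⁻¹ * R
        exact mul_le_mul_of_nonneg_left (hw.trans (le_max_left _ _)) hpi.le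
    rw [SchwartzMap.fourier_coe, Real.fourier_eq] at h2
    rw [← h2]
    refine integral_congr_ae (Filter.Eventually.of_forall fun y => ?_)
    show BD.ch (-(inner ℝ y w)) * (𝓕⁻ Ψ) y = (Real.fourierChar (-(inner ℝ y ((2 * Real.pi)⁻¹ • w)))) • (𝓕⁻ Ψ) y
    rw [BD.bdb_ch_eq, Circle.smul_def, smul_eq_mul, inner_smul_right]
    congr 3
    ring

end ker

theorem frc_prop_car (η u y : E k) (s : ℝ) : car η (u - y, s) = car η (u, s) * BD.ch (-(inner ℝ y η)) := by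
  unfold car BD.ch
  rw [← Complex.exp_add]
  congr 1
  simp only [inner_sub_left]
  push_cast
  ring

theorem frc_prop_car' (η u : E k) (s σ : ℝ) : car η (u, s) * BD.ch (-(σ * ‖η‖ ^ 2)) = car η (u, s + σ) := by
  unfold car BD.ch
  rw [← Complex.exp_add]
  congr 1
  push_cast
  ring

theorem frc_prop_fub {L G : E k → ℂ} (hL : Integrable L) (hG : Integrable G) (u : E k) (s : ℝ) :
    Integrable (Function.uncurry fun (y : E k) (η : E k) => car η (u - y, s) * G η * L y) (volume.prod volume) := by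
  have h0 : Integrable (fun p : E k × E k => L p.1 * G p.2) (volume.prod volume) := hL.mul_prod hG
  have hc : Continuous fun p : E k × E k => car p.2 (u - p.1, s) := by
    have h2 : Continuous fun p : E k × E k => ((p.2, (u - p.1, s)) : E k × ST k) := by fun_prop
    have := (inf_car_continuous (n := k)).comp h2
    exact this
  have h1 : Integrable (fun p : E k × E k => car p.2 (u - p.1, s) * (L p.1 * G p.2)) (volume.prod volume) := by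
    refine h0.bdd_mul (c := 1) hc.aestronglyMeasurable ?_
    exact Filter.Eventually.of_forall fun p => (inf_car_norm _ _).le
  refine h1.congr (Filter.Eventually.of_forall fun p => ?_)
  show car p.2 (u - p.1, s) * (L p.1 * G p.2) = car p.2 (u - p.1, s) * G p.2 * L p.1
  ring

/-- L-F1-RC2 (~70 l.).  **Propagation formula** (Fubini; copy the proof of `inf_C1_repro`, `inf_C1_fub` of `Infra/Repro.lean`):
`car η (u - y, s) = car η (u, s) * BD.ch (-⟪y,η⟫)` and `car η (u, s) * BD.ch (-(σ|η|²)) = car η (u, s + σ)`. -/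
theorem frc_prop {L G : E k → ℂ} {σ : ℝ} (hL : Integrable L) (hG : Integrable G)
    (hone : ∀ η, G η ≠ 0 → ∫ y, BD.ch (-(inner ℝ y η)) * L y = BD.ch (-(σ * ‖η‖ ^ 2))) (u : E k) (s : ℝ) :
    ext G (u, s + σ) = ∫ y, L y * ext G (u - y, s) := by
  calc ext G (u, s + σ) = ∫ η, car η (u, s + σ) * G η := rfl
    _ = ∫ η, ∫ y : E k, car η (u - y, s) * G η * L y := by
        refine integral_congr_ae (Filter.Eventually.of_forall fun η => ?_)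
        show car η (u, s + σ) * G η = ∫ y : E k, car η (u - y, s) * G η * L y
        by_cases hη : G η = 0
        · simp [hη]
        · have : ∀ y : E k, car η (u - y, s) * G η * L y = (car η (u, s) * G η) * (BD.ch (-(inner ℝ y η)) * L y) := by
            intro y
            rw [frc_prop_car]
            ring
          simp only [this]
          rw [integral_const_mul, hone η hη, ← frc_prop_car']
          ring
    _ = ∫ y : E k, ∫ η, car η (u - y, s) * G η * L y := (integral_integral_swap (frc_prop_fub hL hG u s)).symm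
    _ = ∫ y : E k, L y * ext G (u - y, s) := by
        refine integral_congr_ae (Filter.Eventually.of_forall fun y => ?_)
        show ∫ η, car η (u - y, s) * G η * L y = L y * ext G (u - y, s)
        rw [integral_mul_const, mul_comm]
        rfl

/-- the pointwise propagation bound: `|q(u,s)|² ≤ A ⟨s - s'⟩^m ∫ ⟨u - y⟩^{-N} |q(y,s')|² dy` -/
def RcPt (A : ℝ) (m : ℕ) (N : ℝ) (q : ST k → ℂ) : Prop :=
  ∀ (u : E k) (s s' : ℝ), ‖q (u, s)‖ₑ ^ 2 ≤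
    ENNReal.ofReal (A * (1 + |s - s'|) ^ m) * ∫⁻ y, ENNReal.ofReal ((1 + ‖u - y‖) ^ (-N)) * ‖q (y, s')‖ₑ ^ 2

/-- L-F1-RC3 (~150 l.).  `frc_ker` (order `N`, `σ = s - s'`), `frc_prop`, `enorm_integral_le_lintegral_enorm`, `inf_C2_jensen` (`P = 2`, `a = ‖L‖ₑ`), `∫⁻ ‖L‖ₑ ≤ C ⟨σ⟩^m ∫ ⟨r⟩^{-N}` (`integrable_one_add_norm`, `finrank_euclideanSpace_fin`),
change of variables `y ↦ u - y` (`lintegral_sub_left_eq_self`).   New exponent `2 m`.   Measurability: `inf_ext_continuous`. -/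
theorem frc_pt (k : ℕ) (ρ N : ℝ) (hN : (k : ℝ) < N) : ∃ (m : ℕ) (A : ℝ), 0 ≤ A ∧ ∀ G : E k → ℂ, Dat ρ G → RcPt A m N (ext G) := by
  obtain ⟨m, C, hC, hker⟩ := frc_ker k ρ N
  have hint : Integrable (fun x : E k => (1 + ‖x‖) ^ (-N)) volume := by
    apply integrable_one_add_norm
    rw [finrank_euclideanSpace_fin]
    exact hN
  have hpos : ∀ x : E k, 0 ≤ (1 + ‖x‖) ^ (-N) := fun x => by positivity
  have hI : 0 ≤ ∫ x : E k, (1 + ‖x‖) ^ (-N) := integral_nonneg hpos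
  refine ⟨2 * m, C ^ 2 * ∫ x : E k, (1 + ‖x‖) ^ (-N), by positivity, fun G hG u s s' => ?_⟩
  obtain ⟨L, hLc, hLi, hLb, hLone⟩ := hker (s - s')
  have hprop := frc_prop hLi (inf_dat_integrable hG) (fun η hη => hLone η (hG.supp η hη)) u s'
  rw [add_sub_cancel] at hprop
  obtain ⟨D, hD⟩ : ∃ D, D = C * (1 + |s - s'|) ^ m := ⟨_, rfl⟩
  have hD0 : 0 ≤ D := by rw [hD]; positivity
  have hLe : ∀ y, ‖L y‖ₑ ≤ ENNReal.ofReal D * ENNReal.ofReal ((1 + ‖y‖) ^ (-N)) := by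
    intro y
    rw [← ENNReal.ofReal_mul hD0, ← ofReal_norm]
    apply ENNReal.ofReal_le_ofReal
    rw [hD]
    exact hLb y
  have hq : Continuous fun y : E k => ext G (u - y, s') :=
    (inf_ext_continuous hG).comp ((continuous_const.sub continuous_id).prodMk continuous_const)
  have h1 : ‖ext G (u, s)‖ₑ ≤ ∫⁻ y, ‖L y‖ₑ * ‖ext G (u - y, s')‖ₑ := by
    rw [hprop]
    refine (enorm_integral_le_lintegral_enorm _).trans (le_of_eq ?_)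
    refine lintegral_congr fun y => ?_
    rw [enorm_mul]
  have h2 := inf_C2_jensen (volume : Measure (E k)) (fun y => ‖L y‖ₑ) (fun y => ‖ext G (u - y, s')‖ₑ)
    hLc.enorm.measurable.aemeasurable hq.enorm.measurable.aemeasurable (P := 2) (by norm_num)
  have e21 : (2 : ℝ) - 1 = 1 := by norm_num
  rw [e21, ENNReal.rpow_one, ENNReal.rpow_two] at h2
  simp only [ENNReal.rpow_two] at h2
  have h3 : ∫⁻ y, ‖L y‖ₑ ≤ ENNReal.ofReal D * ENNReal.ofReal (∫ x : E k, (1 + ‖x‖) ^ (-N)) := by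
    rw [ofReal_integral_eq_lintegral_ofReal hint (Filter.Eventually.of_forall hpos),
      ← lintegral_const_mul' _ _ ENNReal.ofReal_ne_top]
    exact lintegral_mono hLe
  have h4 : ∫⁻ y, ‖L y‖ₑ * ‖ext G (u - y, s')‖ₑ ^ 2 ≤
      ENNReal.ofReal D * ∫⁻ y, ENNReal.ofReal ((1 + ‖u - y‖) ^ (-N)) * ‖ext G (y, s')‖ₑ ^ 2 := by
    have e := lintegral_sub_left_eq_self (μ := (volume : Measure (E k)))
      (fun y => ENNReal.ofReal ((1 + ‖u - y‖) ^ (-N)) * ‖ext G (y, s')‖ₑ ^ 2) u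
    rw [← e, ← lintegral_const_mul' _ _ ENNReal.ofReal_ne_top]
    refine lintegral_mono fun y => ?_
    beta_reduce
    rw [sub_sub_cancel, ← mul_assoc]
    gcongr
    exact hLe y
  calc ‖ext G (u, s)‖ₑ ^ 2 ≤ (∫⁻ y, ‖L y‖ₑ * ‖ext G (u - y, s')‖ₑ) ^ 2 := by gcongr
    _ ≤ (∫⁻ y, ‖L y‖ₑ) * ∫⁻ y, ‖L y‖ₑ * ‖ext G (u - y, s')‖ₑ ^ 2 := h2
    _ ≤ (ENNReal.ofReal D * ENNReal.ofReal (∫ x : E k, (1 + ‖x‖) ^ (-N))) *
        (ENNReal.ofReal D * ∫⁻ y, ENNReal.ofReal ((1 + ‖u - y‖) ^ (-N)) * ‖ext G (y, s')‖ₑ ^ 2) := mul_le_mul' h3 h4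
    _ = _ := by
      rw [← mul_assoc, ← ENNReal.ofReal_mul hD0, ← ENNReal.ofReal_mul (by positivity)]
      congr 2
      rw [hD]
      ring

/-! ## 2. sizes, native coordinates -/

/-- the weighted supremum of `q` about the lattice point `n` -/
def rcS (C0 : ℝ) (q : ST k → ℂ) (n : Lat k) : ℝ := ⨆ X : ST k, ‖q X‖ * (1 + ‖X - lat n‖) ^ (-C0)

theorem frc_S_bdd {C0 B : ℝ} {q : ST k → ℂ} (hC0 : 0 ≤ C0) (hB : ∀ X, ‖q X‖ ≤ B) (n : Lat k) :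
    BddAbove (range fun X : ST k => ‖q X‖ * (1 + ‖X - lat n‖) ^ (-C0)) := by
  refine ⟨B, ?_⟩
  rintro _ ⟨X, rfl⟩
  have h1 : (1 + ‖X - lat n‖) ^ (-C0) ≤ 1 :=
    Real.rpow_le_one_of_one_le_of_nonpos (by linarith [norm_nonneg (X - lat n)]) (by linarith)
  calc ‖q X‖ * (1 + ‖X - lat n‖) ^ (-C0) ≤ ‖q X‖ * 1 := by gcongr
    _ ≤ B := by rw [mul_one]; exact hB X

/-- L-F1-RC4 (~40 l.; `le_ciSup`, bound `B`, `Real.rpow_le_one_of_one_le_of_nonpos`) -/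
theorem frc_le_S {C0 B : ℝ} {q : ST k → ℂ} (hC0 : 0 ≤ C0) (hB : ∀ X, ‖q X‖ ≤ B) (n : Lat k) (X : ST k) :
    ‖q X‖ * (1 + ‖X - lat n‖) ^ (-C0) ≤ rcS C0 q n := by
  exact le_ciSup (frc_S_bdd hC0 hB n) X

/-- L-F1-RC4 (`Real.iSup_nonneg`) -/
theorem frc_S_nonneg (C0 : ℝ) (q : ST k → ℂ) (n : Lat k) : 0 ≤ rcS C0 q n := by
  exact Real.iSup_nonneg fun X => by positivity

/-- L-F1-RC4 (~30 l.; `ciSup_le`, `frc_le_S`) -/
theorem frc_S_mono {C0 B B₁ : ℝ} {q q' : ST k → ℂ} (hC0 : 0 ≤ C0) (hB : ∀ X, ‖q X‖ ≤ B) (hB₁ : 0 ≤ B₁) (h : ∀ X, ‖q' X‖ ≤ B₁ * ‖q X‖) (n : Lat k) :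
    rcS C0 q' n ≤ B₁ * rcS C0 q n := by
  refine ciSup_le fun X => ?_
  calc ‖q' X‖ * (1 + ‖X - lat n‖) ^ (-C0) ≤ B₁ * ‖q X‖ * (1 + ‖X - lat n‖) ^ (-C0) := by
        gcongr
        exact h X
    _ = B₁ * (‖q X‖ * (1 + ‖X - lat n‖) ^ (-C0)) := by ring
    _ ≤ _ := by
        gcongr
        exact frc_le_S hC0 hB n X

theorem frc_rpow_aux {u v D e : ℝ} (hu : 0 < u) (hv : 0 < v) (hD : 0 < D) (he : 0 ≤ e) (h : v ≤ D * u) :
    u ^ (-e) ≤ D ^ e * v ^ (-e) := by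
  have h1 : v ^ e ≤ D ^ e * u ^ e := by
    rw [← Real.mul_rpow hD.le hu.le]
    exact Real.rpow_le_rpow hv.le h he
  rw [Real.rpow_neg hu.le, Real.rpow_neg hv.le, ← div_eq_mul_inv, le_div_iff₀ (Real.rpow_pos_of_pos hv _),
    inv_mul_le_iff₀ (Real.rpow_pos_of_pos hu _), mul_comm]
  exact h1

/-- L-F1-RC5 (~150 l.).  **Sizes with a time cutoff** (`τ = 1`, `B₁ = 1`, `Jt = 0`, `a = 1` gives the plain case).   For every `X`:  `RcPt` at `(X.1, X.2, s')`;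
`1 + |X.2 - s'| ≤ (1 + ‖X - n‖)(1 + |n.2 - s'|)`;  `(1 + ‖X.1 - y‖)^{-N} ≤ (1 + ‖X - n‖)^N (1 + ‖n.1 - y‖)^{-N}` (`inf_peetre`);  `(1 + a|X.2 - s₀|)^{-Jt} ≤ (1 + ‖X - n‖)^{Jt} (1 + a|n.2 - s₀|)^{-Jt}` (`a ≤ 1`);
the total power of `1 + ‖X - n‖` is `m + N + 2 Jt - 2 C0 ≤ 0`.   From the pointwise bound to the `iSup`: if the right side is `⊤` nothing to prove, otherwise `ciSup_le` + `Real.sqrt`/`abs_le_of_sq_le`. -/
theorem frc_size {A N C0 B B₁ Jt a s₀ : ℝ} {m : ℕ} {q : ST k → ℂ} {τ : ℝ → ℂ} (hq : RcPt A m N q) (hB : ∀ X, ‖q X‖ ≤ B) (hA : 0 ≤ A) (hN : 0 ≤ N) (hJ : 0 ≤ Jt)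
    (hC0 : (m : ℝ) + N + 2 * Jt ≤ 2 * C0) (ha : 0 < a) (ha1 : a ≤ 1) (hB₁ : 0 ≤ B₁) (hτ : ∀ s, ‖τ s‖ ≤ B₁ * (1 + a * |s - s₀|) ^ (-Jt)) (n : Lat k) (s' : ℝ) :
    ENNReal.ofReal (rcS C0 (fun X => τ X.2 * q X) n ^ 2) ≤
      ENNReal.ofReal (A * B₁ ^ 2 * (1 + a * |(n.2 : ℝ) - s₀|) ^ (-(2 * Jt)) * (1 + |(n.2 : ℝ) - s'|) ^ m) *
        ∫⁻ y, ENNReal.ofReal ((1 + ‖(lat n).1 - y‖) ^ (-N)) * ‖q (y, s')‖ₑ ^ 2 := by
  obtain ⟨R, hR⟩ : ∃ R, R = ENNReal.ofReal (A * B₁ ^ 2 * (1 + a * |(n.2 : ℝ) - s₀|) ^ (-(2 * Jt)) * (1 + |(n.2 : ℝ) - s'|) ^ m) *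
        ∫⁻ y, ENNReal.ofReal ((1 + ‖(lat n).1 - y‖) ^ (-N)) * ‖q (y, s')‖ₑ ^ 2 := ⟨_, rfl⟩
  rw [← hR]
  by_cases hRt : R = ⊤
  · rw [hRt]
    exact le_top
  have key : ∀ X : ST k, ENNReal.ofReal ((‖τ X.2 * q X‖ * (1 + ‖X - lat n‖) ^ (-C0)) ^ 2) ≤ R := by
    intro X
    have hd1 : ‖X.1 - (lat n).1‖ ≤ ‖X - lat n‖ := norm_fst_le (X - lat n)
    have hd2 : |X.2 - (n.2 : ℝ)| ≤ ‖X - lat n‖ := norm_snd_le (X - lat n)
    obtain ⟨D, hD⟩ : ∃ D, D = 1 + ‖X - lat n‖ := ⟨_, rfl⟩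
    rw [← hD]
    have hD1 : 1 ≤ D := by rw [hD]; linarith [norm_nonneg (X - lat n)]
    have hD0 : 0 < D := by linarith
    have hT : ‖τ X.2‖ ≤ B₁ * (D ^ Jt * (1 + a * |(n.2 : ℝ) - s₀|) ^ (-Jt)) := by
      refine (hτ X.2).trans (mul_le_mul_of_nonneg_left ?_ hB₁)
      apply frc_rpow_aux (by positivity) (by positivity) hD0 hJ
      have h1 : |(n.2 : ℝ) - s₀| ≤ |X.2 - s₀| + |X.2 - (n.2 : ℝ)| := by
        have := abs_sub_le (n.2 : ℝ) X.2 s₀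
        rw [abs_sub_comm (n.2 : ℝ) X.2] at this
        linarith
      have h2 : a * |(n.2 : ℝ) - s₀| ≤ a * |X.2 - s₀| + |X.2 - (n.2 : ℝ)| := by
        nlinarith [abs_nonneg (X.2 - (n.2 : ℝ))]
      have h3 : 0 ≤ a * |X.2 - s₀| := by positivity
      rw [hD]
      nlinarith [norm_nonneg (X - lat n)]
    have hP : (1 + |X.2 - s'|) ^ m ≤ D ^ m * (1 + |(n.2 : ℝ) - s'|) ^ m := by
      rw [← mul_pow]
      apply pow_le_pow_left₀ (by positivity)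
      have h1 : |X.2 - s'| ≤ |X.2 - (n.2 : ℝ)| + |(n.2 : ℝ) - s'| := abs_sub_le _ _ _
      rw [hD]
      nlinarith [norm_nonneg (X - lat n), abs_nonneg ((n.2 : ℝ) - s')]
    have hc : ∀ y : E k, (1 + ‖X.1 - y‖) ^ (-N) ≤ D ^ N * (1 + ‖(lat n).1 - y‖) ^ (-N) := by
      intro y
      apply frc_rpow_aux (by positivity) (by positivity) hD0 hN
      have h1 : ‖(lat n).1 - y‖ ≤ ‖X.1 - (lat n).1‖ + ‖X.1 - y‖ := by
        have := norm_sub_le_norm_sub_add_norm_sub (lat n).1 X.1 y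
        rw [norm_sub_rev (lat n).1 X.1] at this
        exact this
      rw [hD]
      nlinarith [norm_nonneg (X - lat n), norm_nonneg (X.1 - y)]
    have hq' := hq X.1 X.2 s'
    have hpow : D ^ (2 * Jt) * D ^ (-(2 * C0)) * D ^ m * D ^ N ≤ 1 := by
      rw [← Real.rpow_natCast D m, ← Real.rpow_add hD0, ← Real.rpow_add hD0, ← Real.rpow_add hD0]
      exact Real.rpow_le_one_of_one_le_of_nonpos hD1 (by linarith)
    have hW0 : 0 < 1 + a * |(n.2 : ℝ) - s₀| := by positivity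
    have hT2 : ‖τ X.2‖ ^ 2 ≤ B₁ ^ 2 * (D ^ (2 * Jt) * (1 + a * |(n.2 : ℝ) - s₀|) ^ (-(2 * Jt))) := by
      calc ‖τ X.2‖ ^ 2 ≤ (B₁ * (D ^ Jt * (1 + a * |(n.2 : ℝ) - s₀|) ^ (-Jt))) ^ 2 := pow_le_pow_left₀ (norm_nonneg _) hT 2
        _ = _ := by
          rw [mul_pow, mul_pow, ← Real.rpow_natCast (D ^ Jt) 2, ← Real.rpow_mul hD0.le,
            ← Real.rpow_natCast ((1 + a * |(n.2 : ℝ) - s₀|) ^ (-Jt)) 2, ← Real.rpow_mul hW0.le]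
          congr 3 <;> (push_cast; ring)
    have hreal : ‖τ X.2‖ ^ 2 * D ^ (-(2 * C0)) * (A * (1 + |X.2 - s'|) ^ m) * D ^ N ≤
        A * B₁ ^ 2 * (1 + a * |(n.2 : ℝ) - s₀|) ^ (-(2 * Jt)) * (1 + |(n.2 : ℝ) - s'|) ^ m := by
      calc ‖τ X.2‖ ^ 2 * D ^ (-(2 * C0)) * (A * (1 + |X.2 - s'|) ^ m) * D ^ N
          ≤ (B₁ ^ 2 * (D ^ (2 * Jt) * (1 + a * |(n.2 : ℝ) - s₀|) ^ (-(2 * Jt)))) * D ^ (-(2 * C0)) *
            (A * (D ^ m * (1 + |(n.2 : ℝ) - s'|) ^ m)) * D ^ N := by gcongr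
        _ = (A * B₁ ^ 2 * (1 + a * |(n.2 : ℝ) - s₀|) ^ (-(2 * Jt)) * (1 + |(n.2 : ℝ) - s'|) ^ m) *
            (D ^ (2 * Jt) * D ^ (-(2 * C0)) * D ^ m * D ^ N) := by ring
        _ ≤ (A * B₁ ^ 2 * (1 + a * |(n.2 : ℝ) - s₀|) ^ (-(2 * Jt)) * (1 + |(n.2 : ℝ) - s'|) ^ m) * 1 := by gcongr
        _ = _ := mul_one _
    calc ENNReal.ofReal ((‖τ X.2 * q X‖ * D ^ (-C0)) ^ 2)
        = ENNReal.ofReal (‖τ X.2‖ ^ 2 * D ^ (-(2 * C0))) * ‖q X‖ₑ ^ 2 := by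
          rw [← ofReal_norm (q X), ← ENNReal.ofReal_pow (norm_nonneg _), ← ENNReal.ofReal_mul (by positivity)]
          congr 1
          rw [norm_mul, mul_pow, mul_pow, ← Real.rpow_natCast (D ^ (-C0)) 2, ← Real.rpow_mul hD0.le]
          have : -C0 * ((2 : ℕ) : ℝ) = -(2 * C0) := by push_cast; ring
          rw [this]
          ring
      _ ≤ ENNReal.ofReal (‖τ X.2‖ ^ 2 * D ^ (-(2 * C0))) * (ENNReal.ofReal (A * (1 + |X.2 - s'|) ^ m) *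
          ∫⁻ y, ENNReal.ofReal ((1 + ‖X.1 - y‖) ^ (-N)) * ‖q (y, s')‖ₑ ^ 2) := by
          gcongr
      _ ≤ ENNReal.ofReal (‖τ X.2‖ ^ 2 * D ^ (-(2 * C0))) * (ENNReal.ofReal (A * (1 + |X.2 - s'|) ^ m) *
          (ENNReal.ofReal (D ^ N) * ∫⁻ y, ENNReal.ofReal ((1 + ‖(lat n).1 - y‖) ^ (-N)) * ‖q (y, s')‖ₑ ^ 2)) := by
          gcongr
          rw [← lintegral_const_mul' _ _ ENNReal.ofReal_ne_top]
          refine lintegral_mono fun y => ?_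
          beta_reduce
          rw [← mul_assoc, ← ENNReal.ofReal_mul (by positivity)]
          gcongr
          exact hc y
      _ = ENNReal.ofReal (‖τ X.2‖ ^ 2 * D ^ (-(2 * C0)) * (A * (1 + |X.2 - s'|) ^ m) * D ^ N) *
          ∫⁻ y, ENNReal.ofReal ((1 + ‖(lat n).1 - y‖) ^ (-N)) * ‖q (y, s')‖ₑ ^ 2 := by
          rw [← mul_assoc, ← mul_assoc, ← ENNReal.ofReal_mul (by positivity), ← ENNReal.ofReal_mul (by positivity)]
      _ ≤ R := by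
          rw [hR]
          gcongr
  have hsup : rcS C0 (fun X => τ X.2 * q X) n ≤ Real.sqrt R.toReal := by
    refine ciSup_le fun X => Real.le_sqrt_of_sq_le ?_
    have := key X
    rwa [ENNReal.ofReal_le_iff_le_toReal hRt] at this
  rw [ENNReal.ofReal_le_iff_le_toReal hRt]
  calc rcS C0 (fun X => τ X.2 * q X) n ^ 2 ≤ Real.sqrt R.toReal ^ 2 := pow_le_pow_left₀ (frc_S_nonneg _ _ _) hsup 2
    _ = R.toReal := Real.sq_sqrt ENNReal.toReal_nonneg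

/-- L-F1-RC6 (~150 l.).  **The core, abstract form.**   `frc_size` (`τ = 1`, `Jt = 0`) at `s' = X0.2`;  `(1 + ‖n.1 - y‖)^{-N} ≤ (1 + ‖n.1 - y‖)^{-Qj} ≤ (1 + ‖X0 - n‖)^{Qj} (1 + ‖X0.1 - y‖)^{-Qj}`;  `1 + |n.2 - X0.2| ≤ 1 + ‖X0 - n‖`;
the power of `1 + ‖X0 - n‖` is `m + Qj - Pw ≤ -(k+2)`;  `tg_sum_lat` (order `k + 2`).   `C = A * C_lat`.   (`ENNReal.ofReal_sum_of_nonneg`, `Finset.sum_le_sum`, `← Finset.sum_mul`.) -/
theorem frc_core (k : ℕ) {A N Qj : ℝ} {m : ℕ} (hA : 0 ≤ A) (hQ : 0 ≤ Qj) (hQN : Qj ≤ N) : ∃ C : ℝ, 0 ≤ C ∧ ∀ (Pw C0 B : ℝ) (q : ST k → ℂ),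
    (m : ℝ) + Qj + k + 2 ≤ Pw → (m : ℝ) + N ≤ 2 * C0 → RcPt A m N q → (∀ X, ‖q X‖ ≤ B) → ∀ (X0 : ST k) (W : Finset (Lat k)),
    ENNReal.ofReal (∑ n ∈ W, rcS C0 q n ^ 2 * (1 + ‖X0 - lat n‖) ^ (-Pw)) ≤
      ENNReal.ofReal C * ∫⁻ y, ENNReal.ofReal ((1 + ‖X0.1 - y‖) ^ (-Qj)) * ‖q (y, X0.2)‖ₑ ^ 2 := by
  obtain ⟨Cl, hCl, hlat⟩ := tg_sum_lat k (A := (k : ℝ) + 2) (by linarith)
  refine ⟨A * Cl, by positivity, fun Pw C0 B q hPw hC0 hq hB X0 W => ?_⟩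
  have hterm : ∀ n : Lat k, ENNReal.ofReal (rcS C0 q n ^ 2 * (1 + ‖X0 - lat n‖) ^ (-Pw)) ≤
      ENNReal.ofReal (A * (1 + ‖X0 - lat n‖) ^ (-((k : ℝ) + 2))) *
        ∫⁻ y, ENNReal.ofReal ((1 + ‖X0.1 - y‖) ^ (-Qj)) * ‖q (y, X0.2)‖ₑ ^ 2 := by
    intro n
    have hs := frc_size (Jt := 0) (a := 1) (s₀ := 0) (B₁ := 1) (τ := fun _ => 1) hq hB hA (hQ.trans hQN) le_rfl
      (by linarith) one_pos le_rfl zero_le_one (fun s => by simp) n X0.2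
    simp only [one_mul, one_pow, mul_one, mul_zero, neg_zero, Real.rpow_zero] at hs
    have hd1 : ‖X0.1 - (lat n).1‖ ≤ ‖X0 - lat n‖ := norm_fst_le (X0 - lat n)
    have hd2 : |X0.2 - (n.2 : ℝ)| ≤ ‖X0 - lat n‖ := norm_snd_le (X0 - lat n)
    obtain ⟨D, hD⟩ : ∃ D, D = 1 + ‖X0 - lat n‖ := ⟨_, rfl⟩
    rw [← hD]
    have hD1 : 1 ≤ D := by rw [hD]; linarith [norm_nonneg (X0 - lat n)]
    have hD0 : 0 < D := by linarith
    have hc : ∀ y : E k, (1 + ‖(lat n).1 - y‖) ^ (-N) ≤ D ^ Qj * (1 + ‖X0.1 - y‖) ^ (-Qj) := by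
      intro y
      have h0 : (1 + ‖(lat n).1 - y‖) ^ (-N) ≤ (1 + ‖(lat n).1 - y‖) ^ (-Qj) :=
        Real.rpow_le_rpow_of_exponent_le (by linarith [norm_nonneg ((lat n).1 - y)]) (by linarith)
      refine h0.trans ?_
      apply frc_rpow_aux (by positivity) (by positivity) hD0 hQ
      have h1 : ‖X0.1 - y‖ ≤ ‖X0.1 - (lat n).1‖ + ‖(lat n).1 - y‖ := norm_sub_le_norm_sub_add_norm_sub _ _ _
      rw [hD]
      nlinarith [norm_nonneg (X0 - lat n), norm_nonneg ((lat n).1 - y)]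
    have hP : (1 + |(n.2 : ℝ) - X0.2|) ^ m ≤ D ^ m := by
      apply pow_le_pow_left₀ (by positivity)
      rw [hD, abs_sub_comm]
      linarith
    have hpow : D ^ m * D ^ Qj * D ^ (-Pw) ≤ D ^ (-((k : ℝ) + 2)) := by
      rw [← Real.rpow_natCast D m, ← Real.rpow_add hD0, ← Real.rpow_add hD0]
      exact Real.rpow_le_rpow_of_exponent_le hD1 (by linarith)
    calc ENNReal.ofReal (rcS C0 q n ^ 2 * D ^ (-Pw))
        = ENNReal.ofReal (rcS C0 q n ^ 2) * ENNReal.ofReal (D ^ (-Pw)) := ENNReal.ofReal_mul (by positivity)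
      _ ≤ (ENNReal.ofReal (A * (1 + |(n.2 : ℝ) - X0.2|) ^ m) *
          ∫⁻ y, ENNReal.ofReal ((1 + ‖(lat n).1 - y‖) ^ (-N)) * ‖q (y, X0.2)‖ₑ ^ 2) * ENNReal.ofReal (D ^ (-Pw)) := by
          gcongr
      _ ≤ (ENNReal.ofReal (A * (1 + |(n.2 : ℝ) - X0.2|) ^ m) *
          (ENNReal.ofReal (D ^ Qj) * ∫⁻ y, ENNReal.ofReal ((1 + ‖X0.1 - y‖) ^ (-Qj)) * ‖q (y, X0.2)‖ₑ ^ 2)) *
            ENNReal.ofReal (D ^ (-Pw)) := by
          gcongr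
          rw [← lintegral_const_mul' _ _ ENNReal.ofReal_ne_top]
          refine lintegral_mono fun y => ?_
          beta_reduce
          rw [← mul_assoc, ← ENNReal.ofReal_mul (by positivity)]
          gcongr
          exact hc y
      _ = ENNReal.ofReal (A * (1 + |(n.2 : ℝ) - X0.2|) ^ m * D ^ Qj * D ^ (-Pw)) *
          ∫⁻ y, ENNReal.ofReal ((1 + ‖X0.1 - y‖) ^ (-Qj)) * ‖q (y, X0.2)‖ₑ ^ 2 := by
          rw [ENNReal.ofReal_mul (p := A * (1 + |(n.2 : ℝ) - X0.2|) ^ m * D ^ Qj) (by positivity),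
            ENNReal.ofReal_mul (p := A * (1 + |(n.2 : ℝ) - X0.2|) ^ m) (by positivity)]
          ring
      _ ≤ _ := by
          refine mul_le_mul' (ENNReal.ofReal_le_ofReal ?_) le_rfl
          calc A * (1 + |(n.2 : ℝ) - X0.2|) ^ m * D ^ Qj * D ^ (-Pw) ≤ A * D ^ m * D ^ Qj * D ^ (-Pw) := by gcongr
            _ = A * (D ^ m * D ^ Qj * D ^ (-Pw)) := by ring
            _ ≤ _ := by gcongr
  rw [ENNReal.ofReal_sum_of_nonneg (fun n _ => by positivity)]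
  calc ∑ n ∈ W, ENNReal.ofReal (rcS C0 q n ^ 2 * (1 + ‖X0 - lat n‖) ^ (-Pw))
      ≤ ∑ n ∈ W, ENNReal.ofReal (A * (1 + ‖X0 - lat n‖) ^ (-((k : ℝ) + 2))) *
        ∫⁻ y, ENNReal.ofReal ((1 + ‖X0.1 - y‖) ^ (-Qj)) * ‖q (y, X0.2)‖ₑ ^ 2 := Finset.sum_le_sum fun n _ => hterm n
    _ = ENNReal.ofReal (A * ∑ n ∈ W, (1 + ‖X0 - lat n‖) ^ (-((k : ℝ) + 2))) *
        ∫⁻ y, ENNReal.ofReal ((1 + ‖X0.1 - y‖) ^ (-Qj)) * ‖q (y, X0.2)‖ₑ ^ 2 := by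
        rw [← Finset.sum_mul, Finset.mul_sum, ENNReal.ofReal_sum_of_nonneg (fun n _ => by positivity)]
    _ ≤ _ := by
        gcongr
        exact hlat X0 W

/-- L-F1-RC7 (~200 l.).  **The energy, abstract form.**   `frc_size` at `s' = n.2`;  `W ⊆ W.image Prod.fst ×ˢ W.image Prod.snd`;  for fixed `n.2`: `∑_{n.1} ∫⁻ = ∫⁻ ∑` (`lintegral_finset_sum`), `tg_sum_latE` (`r = 1`, order `N > k`), hypothesis `En`;
then `tg_sum_latR` (`r = a`, order `2 Jt > 1`): `∑_{n.2} (1 + |a n.2 - a s₀|)^{-2Jt} ≤ C/a`. -/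
theorem frc_energy (k : ℕ) {A N Jt : ℝ} {m : ℕ} (hA : 0 ≤ A) (hN : (k : ℝ) < N) (hJ : 1 < 2 * Jt) : ∃ C : ℝ, 0 ≤ C ∧ ∀ (C0 B B₁ a s₀ : ℝ) (q : ST k → ℂ) (τ : ℝ → ℂ) (En : ℝ≥0∞),
    (m : ℝ) + N + 2 * Jt ≤ 2 * C0 → RcPt A m N q → (∀ X, ‖q X‖ ≤ B) → Continuous q → 0 < a → a ≤ 1 → 0 ≤ B₁ → (∀ s, ‖τ s‖ ≤ B₁ * (1 + a * |s - s₀|) ^ (-Jt)) →
    (∀ s, ∫⁻ y, ‖q (y, s)‖ₑ ^ 2 ≤ En) → ∀ W : Finset (Lat k),
    ENNReal.ofReal (∑ n ∈ W, rcS C0 (fun X => τ X.2 * q X) n ^ 2) ≤ ENNReal.ofReal (C * B₁ ^ 2 / a) * En := by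
  classical
  obtain ⟨C₁, hC₁, hE⟩ := tg_sum_latE k hN
  obtain ⟨C₂, hC₂, hR⟩ := tg_sum_latR hJ
  have hN0 : 0 ≤ N := le_trans (Nat.cast_nonneg k) hN.le
  refine ⟨A * C₁ * C₂, by positivity, fun C0 B B₁ a s₀ q τ En hC0 hq hB hqc ha ha1 hB₁ hτ hEn W => ?_⟩
  -- the bound of one term
  obtain ⟨T, hT⟩ : ∃ T : (Fin k → ℤ) → ℤ → ℝ≥0∞, T = fun (n₁ : Fin k → ℤ) (n₂ : ℤ) =>
      ENNReal.ofReal (A * B₁ ^ 2 * (1 + a * |(n₂ : ℝ) - s₀|) ^ (-(2 * Jt))) *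
        ∫⁻ y, ENNReal.ofReal ((1 + ‖latE n₁ - y‖) ^ (-N)) * ‖q (y, (n₂ : ℝ))‖ₑ ^ 2 := ⟨_, rfl⟩
  have hterm : ∀ n : Lat k, ENNReal.ofReal (rcS C0 (fun X => τ X.2 * q X) n ^ 2) ≤ T n.1 n.2 := by
    intro n
    have hs := frc_size hq hB hA hN0 (by linarith) hC0 ha ha1 hB₁ hτ n (n.2 : ℝ)
    simp only [sub_self, abs_zero, add_zero, one_pow, mul_one] at hs
    rw [hT]
    exact hs
  have hrow : ∀ (n₂ : ℤ) (W₁ : Finset (Fin k → ℤ)), ∑ n₁ ∈ W₁, T n₁ n₂ ≤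
      ENNReal.ofReal (A * B₁ ^ 2 * (1 + a * |(n₂ : ℝ) - s₀|) ^ (-(2 * Jt))) * (ENNReal.ofReal C₁ * En) := by
    intro n₂ W₁
    rw [hT, ← Finset.mul_sum]
    gcongr
    have hmeas : ∀ n₁ ∈ W₁, Measurable fun y : E k => ENNReal.ofReal ((1 + ‖latE n₁ - y‖) ^ (-N)) * ‖q (y, (n₂ : ℝ))‖ₑ ^ 2 := by
      intro n₁ _
      have m1 : Measurable fun y : E k => ENNReal.ofReal ((1 + ‖latE n₁ - y‖) ^ (-N)) :=
        ENNReal.measurable_ofReal.comp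
          ((measurable_const.add (measurable_norm.comp (measurable_const.sub measurable_id))).pow_const _)
      have m2 : Measurable fun y : E k => ‖q (y, (n₂ : ℝ))‖ₑ ^ 2 :=
        ((hqc.comp (continuous_id.prodMk continuous_const)).enorm.measurable).pow_const 2
      exact m1.mul m2
    rw [← lintegral_finsetSum _ hmeas]
    calc ∫⁻ y, ∑ n₁ ∈ W₁, ENNReal.ofReal ((1 + ‖latE n₁ - y‖) ^ (-N)) * ‖q (y, (n₂ : ℝ))‖ₑ ^ 2
        ≤ ∫⁻ y, ENNReal.ofReal C₁ * ‖q (y, (n₂ : ℝ))‖ₑ ^ 2 := by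
          refine lintegral_mono fun y => ?_
          beta_reduce
          rw [← Finset.sum_mul, ← ENNReal.ofReal_sum_of_nonneg (fun _ _ => by positivity)]
          gcongr
          have := hE 1 W₁ y one_pos le_rfl
          simpa using this
      _ = ENNReal.ofReal C₁ * ∫⁻ y, ‖q (y, (n₂ : ℝ))‖ₑ ^ 2 := lintegral_const_mul' _ _ ENNReal.ofReal_ne_top
      _ ≤ _ := by
          gcongr
          exact hEn _
  have hsub : W ⊆ W.image Prod.fst ×ˢ W.image Prod.snd := by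
    intro n hn
    rw [Finset.mem_product]
    exact ⟨Finset.mem_image_of_mem _ hn, Finset.mem_image_of_mem _ hn⟩
  rw [ENNReal.ofReal_sum_of_nonneg (fun n _ => by positivity)]
  calc ∑ n ∈ W, ENNReal.ofReal (rcS C0 (fun X => τ X.2 * q X) n ^ 2)
      ≤ ∑ n ∈ W, T n.1 n.2 := Finset.sum_le_sum fun n _ => hterm n
    _ ≤ ∑ n ∈ W.image Prod.fst ×ˢ W.image Prod.snd, T n.1 n.2 := Finset.sum_le_sum_of_subset hsub
    _ = ∑ n₂ ∈ W.image Prod.snd, ∑ n₁ ∈ W.image Prod.fst, T n₁ n₂ := Finset.sum_product_right _ _ _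
    _ ≤ ∑ n₂ ∈ W.image Prod.snd, ENNReal.ofReal (A * B₁ ^ 2 * (1 + a * |(n₂ : ℝ) - s₀|) ^ (-(2 * Jt))) *
        (ENNReal.ofReal C₁ * En) := Finset.sum_le_sum fun n₂ _ => hrow n₂ _
    _ = ENNReal.ofReal (A * B₁ ^ 2 * ∑ n₂ ∈ W.image Prod.snd, (1 + a * |(n₂ : ℝ) - s₀|) ^ (-(2 * Jt))) *
        (ENNReal.ofReal C₁ * En) := by
        rw [← Finset.sum_mul, Finset.mul_sum, ENNReal.ofReal_sum_of_nonneg (fun _ _ => by positivity)]
    _ ≤ ENNReal.ofReal (A * B₁ ^ 2 * (C₂ * a⁻¹)) * (ENNReal.ofReal C₁ * En) := by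
        gcongr
        have := hR a (W.image Prod.snd) (a * s₀) ha ha1
        refine le_trans (le_of_eq (Finset.sum_congr rfl fun n₂ _ => ?_)) this
        rw [← mul_sub, abs_mul, abs_of_pos ha]
    _ = _ := by
        rw [← mul_assoc, ← ENNReal.ofReal_mul (by positivity)]
        congr 2
        field_simp

/-! ## 3. physical coordinates -/

/-- the weighted supremum of the field `U` about the cell `(v, n)` of scale `K₀` -/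
def rcSz (C0 K₀ : ℝ) (v : E k) (U : ST k → ℂ) (n : Lat k) : ℝ := ⨆ z : ST k, ‖U z‖ * pw C0 K₀ v (lat n) z

/-- L-F1-RC8 (~60 l.).  `natX K₀ v` is a bijection (`natX_natI`, `natI_natX`): `Equiv.iSup_congr` / `Function.Surjective.iSup_comp`; `Real.mul_iSup_of_nonneg`. -/
theorem frc_Sz_eq {C0 K₀ γ : ℝ} (hK : 0 < K₀) (hγ : 0 ≤ γ) (v : E k) {U q : ST k → ℂ} (h : ∀ z, ‖U z‖ = γ * ‖q (natX K₀ v z)‖) (n : Lat k) :
    rcSz C0 K₀ v U n = γ * rcS C0 q n := by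
  unfold rcSz rcS
  rw [Real.mul_iSup_of_nonneg hγ]
  have hsurj : Function.Surjective (natX K₀ v : ST k → ST k) := fun X => ⟨natI K₀ v X, natX_natI hK.ne' v X⟩
  rw [← hsurj.iSup_comp (g := fun X : ST k => γ * (‖q X‖ * (1 + ‖X - lat n‖) ^ (-C0)))]
  refine iSup_congr fun z => ?_
  rw [h z]
  unfold pw
  ring

/-- L-F1-RC8 (~40 l.; as `frc_S_mono`) -/
theorem frc_Sz_mono {C0 K₀ B B₁ : ℝ} (v : E k) {U U' : ST k → ℂ} (hC0 : 0 ≤ C0) (hB : ∀ z, ‖U z‖ ≤ B) (hB₁ : 0 ≤ B₁) (h : ∀ z, ‖U' z‖ ≤ B₁ * ‖U z‖) (n : Lat k) :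
    rcSz C0 K₀ v U' n ≤ B₁ * rcSz C0 K₀ v U n := by
  unfold rcSz
  have hw0 : ∀ z, 0 ≤ pw C0 K₀ v (lat n) z := fun z => Real.rpow_nonneg (by positivity) _
  have hw1 : ∀ z, pw C0 K₀ v (lat n) z ≤ 1 := fun z =>
    Real.rpow_le_one_of_one_le_of_nonpos (by linarith [norm_nonneg (natX K₀ v z - lat n)]) (by linarith)
  have hbdd : BddAbove (range fun z : ST k => ‖U z‖ * pw C0 K₀ v (lat n) z) := by
    refine ⟨B, ?_⟩
    rintro _ ⟨z, rfl⟩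
    calc ‖U z‖ * pw C0 K₀ v (lat n) z ≤ ‖U z‖ * 1 := mul_le_mul_of_nonneg_left (hw1 z) (norm_nonneg _)
      _ ≤ B := by rw [mul_one]; exact hB z
  refine ciSup_le fun z => ?_
  calc ‖U' z‖ * pw C0 K₀ v (lat n) z ≤ B₁ * ‖U z‖ * pw C0 K₀ v (lat n) z := mul_le_mul_of_nonneg_right (h z) (hw0 z)
    _ = B₁ * (‖U z‖ * pw C0 K₀ v (lat n) z) := by ring
    _ ≤ _ := mul_le_mul_of_nonneg_left (le_ciSup hbdd z) hB₁

/-- L-F1-RC8 (~50 l.).  the cluster in native coordinates (`inf_ext_rescale` with `q = K₀⁻¹`, `inf_capD_dat`, `inf_car_norm`; `natX K₀ v z = (K₀⁻¹ • (z.1 - (2 z.2) • v), (K₀⁻¹)² z.2)`) -/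
theorem frc_native {ρ K₀ R₀ : ℝ} {v : E k} {g : E k → ℂ} (hK : 0 < K₀) (hg : Dat R₀ g) (hs : ∀ ξ, g ξ ≠ 0 → ‖ξ - v‖ ≤ ρ / K₀) :
    Dat ρ (capD K₀⁻¹ v g) ∧ ∀ z, ext g z = ((K₀⁻¹ ^ ((k : ℝ) / 2) : ℝ) : ℂ) * car v z * ext (capD K₀⁻¹ v g) (natX K₀ v z) := by
  refine ⟨inf_capD_dat hg v (inv_pos.2 hK) fun ξ hξ => ?_, fun z => ?_⟩
  · rw [inv_mul_eq_div]
    exact hs ξ hξ
  · rw [inf_ext_rescale g v (inv_pos.2 hK) z]
    congr 2
    unfold natX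
    rw [inv_pow, inv_mul_eq_div]

theorem frc_env_cov {K₀ : ℝ} (hK : 0 < K₀) (w : E k) (F : E k → ℝ≥0∞) :
    ∫⁻ y, F y = ENNReal.ofReal (K₀ ^ (-(k : ℝ))) * ∫⁻ x, F (K₀⁻¹ • (x - w)) := by
  have hq : 0 < K₀⁻¹ := inv_pos.2 hK
  have e : ∀ x : E k, K₀⁻¹ • (x - w) = (-(K₀⁻¹ • w)) + K₀⁻¹ • x := fun x => by
    rw [smul_sub]
    abel
  simp only [e]
  rw [← (inf_A3_emb (-(K₀⁻¹ • w)) hq).lintegral_map F, inf_A3_map _ hq, lintegral_smul_measure, smul_eq_mul, ← mul_assoc,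
    ← ENNReal.ofReal_mul (by positivity)]
  have e2 : K₀ ^ (-(k : ℝ)) * (K₀⁻¹ ^ k)⁻¹ = 1 := by
    rw [Real.rpow_neg hK.le, Real.rpow_natCast, inv_pow, inv_inv]
    exact inv_mul_cancel₀ (by positivity)
  rw [e2, ENNReal.ofReal_one, one_mul]

theorem frc_env_wt (Qj r : ℝ) (hr : 0 ≤ r) : (1 + r) ^ (-(max Qj 0)) ≤ (1 + r ^ 2) ^ (-Qj / 2) := by
  rcases le_total 0 Qj with h | h
  · rw [max_eq_left h]
    have e : (1 + r) ^ (-Qj) = ((1 + r) ^ 2) ^ (-Qj / 2) := by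
      rw [← Real.rpow_natCast (1 + r) 2, ← Real.rpow_mul (by positivity)]
      congr 1
      push_cast
      ring
    rw [e]
    exact Real.rpow_le_rpow_of_nonpos (by positivity) (by nlinarith) (by linarith)
  · rw [max_eq_right h, neg_zero, Real.rpow_zero]
    exact Real.one_le_rpow (by nlinarith [sq_nonneg r]) (by linarith)

/-- L-F1-RC9 (~200 l.).  **EXIT 1: the envelope at equal times.**   `N = max Qj 0 + k + 1`, `(m, A)` from `frc_pt`, `C` from `frc_core` (`Qj' = max Qj 0`), `Pw₀ = m + N + k + 2`.   `frc_native`, `frc_Sz_eq` (`γ = K₀^{-k/2}`), `X0 = natX K₀ v z`,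
`(1 + r)^{-Qj'} ≤ (1 + r²)^{-Qj/2}`;  change of variables `y = K₀⁻¹ • (x - (2 z.2) • v)` (`lintegral` under `x ↦ K₀⁻¹ • x` and translations: `Measure.lintegral_comp_smul`-type lemma = `inf_A3_map`, `MeasurableEmbedding.lintegral_map`):
`X0.1 - y = K₀⁻¹ • (z.1 - x)`, `‖ext G (y, X0.2)‖² = K₀^k ‖ext g (x, z.2)‖²`, `dy = K₀^{-k} dx`. -/
theorem frc_env (k : ℕ) (ρ Qj : ℝ) : ∃ Pw₀ C : ℝ, 0 ≤ C ∧ ∀ Pw C0 : ℝ, Pw₀ ≤ Pw → Pw ≤ C0 → ∀ (K₀ R₀ : ℝ) (v : E k) (g : E k → ℂ), 0 < K₀ → Dat R₀ g →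
    (∀ ξ, g ξ ≠ 0 → ‖ξ - v‖ ≤ ρ / K₀) → ∀ (z : ST k) (W : Finset (Lat k)),
    ENNReal.ofReal (∑ n ∈ W, rcSz C0 K₀ v (ext g) n ^ 2 * pw Pw K₀ v (lat n) z) ≤
      ENNReal.ofReal C * ∫⁻ x, ENNReal.ofReal (K₀ ^ (-(k : ℝ)) * (1 + ‖z.1 - x‖ ^ 2 / K₀ ^ 2) ^ (-Qj / 2)) * ‖ext g (x, z.2)‖ₑ ^ 2 := by
  have hQ : 0 ≤ max Qj 0 := le_max_right _ _
  obtain ⟨m, A, hA, hpt⟩ := frc_pt k ρ (max Qj 0 + k + 1) (by linarith)
  obtain ⟨C, hC, hcore⟩ := frc_core k (A := A) (N := max Qj 0 + k + 1) (Qj := max Qj 0) (m := m) hA hQ (by linarith [(Nat.cast_nonneg k : (0 : ℝ) ≤ k)])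
  refine ⟨m + (max Qj 0 + k + 1) + k + 2, C, hC, ?_⟩
  intro Pw C0 hPw hC0 K₀ R₀ v g hK hg hs z W
  have hk0 : (0 : ℝ) ≤ k := Nat.cast_nonneg k
  have hm0 : (0 : ℝ) ≤ m := Nat.cast_nonneg m
  obtain ⟨hG, hU⟩ := frc_native hK hg hs
  obtain ⟨γ, hγ⟩ : ∃ γ : ℝ, γ = K₀⁻¹ ^ ((k : ℝ) / 2) := ⟨_, rfl⟩
  have hγ0 : 0 ≤ γ := by
    rw [hγ]
    positivity
  have hn : ∀ z, ‖ext g z‖ = γ * ‖ext (capD K₀⁻¹ v g) (natX K₀ v z)‖ := fun z => by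
    rw [hU z, norm_mul, norm_mul, inf_car_norm, mul_one, Complex.norm_real, Real.norm_of_nonneg (by positivity), hγ]
  have hne : ∀ z, ‖ext g z‖ₑ ^ 2 = ENNReal.ofReal (γ ^ 2) * ‖ext (capD K₀⁻¹ v g) (natX K₀ v z)‖ₑ ^ 2 := fun z => by
    rw [← ofReal_norm, ← ofReal_norm, hn z, ENNReal.ofReal_mul hγ0, mul_pow, ENNReal.ofReal_pow hγ0]
  have h1 := hcore Pw C0 _ (ext (capD K₀⁻¹ v g)) (by linarith) (by linarith) (hpt _ hG) (inf_ext_bound hG) (natX K₀ v z) W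
  have e1 : ∑ n ∈ W, rcSz C0 K₀ v (ext g) n ^ 2 * pw Pw K₀ v (lat n) z
      = γ ^ 2 * ∑ n ∈ W, rcS C0 (ext (capD K₀⁻¹ v g)) n ^ 2 * (1 + ‖natX K₀ v z - lat n‖) ^ (-Pw) := by
    rw [Finset.mul_sum]
    refine Finset.sum_congr rfl fun n _ => ?_
    rw [frc_Sz_eq hK hγ0 v hn n]
    unfold pw
    ring
  rw [e1, ENNReal.ofReal_mul (by positivity)]
  refine (mul_le_mul' le_rfl h1).trans ?_
  rw [frc_env_cov hK ((2 * z.2) • v)]
  have e2 : ENNReal.ofReal (γ ^ 2) * (ENNReal.ofReal C * (ENNReal.ofReal (K₀ ^ (-(k : ℝ))) *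
      ∫⁻ x, ENNReal.ofReal ((1 + ‖(natX K₀ v z).1 - K₀⁻¹ • (x - (2 * z.2) • v)‖) ^ (-(max Qj 0))) *
        ‖ext (capD K₀⁻¹ v g) (K₀⁻¹ • (x - (2 * z.2) • v), (natX K₀ v z).2)‖ₑ ^ 2))
      = ENNReal.ofReal C * ∫⁻ x, ENNReal.ofReal (K₀ ^ (-(k : ℝ))) * (ENNReal.ofReal (γ ^ 2) *
        (ENNReal.ofReal ((1 + ‖(natX K₀ v z).1 - K₀⁻¹ • (x - (2 * z.2) • v)‖) ^ (-(max Qj 0))) *
        ‖ext (capD K₀⁻¹ v g) (K₀⁻¹ • (x - (2 * z.2) • v), (natX K₀ v z).2)‖ₑ ^ 2)) := by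
    rw [lintegral_const_mul' _ _ ENNReal.ofReal_ne_top, lintegral_const_mul' _ _ ENNReal.ofReal_ne_top]
    ring
  rw [e2]
  refine mul_le_mul' le_rfl (lintegral_mono fun x => ?_)
  have e3 : (K₀⁻¹ • (x - (2 * z.2) • v), (natX K₀ v z).2) = natX K₀ v (x, z.2) := rfl
  have e4 : ‖(natX K₀ v z).1 - K₀⁻¹ • (x - (2 * z.2) • v)‖ = ‖z.1 - x‖ / K₀ := by
    have : (natX K₀ v z).1 - K₀⁻¹ • (x - (2 * z.2) • v) = K₀⁻¹ • (z.1 - x) := by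
      unfold natX
      simp only
      rw [← smul_sub]
      congr 1
      abel
    rw [this, norm_smul, norm_inv, Real.norm_of_nonneg hK.le, div_eq_inv_mul]
  rw [e3, e4, hne (x, z.2), ENNReal.ofReal_mul (by positivity)]
  have h2 := frc_env_wt Qj (‖z.1 - x‖ / K₀) (by positivity)
  rw [div_pow] at h2
  calc ENNReal.ofReal (K₀ ^ (-(k : ℝ))) * (ENNReal.ofReal (γ ^ 2) * (ENNReal.ofReal ((1 + ‖z.1 - x‖ / K₀) ^ (-(max Qj 0))) *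
        ‖ext (capD K₀⁻¹ v g) (natX K₀ v (x, z.2))‖ₑ ^ 2))
      = ENNReal.ofReal (K₀ ^ (-(k : ℝ))) * ENNReal.ofReal ((1 + ‖z.1 - x‖ / K₀) ^ (-(max Qj 0))) * (ENNReal.ofReal (γ ^ 2) *
        ‖ext (capD K₀⁻¹ v g) (natX K₀ v (x, z.2))‖ₑ ^ 2) := by ring
    _ ≤ _ := by
        gcongr

theorem frc_en_cov {K₀ : ℝ} (hK : 0 < K₀) (c : E k) (F : E k → ℝ≥0∞) :
    ∫⁻ x, F (K₀⁻¹ • (x - c)) = ENNReal.ofReal (K₀ ^ k) * ∫⁻ y, F y := by
  have hq : 0 < K₀⁻¹ := inv_pos.2 hK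
  have h1 := (inf_A3_emb (n := k) (-(K₀⁻¹ • c)) hq).lintegral_map (μ := volume) F
  rw [inf_A3_map _ hq, lintegral_smul_measure, smul_eq_mul] at h1
  have e1 : ((K₀⁻¹ ^ k)⁻¹ : ℝ) = K₀ ^ k := by rw [inv_pow, inv_inv]
  rw [e1] at h1
  rw [h1]
  refine lintegral_congr fun x => ?_
  congr 1
  rw [smul_sub]
  abel

theorem frc_en_slice {ρ K₀ R₀ : ℝ} {v : E k} {g : E k → ℂ} (hK : 0 < K₀) (hg : Dat R₀ g) (hs : ∀ ξ, g ξ ≠ 0 → ‖ξ - v‖ ≤ ρ / K₀) (s : ℝ) :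
    ∫⁻ y, ‖ext (capD K₀⁻¹ v g) (y, s)‖ₑ ^ 2 = ∫⁻ x, ‖ext g (x, K₀ ^ 2 * s)‖ₑ ^ 2 := by
  obtain ⟨-, hext⟩ := frc_native hK hg hs
  have hγ : (0 : ℝ) ≤ K₀⁻¹ ^ ((k : ℝ) / 2) := by positivity
  have h1 : ∀ x : E k, ‖ext g (x, K₀ ^ 2 * s)‖ₑ ^ 2 = ENNReal.ofReal ((K₀ ^ k)⁻¹) *
      (fun y => ‖ext (capD K₀⁻¹ v g) (y, s)‖ₑ ^ 2) (K₀⁻¹ • (x - (2 * (K₀ ^ 2 * s)) • v)) := by
    intro x
    rw [hext]
    have e1 : natX K₀ v (x, K₀ ^ 2 * s) = (K₀⁻¹ • (x - (2 * (K₀ ^ 2 * s)) • v), s) := by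
      unfold natX
      simp only
      congr 1
      field_simp
    rw [e1, enorm_mul, enorm_mul, mul_pow, mul_pow]
    have e2 : ‖car v (x, K₀ ^ 2 * s)‖ₑ = 1 := by
      rw [← ofReal_norm, inf_car_norm, ENNReal.ofReal_one]
    have e3 : ‖((K₀⁻¹ ^ ((k : ℝ) / 2) : ℝ) : ℂ)‖ₑ ^ 2 = ENNReal.ofReal ((K₀ ^ k)⁻¹) := by
      rw [← ofReal_norm, Complex.norm_real, Real.norm_of_nonneg hγ, ← ENNReal.ofReal_pow hγ, ← Real.rpow_natCast, ← Real.rpow_mul (inv_pos.2 hK).le]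
      congr 1
      have : (k : ℝ) / 2 * ((2 : ℕ) : ℝ) = k := by push_cast; ring
      rw [this, Real.rpow_natCast, inv_pow]
    rw [e2, e3, one_pow, mul_one]
  simp only [h1]
  rw [lintegral_const_mul' _ _ ENNReal.ofReal_ne_top,
    frc_en_cov hK ((2 * (K₀ ^ 2 * s)) • v) (fun y => ‖ext (capD K₀⁻¹ v g) (y, s)‖ₑ ^ 2), ← mul_assoc, ← ENNReal.ofReal_mul (by positivity),
    inv_mul_cancel₀ (by positivity), ENNReal.ofReal_one, one_mul]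

/-- L-F1-RC10 (~200 l.).  **EXIT 2: the energy of the scale-`K₀` representation** (H (f:actual-packet-energy)).   `N = k + 1`, `(m, A)` from `frc_pt`, `C` from `frc_energy`, `C0₀ = (m + N + 2 Jt)/2`.
Native cutoff `τ'(s) = τ(K₀² s)`, `a = K₀²/h² ≤ 1`, `s₀ = t₀/K₀²`;  `∫⁻ ‖ext G (y,s)‖² dy = ∫⁻ ‖ext g (x, K₀² s)‖² dx ≤ En` (same change of variables as in `frc_env`);  `rcSz² = K₀^{-k} rcS²`;  `K₀^{k+2} K₀^{-k}/a = h²`. -/
theorem frc_en (k : ℕ) (ρ Jt : ℝ) (hJ : 1 < 2 * Jt) : ∃ C0₀ C : ℝ, 0 ≤ C ∧ ∀ C0 : ℝ, C0₀ ≤ C0 → ∀ (K₀ h R₀ t₀ B₁ : ℝ) (v : E k) (g : E k → ℂ) (τ : ℝ → ℂ) (En : ℝ≥0∞),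
    0 < K₀ → K₀ ≤ h → Dat R₀ g → (∀ ξ, g ξ ≠ 0 → ‖ξ - v‖ ≤ ρ / K₀) → 0 ≤ B₁ → (∀ t, ‖τ t‖ ≤ B₁ * (1 + |t - t₀| / h ^ 2) ^ (-Jt)) →
    (∀ t, ∫⁻ x, ‖ext g (x, t)‖ₑ ^ 2 ≤ En) → ∀ W : Finset (Lat k),
    ENNReal.ofReal (K₀ ^ (k + 2) * ∑ n ∈ W, rcSz C0 K₀ v (fun z => τ z.2 * ext g z) n ^ 2) ≤ ENNReal.ofReal (C * B₁ ^ 2 * h ^ 2) * En := by
  obtain ⟨m, A, hA, hpt⟩ := frc_pt k ρ ((k : ℝ) + 1) (by linarith)
  obtain ⟨C, hC, hen⟩ := frc_energy k (A := A) (N := (k : ℝ) + 1) (Jt := Jt) (m := m) hA (by linarith) hJ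
  refine ⟨((m : ℝ) + ((k : ℝ) + 1) + 2 * Jt) / 2, C, hC, fun C0 hC0 K₀ h R₀ t₀ B₁ v g τ En hK hKh hg hs hB₁ hτ hEn W => ?_⟩
  obtain ⟨hG, hext⟩ := frc_native hK hg hs
  have hh : 0 < h := lt_of_lt_of_le hK hKh
  have hγ : (0 : ℝ) ≤ K₀⁻¹ ^ ((k : ℝ) / 2) := by positivity
  have hsz : ∀ n, rcSz C0 K₀ v (fun z => τ z.2 * ext g z) n =
      K₀⁻¹ ^ ((k : ℝ) / 2) * rcS C0 (fun X => (fun s => τ (K₀ ^ 2 * s)) X.2 * ext (capD K₀⁻¹ v g) X) n := by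
    intro n
    refine frc_Sz_eq hK hγ v (fun z => ?_) n
    have e1 : K₀ ^ 2 * (natX K₀ v z).2 = z.2 := by
      unfold natX
      simp only
      field_simp
    simp only [e1]
    rw [hext z, norm_mul, norm_mul, norm_mul, norm_mul, inf_car_norm, Complex.norm_real, Real.norm_of_nonneg hγ]
    ring
  have ha : 0 < K₀ ^ 2 / h ^ 2 := by positivity
  have ha1 : K₀ ^ 2 / h ^ 2 ≤ 1 := by
    rw [div_le_one (by positivity)]
    exact pow_le_pow_left₀ hK.le hKh 2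
  have hτ' : ∀ s, ‖(fun s => τ (K₀ ^ 2 * s)) s‖ ≤ B₁ * (1 + K₀ ^ 2 / h ^ 2 * |s - t₀ / K₀ ^ 2|) ^ (-Jt) := by
    intro s
    have e2 : K₀ ^ 2 / h ^ 2 * |s - t₀ / K₀ ^ 2| = |K₀ ^ 2 * s - t₀| / h ^ 2 := by
      have : K₀ ^ 2 * s - t₀ = K₀ ^ 2 * (s - t₀ / K₀ ^ 2) := by field_simp
      rw [this, abs_mul, abs_of_pos (by positivity : (0 : ℝ) < K₀ ^ 2)]
      ring
    rw [e2]
    exact hτ _
  have hE' : ∀ s, ∫⁻ y, ‖ext (capD K₀⁻¹ v g) (y, s)‖ₑ ^ 2 ≤ En := fun s => by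
    rw [frc_en_slice hK hg hs s]
    exact hEn _
  have key := hen C0 _ B₁ (K₀ ^ 2 / h ^ 2) (t₀ / K₀ ^ 2) (ext (capD K₀⁻¹ v g)) (fun s => τ (K₀ ^ 2 * s)) En (by linarith) (hpt _ hG)
    (inf_ext_bound hG) (inf_ext_continuous hG) ha ha1 hB₁ hτ' hE' W
  simp only [hsz, mul_pow]
  rw [← Finset.mul_sum, ← mul_assoc, ENNReal.ofReal_mul (by positivity)]
  have e3 : K₀ ^ (k + 2) * (K₀⁻¹ ^ ((k : ℝ) / 2)) ^ 2 = K₀ ^ 2 := by
    rw [← Real.rpow_natCast (K₀⁻¹ ^ ((k : ℝ) / 2)) 2, ← Real.rpow_mul (inv_pos.2 hK).le]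
    have : (k : ℝ) / 2 * ((2 : ℕ) : ℝ) = k := by push_cast; ring
    rw [this, Real.rpow_natCast, inv_pow, pow_add]
    field_simp
  rw [e3]
  calc ENNReal.ofReal (K₀ ^ 2) * ENNReal.ofReal (∑ n ∈ W, rcS C0 (fun X => (fun s => τ (K₀ ^ 2 * s)) X.2 * ext (capD K₀⁻¹ v g) X) n ^ 2)
      ≤ ENNReal.ofReal (K₀ ^ 2) * (ENNReal.ofReal (C * B₁ ^ 2 / (K₀ ^ 2 / h ^ 2)) * En) := by gcongr
    _ = ENNReal.ofReal (C * B₁ ^ 2 * h ^ 2) * En := by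
        rw [← mul_assoc, ← ENNReal.ofReal_mul (by positivity)]
        congr 2
        field_simp

/-! ## 4. the leaves are packets -/

/-- a function of time with Fourier support in `[-1, 1]` -/
def FS1 (τ : ℝ → ℂ) : Prop := ∃ κ : ℝ → ℂ, Integrable κ ∧ (∀ ω, 1 < |ω| → κ ω = 0) ∧ ∀ s, τ s = ∫ ω, BD.ch (s * ω) * κ ω

theorem frc_fs1_meas {τ : ℝ → ℂ} (hτ : FS1 τ) : ∃ κ : ℝ → ℂ, Measurable κ ∧ Integrable κ ∧ (∀ ω, 1 < |ω| → κ ω = 0) ∧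
    ∀ s, τ s = ∫ ω, BD.ch (s * ω) * κ ω := by
  obtain ⟨κ₀, h1, h2, h3⟩ := hτ
  have hae : (Set.Icc (-1 : ℝ) 1).indicator (h1.1.mk κ₀) =ᵐ[volume] κ₀ := by
    filter_upwards [h1.1.ae_eq_mk] with ω hω
    by_cases hm : ω ∈ Set.Icc (-1 : ℝ) 1
    · rw [Set.indicator_of_mem hm, ← hω]
    · rw [Set.indicator_of_notMem hm, h2 ω]
      by_contra hcon
      exact hm (abs_le.1 (not_lt.1 hcon))
  refine ⟨(Set.Icc (-1 : ℝ) 1).indicator (h1.1.mk κ₀), ?_, h1.congr hae.symm, ?_, ?_⟩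
  · exact (h1.1.stronglyMeasurable_mk.measurable).indicator measurableSet_Icc
  · intro ω hω
    refine Set.indicator_of_notMem (fun hm => ?_) _
    exact absurd (abs_le.2 hm) (not_le.2 hω)
  · intro s
    rw [h3]
    refine integral_congr_ae ?_
    filter_upwards [hae] with ω hω
    rw [hω]

theorem frc_aff_integral {X : Type*} [NormedAddCommGroup X] [NormedSpace ℝ X] (F : ℝ → X) (a b : ℝ) (ha : 0 < a) :
    ∫ θ, F ((θ + b) / a) = a • ∫ ω, F ω := by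
  rw [integral_add_right_eq_self (fun θ => F (θ / a)) b, Measure.integral_comp_div F a, abs_of_pos ha]

theorem frc_shear (K : ℝ → ℂ) (hKm : Measurable K) (hK : Integrable K) (G : E k → ℂ) (hGm : Measurable G) (hG : Integrable G) (a : ℝ) (ha : 0 < a) :
    Integrable (fun w : ST k => ((a⁻¹ : ℝ) : ℂ) * K ((w.2 + ‖w.1‖ ^ 2) / a) * G w.1) ∧
      ∫ w : ST k, ((a⁻¹ : ℝ) : ℂ) * K ((w.2 + ‖w.1‖ ^ 2) / a) * G w.1 = (∫ ω, K ω) * ∫ η, G η := by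
  have hm : Measurable (fun w : ST k => ((a⁻¹ : ℝ) : ℂ) * K ((w.2 + ‖w.1‖ ^ 2) / a) * G w.1) := by
    refine (measurable_const.mul (hKm.comp ?_)).mul (hGm.comp measurable_fst)
    fun_prop
  have hsl : ∀ η : E k, Integrable (fun θ : ℝ => ((a⁻¹ : ℝ) : ℂ) * K ((θ + ‖η‖ ^ 2) / a) * G η) := by
    intro η
    exact (((hK.comp_div ha.ne').comp_add_right (‖η‖ ^ 2)).const_mul _).mul_const _
  have hint : Integrable (fun w : ST k => ((a⁻¹ : ℝ) : ℂ) * K ((w.2 + ‖w.1‖ ^ 2) / a) * G w.1) := by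
    rw [show (volume : Measure (ST k)) = (volume : Measure (E k)).prod (volume : Measure ℝ) from rfl,
      integrable_prod_iff hm.aestronglyMeasurable]
    refine ⟨Filter.Eventually.of_forall hsl, ?_⟩
    have e : (fun η : E k => ∫ θ : ℝ, ‖((a⁻¹ : ℝ) : ℂ) * K ((θ + ‖η‖ ^ 2) / a) * G η‖) = fun η => (∫ ω, ‖K ω‖) * ‖G η‖ := by
      funext η
      have e1 : ∀ θ : ℝ, ‖((a⁻¹ : ℝ) : ℂ) * K ((θ + ‖η‖ ^ 2) / a) * G η‖ = a⁻¹ * ‖G η‖ * ‖K ((θ + ‖η‖ ^ 2) / a)‖ := by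
        intro θ
        rw [norm_mul, norm_mul, Complex.norm_real, Real.norm_of_nonneg (inv_pos.2 ha).le]
        ring
      simp only [e1]
      rw [integral_const_mul, frc_aff_integral (fun ω => ‖K ω‖) a _ ha, smul_eq_mul]
      field_simp
    rw [e]
    exact hG.norm.const_mul _
  refine ⟨hint, ?_⟩
  rw [show (volume : Measure (ST k)) = (volume : Measure (E k)).prod (volume : Measure ℝ) from rfl] at hint ⊢
  rw [integral_prod _ hint]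
  have e : ∀ η : E k, ∫ θ : ℝ, ((a⁻¹ : ℝ) : ℂ) * K ((θ + ‖η‖ ^ 2) / a) * G η = (∫ ω, K ω) * G η := by
    intro η
    rw [integral_mul_const, integral_const_mul, frc_aff_integral K a _ ha, Complex.real_smul, ← mul_assoc, ← Complex.ofReal_mul,
      inv_mul_cancel₀ ha.ne', Complex.ofReal_one, one_mul]
  simp only [e]
  rw [integral_const_mul]

theorem frc_car_ch (η : E k) (z : ST k) : car η z = BD.ch (inner ℝ z.1 η - z.2 * ‖η‖ ^ 2) := by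
  unfold car BD.ch
  rw [mul_comm]

/-- L-F1-RC11 (~150 l.).  **A slowly varying time cutoff times an exact field is band limited.**   Density `g̃(η, θ) = a⁻¹ ch(-c (θ + |η|²)/a) κ((θ + |η|²)/a) G(η)`:
`τ(a s - c) ext G (u,s) = ∫_η ∫_ω ch(⟪u,η⟫ + s (a ω - |η|²)) ch(-c ω) κ ω G η` (`integral_prod_mul`/Fubini), substitution `θ = a ω - |η|²` in the inner integral (`integral_comp_mul_left`/`integral_sub_right_eq_self`);
integrability of `g̃` on `E k × ℝ`: `Integrable.mul_prod` + the measure preserving shear `(η, θ) ↦ (η, θ + |η|²)` (`MeasurePreserving.skew_product` or `integrable_prod_iff`);  support: `‖η‖ ≤ ρ`, `|θ| ≤ a + ρ² ≤ 1 + ρ²`. -/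
theorem frc_fs_cut {ρ a c : ℝ} {τ : ℝ → ℂ} {G : E k → ℂ} (hτ : FS1 τ) (hG : Dat ρ G) (ha : 0 < a) (ha1 : a ≤ 1) :
    BD.FS (closedBall (0 : ST k) (max ρ (ρ ^ 2 + 1))) (fun X : ST k => τ (a * X.2 - c) * ext G X) := by
  obtain ⟨κ, hκm, hκi, hκs, hκτ⟩ := frc_fs1_meas hτ
  have hGi := inf_dat_integrable hG
  have hchm : ∀ b : ℝ, Measurable fun ω : ℝ => BD.ch (b * ω) := by
    intro b
    unfold BD.ch
    fun_prop
  have hKi : ∀ b : ℝ, Integrable fun ω : ℝ => BD.ch (b * ω) * κ ω := by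
    intro b
    refine hκi.bdd_mul (c := 1) (hchm b).aestronglyMeasurable (Filter.Eventually.of_forall fun ω => ?_)
    rw [BD.norm_ch]
  refine ⟨fun w => ((a⁻¹ : ℝ) : ℂ) * (BD.ch (-c * ((w.2 + ‖w.1‖ ^ 2) / a)) * κ ((w.2 + ‖w.1‖ ^ 2) / a)) * G w.1, ?_, ?_, ?_⟩
  · exact (frc_shear (fun ω => BD.ch (-c * ω) * κ ω) ((hchm _).mul hκm) (hKi _) G hG.meas hGi a ha).1
  · intro w hw
    by_contra hne
    beta_reduce at hne
    apply hw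
    have h1 : G w.1 ≠ 0 := fun h => hne (by rw [h, mul_zero])
    have h2 : κ ((w.2 + ‖w.1‖ ^ 2) / a) ≠ 0 := fun h => hne (by rw [h, mul_zero, mul_zero, zero_mul])
    have h3 : ‖w.1‖ ≤ ρ := hG.supp _ h1
    have h4 : |(w.2 + ‖w.1‖ ^ 2) / a| ≤ 1 := by
      by_contra hcon
      exact h2 (hκs _ (not_le.1 hcon))
    rw [abs_div, abs_of_pos ha, div_le_one ha] at h4
    have h5 : ‖w.1‖ ^ 2 ≤ ρ ^ 2 := pow_le_pow_left₀ (norm_nonneg _) h3 2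
    have h6 : |w.2| ≤ ρ ^ 2 + 1 := by
      rw [abs_le] at h4 ⊢
      have := sq_nonneg ‖w.1‖
      constructor <;> linarith [h4.1, h4.2]
    rw [mem_closedBall_zero_iff, Prod.norm_def]
    exact max_le_max h3 h6
  · intro z
    have key := (frc_shear (fun ω => BD.ch ((a * z.2 - c) * ω) * κ ω) ((hchm _).mul hκm) (hKi _) (fun η => car η z * G η)
      (((inf_A2_car_cont z).measurable).mul hG.meas) (inf_ext_integrable hG z) a ha).2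
    show τ (a * z.2 - c) * ext G z = _
    rw [hκτ, ext, ← key]
    refine integral_congr_ae (Filter.Eventually.of_forall fun w => ?_)
    have e : BD.ch (BD.pr z w) * BD.ch (-c * ((w.2 + ‖w.1‖ ^ 2) / a)) = BD.ch ((a * z.2 - c) * ((w.2 + ‖w.1‖ ^ 2) / a)) * car w.1 z := by
      rw [frc_car_ch, ← BD.bdu_ch_add, ← BD.bdu_ch_add]
      congr 1
      unfold BD.pr
      field_simp
      ring
    show ((a⁻¹ : ℝ) : ℂ) * (BD.ch ((a * z.2 - c) * ((w.2 + ‖w.1‖ ^ 2) / a)) * κ ((w.2 + ‖w.1‖ ^ 2) / a)) * (car w.1 z * G w.1)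
      = BD.ch (BD.pr z w) * (((a⁻¹ : ℝ) : ℂ) * (BD.ch (-c * ((w.2 + ‖w.1‖ ^ 2) / a)) * κ ((w.2 + ‖w.1‖ ^ 2) / a)) * G w.1)
    linear_combination (-(((a⁻¹ : ℝ) : ℂ) * κ ((w.2 + ‖w.1‖ ^ 2) / a) * G w.1)) * e

/-- L-F1-RC12 (~150 l.).  **EXIT 3: the leaves.**   `F X = χ(X - lat n) * (γ τ(a X.2 - c) ext G X)`, `γ = K₀^{-k/2}`, `a = K₀²/h²`, `c = t₀/h²` (`frc_native`);  `BD.FS.shift`, `BD.FS.const_mul`, `frc_fs_cut`, `BD.FS.mul`, `closedBall_add_closedBall`/`BD.FS.mono`;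
decay: `‖τ_h U (z)‖ pw C0 … z ≤ rcSz` (`le_ciSup`, the field is bounded by `B₁ ‖g‖₁`), `(1+d)^{-(M+C0)} = (1+d)^{-M} (1+d)^{-C0}`. -/
theorem frc_leaf {ρ ρχ Cχ M C0 K₀ h t₀ R₀ B₁ : ℝ} {χ : ST k → ℂ} {τ : ℝ → ℂ} {g : E k → ℂ} {v : E k} (hχ : BD.FS (closedBall (0 : ST k) ρχ) χ)
    (hχd : ∀ X, ‖χ X‖ ≤ Cχ * (1 + ‖X‖) ^ (-(M + C0))) (hC0 : 0 ≤ C0) (hτ : FS1 τ) (hτb : ∀ s, ‖τ s‖ ≤ B₁) (hK : 0 < K₀) (hKh : K₀ ≤ h) (hg : Dat R₀ g)
    (hs : ∀ ξ, g ξ ≠ 0 → ‖ξ - v‖ ≤ ρ / K₀) (n : Lat k) :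
    IsPk (ρχ + max ρ (ρ ^ 2 + 1)) M K₀ v (lat n) (Cχ * rcSz C0 K₀ v (fun z => τ ((z.2 - t₀) / h ^ 2) * ext g z) n)
      (fun z => χ (natX K₀ v z - lat n) * (τ ((z.2 - t₀) / h ^ 2) * ext g z)) := by
  obtain ⟨hGd, hnat⟩ := frc_native (ρ := ρ) hK hg hs
  have hh : 0 < h := hK.trans_le hKh
  have ha : 0 < K₀ ^ 2 / h ^ 2 := by positivity
  have ha1 : K₀ ^ 2 / h ^ 2 ≤ 1 := by
    rw [div_le_one (by positivity)]
    exact pow_le_pow_left₀ hK.le hKh 2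
  have hCχ : 0 ≤ Cχ := by
    have h1 := (norm_nonneg _).trans (hχd 0)
    have h2 : 0 < (1 + ‖(0 : ST k)‖) ^ (-(M + C0)) := Real.rpow_pos_of_pos (by positivity) _
    exact nonneg_of_mul_nonneg_left h1 h2
  have htime : ∀ z : ST k, K₀ ^ 2 / h ^ 2 * (natX K₀ v z).2 - t₀ / h ^ 2 = (z.2 - t₀) / h ^ 2 := by
    intro z
    show K₀ ^ 2 / h ^ 2 * (z.2 / K₀ ^ 2) - t₀ / h ^ 2 = (z.2 - t₀) / h ^ 2
    field_simp
  have hB₁ : 0 ≤ B₁ := (norm_nonneg _).trans (hτb 0)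
  refine ⟨fun X => χ (X - lat n) * (((K₀⁻¹ ^ ((k : ℝ) / 2) : ℝ) : ℂ) * (τ (K₀ ^ 2 / h ^ 2 * X.2 - t₀ / h ^ 2) * ext (capD K₀⁻¹ v g) X)), ?_, ?_, ?_⟩
  · have h1 : BD.FS (closedBall (0 : ST k) ρχ) (fun X => χ (X - lat n)) := by
      have := hχ.shift (-lat n)
      simpa only [sub_eq_add_neg] using this
    have h2 := (frc_fs_cut (c := t₀ / h ^ 2) hτ hGd ha ha1).const_mul ((K₀⁻¹ ^ ((k : ℝ) / 2) : ℝ) : ℂ)
    refine (h1.mul h2).mono ?_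
    rintro _ ⟨x, hx, y, hy, rfl⟩
    rw [mem_closedBall_zero_iff] at hx hy ⊢
    exact (norm_add_le _ _).trans (add_le_add hx hy)
  · intro X
    have hz : natX K₀ v (natI K₀ v X) = X := natX_natI hK.ne' v X
    set z := natI K₀ v X with hzdef
    have hd : (0 : ℝ) < 1 + ‖X - lat n‖ := by positivity
    have e1 : ‖((K₀⁻¹ ^ ((k : ℝ) / 2) : ℝ) : ℂ) * (τ (K₀ ^ 2 / h ^ 2 * X.2 - t₀ / h ^ 2) * ext (capD K₀⁻¹ v g) X)‖
        = ‖τ ((z.2 - t₀) / h ^ 2) * ext g z‖ := by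
      rw [hnat z, hz, ← htime z, hz]
      simp only [norm_mul, inf_car_norm]
      ring
    have hbdd : BddAbove (Set.range fun w : ST k => ‖τ ((w.2 - t₀) / h ^ 2) * ext g w‖ * pw C0 K₀ v (lat n) w) := by
      refine ⟨B₁ * (Real.sqrt (volume (closedBall (0 : E k) R₀)).toReal * (eLpNorm g 2 volume).toReal) * 1, ?_⟩
      rintro _ ⟨w, rfl⟩
      beta_reduce
      refine mul_le_mul ?_ ?_ (Real.rpow_nonneg (by positivity) _) (mul_nonneg hB₁ ((norm_nonneg _).trans (inf_ext_bound hg w)))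
      · rw [norm_mul]
        exact mul_le_mul (hτb _) (inf_ext_bound hg w) (norm_nonneg _) hB₁
      · exact Real.rpow_le_one_of_one_le_of_nonpos (by linarith [norm_nonneg (natX K₀ v w - lat n)]) (by linarith)
    have e2 : ‖τ ((z.2 - t₀) / h ^ 2) * ext g z‖ * (1 + ‖X - lat n‖) ^ (-C0)
        ≤ rcSz C0 K₀ v (fun z => τ ((z.2 - t₀) / h ^ 2) * ext g z) n := by
      have := le_ciSup hbdd z
      beta_reduce at this
      unfold pw at this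
      rw [hz] at this
      exact this
    have e3 : (1 + ‖X - lat n‖) ^ (-(M + C0)) = (1 + ‖X - lat n‖) ^ (-M) * (1 + ‖X - lat n‖) ^ (-C0) := by
      rw [← Real.rpow_add hd]
      congr 1
      ring
    beta_reduce
    rw [norm_mul, e1]
    calc ‖χ (X - lat n)‖ * ‖τ ((z.2 - t₀) / h ^ 2) * ext g z‖
        ≤ (Cχ * (1 + ‖X - lat n‖) ^ (-(M + C0))) * ‖τ ((z.2 - t₀) / h ^ 2) * ext g z‖ :=
          mul_le_mul_of_nonneg_right (hχd _) (norm_nonneg _)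
      _ = Cχ * (1 + ‖X - lat n‖) ^ (-M) * (‖τ ((z.2 - t₀) / h ^ 2) * ext g z‖ * (1 + ‖X - lat n‖) ^ (-C0)) := by
          rw [e3]; ring
      _ ≤ Cχ * (1 + ‖X - lat n‖) ^ (-M) * rcSz C0 K₀ v (fun z => τ ((z.2 - t₀) / h ^ 2) * ext g z) n :=
          mul_le_mul_of_nonneg_left e2 (mul_nonneg hCχ (Real.rpow_nonneg hd.le _))
      _ = _ := by ring
  · intro z
    beta_reduce
    rw [htime z, hnat z]
    ring

end

end Claimed.Agent.R257.FR1
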