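import Claimed.Agent.R257.FR1.SmKer
import Claimed.Agent.R257.Infra.Repro

/-!
# R257 / FR1 / SmHar : THE HARNACK INEQUALITY (H (f:current), integrated)      (architect helper94)

`Ψ(x,t) = ∫ j_K(x - y) |ext g (y,t)|² dy`.   If `g` lives in `B(b, C0/H)` and `K ≥ H ≥ 1`:   `Ψ(x + 2sb, t + s) ≤ e^{c|s|/(HK)} Ψ(x,t)`.
1. cap rescaling (`inf_ext_rescale`, `inf_capD_dat` of `Infra/Alg.lean`) reduces to `b = 0`, `H = 1`, `Dat R g`, `K ≥ 1`, direction `(0,1)`;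
2. `W = ext g`, `W_i = ∂_i W = ext (i ξ_i g)`, `W_ii = ext (-ξ_i² g)`, `∂_t W = ext (-i|ξ|² g) = i ∑_i W_ii`;    `∂_t Ψ = ∫ j(x-y) 2 Re(conj W ∂_t W) = -2 ∑_i ∫ (∂_i j)(x-y) Im(conj W W_i)` (integration by parts);
3. `|∂_i j_K| ≤ (Q/K) j_K`, Cauchy-Schwarz, weighted Bernstein `∫ j_K(x-y)|W_i|² ≤ C ∫ j_K(x-y)|W|²` (reproducing kernel + Peetre);    4. Gronwall.
Every `sorry` is a LEAF (name in the docstring).  Statements frozen (tell helper94 at once if one is false or awkward); prove IN PLACE, helper lemmas directly above, prefix `fsm_<leaf>_`.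
-/

set_option autoImplicit false

namespace Claimed.Agent.R257

open MeasureTheory ProbabilityTheory Metric Set
open scoped ENNReal NNReal InnerProductSpace ComplexConjugate

variable {k : ℕ}

/-- the spatially smoothed mass density of an exact field -/
noncomputable def fsmPsi (Q : ℕ) (K : ℝ) (g : E k → ℂ) (x : E k) (t : ℝ) : ℝ := ∫ y : E k, fsmJ Q K (x - y) * ‖ext g (y, t)‖ ^ 2

/-- the derivative of `j_K` in the direction `e` -/
noncomputable def fsmJd (Q : ℕ) (K : ℝ) (e u : E k) : ℝ := -(Q : ℝ) * ⟪u, e⟫_ℝ / (K ^ 2 + ‖u‖ ^ 2) * fsmJ Q K u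

/-- data of `∂_i W` -/
noncomputable def fsmD1 (i : Fin k) (g : E k → ℂ) (ξ : E k) : ℂ := Complex.I * ((ξ i : ℝ) : ℂ) * g ξ

/-- data of `∂_t W` -/
noncomputable def fsmDt (g : E k → ℂ) (ξ : E k) : ℂ := -Complex.I * ((‖ξ‖ ^ 2 : ℝ) : ℂ) * g ξ

/-- LEAF L-257-SM-HD1 -/
theorem fsm_dat_mul {R : ℝ} {g : E k → ℂ} (hg : Dat R g) {m : E k → ℂ} (hm : Continuous m) : Dat R fun ξ => m ξ * g ξ := by
  refine ⟨hm.measurable.mul hg.meas, fun ξ h => hg.supp ξ (right_ne_zero_of_mul h), ?_⟩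
  obtain ⟨B, hB⟩ := (isCompact_closedBall (0 : E k) R).exists_bound_of_continuousOn hm.continuousOn
  refine hg.l2.of_le_mul (c := B) (hm.measurable.mul hg.meas).aestronglyMeasurable (Filter.Eventually.of_forall fun ξ => ?_)
  rw [norm_mul]
  by_cases h0 : g ξ = 0
  · simp [h0]
  · exact mul_le_mul_of_nonneg_right (hB ξ (by simpa using hg.supp ξ h0)) (norm_nonneg _)

/-- LEAF L-257-SM-HD1 -/
theorem fsm_dat_D1 {R : ℝ} {g : E k → ℂ} (hg : Dat R g) (i : Fin k) : Dat R (fsmD1 i g) := by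
  exact fsm_dat_mul hg (m := fun ξ => Complex.I * ((ξ i : ℝ) : ℂ)) (by fun_prop)

/-- LEAF L-257-SM-HD1 -/
theorem fsm_dat_Dt {R : ℝ} {g : E k → ℂ} (hg : Dat R g) : Dat R (fsmDt g) := by
  exact fsm_dat_mul hg (m := fun ξ => -Complex.I * ((‖ξ‖ ^ 2 : ℝ) : ℂ)) (by fun_prop)

/-- derivative of an exact field along a line of space-time -/
theorem fsm_HD1_line {R : ℝ} {g : E k → ℂ} (hg : Dat R g) (z w : ST k) (s : ℝ) :
    HasDerivAt (fun r : ℝ => ext g (z + r • w)) (ext (fun ξ => (Complex.I * ((⟪w.1, ξ⟫_ℝ - w.2 * ‖ξ‖ ^ 2 : ℝ) : ℂ)) * g ξ) (z + s • w)) s := by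
  have hm : Continuous fun ξ : E k => Complex.I * ((⟪w.1, ξ⟫_ℝ - w.2 * ‖ξ‖ ^ 2 : ℝ) : ℂ) := by fun_prop
  have hD := fsm_dat_mul hg hm
  have i1 : ∀ r : ℝ, AEStronglyMeasurable (fun ξ => car ξ (z + r • w) * g ξ) volume := fun r => (inf_ext_integrable hg _).aestronglyMeasurable
  have i2 : Integrable (fun ξ => car ξ (z + s • w) * g ξ) volume := inf_ext_integrable hg _
  have i3 : AEStronglyMeasurable (fun ξ => car ξ (z + s • w) * ((Complex.I * ((⟪w.1, ξ⟫_ℝ - w.2 * ‖ξ‖ ^ 2 : ℝ) : ℂ)) * g ξ)) volume :=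
    (inf_ext_integrable hD _).aestronglyMeasurable
  have i4 : Integrable (fun ξ => ‖(Complex.I * ((⟪w.1, ξ⟫_ℝ - w.2 * ‖ξ‖ ^ 2 : ℝ) : ℂ)) * g ξ‖) volume := (inf_dat_integrable hD).norm
  unfold ext
  refine (hasDerivAt_integral_of_dominated_loc_of_deriv_le (bound := fun ξ => ‖(Complex.I * ((⟪w.1, ξ⟫_ℝ - w.2 * ‖ξ‖ ^ 2 : ℝ) : ℂ)) * g ξ‖)
    (F := fun r ξ => car ξ (z + r • w) * g ξ)
    (F' := fun r ξ => car ξ (z + r • w) * ((Complex.I * ((⟪w.1, ξ⟫_ℝ - w.2 * ‖ξ‖ ^ 2 : ℝ) : ℂ)) * g ξ))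
    Filter.univ_mem (Filter.Eventually.of_forall i1) i2 i3 (Filter.Eventually.of_forall fun ξ r _ => ?_) i4
    (Filter.Eventually.of_forall fun ξ r _ => ?_)).2
  · rw [norm_mul, inf_car_norm, one_mul]
  · have h1 : HasDerivAt (fun r : ℝ => car ξ (z + r • w)) (car ξ (z + r • w) * (Complex.I * ((⟪w.1, ξ⟫_ℝ - w.2 * ‖ξ‖ ^ 2 : ℝ) : ℂ))) r := by
      unfold car
      have h2 : HasDerivAt (fun r : ℝ => (⟪(z + r • w).1, ξ⟫_ℝ - (z + r • w).2 * ‖ξ‖ ^ 2 : ℝ)) (⟪w.1, ξ⟫_ℝ - w.2 * ‖ξ‖ ^ 2) r := by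
        have e : (fun r : ℝ => (⟪(z + r • w).1, ξ⟫_ℝ - (z + r • w).2 * ‖ξ‖ ^ 2 : ℝ))
            = fun r : ℝ => (⟪z.1, ξ⟫_ℝ - z.2 * ‖ξ‖ ^ 2) + r * (⟪w.1, ξ⟫_ℝ - w.2 * ‖ξ‖ ^ 2) := by
          funext r
          simp only [Prod.fst_add, Prod.snd_add, Prod.smul_fst, Prod.smul_snd, inner_add_left, real_inner_smul_left, smul_eq_mul]
          ring
        rw [e]
        simpa using ((hasDerivAt_id r).mul_const (⟪w.1, ξ⟫_ℝ - w.2 * ‖ξ‖ ^ 2)).const_add (⟪z.1, ξ⟫_ℝ - z.2 * ‖ξ‖ ^ 2)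
      have h3 := (h2.ofReal_comp.const_mul Complex.I).cexp
      exact h3
    have h4 := h1.mul_const (g ξ)
    rw [mul_assoc] at h4
    exact h4

/-- LEAF L-257-SM-HD1: time derivative of an exact field (`hasDerivAt_integral_of_dominated_loc_of_deriv_le`) -/
theorem fsm_ext_deriv_t {R : ℝ} {g : E k → ℂ} (hg : Dat R g) (y : E k) (t : ℝ) : HasDerivAt (fun r => ext g (y, r)) (ext (fsmDt g) (y, t)) t := by
  have h := fsm_HD1_line hg (y, (0 : ℝ)) ((0 : E k), (1 : ℝ)) t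
  have e1 : ∀ r : ℝ, ((y, (0 : ℝ)) : ST k) + r • (((0 : E k), (1 : ℝ)) : ST k) = (y, r) := by
    intro r
    ext1 <;> simp
  simp only [e1] at h
  convert h using 2
  funext ξ
  unfold fsmDt
  simp only [inner_zero_left, one_mul, zero_sub]
  push_cast
  ring

/-- LEAF L-257-SM-HD1: spatial derivatives of an exact field -/
theorem fsm_ext_deriv_x {R : ℝ} {g : E k → ℂ} (hg : Dat R g) (i : Fin k) (y : E k) (t : ℝ) :
    HasLineDerivAt ℝ (fun y' => ext g (y', t)) (ext (fsmD1 i g) (y, t)) y (EuclideanSpace.single i (1 : ℝ)) := by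
  have h := fsm_HD1_line hg (y, t) ((EuclideanSpace.single i (1 : ℝ) : E k), (0 : ℝ)) 0
  have e1 : ∀ r : ℝ, ((y, t) : ST k) + r • (((EuclideanSpace.single i (1 : ℝ) : E k), (0 : ℝ)) : ST k) = (y + r • EuclideanSpace.single i (1 : ℝ), t) := by
    intro r
    ext1 <;> simp
  simp only [e1] at h
  have e2 : (fun ξ : E k => Complex.I * ((⟪(EuclideanSpace.single i (1 : ℝ) : E k), ξ⟫_ℝ - 0 * ‖ξ‖ ^ 2 : ℝ) : ℂ) * g ξ) = fsmD1 i g := by
    funext ξ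
    unfold fsmD1
    simp [EuclideanSpace.inner_single_left]
  rw [e2, zero_smul, add_zero] at h
  exact h

/-- LEAF L-257-SM-HD1: `∂_t W = i ∑_i W_ii` -/
theorem fsm_ext_schr {R : ℝ} {g : E k → ℂ} (hg : Dat R g) (z : ST k) : ext (fsmDt g) z = Complex.I * ∑ i : Fin k, ext (fsmD1 i (fsmD1 i g)) z := by
  unfold ext
  rw [← integral_finsetSum _ fun i _ => inf_ext_integrable (fsm_dat_D1 (fsm_dat_D1 hg i) i) z, ← integral_const_mul]
  refine integral_congr_ae (Filter.Eventually.of_forall fun ξ => ?_)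
  simp only [fsmDt, fsmD1]
  rw [EuclideanSpace.norm_sq_eq]
  simp only [Real.norm_eq_abs, sq_abs]
  push_cast
  have hI : Complex.I * Complex.I = -1 := Complex.I_mul_I
  have e : ∀ i : Fin k, Complex.I * ((ξ i : ℝ) : ℂ) * (Complex.I * ((ξ i : ℝ) : ℂ) * g ξ) = -(((ξ i : ℝ) : ℂ) ^ 2 * g ξ) := by
    intro i
    linear_combination (((ξ i : ℝ) : ℂ) ^ 2 * g ξ) * hI
  simp only [e]
  rw [← Finset.mul_sum, Finset.sum_neg_distrib, ← Finset.sum_mul]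
  ring

/-- LEAF L-257-SM-HD2: derivative of the kernel -/
theorem fsm_J_lineDeriv (Q : ℕ) {K : ℝ} (hK : 0 < K) (e u : E k) : HasLineDerivAt ℝ (fsmJ Q K) (fsmJd Q K e u) u e := by
  unfold HasLineDerivAt
  have hb : 0 < 1 + ‖K⁻¹ • u‖ ^ 2 := by positivity
  have h1 : HasDerivAt (fun s : ℝ => 1 + ‖K⁻¹ • (u + s • e)‖ ^ 2) (K⁻¹ ^ 2 * (2 * ⟪u, e⟫_ℝ)) 0 := by
    have e1 : (fun s : ℝ => 1 + ‖K⁻¹ • (u + s • e)‖ ^ 2) = fun s : ℝ => 1 + K⁻¹ ^ 2 * (‖u‖ ^ 2 + s * (2 * ⟪u, e⟫_ℝ) + s ^ 2 * ‖e‖ ^ 2) := by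
      funext s
      rw [norm_smul, mul_pow, Real.norm_eq_abs, sq_abs, norm_add_sq_real, norm_smul, mul_pow, Real.norm_eq_abs, sq_abs, real_inner_smul_right]
      ring
    rw [e1]
    have h2 : HasDerivAt (fun s : ℝ => ‖u‖ ^ 2 + s * (2 * ⟪u, e⟫_ℝ) + s ^ 2 * ‖e‖ ^ 2) (2 * ⟪u, e⟫_ℝ) 0 := by
      have := (((hasDerivAt_id (0 : ℝ)).mul_const (2 * ⟪u, e⟫_ℝ)).const_add (‖u‖ ^ 2)).fun_add (((hasDerivAt_id (0 : ℝ)).pow 2).mul_const (‖e‖ ^ 2))
      simpa using this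
    exact (h2.const_mul (K⁻¹ ^ 2)).const_add 1
  have h3 : HasDerivAt (fun s : ℝ => fsmW Q (K⁻¹ • (u + s • e)))
      (K⁻¹ ^ 2 * (2 * ⟪u, e⟫_ℝ) * (-(Q : ℝ) / 2) * (1 + ‖K⁻¹ • u‖ ^ 2) ^ (-(Q : ℝ) / 2 - 1)) 0 := by
    unfold fsmW
    have := h1.rpow_const (p := -(Q : ℝ) / 2) (Or.inl (by simpa using hb.ne'))
    simpa using this
  have h4 := h3.const_mul ((∫ y : E k, fsmW Q y)⁻¹ * (K ^ k)⁻¹)
  have e3 : fsmJd Q K e u = (∫ y : E k, fsmW Q y)⁻¹ * (K ^ k)⁻¹ *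
      (K⁻¹ ^ 2 * (2 * ⟪u, e⟫_ℝ) * (-(Q : ℝ) / 2) * (1 + ‖K⁻¹ • u‖ ^ 2) ^ (-(Q : ℝ) / 2 - 1)) := by
    unfold fsmJd fsmJ fsmW
    rw [Real.rpow_sub_one hb.ne']
    have e2 : 1 + ‖K⁻¹ • u‖ ^ 2 = (K ^ 2 + ‖u‖ ^ 2) / K ^ 2 := by
      rw [norm_smul, mul_pow, Real.norm_eq_abs, sq_abs]
      field_simp
    have hd : K ^ 2 + ‖u‖ ^ 2 ≠ 0 := by positivity
    rw [e2]
    field_simp
  rw [e3]
  exact h4

/-- LEAF L-257-SM-HD2: `|∂_e j_K| ≤ (Q/K) j_K`  (`a/(1+a²) ≤ 1/2`) -/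
theorem fsm_Jd_le {Q : ℕ} (hQ : k < Q) {K : ℝ} (hK : 0 < K) {e : E k} (he : ‖e‖ ≤ 1) (u : E k) : |fsmJd Q K e u| ≤ Q / K * fsmJ Q K u := by
  have hJ := fsm_J_pos hQ hK u
  have hd : 0 < K ^ 2 + ‖u‖ ^ 2 := by positivity
  unfold fsmJd
  rw [abs_mul, abs_of_pos hJ]
  refine mul_le_mul_of_nonneg_right ?_ hJ.le
  rw [abs_div, abs_mul, abs_neg, abs_of_pos hd, Nat.abs_cast, div_le_div_iff₀ hd hK]
  have h1 : |⟪u, e⟫_ℝ| ≤ ‖u‖ := by
    calc |⟪u, e⟫_ℝ| ≤ ‖u‖ * ‖e‖ := abs_real_inner_le_norm u e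
      _ ≤ ‖u‖ * 1 := mul_le_mul_of_nonneg_left he (norm_nonneg _)
      _ = ‖u‖ := mul_one _
  have h2 : ‖u‖ * K ≤ K ^ 2 + ‖u‖ ^ 2 := by nlinarith [sq_nonneg (K - ‖u‖), norm_nonneg u]
  calc (Q : ℝ) * |⟪u, e⟫_ℝ| * K ≤ (Q : ℝ) * ‖u‖ * K := by gcongr
    _ = (Q : ℝ) * (‖u‖ * K) := by ring
    _ ≤ (Q : ℝ) * (K ^ 2 + ‖u‖ ^ 2) := by gcongr

/-- LEAF L-257-SM-HD2 -/
theorem fsm_Jd_continuous (Q : ℕ) {K : ℝ} (hK : 0 < K) (e : E k) : Continuous (fsmJd Q K e) := by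
  unfold fsmJd
  refine Continuous.mul (Continuous.div (by fun_prop) (by fun_prop) fun u => ?_) (fsm_J_continuous Q K)
  positivity

/-- trivial bound of an exact field -/
theorem fsm_HD3_ext_le (g : E k → ℂ) (z : ST k) : ‖ext g z‖ ≤ ∫ ξ, ‖g ξ‖ := by
  refine (norm_integral_le_integral_norm _).trans (le_of_eq ?_)
  refine integral_congr_ae (Filter.Eventually.of_forall fun ξ => ?_)
  simp only [norm_mul, inf_car_norm, one_mul]

/-- a continuous function dominated by a multiple of `j_K (x - ·)` is integrable -/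
theorem fsm_HD3_int {Q : ℕ} (hQ : k < Q) {K : ℝ} (hK : 0 < K) (x : E k) {F : Type*} [NormedAddCommGroup F] {f : E k → F} (hf : Continuous f)
    (B : ℝ) (hB : ∀ y, ‖f y‖ ≤ B * fsmJ Q K (x - y)) : Integrable f :=
  (((fsm_J_integrable hQ hK).comp_sub_left x).const_mul B).mono' hf.aestronglyMeasurable (Filter.Eventually.of_forall hB)

/-- LEAF L-257-SM-HD3: differentiation under the integral -/
theorem fsm_psi_deriv0 {Q : ℕ} (hQ : k < Q) {K : ℝ} (hK : 0 < K) {R : ℝ} {g : E k → ℂ} (hg : Dat R g) (x : E k) (t : ℝ) :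
    HasDerivAt (fun r => fsmPsi Q K g x r) (∫ y : E k, fsmJ Q K (x - y) * (2 * (conj (ext g (y, t)) * ext (fsmDt g) (y, t)).re)) t := by
  have hDt := fsm_dat_Dt hg
  have hW : Continuous (ext g) := inf_ext_continuous hg
  have hWt : Continuous (ext (fsmDt g)) := inf_ext_continuous hDt
  have hJc : Continuous fun y : E k => fsmJ Q K (x - y) := (fsm_J_continuous Q K).comp (continuous_const.sub continuous_id)
  have hJ0 : ∀ y : E k, 0 ≤ fsmJ Q K (x - y) := fun y => (fsm_J_pos hQ hK _).le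
  have hB1 : 0 ≤ ∫ ξ, ‖g ξ‖ := integral_nonneg fun _ => norm_nonneg _
  have hB2 : 0 ≤ ∫ ξ, ‖fsmDt g ξ‖ := integral_nonneg fun _ => norm_nonneg _
  have c1 : ∀ r : ℝ, Continuous fun y : E k => fsmJ Q K (x - y) * ‖ext g (y, r)‖ ^ 2 := fun r =>
    hJc.mul ((hW.comp (continuous_id.prodMk continuous_const)).norm.pow 2)
  have c3 : Continuous fun y : E k => fsmJ Q K (x - y) * (2 * (conj (ext g (y, t)) * ext (fsmDt g) (y, t)).re) := by
    refine hJc.mul (continuous_const.mul (Complex.continuous_re.comp ?_))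
    exact (Complex.continuous_conj.comp (hW.comp (continuous_id.prodMk continuous_const))).mul (hWt.comp (continuous_id.prodMk continuous_const))
  have i2 : Integrable (fun y : E k => fsmJ Q K (x - y) * ‖ext g (y, t)‖ ^ 2) volume := by
    refine fsm_HD3_int hQ hK x (c1 t) ((∫ ξ, ‖g ξ‖) ^ 2) fun y => ?_
    rw [Real.norm_eq_abs, abs_of_nonneg (mul_nonneg (hJ0 y) (by positivity)), mul_comm]
    exact mul_le_mul_of_nonneg_right (pow_le_pow_left₀ (norm_nonneg _) (fsm_HD3_ext_le g _) 2) (hJ0 y)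
  have i4 : Integrable (fun y : E k => (2 * (∫ ξ, ‖g ξ‖) * ∫ ξ, ‖fsmDt g ξ‖) * fsmJ Q K (x - y)) volume :=
    ((fsm_J_integrable hQ hK).comp_sub_left x).const_mul _
  unfold fsmPsi
  refine (hasDerivAt_integral_of_dominated_loc_of_deriv_le (bound := fun y => (2 * (∫ ξ, ‖g ξ‖) * ∫ ξ, ‖fsmDt g ξ‖) * fsmJ Q K (x - y))
    (F := fun r y => fsmJ Q K (x - y) * ‖ext g (y, r)‖ ^ 2)
    (F' := fun r y => fsmJ Q K (x - y) * (2 * (conj (ext g (y, r)) * ext (fsmDt g) (y, r)).re))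
    Filter.univ_mem (Filter.Eventually.of_forall fun r => (c1 r).aestronglyMeasurable) i2 c3.aestronglyMeasurable
    (Filter.Eventually.of_forall fun y r _ => ?_) i4 (Filter.Eventually.of_forall fun y r _ => ?_)).2
  · rw [Real.norm_eq_abs, abs_mul, abs_of_nonneg (hJ0 y), mul_comm]
    refine mul_le_mul_of_nonneg_right ?_ (hJ0 y)
    rw [abs_mul, abs_of_pos (by norm_num : (0 : ℝ) < 2), mul_assoc]
    refine mul_le_mul_of_nonneg_left ?_ (by norm_num)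
    calc |(conj (ext g (y, r)) * ext (fsmDt g) (y, r)).re| ≤ ‖conj (ext g (y, r)) * ext (fsmDt g) (y, r)‖ := Complex.abs_re_le_norm _
      _ = ‖ext g (y, r)‖ * ‖ext (fsmDt g) (y, r)‖ := by rw [norm_mul, RCLike.norm_conj]
      _ ≤ _ := mul_le_mul (fsm_HD3_ext_le g _) (fsm_HD3_ext_le _ _) (norm_nonneg _) hB1
  · have h := ((fsm_ext_deriv_t hg y r).norm_sq).const_mul (fsmJ Q K (x - y))
    rw [Complex.inner, mul_comm (ext (fsmDt g) (y, r))] at h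
    exact h

/-- integration by parts against `j_K (x - ·)`, abstract form -/
theorem fsm_HD4_abs {Q : ℕ} (hQ : k < Q) {K : ℝ} (hK : 0 < K) (x e : E k) (he : ‖e‖ ≤ 1) {W0 W1 W2 : E k → ℂ}
    (c0 : Continuous W0) (c1 : Continuous W1) (c2 : Continuous W2) {B : ℝ} (b0 : ∀ y, ‖W0 y‖ ≤ B) (b1 : ∀ y, ‖W1 y‖ ≤ B) (b2 : ∀ y, ‖W2 y‖ ≤ B)
    (d0 : ∀ y, HasLineDerivAt ℝ W0 (W1 y) y e) (d1 : ∀ y, HasLineDerivAt ℝ W1 (W2 y) y e) :
    ∫ y : E k, ((fsmJ Q K (x - y) : ℝ) : ℂ) * (conj (W0 y) * W2 y)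
      = (∫ y : E k, ((fsmJd Q K e (x - y) : ℝ) : ℂ) * (conj (W0 y) * W1 y)) - ((∫ y : E k, fsmJ Q K (x - y) * ‖W1 y‖ ^ 2 : ℝ) : ℂ) := by
  have hB : 0 ≤ B := (norm_nonneg _).trans (b0 0)
  have hJc : Continuous fun y : E k => ((fsmJ Q K (x - y) : ℝ) : ℂ) :=
    Complex.continuous_ofReal.comp ((fsm_J_continuous Q K).comp (continuous_const.sub continuous_id))
  have hJdc : Continuous fun y : E k => ((fsmJd Q K e (x - y) : ℝ) : ℂ) :=
    Complex.continuous_ofReal.comp ((fsm_Jd_continuous Q hK e).comp (continuous_const.sub continuous_id))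
  have hJ0 : ∀ y : E k, 0 ≤ fsmJ Q K (x - y) := fun y => (fsm_J_pos hQ hK _).le
  have nJ : ∀ y : E k, ‖((fsmJ Q K (x - y) : ℝ) : ℂ)‖ = fsmJ Q K (x - y) := fun y => by
    rw [Complex.norm_real, Real.norm_eq_abs, abs_of_nonneg (hJ0 y)]
  have nJd : ∀ y : E k, ‖((fsmJd Q K e (x - y) : ℝ) : ℂ)‖ ≤ Q / K * fsmJ Q K (x - y) := fun y => by
    rw [Complex.norm_real, Real.norm_eq_abs]
    exact fsm_Jd_le hQ hK he _
  have cc0 : Continuous fun y => conj (W0 y) := Complex.continuous_conj.comp c0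
  have cc1 : Continuous fun y => conj (W1 y) := Complex.continuous_conj.comp c1
  have hQK : 0 ≤ (Q : ℝ) / K := by positivity
  -- integrability
  have iA : Integrable (fun y : E k => ((fsmJd Q K e (x - y) : ℝ) : ℂ) * (conj (W0 y) * W1 y)) volume := by
    refine fsm_HD3_int hQ hK x (hJdc.mul (cc0.mul c1)) (Q / K * (B * B)) fun y => ?_
    rw [norm_mul, norm_mul, RCLike.norm_conj]
    calc _ ≤ (Q / K * fsmJ Q K (x - y)) * (B * B) :=
          mul_le_mul (nJd y) (mul_le_mul (b0 y) (b1 y) (norm_nonneg _) hB) (by positivity) (mul_nonneg hQK (hJ0 y))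
      _ = _ := by ring
  have iB : Integrable (fun y : E k => ((fsmJ Q K (x - y) : ℝ) : ℂ) * (conj (W1 y) * W1 y)) volume := by
    refine fsm_HD3_int hQ hK x (hJc.mul (cc1.mul c1)) (B * B) fun y => ?_
    rw [norm_mul, norm_mul, RCLike.norm_conj, nJ, mul_comm]
    exact mul_le_mul_of_nonneg_right (mul_le_mul (b1 y) (b1 y) (norm_nonneg _) hB) (hJ0 y)
  have iC : Integrable (fun y : E k => ((fsmJ Q K (x - y) : ℝ) : ℂ) * conj (W0 y) * W2 y) volume := by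
    refine fsm_HD3_int hQ hK x ((hJc.mul cc0).mul c2) (B * B) fun y => ?_
    rw [norm_mul, norm_mul, RCLike.norm_conj, nJ, mul_assoc, mul_comm]
    exact mul_le_mul_of_nonneg_right (mul_le_mul (b0 y) (b2 y) (norm_nonneg _) hB) (hJ0 y)
  have iD : Integrable (fun y : E k => ((fsmJ Q K (x - y) : ℝ) : ℂ) * conj (W0 y) * W1 y) volume := by
    refine fsm_HD3_int hQ hK x ((hJc.mul cc0).mul c1) (B * B) fun y => ?_
    rw [norm_mul, norm_mul, RCLike.norm_conj, nJ, mul_assoc, mul_comm]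
    exact mul_le_mul_of_nonneg_right (mul_le_mul (b0 y) (b1 y) (norm_nonneg _) hB) (hJ0 y)
  have iE : Integrable (fun y : E k => (-((fsmJd Q K e (x - y) : ℝ) : ℂ) * conj (W0 y) + ((fsmJ Q K (x - y) : ℝ) : ℂ) * conj (W1 y)) * W1 y) volume := by
    have := iB.sub iA
    refine this.congr (Filter.Eventually.of_forall fun y => ?_)
    simp only [Pi.sub_apply]
    ring
  -- derivative of the first factor
  have hf : ∀ y : E k, HasLineDerivAt ℝ (fun y : E k => ((fsmJ Q K (x - y) : ℝ) : ℂ) * conj (W0 y))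
      (-((fsmJd Q K e (x - y) : ℝ) : ℂ) * conj (W0 y) + ((fsmJ Q K (x - y) : ℝ) : ℂ) * conj (W1 y)) y e := by
    intro y
    have h1 : HasDerivAt (fun s : ℝ => fsmJ Q K (x - (y + s • e))) (-fsmJd Q K e (x - y)) 0 := by
      have h := fsm_J_lineDeriv Q hK (-e) (x - y)
      unfold HasLineDerivAt at h
      have e1 : (fun s : ℝ => fsmJ Q K (x - y + s • -e)) = fun s : ℝ => fsmJ Q K (x - (y + s • e)) := by
        funext s
        congr 1
        rw [smul_neg]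
        abel
      have e2 : fsmJd Q K (-e) (x - y) = -fsmJd Q K e (x - y) := by
        unfold fsmJd
        rw [inner_neg_right]
        ring
      rw [e1, e2] at h
      exact h
    have h2 : HasDerivAt (fun s : ℝ => conj (W0 (y + s • e))) (conj (W1 y)) 0 := (d0 y).star
    have h3 := h1.ofReal_comp.mul h2
    unfold HasLineDerivAt
    simp only [zero_smul, add_zero] at h3
    push_cast at h3
    exact h3
  have key := integral_bilinear_hasLineDerivAt_right_eq_neg_left_of_integrable (μ := (volume : Measure (E k))) (B := ContinuousLinearMap.mul ℝ ℂ)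
    (f := fun y : E k => ((fsmJ Q K (x - y) : ℝ) : ℂ) * conj (W0 y))
    (f' := fun y : E k => -((fsmJd Q K e (x - y) : ℝ) : ℂ) * conj (W0 y) + ((fsmJ Q K (x - y) : ℝ) : ℂ) * conj (W1 y))
    (g := W1) (g' := W2) (v := e) (by simp only [ContinuousLinearMap.mul_apply']; exact iE) (by simp only [ContinuousLinearMap.mul_apply']; exact iC)
    (by simp only [ContinuousLinearMap.mul_apply']; exact iD) (fun y _ => hf y) (fun y _ => d1 y)
  simp only [ContinuousLinearMap.mul_apply'] at key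
  have e3 : ((∫ y : E k, fsmJ Q K (x - y) * ‖W1 y‖ ^ 2 : ℝ) : ℂ) = ∫ y : E k, ((fsmJ Q K (x - y) : ℝ) : ℂ) * (conj (W1 y) * W1 y) := by
    rw [← integral_complex_ofReal]
    refine integral_congr_ae (Filter.Eventually.of_forall fun y => ?_)
    simp only []
    rw [Complex.conj_mul']
    push_cast
    rfl
  rw [e3, ← integral_sub iA iB]
  calc ∫ y : E k, ((fsmJ Q K (x - y) : ℝ) : ℂ) * (conj (W0 y) * W2 y) = ∫ y : E k, ((fsmJ Q K (x - y) : ℝ) : ℂ) * conj (W0 y) * W2 y :=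
        integral_congr_ae (Filter.Eventually.of_forall fun y => (mul_assoc _ _ _).symm)
    _ = _ := key
    _ = _ := by
        rw [← integral_neg]
        refine integral_congr_ae (Filter.Eventually.of_forall fun y => ?_)
        simp only []
        ring

/-- LEAF L-257-SM-HD4: integration by parts in the direction `e_i` (`integral_bilinear_hasLineDerivAt_right_eq_neg_left_of_integrable`, with `f y = j(x-y) conj (W y)`, `g = W_i`) -/
theorem fsm_ibp {Q : ℕ} (hQ : k < Q) {K : ℝ} (hK : 0 < K) {R : ℝ} {g : E k → ℂ} (hg : Dat R g) (i : Fin k) (x : E k) (t : ℝ) :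
    ∫ y : E k, ((fsmJ Q K (x - y) : ℝ) : ℂ) * (conj (ext g (y, t)) * ext (fsmD1 i (fsmD1 i g)) (y, t))
      = (∫ y : E k, ((fsmJd Q K (EuclideanSpace.single i (1 : ℝ)) (x - y) : ℝ) : ℂ) * (conj (ext g (y, t)) * ext (fsmD1 i g) (y, t)))
        - ((∫ y : E k, fsmJ Q K (x - y) * ‖ext (fsmD1 i g) (y, t)‖ ^ 2 : ℝ) : ℂ) := by
  have hD1 := fsm_dat_D1 hg i
  have hD2 := fsm_dat_D1 hD1 i
  have hc : ∀ {g' : E k → ℂ}, Dat R g' → Continuous fun y : E k => ext g' (y, t) := fun h =>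
    (inf_ext_continuous h).comp (continuous_id.prodMk continuous_const)
  refine fsm_HD4_abs hQ hK x (EuclideanSpace.single i (1 : ℝ)) (by simp) (hc hg) (hc hD1) (hc hD2)
    (B := max (∫ ξ, ‖g ξ‖) (max (∫ ξ, ‖fsmD1 i g ξ‖) (∫ ξ, ‖fsmD1 i (fsmD1 i g) ξ‖)))
    (fun y => (fsm_HD3_ext_le _ _).trans (le_max_left _ _))
    (fun y => (fsm_HD3_ext_le _ _).trans ((le_max_left _ _).trans (le_max_right _ _)))
    (fun y => (fsm_HD3_ext_le _ _).trans ((le_max_right _ _).trans (le_max_right _ _)))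
    (fun y => fsm_ext_deriv_x hg i y t) (fun y => fsm_ext_deriv_x hD1 i y t)

/-- integrability of `a (y) conj (W0 y) W1 y` for a real weight dominated by `j_K (x - ·)` -/
theorem fsm_HD5_int {Q : ℕ} (hQ : k < Q) {K : ℝ} (hK : 0 < K) (x : E k) {a : E k → ℝ} (ca : Continuous a) {A : ℝ} (hA : 0 ≤ A)
    (ha : ∀ y, |a y| ≤ A * fsmJ Q K (x - y)) {W0 W1 : E k → ℂ} (c0 : Continuous W0) (c1 : Continuous W1) {B : ℝ} (b0 : ∀ y, ‖W0 y‖ ≤ B) (b1 : ∀ y, ‖W1 y‖ ≤ B) :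
    Integrable fun y : E k => ((a y : ℝ) : ℂ) * (conj (W0 y) * W1 y) := by
  have hB : 0 ≤ B := (norm_nonneg _).trans (b0 0)
  refine fsm_HD3_int hQ hK x ((Complex.continuous_ofReal.comp ca).mul ((Complex.continuous_conj.comp c0).mul c1)) (A * (B * B)) fun y => ?_
  rw [norm_mul, norm_mul, RCLike.norm_conj, Complex.norm_real, Real.norm_eq_abs]
  calc _ ≤ (A * fsmJ Q K (x - y)) * (B * B) :=
        mul_le_mul (ha y) (mul_le_mul (b0 y) (b1 y) (norm_nonneg _) hB) (by positivity) (mul_nonneg hA (fsm_J_pos hQ hK _).le)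
    _ = _ := by ring

/-- LEAF L-257-SM-HD5: **the current identity** (`fsm_psi_deriv0`, `fsm_ext_schr`, `fsm_ibp`; `Re(conj W · i Z) = -Im(conj W · Z)`) -/
theorem fsm_psi_deriv {Q : ℕ} (hQ : k < Q) {K : ℝ} (hK : 0 < K) {R : ℝ} {g : E k → ℂ} (hg : Dat R g) (x : E k) (t : ℝ) :
    HasDerivAt (fun r => fsmPsi Q K g x r)
      (-2 * ∑ i : Fin k, ∫ y : E k, fsmJd Q K (EuclideanSpace.single i (1 : ℝ)) (x - y) * (conj (ext g (y, t)) * ext (fsmD1 i g) (y, t)).im) t := by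
  have h0 := fsm_psi_deriv0 hQ hK hg x t
  have hc : ∀ {g' : E k → ℂ}, Dat R g' → Continuous fun y : E k => ext g' (y, t) := fun h =>
    (inf_ext_continuous h).comp (continuous_id.prodMk continuous_const)
  have hJc : Continuous fun y : E k => fsmJ Q K (x - y) := (fsm_J_continuous Q K).comp (continuous_const.sub continuous_id)
  have hJdc : ∀ i : Fin k, Continuous fun y : E k => fsmJd Q K (EuclideanSpace.single i (1 : ℝ)) (x - y) := fun i =>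
    (fsm_Jd_continuous Q hK _).comp (continuous_const.sub continuous_id)
  have i1 : ∀ i : Fin k, Integrable fun y : E k => ((fsmJ Q K (x - y) : ℝ) : ℂ) * (conj (ext g (y, t)) * ext (fsmD1 i (fsmD1 i g)) (y, t)) := fun i =>
    fsm_HD5_int hQ hK x hJc (A := 1) zero_le_one (fun y => by rw [one_mul, abs_of_pos (fsm_J_pos hQ hK _)]) (hc hg) (hc (fsm_dat_D1 (fsm_dat_D1 hg i) i))
      (B := max (∫ ξ, ‖g ξ‖) (∫ ξ, ‖fsmD1 i (fsmD1 i g) ξ‖)) (fun y => (fsm_HD3_ext_le _ _).trans (le_max_left _ _))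
      (fun y => (fsm_HD3_ext_le _ _).trans (le_max_right _ _))
  have i2 : ∀ i : Fin k, Integrable fun y : E k => ((fsmJd Q K (EuclideanSpace.single i (1 : ℝ)) (x - y) : ℝ) : ℂ) * (conj (ext g (y, t)) * ext (fsmD1 i g) (y, t)) := fun i =>
    fsm_HD5_int hQ hK x (hJdc i) (A := Q / K) (by positivity) (fun y => fsm_Jd_le hQ hK (by simp) _) (hc hg) (hc (fsm_dat_D1 hg i))
      (B := max (∫ ξ, ‖g ξ‖) (∫ ξ, ‖fsmD1 i g ξ‖)) (fun y => (fsm_HD3_ext_le _ _).trans (le_max_left _ _))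
      (fun y => (fsm_HD3_ext_le _ _).trans (le_max_right _ _))
  have e1 : ∀ i : Fin k, ∫ y : E k, fsmJ Q K (x - y) * (conj (ext g (y, t)) * ext (fsmD1 i (fsmD1 i g)) (y, t)).im
      = ∫ y : E k, fsmJd Q K (EuclideanSpace.single i (1 : ℝ)) (x - y) * (conj (ext g (y, t)) * ext (fsmD1 i g) (y, t)).im := by
    intro i
    have a1 := Complex.imCLM.integral_comp_comm (i1 i)
    have a2 := Complex.imCLM.integral_comp_comm (i2 i)
    simp only [Complex.imCLM_apply, Complex.im_ofReal_mul] at a1 a2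
    rw [a1, a2, fsm_ibp hQ hK hg i x t, Complex.sub_im, Complex.ofReal_im, sub_zero]
  have e : (∫ y : E k, fsmJ Q K (x - y) * (2 * (conj (ext g (y, t)) * ext (fsmDt g) (y, t)).re))
      = -2 * ∑ i : Fin k, ∫ y : E k, fsmJd Q K (EuclideanSpace.single i (1 : ℝ)) (x - y) * (conj (ext g (y, t)) * ext (fsmD1 i g) (y, t)).im := by
    simp only [← e1]
    have i3 : ∀ i ∈ (Finset.univ : Finset (Fin k)), Integrable fun y : E k => fsmJ Q K (x - y) * (conj (ext g (y, t)) * ext (fsmD1 i (fsmD1 i g)) (y, t)).im := by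
      intro i _
      have := (i1 i).im
      simpa only [RCLike.im_to_complex, Complex.im_ofReal_mul] using this
    rw [← integral_finsetSum _ i3, ← integral_const_mul]
    refine integral_congr_ae (Filter.Eventually.of_forall fun y => ?_)
    simp only []
    rw [fsm_ext_schr hg, Finset.mul_sum, Finset.mul_sum, Complex.re_sum, Finset.mul_sum, Finset.mul_sum, Finset.mul_sum]
    refine Finset.sum_congr rfl fun i _ => ?_
    have e2 : (conj (ext g (y, t)) * (Complex.I * ext (fsmD1 i (fsmD1 i g)) (y, t))).re = -(conj (ext g (y, t)) * ext (fsmD1 i (fsmD1 i g)) (y, t)).im := by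
      rw [mul_left_comm, Complex.I_mul_re]
    rw [e2]
    ring
  rw [e] at h0
  exact h0

section HD6
open scoped SchwartzMap FourierTransform

/-- a Schwartz kernel whose transform is `i w_i` on the ball of radius `R` -/
theorem fsm_HD6_ker (k : ℕ) {R : ℝ} (hR : 0 < R) (i : Fin k) :
    ∃ K : 𝓢(E k, ℂ), ∀ w : E k, ‖w‖ ≤ R → ∫ y, BD.ch (-(inner ℝ y w)) * K y = Complex.I * ((w i : ℝ) : ℂ) := by
  have hpi : (0 : ℝ) < (2 * Real.pi)⁻¹ := by positivity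
  have hpiR : (0 : ℝ) < (2 * Real.pi)⁻¹ * R := by positivity
  let b : ContDiffBump (0 : E k) := ⟨(2 * Real.pi)⁻¹ * R, 2 * ((2 * Real.pi)⁻¹ * R), hpiR, by linarith⟩
  have hc0 : HasCompactSupport (fun x : E k => ((b x : ℝ) : ℂ)) :=
    b.hasCompactSupport.comp_left (g := fun r : ℝ => (r : ℂ)) Complex.ofReal_zero
  have hc : HasCompactSupport (fun x : E k => (Complex.I * ((2 * Real.pi * x i : ℝ) : ℂ)) * ((b x : ℝ) : ℂ)) := hc0.mul_left
  have hs0 : ContDiff ℝ ((⊤ : ℕ∞) : WithTop ℕ∞) (fun x : E k => ((b x : ℝ) : ℂ)) := Complex.ofRealCLM.contDiff.comp b.contDiff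
  have hs1 : ContDiff ℝ ((⊤ : ℕ∞) : WithTop ℕ∞) (fun x : E k => (Complex.I * ((2 * Real.pi * x i : ℝ) : ℂ))) := by
    have h1 : ContDiff ℝ ((⊤ : ℕ∞) : WithTop ℕ∞) (fun x : E k => (2 * Real.pi * x i : ℝ)) :=
      contDiff_const.mul (EuclideanSpace.proj (𝕜 := ℝ) i).contDiff
    exact contDiff_const.mul (Complex.ofRealCLM.contDiff.comp h1)
  have hs := hs1.mul hs0
  let Ψ : 𝓢(E k, ℂ) := hc.toSchwartzMap hs
  refine ⟨𝓕⁻ Ψ, fun w hw => ?_⟩
  have h1 : 𝓕 (𝓕⁻ Ψ) = Ψ := FourierInvPair.fourier_fourierInv_eq Ψ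
  have h2 : (𝓕 (𝓕⁻ Ψ)) ((2 * Real.pi)⁻¹ • w) = Complex.I * ((w i : ℝ) : ℂ) := by
    rw [h1]
    show (Complex.I * ((2 * Real.pi * ((2 * Real.pi)⁻¹ • w) i : ℝ) : ℂ)) * ((b ((2 * Real.pi)⁻¹ • w) : ℝ) : ℂ) = _
    rw [b.one_of_mem_closedBall]
    · have : 2 * Real.pi * ((2 * Real.pi)⁻¹ • w) i = w i := by
        simp only [PiLp.smul_apply, smul_eq_mul]
        field_simp
      rw [this]
      simp
    · rw [Metric.mem_closedBall, dist_zero_right, norm_smul, Real.norm_of_nonneg hpi.le]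
      show (2 * Real.pi)⁻¹ * ‖w‖ ≤ (2 * Real.pi)⁻¹ * R
      exact mul_le_mul_of_nonneg_left hw hpi.le
  rw [SchwartzMap.fourier_coe, Real.fourier_eq] at h2
  rw [← h2]
  refine integral_congr_ae (Filter.Eventually.of_forall fun y => ?_)
  show BD.ch (-(inner ℝ y w)) * (𝓕⁻ Ψ) y = (Real.fourierChar (-(inner ℝ y ((2 * Real.pi)⁻¹ • w)))) • (𝓕⁻ Ψ) y
  rw [BD.bdb_ch_eq, Circle.smul_def, smul_eq_mul, inner_smul_right]
  congr 3
  ring

end HD6

theorem fsm_HD6_car (ξ y u : E k) (t : ℝ) : car ξ (y - u, t) = car ξ (y, t) * BD.ch (-(inner ℝ u ξ)) := by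
  unfold car BD.ch
  rw [← Complex.exp_add]
  congr 1
  simp only [inner_sub_left]
  push_cast
  ring

theorem fsm_HD6_fub {κ : E k → ℂ} {g : E k → ℂ} (hκ : Integrable κ) (hg : Integrable g) (y : E k) (t : ℝ) :
    Integrable (Function.uncurry fun (u : E k) (ξ : E k) => car ξ (y - u, t) * g ξ * κ u) (volume.prod volume) := by
  have h0 : Integrable (fun p : E k × E k => κ p.1 * g p.2) (volume.prod volume) := hκ.mul_prod hg
  have hc : Continuous fun p : E k × E k => car p.2 (y - p.1, t) := by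
    unfold car
    fun_prop
  have h1 : Integrable (fun p : E k × E k => car p.2 (y - p.1, t) * (κ p.1 * g p.2)) (volume.prod volume) := by
    refine h0.bdd_mul (c := 1) hc.aestronglyMeasurable ?_
    exact Filter.Eventually.of_forall fun p => (inf_car_norm _ _).le
  refine h1.congr (Filter.Eventually.of_forall fun p => ?_)
  show car p.2 (y - p.1, t) * (κ p.1 * g p.2) = car p.2 (y - p.1, t) * g p.2 * κ p.1
  ring

/-- LEAF L-257-SM-HD6: reproducing kernel of `∂_i` on the ball `R`  (`κ = 𝓕⁻¹ (i ξ_i χ)`, `χ` a bump equal to `1` on the ball; pattern: `BD.bdb_ker1`, `inf_C1_repro`, `BD.bdb_schwartz_decay`) -/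
theorem fsm_bern_ker (k : ℕ) (R : ℝ) (i : Fin k) : ∃ κ : E k → ℂ, Continuous κ ∧ (∀ M : ℕ, Integrable fun u => (1 + ‖u‖) ^ M * ‖κ u‖) ∧
    ∀ g : E k → ℂ, Dat R g → ∀ (y : E k) (t : ℝ), ext (fsmD1 i g) (y, t) = ∫ u, κ u * ext g (y - u, t) := by
  have hR : (0 : ℝ) < max R 1 := lt_of_lt_of_le one_pos (le_max_right _ _)
  obtain ⟨K, hK⟩ := fsm_HD6_ker k hR i
  refine ⟨K, K.continuous, fun M => ?_, fun g hg y t => ?_⟩
  · obtain ⟨C, hC, hb⟩ := BD.bdb_schwartz_decay K ((M : ℝ) + ((k : ℝ) + 1))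
    have hint : Integrable fun u : E k => C * (1 + ‖u‖) ^ (-((k : ℝ) + 1)) := by
      refine (integrable_one_add_norm ?_).const_mul C
      simp
    refine hint.mono' ?_ (Filter.Eventually.of_forall fun u => ?_)
    · exact (((continuous_const.add continuous_norm).pow M).mul K.continuous.norm).aestronglyMeasurable
    · have hpos : (0 : ℝ) < 1 + ‖u‖ := by positivity
      rw [Real.norm_of_nonneg (by positivity)]
      calc (1 + ‖u‖) ^ M * ‖K u‖ ≤ (1 + ‖u‖) ^ M * (C * (1 + ‖u‖) ^ (-((M : ℝ) + ((k : ℝ) + 1)))) := by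
            gcongr
            exact hb u
        _ = C * (1 + ‖u‖) ^ (-((k : ℝ) + 1)) := by
            rw [← Real.rpow_natCast, mul_left_comm, ← Real.rpow_add hpos]
            congr 2
            ring
  · calc ext (fsmD1 i g) (y, t) = ∫ ξ, car ξ (y, t) * (Complex.I * ((ξ i : ℝ) : ℂ) * g ξ) := rfl
      _ = ∫ ξ, ∫ u : E k, car ξ (y - u, t) * g ξ * K u := by
          refine integral_congr_ae (Filter.Eventually.of_forall fun ξ => ?_)
          show car ξ (y, t) * (Complex.I * ((ξ i : ℝ) : ℂ) * g ξ) = ∫ u : E k, car ξ (y - u, t) * g ξ * K u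
          by_cases hξ : g ξ = 0
          · simp [hξ]
          · have : ∀ u : E k, car ξ (y - u, t) * g ξ * K u = (car ξ (y, t) * g ξ) * (BD.ch (-(inner ℝ u ξ)) * K u) := by
              intro u
              rw [fsm_HD6_car]
              ring
            simp only [this]
            rw [integral_const_mul, hK ξ ((hg.supp ξ hξ).trans (le_max_left _ _))]
            ring
      _ = ∫ u : E k, ∫ ξ, car ξ (y - u, t) * g ξ * K u := (integral_integral_swap (fsm_HD6_fub K.integrable (inf_dat_integrable hg) y t)).symm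
      _ = ∫ u : E k, K u * ext g (y - u, t) := by
          refine integral_congr_ae (Filter.Eventually.of_forall fun u => ?_)
          show ∫ ξ, car ξ (y - u, t) * g ξ * K u = K u * ext g (y - u, t)
          rw [integral_mul_const, mul_comm]
          rfl

theorem fsm_HD7_int {Q : ℕ} (hQ : k < Q) {K : ℝ} (hK : 0 < K) {R : ℝ} {g : E k → ℂ} (hg : Dat R g) (x : E k) (t : ℝ) :
    Integrable fun y : E k => fsmJ Q K (x - y) * ‖ext g (y, t)‖ ^ 2 := by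
  have h1 : Integrable fun y : E k => fsmJ Q K (x - y) := (fsm_J_integrable hQ hK).comp_sub_left x
  have hc : Continuous fun y : E k => ‖ext g (y, t)‖ ^ 2 :=
    ((inf_ext_continuous hg).comp (continuous_id.prodMk continuous_const)).norm.pow 2
  refine h1.mul_bdd (c := (Real.sqrt (volume (closedBall (0 : E k) R)).toReal * (eLpNorm g 2 volume).toReal) ^ 2) hc.aestronglyMeasurable ?_
  refine Filter.Eventually.of_forall fun y => ?_
  rw [Real.norm_of_nonneg (by positivity)]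
  exact pow_le_pow_left₀ (norm_nonneg _) (inf_ext_bound hg _) 2

theorem fsm_HD7_psi {Q : ℕ} (hQ : k < Q) {K : ℝ} (hK : 0 < K) {R : ℝ} {g : E k → ℂ} (hg : Dat R g) (x : E k) (t : ℝ) :
    ENNReal.ofReal (fsmPsi Q K g x t) = ∫⁻ y, ENNReal.ofReal (fsmJ Q K (x - y)) * ‖ext g (y, t)‖ₑ ^ (2 : ℝ) := by
  unfold fsmPsi
  rw [ofReal_integral_eq_lintegral_ofReal (fsm_HD7_int hQ hK hg x t)
    (Filter.Eventually.of_forall fun y => mul_nonneg (fsm_J_pos hQ hK _).le (by positivity))]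
  refine lintegral_congr fun y => ?_
  rw [ENNReal.ofReal_mul (fsm_J_pos hQ hK _).le, ENNReal.ofReal_pow (norm_nonneg _), ofReal_norm, ENNReal.rpow_two]

theorem fsm_HD7_psi_nonneg {Q : ℕ} (hQ : k < Q) {K : ℝ} (hK : 0 < K) (g : E k → ℂ) (x : E k) (t : ℝ) : 0 ≤ fsmPsi Q K g x t :=
  integral_nonneg fun y => mul_nonneg (fsm_J_pos hQ hK _).le (by positivity)

theorem fsm_HD7_one {Q : ℕ} (hQ : k < Q) {κ : E k → ℂ} (hκc : Continuous κ) (hκ : ∀ M : ℕ, Integrable fun u => (1 + ‖u‖) ^ M * ‖κ u‖)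
    {W W' : E k → ℂ} (hW : Continuous W) (hrep : ∀ y, W' y = ∫ u, κ u * W (y - u)) {K : ℝ} (hK : 1 ≤ K) (x : E k) :
    ∫⁻ y, ENNReal.ofReal (fsmJ Q K (x - y)) * ‖W' y‖ₑ ^ (2 : ℝ) ≤
      ENNReal.ofReal ((∫ u, (1 + ‖u‖) ^ 0 * ‖κ u‖) * (2 ^ Q * ∫ u, (1 + ‖u‖) ^ Q * ‖κ u‖)) *
        ∫⁻ y, ENNReal.ofReal (fsmJ Q K (x - y)) * ‖W y‖ₑ ^ (2 : ℝ) := by
  have hK0 : 0 < K := by linarith
  set I₀ : ℝ≥0∞ := ∫⁻ y, ENNReal.ofReal (fsmJ Q K (x - y)) * ‖W y‖ₑ ^ (2 : ℝ) with hI₀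
  have hA : ∫⁻ u, ‖κ u‖ₑ = ENNReal.ofReal (∫ u, (1 + ‖u‖) ^ 0 * ‖κ u‖) := by
    rw [ofReal_integral_eq_lintegral_ofReal (hκ 0) (Filter.Eventually.of_forall fun u => by positivity)]
    refine lintegral_congr fun u => ?_
    rw [pow_zero, one_mul, ofReal_norm]
  have hB : ∫⁻ u, ‖κ u‖ₑ * ENNReal.ofReal (2 ^ Q * (1 + ‖u‖) ^ Q) = ENNReal.ofReal (2 ^ Q * ∫ u, (1 + ‖u‖) ^ Q * ‖κ u‖) := by
    rw [← integral_const_mul, ofReal_integral_eq_lintegral_ofReal ((hκ Q).const_mul _) (Filter.Eventually.of_forall fun u => by positivity)]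
    refine lintegral_congr fun u => ?_
    rw [← ofReal_norm, ← ENNReal.ofReal_mul (norm_nonneg _)]
    congr 1
    ring
  have hJm : Measurable fun y : E k => ENNReal.ofReal (fsmJ Q K (x - y)) :=
    ((fsm_J_continuous Q K).comp (continuous_const.sub continuous_id)).measurable.ennreal_ofReal
  -- (1)
  have h1 : ∀ y, ‖W' y‖ₑ ^ (2 : ℝ) ≤ (∫⁻ u, ‖κ u‖ₑ) * ∫⁻ u, ‖κ u‖ₑ * ‖W (y - u)‖ₑ ^ (2 : ℝ) := by
    intro y
    have h2 : ‖W' y‖ₑ ≤ ∫⁻ u, ‖κ u‖ₑ * ‖W (y - u)‖ₑ := by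
      rw [hrep y]
      refine (enorm_integral_le_lintegral_enorm _).trans (le_of_eq ?_)
      simp only [enorm_mul]
    have h3 := inf_C2_jensen (volume : Measure (E k)) (fun u => ‖κ u‖ₑ) (fun u => ‖W (y - u)‖ₑ) hκc.enorm.measurable.aemeasurable
      (hW.comp (continuous_const.sub continuous_id)).enorm.measurable.aemeasurable (P := 2) (by norm_num)
    have e : (2 : ℝ) - 1 = 1 := by norm_num
    rw [e, ENNReal.rpow_one] at h3
    exact (ENNReal.rpow_le_rpow h2 (by norm_num)).trans h3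
  -- joint measurability
  have hm : Measurable fun p : E k × E k => ENNReal.ofReal (fsmJ Q K (x - p.1)) * (‖κ p.2‖ₑ * ‖W (p.1 - p.2)‖ₑ ^ (2 : ℝ)) := by
    have m1 : Measurable fun p : E k × E k => ENNReal.ofReal (fsmJ Q K (x - p.1)) := hJm.comp measurable_fst
    have m2 : Measurable fun p : E k × E k => ‖κ p.2‖ₑ := (hκc.comp continuous_snd).enorm.measurable
    have m3 : Measurable fun p : E k × E k => ‖W (p.1 - p.2)‖ₑ ^ (2 : ℝ) :=
      ((hW.comp (continuous_fst.sub continuous_snd)).enorm.measurable).pow_const _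
    exact m1.mul (m2.mul m3)
  -- (3)
  have h3 : ∀ u, ∫⁻ y, ENNReal.ofReal (fsmJ Q K (x - y)) * (‖κ u‖ₑ * ‖W (y - u)‖ₑ ^ (2 : ℝ)) ≤
      ‖κ u‖ₑ * ENNReal.ofReal (2 ^ Q * (1 + ‖u‖) ^ Q) * I₀ := by
    intro u
    rw [← lintegral_add_right_eq_self (fun y => ENNReal.ofReal (fsmJ Q K (x - y)) * (‖κ u‖ₑ * ‖W (y - u)‖ₑ ^ (2 : ℝ))) u, hI₀,
      ← lintegral_const_mul' _ _ (ENNReal.mul_ne_top enorm_ne_top ENNReal.ofReal_ne_top)]
    refine lintegral_mono fun y => ?_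
    show ENNReal.ofReal (fsmJ Q K (x - (y + u))) * (‖κ u‖ₑ * ‖W (y + u - u)‖ₑ ^ (2 : ℝ)) ≤
      ‖κ u‖ₑ * ENNReal.ofReal (2 ^ Q * (1 + ‖u‖) ^ Q) * (ENNReal.ofReal (fsmJ Q K (x - y)) * ‖W y‖ₑ ^ (2 : ℝ))
    rw [add_sub_cancel_right]
    have h4 : fsmJ Q K (x - (y + u)) ≤ 2 ^ Q * (1 + ‖u‖) ^ Q * fsmJ Q K (x - y) := by
      rw [← sub_sub]
      refine (fsm_J_peetre hQ hK0 (x - y) u).trans ?_
      refine mul_le_mul_of_nonneg_right ?_ (fsm_J_pos hQ hK0 _).le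
      refine mul_le_mul_of_nonneg_left ?_ (by positivity)
      refine pow_le_pow_left₀ (by positivity) ?_ Q
      have : ‖u‖ / K ≤ ‖u‖ := div_le_self (norm_nonneg _) hK
      linarith
    have h5 : ENNReal.ofReal (fsmJ Q K (x - (y + u))) ≤ ENNReal.ofReal (2 ^ Q * (1 + ‖u‖) ^ Q) * ENNReal.ofReal (fsmJ Q K (x - y)) := by
      rw [← ENNReal.ofReal_mul (by positivity)]
      exact ENNReal.ofReal_le_ofReal h4
    calc ENNReal.ofReal (fsmJ Q K (x - (y + u))) * (‖κ u‖ₑ * ‖W y‖ₑ ^ (2 : ℝ))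
        ≤ (ENNReal.ofReal (2 ^ Q * (1 + ‖u‖) ^ Q) * ENNReal.ofReal (fsmJ Q K (x - y))) * (‖κ u‖ₑ * ‖W y‖ₑ ^ (2 : ℝ)) := by gcongr
      _ = _ := by ring
  calc ∫⁻ y, ENNReal.ofReal (fsmJ Q K (x - y)) * ‖W' y‖ₑ ^ (2 : ℝ)
      ≤ ∫⁻ y, (∫⁻ u, ‖κ u‖ₑ) * ∫⁻ u, ENNReal.ofReal (fsmJ Q K (x - y)) * (‖κ u‖ₑ * ‖W (y - u)‖ₑ ^ (2 : ℝ)) := by
        refine lintegral_mono fun y => ?_
        show ENNReal.ofReal (fsmJ Q K (x - y)) * ‖W' y‖ₑ ^ (2 : ℝ) ≤ (∫⁻ u, ‖κ u‖ₑ) * ∫⁻ u, ENNReal.ofReal (fsmJ Q K (x - y)) * (‖κ u‖ₑ * ‖W (y - u)‖ₑ ^ (2 : ℝ))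
        rw [lintegral_const_mul' _ _ ENNReal.ofReal_ne_top]
        calc ENNReal.ofReal (fsmJ Q K (x - y)) * ‖W' y‖ₑ ^ (2 : ℝ)
            ≤ ENNReal.ofReal (fsmJ Q K (x - y)) * ((∫⁻ u, ‖κ u‖ₑ) * ∫⁻ u, ‖κ u‖ₑ * ‖W (y - u)‖ₑ ^ (2 : ℝ)) := by
              gcongr
              exact h1 y
          _ = _ := by ring
    _ = (∫⁻ u, ‖κ u‖ₑ) * ∫⁻ y, ∫⁻ u, ENNReal.ofReal (fsmJ Q K (x - y)) * (‖κ u‖ₑ * ‖W (y - u)‖ₑ ^ (2 : ℝ)) := by
        rw [lintegral_const_mul' _ _ (by rw [hA]; exact ENNReal.ofReal_ne_top)]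
    _ = (∫⁻ u, ‖κ u‖ₑ) * ∫⁻ u, ∫⁻ y, ENNReal.ofReal (fsmJ Q K (x - y)) * (‖κ u‖ₑ * ‖W (y - u)‖ₑ ^ (2 : ℝ)) := by
        rw [lintegral_lintegral_swap hm.aemeasurable]
    _ ≤ (∫⁻ u, ‖κ u‖ₑ) * ∫⁻ u, ‖κ u‖ₑ * ENNReal.ofReal (2 ^ Q * (1 + ‖u‖) ^ Q) * I₀ := by
        gcongr with u
        exact h3 u
    _ = _ := by
        have hmB : Measurable fun u : E k => ‖κ u‖ₑ * ENNReal.ofReal (2 ^ Q * (1 + ‖u‖) ^ Q) :=
          hκc.enorm.measurable.mul (by fun_prop)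
        rw [lintegral_mul_const _ hmB, hB, hA, ← mul_assoc,
          ← ENNReal.ofReal_mul (integral_nonneg fun u => by positivity)]

/-- LEAF L-257-SM-HD7: **weighted Bernstein**  (`|∫ κ W(y-u)|² ≤ ‖κ‖₁ ∫ |κ(u)| |W(y-u)|² du`, Tonelli, `fsm_J_peetre`, `K ≥ 1`) -/
theorem fsm_bernstein (k Q : ℕ) (hQ : k < Q) (R : ℝ) : ∃ C : ℝ, 0 ≤ C ∧ ∀ g : E k → ℂ, Dat R g → ∀ K : ℝ, 1 ≤ K → ∀ (i : Fin k) (x : E k) (t : ℝ),
    fsmPsi Q K (fsmD1 i g) x t ≤ C * fsmPsi Q K g x t := by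
  choose κ hκc hκ hrep using fun i : Fin k => fsm_bern_ker k R i
  set c : Fin k → ℝ := fun i => (∫ u, (1 + ‖u‖) ^ 0 * ‖κ i u‖) * (2 ^ Q * ∫ u, (1 + ‖u‖) ^ Q * ‖κ i u‖) with hc
  have hc0 : ∀ i, 0 ≤ c i := fun i =>
    mul_nonneg (integral_nonneg fun u => by positivity) (mul_nonneg (by positivity) (integral_nonneg fun u => by positivity))
  refine ⟨∑ i, c i, Finset.sum_nonneg fun i _ => hc0 i, ?_⟩
  intro g hg K hK i x t
  have hK0 : 0 < K := by linarith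
  have hΨ := fsm_HD7_psi_nonneg hQ hK0 g x t
  have h1 := fsm_HD7_one hQ (hκc i) (hκ i) (W := fun y => ext g (y, t)) (W' := fun y => ext (fsmD1 i g) (y, t))
    ((inf_ext_continuous hg).comp (continuous_id.prodMk continuous_const)) (fun y => hrep i g hg y t) hK x
  rw [← fsm_HD7_psi hQ hK0 hg x t, ← fsm_HD7_psi hQ hK0 (fsm_dat_D1 hg i) x t, ← ENNReal.ofReal_mul (hc0 i)] at h1
  have h2 := (ENNReal.ofReal_le_ofReal_iff (mul_nonneg (hc0 i) hΨ)).1 h1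
  refine h2.trans (mul_le_mul_of_nonneg_right ?_ hΨ)
  exact Finset.single_le_sum (fun j _ => hc0 j) (Finset.mem_univ i)

/-- LEAF L-257-SM-HD8: Gronwall -/
theorem fsm_gronwall {Ψ Ψ' : ℝ → ℝ} {c : ℝ} (hc : 0 ≤ c) (hd : ∀ t, HasDerivAt Ψ (Ψ' t) t) (hb : ∀ t, |Ψ' t| ≤ c * Ψ t) (t s : ℝ) :
    Ψ (t + s) ≤ Real.exp (c * |s|) * Ψ t := by
  rcases le_total 0 s with hs | hs
  · have hφ : ∀ r, HasDerivAt (fun r => Real.exp (-c * r) * Ψ r) (Real.exp (-c * r) * (-c) * Ψ r + Real.exp (-c * r) * Ψ' r) r := by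
      intro r
      have h1 : HasDerivAt (fun r : ℝ => Real.exp (-c * r)) (Real.exp (-c * r) * (-c)) r := by
        have := ((hasDerivAt_id r).const_mul (-c)).exp
        simpa using this
      exact h1.mul (hd r)
    have hanti : Antitone fun r => Real.exp (-c * r) * Ψ r := by
      refine antitone_of_deriv_nonpos (fun r => (hφ r).differentiableAt) fun r => ?_
      rw [(hφ r).deriv]
      have h2 := (abs_le.1 (hb r)).2
      have h3 := Real.exp_pos (-c * r)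
      nlinarith
    have h4 := hanti (show t ≤ t + s by linarith)
    simp only at h4
    rw [abs_of_nonneg hs]
    have e : Real.exp (-c * (t + s)) = Real.exp (-c * t) * Real.exp (-(c * s)) := by
      rw [← Real.exp_add]; congr 1; ring
    rw [e, mul_assoc] at h4
    have h5 := le_of_mul_le_mul_left h4 (Real.exp_pos _)
    rw [Real.exp_neg] at h5
    have h6 := Real.exp_pos (c * s)
    rwa [inv_mul_le_iff₀ h6] at h5
  · have hφ : ∀ r, HasDerivAt (fun r => Real.exp (c * r) * Ψ r) (Real.exp (c * r) * c * Ψ r + Real.exp (c * r) * Ψ' r) r := by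
      intro r
      have h1 : HasDerivAt (fun r : ℝ => Real.exp (c * r)) (Real.exp (c * r) * c) r := by
        have := ((hasDerivAt_id r).const_mul c).exp
        simpa using this
      exact h1.mul (hd r)
    have hmono : Monotone fun r => Real.exp (c * r) * Ψ r := by
      refine monotone_of_deriv_nonneg (fun r => (hφ r).differentiableAt) fun r => ?_
      rw [(hφ r).deriv]
      have h2 := (abs_le.1 (hb r)).1
      have h3 := Real.exp_pos (c * r)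
      nlinarith
    have h4 := hmono (show t + s ≤ t by linarith)
    simp only at h4
    rw [abs_of_nonpos hs]
    have e : Real.exp (c * (t + s)) = Real.exp (c * t) * Real.exp (-(c * -s)) := by
      rw [← Real.exp_add]; congr 1; ring
    rw [e, mul_assoc] at h4
    have h5 := le_of_mul_le_mul_left h4 (Real.exp_pos _)
    rw [Real.exp_neg] at h5
    have h6 := Real.exp_pos (c * -s)
    rwa [inv_mul_le_iff₀ h6] at h5

/-- LEAF L-257-SM-HD9: **Harnack at the unit scale** (`fsm_psi_deriv`, `fsm_Jd_le`, Cauchy-Schwarz with the weight `j_K(x - ·)`, `fsm_bernstein`, `fsm_gronwall`) -/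
theorem fsm_har_core (k Q : ℕ) (hQ : k < Q) (R : ℝ) : ∃ c : ℝ, 0 ≤ c ∧ ∀ g : E k → ℂ, Dat R g → ∀ K : ℝ, 1 ≤ K → ∀ (x : E k) (t s : ℝ),
    fsmPsi Q K g x (t + s) ≤ Real.exp (c / K * |s|) * fsmPsi Q K g x t := by
  obtain ⟨C, hC, hB⟩ := fsm_bernstein k Q hQ R
  refine ⟨k * (Q * (1 + C)), by positivity, ?_⟩
  intro g hg K hK x t s
  have hK0 : 0 < K := by linarith
  refine fsm_gronwall (by positivity) (fun r => fsm_psi_deriv hQ hK0 hg x r) (fun r => ?_) t s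
  have hΨ := fsm_HD7_psi_nonneg hQ hK0 g x r
  have hi : ∀ i : Fin k, |∫ y : E k, fsmJd Q K (EuclideanSpace.single i (1 : ℝ)) (x - y) * (conj (ext g (y, r)) * ext (fsmD1 i g) (y, r)).im|
      ≤ Q / K * ((1 + C) / 2 * fsmPsi Q K g x r) := by
    intro i
    have hint : Integrable fun y : E k => Q / K * ((fsmJ Q K (x - y) * ‖ext g (y, r)‖ ^ 2 + fsmJ Q K (x - y) * ‖ext (fsmD1 i g) (y, r)‖ ^ 2) / 2) :=
      (((fsm_HD7_int hQ hK0 hg x r).add (fsm_HD7_int hQ hK0 (fsm_dat_D1 hg i) x r)).div_const 2).const_mul _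
    have h1 := norm_integral_le_of_norm_le hint (f := fun y : E k => fsmJd Q K (EuclideanSpace.single i (1 : ℝ)) (x - y) * (conj (ext g (y, r)) * ext (fsmD1 i g) (y, r)).im)
      (Filter.Eventually.of_forall fun y => ?_)
    · rw [Real.norm_eq_abs] at h1
      refine h1.trans ?_
      rw [integral_const_mul, integral_div, integral_add (fsm_HD7_int hQ hK0 hg x r) (fsm_HD7_int hQ hK0 (fsm_dat_D1 hg i) x r)]
      refine mul_le_mul_of_nonneg_left ?_ (by positivity)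
      have h2 := hB g hg K hK i x r
      unfold fsmPsi at h2 hΨ ⊢
      linarith
    · have he : ‖(EuclideanSpace.single i (1 : ℝ) : E k)‖ ≤ 1 := by simp
      have h2 := fsm_Jd_le hQ hK0 he (x - y)
      have h3 : |(conj (ext g (y, r)) * ext (fsmD1 i g) (y, r)).im| ≤ ‖ext g (y, r)‖ * ‖ext (fsmD1 i g) (y, r)‖ := by
        refine (Complex.abs_im_le_norm _).trans (le_of_eq ?_)
        rw [norm_mul, RCLike.norm_conj]
      have h4 : ‖ext g (y, r)‖ * ‖ext (fsmD1 i g) (y, r)‖ ≤ (‖ext g (y, r)‖ ^ 2 + ‖ext (fsmD1 i g) (y, r)‖ ^ 2) / 2 := by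
        nlinarith [sq_nonneg (‖ext g (y, r)‖ - ‖ext (fsmD1 i g) (y, r)‖)]
      have hJ := (fsm_J_pos hQ hK0 (x - y)).le
      rw [Real.norm_eq_abs, abs_mul]
      calc |fsmJd Q K (EuclideanSpace.single i (1 : ℝ)) (x - y)| * |(conj (ext g (y, r)) * ext (fsmD1 i g) (y, r)).im|
          ≤ (Q / K * fsmJ Q K (x - y)) * ((‖ext g (y, r)‖ ^ 2 + ‖ext (fsmD1 i g) (y, r)‖ ^ 2) / 2) :=
            mul_le_mul h2 (h3.trans h4) (abs_nonneg _) (by positivity)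
        _ = _ := by ring
  rw [abs_mul, abs_neg, abs_two]
  calc 2 * |∑ i : Fin k, ∫ y : E k, fsmJd Q K (EuclideanSpace.single i (1 : ℝ)) (x - y) * (conj (ext g (y, r)) * ext (fsmD1 i g) (y, r)).im|
      ≤ 2 * ∑ i : Fin k, Q / K * ((1 + C) / 2 * fsmPsi Q K g x r) := by
        refine mul_le_mul_of_nonneg_left ((Finset.abs_sum_le_sum_abs _ _).trans (Finset.sum_le_sum fun i _ => hi i)) (by norm_num)
    _ = _ := by
        rw [Finset.sum_const, Finset.card_univ, Fintype.card_fin, nsmul_eq_mul]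
        field_simp

theorem fsm_HD10_J (Q : ℕ) {H K : ℝ} (hH : 0 < H) (hK : 0 < K) (u : E k) : fsmJ Q (K / H) (H⁻¹ • u) = H ^ k * fsmJ Q K u := by
  unfold fsmJ
  rw [smul_smul]
  have e1 : (K / H)⁻¹ * H⁻¹ = K⁻¹ := by field_simp
  have e2 : ((K / H) ^ k)⁻¹ = H ^ k * (K ^ k)⁻¹ := by
    rw [div_pow]
    field_simp
  rw [e1, e2]
  ring

theorem fsm_HD10_ext (g : E k → ℂ) (b : E k) {H : ℝ} (hH : 0 < H) (y : E k) (t : ℝ) :
    ‖ext g (y, t)‖ ^ 2 = (H ^ k)⁻¹ * ‖ext (capD H⁻¹ b g) (H⁻¹ • (y - (2 * t) • b), t / H ^ 2)‖ ^ 2 := by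
  rw [inf_ext_rescale g b (inv_pos.2 hH) (y, t), norm_mul, norm_mul, inf_car_norm, mul_one, Complex.norm_real, Real.norm_of_nonneg (by positivity), mul_pow]
  have e1 : (H⁻¹ ^ ((k : ℝ) / 2)) ^ 2 = (H ^ k)⁻¹ := by
    rw [← Real.rpow_natCast, ← Real.rpow_mul (by positivity)]
    have : (k : ℝ) / 2 * ((2 : ℕ) : ℝ) = k := by push_cast; ring
    rw [this, Real.rpow_natCast, inv_pow]
  have e2 : H⁻¹ ^ 2 * t = t / H ^ 2 := by
    field_simp
  rw [e1]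
  show (H ^ k)⁻¹ * ‖ext (capD H⁻¹ b g) (H⁻¹ • (y - (2 * t) • b), H⁻¹ ^ 2 * t)‖ ^ 2 = _
  rw [e2]

/-- LEAF L-257-SM-HD10: cap rescaling of `Ψ`  (`inf_ext_rescale` with `q = 1/H`, `y = 2tb + H y'`, `j_K(H u) = H^{-k} j_{K/H}(u)`) -/
theorem fsm_psi_rescale (Q : ℕ) (g : E k → ℂ) (b : E k) {H K : ℝ} (hH : 0 < H) (hK : 0 < K) (x : E k) (t : ℝ) :
    fsmPsi Q K g x t = (H ^ k)⁻¹ * fsmPsi Q (K / H) (capD H⁻¹ b g) (H⁻¹ • (x - (2 * t) • b)) (t / H ^ 2) := by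
  have hHk : (0:ℝ) < H ^ k := by positivity
  unfold fsmPsi
  have hpt : ∀ y : E k, (fun y' => fsmJ Q (K / H) (H⁻¹ • (x - (2 * t) • b) - y') * ‖ext (capD H⁻¹ b g) (y', t / H ^ 2)‖ ^ 2) (H⁻¹ • (y - (2 * t) • b))
      = H ^ k * H ^ k * (fsmJ Q K (x - y) * ‖ext g (y, t)‖ ^ 2) := by
    intro y
    show fsmJ Q (K / H) (H⁻¹ • (x - (2 * t) • b) - H⁻¹ • (y - (2 * t) • b)) * ‖ext (capD H⁻¹ b g) (H⁻¹ • (y - (2 * t) • b), t / H ^ 2)‖ ^ 2 = _
    rw [← smul_sub, sub_sub_sub_cancel_right, fsm_HD10_J Q hH hK, fsm_HD10_ext g b hH y t]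
    field_simp
  have hcv : ∫ y : E k, (fun y' => fsmJ Q (K / H) (H⁻¹ • (x - (2 * t) • b) - y') * ‖ext (capD H⁻¹ b g) (y', t / H ^ 2)‖ ^ 2) (H⁻¹ • (y - (2 * t) • b))
      = H ^ k * ∫ y', fsmJ Q (K / H) (H⁻¹ • (x - (2 * t) • b) - y') * ‖ext (capD H⁻¹ b g) (y', t / H ^ 2)‖ ^ 2 := by
    rw [integral_sub_right_eq_self (fun y => (fun y' => fsmJ Q (K / H) (H⁻¹ • (x - (2 * t) • b) - y') * ‖ext (capD H⁻¹ b g) (y', t / H ^ 2)‖ ^ 2) (H⁻¹ • y)) ((2 * t) • b),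
      Measure.integral_comp_smul volume (fun y' => fsmJ Q (K / H) (H⁻¹ • (x - (2 * t) • b) - y') * ‖ext (capD H⁻¹ b g) (y', t / H ^ 2)‖ ^ 2) H⁻¹,
      finrank_euclideanSpace_fin, inv_pow, inv_inv, abs_of_pos hHk, smul_eq_mul]
  simp only [hpt] at hcv
  rw [integral_const_mul] at hcv
  have h2 : H ^ k * ∫ y : E k, fsmJ Q K (x - y) * ‖ext g (y, t)‖ ^ 2 = ∫ y', fsmJ Q (K / H) (H⁻¹ • (x - (2 * t) • b) - y') * ‖ext (capD H⁻¹ b g) (y', t / H ^ 2)‖ ^ 2 := by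
    have := mul_left_cancel₀ hHk.ne' (by rw [← hcv]; ring : H ^ k * (H ^ k * ∫ y : E k, fsmJ Q K (x - y) * ‖ext g (y, t)‖ ^ 2) = H ^ k * _)
    exact this
  rw [← h2, ← mul_assoc, inv_mul_cancel₀ hHk.ne', one_mul]

/-- LEAF L-257-SM-HD11: **Harnack for a cap** -/
theorem fsm_har_cap (k Q : ℕ) (hQ : k < Q) (C0 : ℝ) (hC0 : 0 ≤ C0) : ∃ c : ℝ, 0 ≤ c ∧ ∀ (H K : ℝ) (b : E k) (g : E k → ℂ), 1 ≤ H → H ≤ K → Measurable g → MemLp g 2 volume →
    (∀ ξ, g ξ ≠ 0 → ‖ξ - b‖ ≤ C0 / H) → ∀ (x : E k) (t s : ℝ), fsmPsi Q K g (x + s • ((2 : ℝ) • b)) (t + s) ≤ Real.exp (c / (H * K) * |s|) * fsmPsi Q K g x t := by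
  obtain ⟨c, hc0, hc⟩ := fsm_har_core k Q hQ C0
  refine ⟨c, hc0, ?_⟩
  intro H K b g hH hHK hgm hg2 hsupp x t s
  have hH0 : 0 < H := by linarith
  have hK0 : 0 < K := by linarith
  have hdat : Dat (C0 / H + ‖b‖) g := by
    refine ⟨hgm, fun ξ hξ => ?_, hg2⟩
    calc ‖ξ‖ = ‖(ξ - b) + b‖ := by rw [sub_add_cancel]
      _ ≤ ‖ξ - b‖ + ‖b‖ := norm_add_le _ _
      _ ≤ C0 / H + ‖b‖ := add_le_add (hsupp ξ hξ) le_rfl
  have hD : Dat C0 (capD H⁻¹ b g) := inf_capD_dat hdat b (inv_pos.2 hH0) (fun ξ hξ => by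
    rw [inv_mul_eq_div]
    exact hsupp ξ hξ)
  rw [fsm_psi_rescale Q g b hH0 hK0 (x + s • ((2 : ℝ) • b)) (t + s), fsm_psi_rescale Q g b hH0 hK0 x t]
  have e1 : x + s • ((2 : ℝ) • b) - (2 * (t + s)) • b = x - (2 * t) • b := by
    rw [smul_smul, mul_add, add_smul, mul_comm s 2]
    abel
  have e2 : (t + s) / H ^ 2 = t / H ^ 2 + s / H ^ 2 := add_div _ _ _
  rw [e1, e2]
  have h1 := hc _ hD (K / H) ((one_le_div hH0).2 hHK) (H⁻¹ • (x - (2 * t) • b)) (t / H ^ 2) (s / H ^ 2)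
  have e3 : c / (K / H) * |s / H ^ 2| = c / (H * K) * |s| := by
    rw [abs_div, abs_of_pos (by positivity : 0 < H ^ 2)]
    field_simp
  rw [e3] at h1
  calc (H ^ k)⁻¹ * fsmPsi Q (K / H) (capD H⁻¹ b g) (H⁻¹ • (x - (2 * t) • b)) (t / H ^ 2 + s / H ^ 2)
      ≤ (H ^ k)⁻¹ * (Real.exp (c / (H * K) * |s|) * fsmPsi Q (K / H) (capD H⁻¹ b g) (H⁻¹ • (x - (2 * t) • b)) (t / H ^ 2)) :=
        mul_le_mul_of_nonneg_left h1 (by positivity)
    _ = _ := by ring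

end Claimed.Agent.R257
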