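import Claimed.Agent.R257.FR1.SmEnds
import Claimed.Agent.R257.FR1.SmHar
import Claimed.Agent.R257.Infra.Str.L2

/-!
# R257 / FR1 / SmMain : CONTRACT OF THE BLOCK `SM`  (positive smoothing part of H f:smoothing, frame.tex l.266-453)      (architect helper94)

`fsm_main`: caps `b` with centres `cb b` (ball of radius `Rc`, slab count), clusters `v ∈ cl b` with `L²` data `g v` supported in `B(cb b, C0/H)`, exact fields `ext (g v)`,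
auxiliary densities `F_b = w_h ∑_{v ∈ cl b} |ext (g v)|²`, witnesses `Y` with (f:ballcount), energy `≤ N1 H^{k+2} |Y|`, Gram bound at the scale `h` with a kernel of order `Qg < Q - k`.  Then
`∑_{z ∈ Y} ∑_b min( (j_{K0} *_x F_b)(z), Mc ) ≤ C (G0 + (Cs Mc H^k + √(Cs N0 N1 Mc H^k)) ((K0/H)^{-1/4} + H^{-1/4} (1 + log(h/K0)))) |Y|`.
With `Mc = H^{-k} S^{C3}`, `Cs = O(1)`, `N0, N1 = S^C`, `K0 = H S^L`:  the bracket is `G0 + S^{C'} (S^{-L/4} + H^{-1/4} log h)`.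
The exit density has NO smoothing in time and the explicit kernel `fsmJ Q K0`.
-/

set_option autoImplicit false

namespace Claimed.Agent.R257

open MeasureTheory ProbabilityTheory Metric Set
open scoped ENNReal NNReal InnerProductSpace

variable {k : ℕ}

/-- the time weight `w_h(t) = (1 + (t - t0)²/h⁴)^{-J}` -/
noncomputable def fsmWt (h t0 : ℝ) (J : ℕ) (t : ℝ) : ℝ := ((1 + (t - t0) ^ 2 / h ^ 4) ^ J)⁻¹

/-- the auxiliary density of a cap: `w_h ∑_{v ∈ s} |ext (g v)|²` -/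
noncomputable def fsmF {ι : Type} (h t0 : ℝ) (J : ℕ) (s : Finset ι) (g : ι → E k → ℂ) (z : ST k) : ℝ :=
  fsmWt h t0 J z.2 * ∑ v ∈ s, ‖ext (g v) z‖ ^ 2

/-- hypotheses of the smoothing theorem -/
structure SmHyp (Qg M1 : ℕ) (C0 Rc : ℝ) {β ι : Type} (H h K0 Mc Cs N0 N1 G0 : ℝ) (Y : Finset (ST k)) (caps : Finset β) (cb : β → E k)
    (cl : β → Finset ι) (g : ι → E k → ℂ) : Prop where
  hH : 1 ≤ H
  hK : H ≤ K0
  hh : K0 ≤ h
  hMc : 0 < Mc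
  hCs : 0 ≤ Cs
  hN0 : 0 ≤ N0
  hN1 : 0 ≤ N1
  hG0 : 0 ≤ G0
  /-- cap centres in a fixed ball -/
  cb_le : ∀ b ∈ caps, ‖cb b‖ ≤ Rc
  /-- slab count of the cap centres (a `1/H` separated set, or a `1/H` grid) -/
  slab : ∀ (e : E k) (c lam : ℝ), ‖e‖ = 1 → 0 ≤ lam → ((caps.filter fun b => |⟪cb b, e⟫_ℝ - c| ≤ lam).card : ℝ) ≤ Cs * H ^ k * (lam + 1 / H)
  /-- (f:ballcount), sup metric of `ST k` -/
  ball : ∀ z ∈ Y, ∀ r : ℝ, H ≤ r → ((Y.filter fun z' => ‖z' - z‖ ≤ r).card : ℝ) ≤ N0 * (r / H) ^ k * (1 + r / H ^ 2)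
  meas : ∀ b ∈ caps, ∀ v ∈ cl b, Measurable (g v)
  l2 : ∀ b ∈ caps, ∀ v ∈ cl b, MemLp (g v) 2 volume
  supp : ∀ b ∈ caps, ∀ v ∈ cl b, ∀ ξ, g v ξ ≠ 0 → ‖ξ - cb b‖ ≤ C0 / H
  /-- (f:auxiliary-energy) with `D ≤ N1 H^{k+2} |Y|` -/
  energy : h ^ 2 * ∑ b ∈ caps, ∑ v ∈ cl b, ∫ ξ, ‖g v ξ‖ ^ 2 ≤ N1 * (H ^ (k + 2) * Y.card)
  /-- (f:original-witness-Gram) with the kernel `h^{-k} (1 + |x/h|²)^{-Qg/2}` -/
  gram : ∀ z ∈ Y, ∀ τ : ℝ, (h ^ k)⁻¹ * ∑ b ∈ caps, ∑ v ∈ cl b, ∫ x : E k, fsmW Qg (h⁻¹ • (x - z.1 - τ • ((2 : ℝ) • cb b))) * ‖ext (g v) (x, z.2 + τ)‖ ^ 2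
    ≤ G0 * (1 + |τ| / (H * h)) ^ M1

/-- the abstract system of a concrete configuration -/
noncomputable def fsmSys {β ι : Type} (Q : ℕ) (H h K0 t0 Mc : ℝ) (J : ℕ) (Y : Finset (ST k)) (caps : Finset β) (cb : β → E k) (cl : β → Finset ι) (g : ι → E k → ℂ) : Sm k β where
  Q := Q
  H := H
  K0 := K0
  Mc := Mc
  Y := Y
  caps := caps
  cb := cb
  F := fun b => fsmF h t0 J (cl b) g

/-- LEAF L-257-SM-W: the time weight -/
theorem fsm_Wt_props {h : ℝ} (hh : 0 < h) (t0 : ℝ) (J : ℕ) : Continuous (fsmWt h t0 J) ∧ (∀ t, 0 < fsmWt h t0 J t) ∧ (∀ t, fsmWt h t0 J t ≤ 1) := by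
  have h1 : ∀ t : ℝ, 1 ≤ 1 + (t - t0) ^ 2 / h ^ 4 := by
    intro t
    have : 0 ≤ (t - t0) ^ 2 / h ^ 4 := by positivity
    linarith
  refine ⟨?_, fun t => ?_, fun t => ?_⟩
  · unfold fsmWt
    refine Continuous.inv₀ (by fun_prop) fun t => ?_
    have := h1 t
    positivity
  · unfold fsmWt
    have := h1 t
    positivity
  · unfold fsmWt
    exact inv_le_one_of_one_le₀ (one_le_pow₀ (h1 t))

/-- the weight in the native variable -/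
theorem fsm_Wt_eq (h t0 : ℝ) (J : ℕ) (t : ℝ) : fsmWt h t0 J t = ((1 + ((t - t0) / h ^ 2) ^ 2) ^ J)⁻¹ := by
  unfold fsmWt
  rw [div_pow, ← pow_mul]

/-- LEAF L-257-SM-W: `∫ w_h ≤ π h²` for `J ≥ 1` (`integral_univ_inv_one_add_sq`) -/
theorem fsm_Wt_integral {h : ℝ} (hh : 0 < h) (t0 : ℝ) {J : ℕ} (hJ : 1 ≤ J) : Integrable (fsmWt h t0 J) ∧ ∫ t, fsmWt h t0 J t ≤ Real.pi * h ^ 2 := by
  have hh2 : 0 < h ^ 2 := by positivity
  have hi0 : Integrable (fun t : ℝ => (1 + ((t - t0) / h ^ 2) ^ 2)⁻¹) := by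
    have h1 : Integrable (fun t : ℝ => (1 + (t / h ^ 2) ^ 2)⁻¹) := integrable_inv_one_add_sq.comp_div hh2.ne'
    exact h1.comp_sub_right t0
  have hle : ∀ t, fsmWt h t0 J t ≤ (1 + ((t - t0) / h ^ 2) ^ 2)⁻¹ := by
    intro t
    rw [fsm_Wt_eq h]
    have h1 : 1 ≤ 1 + ((t - t0) / h ^ 2) ^ 2 := by
      have : 0 ≤ ((t - t0) / h ^ 2) ^ 2 := by positivity
      linarith
    refine inv_anti₀ (by positivity) ?_
    exact le_self_pow₀ h1 (by omega)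
  obtain ⟨hc, hp, -⟩ := fsm_Wt_props hh t0 J
  have hi : Integrable (fsmWt h t0 J) := by
    refine hi0.mono hc.aestronglyMeasurable (Filter.Eventually.of_forall fun t => ?_)
    rw [Real.norm_eq_abs, abs_of_pos (hp t), Real.norm_eq_abs]
    exact (hle t).trans (le_abs_self _)
  refine ⟨hi, (integral_mono hi hi0 hle).trans (le_of_eq ?_)⟩
  rw [integral_sub_right_eq_self (fun t : ℝ => (1 + (t / h ^ 2) ^ 2)⁻¹) t0, Measure.integral_comp_div (fun t : ℝ => (1 + t ^ 2)⁻¹) (h ^ 2),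
    integral_univ_inv_one_add_sq, abs_of_pos hh2, smul_eq_mul, mul_comm]

/-- `log (1 + t²)` is `1`-Lipschitz -/
theorem fsm_Wt_aux (a b : ℝ) : 1 + a ^ 2 ≤ Real.exp |a - b| * (1 + b ^ 2) := by
  have hpos : ∀ x : ℝ, 0 < 1 + x ^ 2 := fun x => by positivity
  have hd : ∀ x : ℝ, HasDerivAt (fun x : ℝ => Real.log (1 + x ^ 2)) ((2 * x) / (1 + x ^ 2)) x := by
    intro x
    have h1 : HasDerivAt (fun x : ℝ => 1 + x ^ 2) (2 * x) x := by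
      have := (hasDerivAt_pow 2 x).const_add 1
      simpa using this
    exact h1.log (hpos x).ne'
  have hb : ∀ x ∈ (univ : Set ℝ), ‖deriv (fun x : ℝ => Real.log (1 + x ^ 2)) x‖ ≤ 1 := by
    intro x _
    rw [(hd x).deriv, Real.norm_eq_abs, abs_div, abs_of_pos (hpos x), div_le_one (hpos x), abs_le]
    constructor <;> nlinarith [sq_nonneg (x - 1), sq_nonneg (x + 1)]
  have h := Convex.norm_image_sub_le_of_norm_deriv_le (fun x _ => (hd x).differentiableAt) hb convex_univ (mem_univ b) (mem_univ a)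
  rw [one_mul, Real.norm_eq_abs, Real.norm_eq_abs] at h
  have h2 : Real.log (1 + a ^ 2) ≤ |a - b| + Real.log (1 + b ^ 2) := by
    have := le_abs_self (Real.log (1 + a ^ 2) - Real.log (1 + b ^ 2))
    linarith
  calc 1 + a ^ 2 = Real.exp (Real.log (1 + a ^ 2)) := (Real.exp_log (hpos a)).symm
    _ ≤ Real.exp (|a - b| + Real.log (1 + b ^ 2)) := Real.exp_le_exp.2 h2
    _ = Real.exp |a - b| * (1 + b ^ 2) := by rw [Real.exp_add, Real.exp_log (hpos b)]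

/-- LEAF L-257-SM-W: `|w_h'| ≤ J h^{-2} w_h`, integrated (`1 + a² ≤ e^{|δ|} (1 + (a+δ)²)`; e.g. `fsm_gronwall`) -/
theorem fsm_Wt_har {h : ℝ} (hh : 0 < h) (t0 : ℝ) (J : ℕ) (t s : ℝ) : fsmWt h t0 J (t + s) ≤ Real.exp (J / h ^ 2 * |s|) * fsmWt h t0 J t := by
  have hh2 : 0 < h ^ 2 := by positivity
  rw [fsm_Wt_eq h, fsm_Wt_eq h]
  set a : ℝ := (t - t0) / h ^ 2 with ha
  set b : ℝ := (t + s - t0) / h ^ 2 with hb
  have hab : |a - b| = |s| / h ^ 2 := by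
    have : a - b = -s / h ^ 2 := by
      rw [ha, hb]
      ring
    rw [this, abs_div, abs_neg, abs_of_pos hh2]
  have h1 := fsm_Wt_aux a b
  have h2 : (1 + a ^ 2) ^ J ≤ Real.exp (J / h ^ 2 * |s|) * (1 + b ^ 2) ^ J := by
    calc (1 + a ^ 2) ^ J ≤ (Real.exp |a - b| * (1 + b ^ 2)) ^ J := pow_le_pow_left₀ (by positivity) h1 J
      _ = Real.exp (J / h ^ 2 * |s|) * (1 + b ^ 2) ^ J := by
        rw [mul_pow, ← Real.exp_nat_mul, hab]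
        congr 2
        ring
  have pa : 0 < (1 + a ^ 2) ^ J := by positivity
  have pb : 0 < (1 + b ^ 2) ^ J := by positivity
  rw [← div_eq_mul_inv, le_div_iff₀ pa, mul_comm, ← div_eq_mul_inv, div_le_iff₀ pb]
  exact h2

/-- data are integrable -/
theorem fsm_dat_int {R : ℝ} {g : E k → ℂ} (hg : Dat R g) : Integrable g := by
  have h1 : MemLp g 1 (volume.restrict (closedBall (0 : E k) R)) := by
    have : IsFiniteMeasure (volume.restrict (closedBall (0 : E k) R)) :=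
      ⟨by rw [Measure.restrict_apply_univ]; exact (isCompact_closedBall (0 : E k) R).measure_lt_top⟩
    exact (hg.l2.restrict _).mono_exponent (by norm_num)
  have h2 : IntegrableOn g (closedBall (0 : E k) R) := memLp_one_iff_integrable.1 h1
  refine (integrableOn_iff_integrable_of_support_subset ?_).1 h2
  intro ξ hξ
  rw [mem_closedBall, dist_zero_right]
  exact hg.supp ξ hξ

open scoped FourierTransform in
/-- LEAF L-257-SM-L2: spatial unitarity (`ext g (·,t) = ` rescaled `𝓕⁻` of `e^{-it|ξ|²} g`; `inf_str_pl_plancherel_inv` of `Infra/Str/L2.lean`) -/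
theorem fsm_ext_l2 {R : ℝ} {g : E k → ℂ} (hg : Dat R g) (t : ℝ) :
    Integrable (fun y : E k => ‖ext g (y, t)‖ ^ 2) ∧ ∫ y : E k, ‖ext g (y, t)‖ ^ 2 = (2 * Real.pi) ^ k * ∫ ξ, ‖g ξ‖ ^ 2 := by
  have hpi : (0 : ℝ) < 2 * Real.pi := by positivity
  set G : E k → ℂ := fun ξ => Complex.exp (Complex.I * ((-(t * ‖ξ‖ ^ 2) : ℝ) : ℂ)) * g ξ with hG
  have hn : ∀ ξ, ‖G ξ‖ = ‖g ξ‖ := by
    intro ξ
    rw [hG]
    simp only
    rw [norm_mul, mul_comm Complex.I, Complex.norm_exp_ofReal_mul_I, one_mul]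
  have hGm : AEStronglyMeasurable G volume := by
    refine AEStronglyMeasurable.mul ?_ hg.meas.aestronglyMeasurable
    refine Continuous.aestronglyMeasurable ?_
    fun_prop
  have hG1 : Integrable G := (fsm_dat_int hg).mono hGm (Filter.Eventually.of_forall fun ξ => (hn ξ).le)
  have hG2 : MemLp G 2 volume := hg.l2.mono hGm (Filter.Eventually.of_forall fun ξ => (hn ξ).le)
  obtain ⟨h2, he⟩ := inf_str_pl_plancherel_inv hG1 hG2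
  have e1 : ∀ y : E k, ext g (y, t) = 𝓕⁻ G ((2 * Real.pi)⁻¹ • y) := by
    intro y
    rw [Real.fourierInv_eq]
    unfold ext
    refine integral_congr_ae (Filter.Eventually.of_forall fun ξ => ?_)
    simp only [hG, car, Circle.smul_def, smul_eq_mul, Real.fourierChar_apply, inner_smul_right]
    rw [← mul_assoc, ← Complex.exp_add]
    congr 2
    rw [real_inner_comm]
    push_cast
    field_simp
    ring
  have hi : Integrable (fun η : E k => ‖𝓕⁻ G η‖ ^ 2) := MemLp.integrable_norm_pow (p := 2) (by exact_mod_cast h2) (by norm_num)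
  simp only [e1]
  refine ⟨(integrable_comp_smul_iff volume (fun η : E k => ‖𝓕⁻ G η‖ ^ 2) (inv_ne_zero hpi.ne')).2 hi, ?_⟩
  rw [Measure.integral_comp_smul volume (fun η : E k => ‖𝓕⁻ G η‖ ^ 2) (2 * Real.pi)⁻¹, finrank_euclideanSpace_fin, he, smul_eq_mul,
    inv_pow, inv_inv, abs_of_pos (by positivity)]
  simp only [hn]

/-- LEAF L-257-SM-F: regularity and energy of the auxiliary densities (`inf_ext_continuous`, `inf_ext_bound`, `fsm_ext_l2`, `fsm_Wt_integral`, Tonelli) -/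
theorem fsm_F_reg {ι : Type} {h : ℝ} (hh : 0 < h) (t0 : ℝ) {J : ℕ} (hJ : 1 ≤ J) (s : Finset ι) (g : ι → E k → ℂ) {R : ℝ} (hg : ∀ v ∈ s, Dat R (g v)) :
    fsmBC (fsmF h t0 J s g) ∧ (∀ z, 0 ≤ fsmF h t0 J s g z) ∧ Integrable (fsmF h t0 J s g) ∧
      ∫ z, fsmF h t0 J s g z ≤ Real.pi * (2 * Real.pi) ^ k * (h ^ 2 * ∑ v ∈ s, ∫ ξ, ‖g v ξ‖ ^ 2) := by
  obtain ⟨hWc, hWp, hW1⟩ := fsm_Wt_props hh t0 J
  obtain ⟨hWi, hWint⟩ := fsm_Wt_integral hh t0 hJ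
  have hSc : Continuous fun z : ST k => ∑ v ∈ s, ‖ext (g v) z‖ ^ 2 :=
    continuous_finsetSum s fun v hv => (inf_ext_continuous (hg v hv)).norm.pow 2
  have hFc : Continuous (fsmF h t0 J s g) := by
    unfold fsmF
    exact (hWc.comp continuous_snd).mul hSc
  have hS0 : ∀ z : ST k, 0 ≤ ∑ v ∈ s, ‖ext (g v) z‖ ^ 2 := fun z => Finset.sum_nonneg fun v _ => by positivity
  have hF0 : ∀ z, 0 ≤ fsmF h t0 J s g z := fun z => mul_nonneg (hWp _).le (hS0 z)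
  obtain ⟨c, hc⟩ : ∃ c : ℝ, c = (2 * Real.pi) ^ k * ∑ v ∈ s, ∫ ξ, ‖g v ξ‖ ^ 2 := ⟨_, rfl⟩
  have hc0 : 0 ≤ c := by
    rw [hc]
    exact mul_nonneg (by positivity) (Finset.sum_nonneg fun v _ => integral_nonneg fun ξ => by positivity)
  have hsl : ∀ t : ℝ, Integrable (fun y : E k => fsmF h t0 J s g (y, t)) := fun t => by
    exact (integrable_finsetSum s fun v hv => (fsm_ext_l2 (hg v hv) t).1).const_mul (fsmWt h t0 J t)
  have hsli : ∀ t : ℝ, ∫ y : E k, fsmF h t0 J s g (y, t) = fsmWt h t0 J t * c := by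
    intro t
    show ∫ y : E k, fsmWt h t0 J t * ∑ v ∈ s, ‖ext (g v) (y, t)‖ ^ 2 = fsmWt h t0 J t * c
    rw [integral_const_mul, integral_finsetSum s fun v hv => (fsm_ext_l2 (hg v hv) t).1, hc, Finset.mul_sum (a := (2 * Real.pi) ^ k)]
    congr 1
    exact Finset.sum_congr rfl fun v hv => (fsm_ext_l2 (hg v hv) t).2
  have hFi : Integrable (fsmF h t0 J s g) := by
    rw [Measure.volume_eq_prod, integrable_prod_iff' hFc.aestronglyMeasurable]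
    refine ⟨Filter.Eventually.of_forall hsl, ?_⟩
    have e : (fun t : ℝ => ∫ y : E k, ‖fsmF h t0 J s g (y, t)‖) = fun t => fsmWt h t0 J t * c := by
      funext t
      rw [← hsli t]
      exact integral_congr_ae (Filter.Eventually.of_forall fun y => Real.norm_of_nonneg (hF0 _))
    rw [e]
    exact hWi.mul_const c
  refine ⟨⟨hFc, ∑ v ∈ s, (Real.sqrt (volume (closedBall (0 : E k) R)).toReal * (eLpNorm (g v) 2 volume).toReal) ^ 2, fun z => ?_⟩, hF0, hFi, ?_⟩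
  · rw [abs_of_nonneg (hF0 z)]
    unfold fsmF
    calc fsmWt h t0 J z.2 * ∑ v ∈ s, ‖ext (g v) z‖ ^ 2 ≤ 1 * ∑ v ∈ s, ‖ext (g v) z‖ ^ 2 := mul_le_mul_of_nonneg_right (hW1 _) (hS0 z)
      _ = ∑ v ∈ s, ‖ext (g v) z‖ ^ 2 := one_mul _
      _ ≤ _ := Finset.sum_le_sum fun v hv => pow_le_pow_left₀ (norm_nonneg _) (inf_ext_bound (hg v hv) z) 2
  · have hFi' := hFi
    rw [Measure.volume_eq_prod] at hFi' ⊢
    rw [integral_prod_symm _ hFi']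
    simp only [hsli]
    rw [integral_mul_const]
    calc (∫ t, fsmWt h t0 J t) * c ≤ (Real.pi * h ^ 2) * c := mul_le_mul_of_nonneg_right hWint hc0
      _ = _ := by rw [hc]; ring

theorem fsm_HF_ext_bc {R : ℝ} {g : E k → ℂ} (hg : Dat R g) : fsmBC fun z : ST k => ‖ext g z‖ ^ 2 :=
  ⟨(inf_ext_continuous hg).norm.pow 2, (Real.sqrt (volume (closedBall (0 : E k) R)).toReal * (eLpNorm g 2 volume).toReal) ^ 2, fun z => by
    rw [abs_of_nonneg (by positivity)]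
    exact pow_le_pow_left₀ (norm_nonneg _) (inf_ext_bound hg z) 2⟩

theorem fsm_HF_bc {ι : Type} {h : ℝ} (hh : 0 < h) (t0 : ℝ) (J : ℕ) (s : Finset ι) (g : ι → E k → ℂ) {R : ℝ} (hg : ∀ v ∈ s, Dat R (g v)) :
    fsmBC (fsmF h t0 J s g) := by
  obtain ⟨hWc, hWp, hW1⟩ := fsm_Wt_props hh t0 J
  obtain ⟨hSc, B, hB⟩ := fsm_bc_sum s (f := fun v (z : ST k) => ‖ext (g v) z‖ ^ 2) fun v hv => fsm_HF_ext_bc (hg v hv)
  refine ⟨?_, B, fun z => ?_⟩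
  · unfold fsmF
    exact (hWc.comp continuous_snd).mul hSc
  · unfold fsmF
    rw [abs_mul, abs_of_pos (hWp _)]
    calc fsmWt h t0 J z.2 * |∑ v ∈ s, ‖ext (g v) z‖ ^ 2| ≤ 1 * |∑ v ∈ s, ‖ext (g v) z‖ ^ 2| := mul_le_mul_of_nonneg_right (hW1 _) (abs_nonneg _)
      _ = |∑ v ∈ s, ‖ext (g v) z‖ ^ 2| := one_mul _
      _ ≤ B := hB z

theorem fsm_HF_eq {Q : ℕ} (hQ : k < Q) {K : ℝ} (hK : 0 < K) {ι : Type} {h : ℝ} (hh : 0 < h) (t0 : ℝ) (J : ℕ) (s : Finset ι) (g : ι → E k → ℂ) {R : ℝ} (hg : ∀ v ∈ s, Dat R (g v))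
    (z : ST k) : fsmCv (fsmSx (fsmJm Q K)) (fsmF h t0 J s g) z = fsmWt h t0 J z.2 * ∑ v ∈ s, fsmPsi Q K (g v) z.1 z.2 := by
  rw [fsm_cv_jm hQ hK (fsm_HF_bc hh t0 J s g hg)]
  unfold fsmPsi
  rw [← integral_finsetSum s fun v hv => fsm_KJ_int hQ hK (fsm_HF_ext_bc (hg v hv)) z.1 z.2, ← integral_const_mul]
  refine integral_congr_ae (Filter.Eventually.of_forall fun y => ?_)
  show fsmJ Q K (z.1 - y) * (fsmWt h t0 J z.2 * ∑ v ∈ s, ‖ext (g v) (y, z.2)‖ ^ 2) = fsmWt h t0 J z.2 * ∑ v ∈ s, fsmJ Q K (z.1 - y) * ‖ext (g v) (y, z.2)‖ ^ 2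
  rw [← Finset.mul_sum]
  ring

/-- LEAF L-257-SM-HF: **Harnack for the auxiliary densities** (`fsm_cv_jm`: `cv (sx (jm Q K)) F z = w_h(z.2) ∑_v fsmPsi Q K (g v) z.1 z.2`; `fsm_har_cap`, `fsm_Wt_har`, `H K ≤ h²`) -/
theorem fsm_harnack (k Q J : ℕ) (hQ : k < Q) (C0 : ℝ) (hC0 : 0 ≤ C0) : ∃ cH : ℝ, 0 ≤ cH ∧ ∀ {ι : Type} (H K h t0 : ℝ) (b : E k) (s : Finset ι) (g : ι → E k → ℂ),
    1 ≤ H → H ≤ K → K ≤ h → (∀ v ∈ s, Measurable (g v)) → (∀ v ∈ s, MemLp (g v) 2 volume) → (∀ v ∈ s, ∀ ξ, g v ξ ≠ 0 → ‖ξ - b‖ ≤ C0 / H) →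
    fsmHar b (cH / (H * K)) (fsmCv (fsmSx (fsmJm Q K)) (fsmF h t0 J s g)) := by
  obtain ⟨c, hc0, hc⟩ := fsm_har_cap k Q hQ C0 hC0
  refine ⟨J + c, by positivity, ?_⟩
  intro ι H K h t0 b s g hH hHK hKh hgm hg2 hsupp z r
  have hH0 : 0 < H := by linarith
  have hK0 : 0 < K := by linarith
  have hh0 : 0 < h := by linarith
  have hdat : ∀ v ∈ s, Dat (C0 / H + ‖b‖) (g v) := by
    intro v hv
    refine ⟨hgm v hv, fun ξ hξ => ?_, hg2 v hv⟩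
    calc ‖ξ‖ = ‖(ξ - b) + b‖ := by rw [sub_add_cancel]
      _ ≤ ‖ξ - b‖ + ‖b‖ := norm_add_le _ _
      _ ≤ C0 / H + ‖b‖ := add_le_add (hsupp v hv ξ hξ) le_rfl
  rw [fsm_HF_eq hQ hK0 hh0 t0 J s g hdat, fsm_HF_eq hQ hK0 hh0 t0 J s g hdat]
  show fsmWt h t0 J (z.2 + r) * ∑ v ∈ s, fsmPsi Q K (g v) (z.1 + r • ((2 : ℝ) • b)) (z.2 + r) ≤ _
  obtain ⟨hWc, hWp, hW1⟩ := fsm_Wt_props hh0 t0 J
  have hPsi0 : ∀ v x t, 0 ≤ fsmPsi Q K (g v) x t := fun v x t => integral_nonneg fun y => mul_nonneg (fsm_J_pos hQ hK0 _).le (by positivity)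
  have h1 := fsm_Wt_har hh0 t0 J z.2 r
  have h2 : ∑ v ∈ s, fsmPsi Q K (g v) (z.1 + r • ((2 : ℝ) • b)) (z.2 + r) ≤ Real.exp (c / (H * K) * |r|) * ∑ v ∈ s, fsmPsi Q K (g v) z.1 z.2 := by
    rw [Finset.mul_sum]
    exact Finset.sum_le_sum fun v hv => hc H K b (g v) hH hHK (hgm v hv) (hg2 v hv) (hsupp v hv) z.1 z.2 r
  have h3 : Real.exp (J / h ^ 2 * |r|) ≤ Real.exp (J / (H * K) * |r|) := by
    refine Real.exp_le_exp.2 (mul_le_mul_of_nonneg_right ?_ (abs_nonneg r))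
    refine div_le_div_of_nonneg_left (Nat.cast_nonneg J) (by positivity) ?_
    nlinarith
  have hS0 : 0 ≤ ∑ v ∈ s, fsmPsi Q K (g v) z.1 z.2 := Finset.sum_nonneg fun v _ => hPsi0 v _ _
  calc fsmWt h t0 J (z.2 + r) * ∑ v ∈ s, fsmPsi Q K (g v) (z.1 + r • ((2 : ℝ) • b)) (z.2 + r)
      ≤ (Real.exp (J / (H * K) * |r|) * fsmWt h t0 J z.2) * (Real.exp (c / (H * K) * |r|) * ∑ v ∈ s, fsmPsi Q K (g v) z.1 z.2) := by
        refine mul_le_mul (h1.trans (mul_le_mul_of_nonneg_right h3 (hWp _).le)) h2 (Finset.sum_nonneg fun v _ => hPsi0 v _ _) ?_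
        exact mul_nonneg (Real.exp_pos _).le (hWp _).le
    _ = Real.exp ((J + c) / (H * K) * |r|) * (fsmWt h t0 J z.2 * ∑ v ∈ s, fsmPsi Q K (g v) z.1 z.2) := by
        have : Real.exp ((J + c) / (H * K) * |r|) = Real.exp (J / (H * K) * |r|) * Real.exp (c / (H * K) * |r|) := by
          rw [← Real.exp_add]
          congr 1
          ring
        rw [this]
        ring

theorem fsm_GR_ker {Q Qg : ℕ} (hQ : Qg ≤ Q) {KN h : ℝ} (hKN : 0 < KN) (h1 : KN ≤ h) (h2 : h < 2 * KN) (u a : E k) :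
    fsmJ Q KN (-u - a) ≤ (∫ y : E k, fsmW Q y)⁻¹ * 2 ^ k * 2 ^ Qg * (1 + ‖a‖ / KN) ^ Qg * ((h ^ k)⁻¹ * fsmW Qg (h⁻¹ • u)) := by
  have hh : 0 < h := by linarith
  have hc0 : 0 ≤ (∫ y : E k, fsmW Q y)⁻¹ := inv_nonneg.2 (integral_nonneg fun y => (fsm_W_pos Q y).le)
  have e0 : -u - a = -(u + a) := by abel
  rw [e0, fsm_J_neg]
  unfold fsmJ
  have s1 : fsmW Q (KN⁻¹ • (u + a)) ≤ 2 ^ Qg * (1 + ‖a‖ / KN) ^ Qg * fsmW Qg (h⁻¹ • u) := by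
    have t1 := fsm_W_anti hQ (KN⁻¹ • (u + a))
    have t2 := fsm_W_peetre Qg (KN⁻¹ • u) (-(KN⁻¹ • a))
    rw [sub_neg_eq_add, ← smul_add, norm_neg, norm_smul, Real.norm_of_nonneg (by positivity), inv_mul_eq_div] at t2
    have t3 : fsmW Qg (KN⁻¹ • u) ≤ fsmW Qg (h⁻¹ • u) := by
      refine fsm_W_anti_norm Qg ?_
      rw [norm_smul, norm_smul, Real.norm_of_nonneg (by positivity), Real.norm_of_nonneg (by positivity)]
      exact mul_le_mul_of_nonneg_right (inv_anti₀ hKN h1) (norm_nonneg u)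
    exact t1.trans (t2.trans (mul_le_mul_of_nonneg_left t3 (by positivity)))
  have s2 : (KN ^ k)⁻¹ ≤ 2 ^ k * (h ^ k)⁻¹ := by
    rw [← div_eq_mul_inv, le_div_iff₀ (by positivity), inv_mul_le_iff₀ (by positivity), ← mul_pow, mul_comm]
    exact pow_le_pow_left₀ hh.le h2.le k
  have hW0 := (fsm_W_pos Qg (h⁻¹ • u)).le
  calc (∫ y : E k, fsmW Q y)⁻¹ * (KN ^ k)⁻¹ * fsmW Q (KN⁻¹ • (u + a))
      ≤ (∫ y : E k, fsmW Q y)⁻¹ * (2 ^ k * (h ^ k)⁻¹) * (2 ^ Qg * (1 + ‖a‖ / KN) ^ Qg * fsmW Qg (h⁻¹ • u)) := by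
        refine mul_le_mul (mul_le_mul_of_nonneg_left s2 hc0) s1 (fsm_W_pos _ _).le (mul_nonneg hc0 (by positivity))
    _ = _ := by ring

theorem fsm_GR_psi {Q Qg : ℕ} (hQ : Qg ≤ Q) (hkQ : k < Q) {KN h : ℝ} (hKN : 0 < KN) (h1 : KN ≤ h) (h2 : h < 2 * KN) {R : ℝ} {g : E k → ℂ} (hg : Dat R g) (x c a : E k) (t : ℝ) :
    fsmPsi Q KN g (x - a - c) t ≤ (∫ y : E k, fsmW Q y)⁻¹ * 2 ^ k * 2 ^ Qg * (1 + ‖a‖ / KN) ^ Qg * ((h ^ k)⁻¹ * ∫ y : E k, fsmW Qg (h⁻¹ • (y - x + c)) * ‖ext g (y, t)‖ ^ 2) := by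
  unfold fsmPsi
  have hi : Integrable fun y : E k => fsmW Qg (h⁻¹ • (y - x + c)) * ‖ext g (y, t)‖ ^ 2 := by
    refine (fsm_ext_l2 hg t).1.bdd_mul (c := 1) ?_ (Filter.Eventually.of_forall fun y => ?_)
    · exact ((fsm_W_continuous Qg).comp (by fun_prop : Continuous fun y : E k => h⁻¹ • (y - x + c))).aestronglyMeasurable
    · rw [Real.norm_of_nonneg (fsm_W_pos _ _).le]
      exact fsm_W_le_one _ _
  rw [← integral_const_mul, ← integral_const_mul]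
  refine integral_mono (fsm_KJ_int hkQ hKN (fsm_HF_ext_bc hg) _ t) ((hi.const_mul _).const_mul _) fun y => ?_
  have e : x - a - c - y = -(y - x + c) - a := by abel
  show fsmJ Q KN (x - a - c - y) * ‖ext g (y, t)‖ ^ 2 ≤ _ * ((h ^ k)⁻¹ * (fsmW Qg (h⁻¹ • (y - x + c)) * ‖ext g (y, t)‖ ^ 2))
  rw [e]
  have := mul_le_mul_of_nonneg_right (fsm_GR_ker hQ hKN h1 h2 (y - x + c) a) (by positivity : 0 ≤ ‖ext g (y, t)‖ ^ 2)
  refine this.trans (le_of_eq ?_)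
  ring

/-- LEAF L-257-SM-GR: **the top bound from the Gram hypothesis.**   `j^{(Q)}_{K_N}(u + a) ≤ c_Q K_N^{-k} W_{Qg}((u + a)/K_N) ≤ c_Q 2^{Qg} (1 + |a|/K_N)^{Qg} 2^k h^{-k} W_{Qg}(u/h)`
(`fsm_W_anti`, `fsm_W_peetre`, `fsm_W_anti_norm`, `h < 2 K_N`), `w_h ≤ 1`, `τ = -s`. -/
theorem fsm_top_of_gram (k Q Qg : ℕ) (hQg : Qg + k < Q) : ∃ C : ℝ, 0 ≤ C ∧ ∀ {β ι : Type} (J M1 : ℕ) (C0 Rc H h K0 t0 Mc Cs N0 N1 G0 : ℝ) (Y : Finset (ST k)) (caps : Finset β)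
    (cb : β → E k) (cl : β → Finset ι) (g : ι → E k → ℂ) (N : ℕ), SmHyp Qg M1 C0 Rc H h K0 Mc Cs N0 N1 G0 Y caps cb cl g → 2 ^ N * K0 ≤ h → h < 2 ^ (N + 1) * K0 →
    (fsmSys Q H h K0 t0 Mc J Y caps cb cl g).Top N (C * G0) M1 Qg := by
  have hc0 : 0 ≤ (∫ y : E k, fsmW Q y)⁻¹ := inv_nonneg.2 (integral_nonneg fun y => (fsm_W_pos Q y).le)
  refine ⟨(∫ y : E k, fsmW Q y)⁻¹ * 2 ^ k * 2 ^ Qg, by positivity, ?_⟩
  intro β ι J M1 C0 Rc H h K0 t0 Mc Cs N0 N1 G0 Y caps cb cl g N hyp hN1 hN2 z hz a s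
  have hH0 : 0 < H := by linarith [hyp.hH]
  have hK0 : 0 < K0 := by linarith [hyp.hH, hyp.hK]
  have hh0 : 0 < h := by linarith [hyp.hh]
  obtain ⟨KN, hKNdef⟩ : ∃ KN : ℝ, KN = 2 ^ N * K0 := ⟨_, rfl⟩
  have hKN : 0 < KN := by rw [hKNdef]; positivity
  have h1 : KN ≤ h := by rw [hKNdef]; exact hN1
  have h2 : h < 2 * KN := by
    rw [hKNdef, ← mul_assoc, ← pow_succ']
    exact hN2
  have hdat : ∀ b ∈ caps, ∀ v ∈ cl b, Dat (C0 / H + Rc) (g v) := by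
    intro b hb v hv
    refine ⟨hyp.meas b hb v hv, fun ξ hξ => ?_, hyp.l2 b hb v hv⟩
    have h1 := hyp.supp b hb v hv ξ hξ
    have h2 := hyp.cb_le b hb
    calc ‖ξ‖ = ‖(ξ - cb b) + cb b‖ := by rw [sub_add_cancel]
      _ ≤ ‖ξ - cb b‖ + ‖cb b‖ := norm_add_le _ _
      _ ≤ C0 / H + Rc := add_le_add h1 h2
  show ∑ b ∈ caps, fsmCv (fsmSx (fsmJm Q (2 ^ N * K0))) (fsmF h t0 J (cl b) g) (z - ((a, (0 : ℝ)) + fsmDir (cb b) s))
    ≤ (∫ y : E k, fsmW Q y)⁻¹ * 2 ^ k * 2 ^ Qg * G0 * (1 + ‖a‖ / (2 ^ N * K0)) ^ Qg * (1 + |s| / (H * (2 ^ N * K0))) ^ M1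
  rw [← hKNdef]
  obtain ⟨hWc, hWp, hW1⟩ := fsm_Wt_props hh0 t0 J
  have hPsi0 : ∀ v x t, 0 ≤ fsmPsi Q KN (g v) x t := fun v x t => integral_nonneg fun y => mul_nonneg (fsm_J_pos (by omega) hKN _).le (by positivity)
  have hb : ∀ b ∈ caps, fsmCv (fsmSx (fsmJm Q KN)) (fsmF h t0 J (cl b) g) (z - ((a, (0 : ℝ)) + fsmDir (cb b) s)) ≤
      (∫ y : E k, fsmW Q y)⁻¹ * 2 ^ k * 2 ^ Qg * (1 + ‖a‖ / KN) ^ Qg *
        ((h ^ k)⁻¹ * ∑ v ∈ cl b, ∫ x : E k, fsmW Qg (h⁻¹ • (x - z.1 - (-s) • ((2 : ℝ) • cb b))) * ‖ext (g v) (x, z.2 + -s)‖ ^ 2) := by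
    intro b hb
    rw [fsm_HF_eq (by omega) hKN hh0 t0 J (cl b) g (hdat b hb)]
    have e1 : (z - ((a, (0 : ℝ)) + fsmDir (cb b) s)).1 = z.1 - a - s • ((2 : ℝ) • cb b) := by
      show z.1 - (a + s • ((2 : ℝ) • cb b)) = _
      abel
    have e2 : (z - ((a, (0 : ℝ)) + fsmDir (cb b) s)).2 = z.2 + -s := by
      show z.2 - (0 + s) = _
      ring
    rw [e1, e2]
    calc fsmWt h t0 J (z.2 + -s) * ∑ v ∈ cl b, fsmPsi Q KN (g v) (z.1 - a - s • ((2 : ℝ) • cb b)) (z.2 + -s)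
        ≤ 1 * ∑ v ∈ cl b, fsmPsi Q KN (g v) (z.1 - a - s • ((2 : ℝ) • cb b)) (z.2 + -s) :=
          mul_le_mul_of_nonneg_right (hW1 _) (Finset.sum_nonneg fun v _ => hPsi0 v _ _)
      _ = ∑ v ∈ cl b, fsmPsi Q KN (g v) (z.1 - a - s • ((2 : ℝ) • cb b)) (z.2 + -s) := one_mul _
      _ ≤ ∑ v ∈ cl b, (∫ y : E k, fsmW Q y)⁻¹ * 2 ^ k * 2 ^ Qg * (1 + ‖a‖ / KN) ^ Qg *
            ((h ^ k)⁻¹ * ∫ x : E k, fsmW Qg (h⁻¹ • (x - z.1 + s • ((2 : ℝ) • cb b))) * ‖ext (g v) (x, z.2 + -s)‖ ^ 2) :=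
          Finset.sum_le_sum fun v hv => fsm_GR_psi (by omega) (by omega) hKN h1 h2 (hdat b hb v hv) z.1 (s • ((2 : ℝ) • cb b)) a (z.2 + -s)
      _ = _ := by
          rw [← Finset.mul_sum, ← Finset.mul_sum]
          simp only [neg_smul, sub_neg_eq_add]
  have hgram := hyp.gram z hz (-s)
  rw [abs_neg] at hgram
  have hG0 := hyp.hG0
  calc ∑ b ∈ caps, fsmCv (fsmSx (fsmJm Q KN)) (fsmF h t0 J (cl b) g) (z - ((a, (0 : ℝ)) + fsmDir (cb b) s))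
      ≤ ∑ b ∈ caps, (∫ y : E k, fsmW Q y)⁻¹ * 2 ^ k * 2 ^ Qg * (1 + ‖a‖ / KN) ^ Qg *
        ((h ^ k)⁻¹ * ∑ v ∈ cl b, ∫ x : E k, fsmW Qg (h⁻¹ • (x - z.1 - (-s) • ((2 : ℝ) • cb b))) * ‖ext (g v) (x, z.2 + -s)‖ ^ 2) := Finset.sum_le_sum hb
    _ = (∫ y : E k, fsmW Q y)⁻¹ * 2 ^ k * 2 ^ Qg * (1 + ‖a‖ / KN) ^ Qg *
        ((h ^ k)⁻¹ * ∑ b ∈ caps, ∑ v ∈ cl b, ∫ x : E k, fsmW Qg (h⁻¹ • (x - z.1 - (-s) • ((2 : ℝ) • cb b))) * ‖ext (g v) (x, z.2 + -s)‖ ^ 2) := by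
        rw [← Finset.mul_sum, ← Finset.mul_sum]
    _ ≤ (∫ y : E k, fsmW Q y)⁻¹ * 2 ^ k * 2 ^ Qg * (1 + ‖a‖ / KN) ^ Qg * (G0 * (1 + |s| / (H * h)) ^ M1) :=
        mul_le_mul_of_nonneg_left hgram (by positivity)
    _ ≤ (∫ y : E k, fsmW Q y)⁻¹ * 2 ^ k * 2 ^ Qg * (1 + ‖a‖ / KN) ^ Qg * (G0 * (1 + |s| / (H * KN)) ^ M1) := by
        refine mul_le_mul_of_nonneg_left (mul_le_mul_of_nonneg_left (pow_le_pow_left₀ (by positivity) ?_ M1) hG0) (by positivity)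
        have : |s| / (H * h) ≤ |s| / (H * KN) := div_le_div_of_nonneg_left (abs_nonneg s) (by positivity) (mul_le_mul_of_nonneg_left h1 hH0.le)
        linarith
    _ = _ := by ring

theorem fsm_SUM_q : (2 : ℝ) ^ (-(1 / 4 : ℝ)) ≤ 6 / 7 := by
  have h1 : ((6 / 7 : ℝ) ^ (4 : ℕ)) ^ (1 / 4 : ℝ) = 6 / 7 := by
    rw [← Real.rpow_natCast, ← Real.rpow_mul (by norm_num)]
    norm_num
  rw [← h1, Real.rpow_neg (by norm_num), ← Real.inv_rpow (by norm_num)]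
  exact Real.rpow_le_rpow (by norm_num) (by norm_num) (by norm_num)

/-- LEAF L-257-SM-SUM: the sum of the errors -/
theorem fsm_mu_sum {β : Type} (P : Sm k β) (hH : 1 ≤ P.H) (hK : P.H ≤ P.K0) (N : ℕ) :
    ∑ n ∈ Finset.range N, P.mu n ^ (-(1 / 4 : ℝ)) ≤ 7 * (P.K0 / P.H) ^ (-(1 / 4 : ℝ)) + N * P.H ^ (-(1 / 4 : ℝ)) := by
  have hH0 : 0 < P.H := by linarith
  have hK0 : 0 < P.K0 := by linarith
  have hx0 : 0 < P.K0 / P.H := by positivity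
  have hq0 : (0:ℝ) ≤ (2 : ℝ) ^ (-(1 / 4 : ℝ)) := by positivity
  have hterm : ∀ n, P.mu n ^ (-(1 / 4 : ℝ)) ≤ (6 / 7 : ℝ) ^ n * (P.K0 / P.H) ^ (-(1 / 4 : ℝ)) + P.H ^ (-(1 / 4 : ℝ)) := by
    intro n
    have h1 : 0 ≤ (6 / 7 : ℝ) ^ n * (P.K0 / P.H) ^ (-(1 / 4 : ℝ)) := by positivity
    have h2 : 0 ≤ P.H ^ (-(1 / 4 : ℝ)) := by positivity
    unfold Sm.mu
    rcases le_total P.H (P.K n / P.H) with h | h
    · rw [min_eq_left h]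
      linarith
    · rw [min_eq_right h]
      have e : P.K n / P.H = 2 ^ n * (P.K0 / P.H) := by
        unfold Sm.K
        ring
      rw [e, Real.mul_rpow (by positivity) hx0.le, ← Real.rpow_natCast 2 n, ← Real.rpow_mul (by norm_num), mul_comm (n : ℝ), Real.rpow_mul (by norm_num), Real.rpow_natCast]
      have h3 : ((2 : ℝ) ^ (-(1 / 4 : ℝ))) ^ n ≤ (6 / 7 : ℝ) ^ n := pow_le_pow_left₀ hq0 fsm_SUM_q n
      have h4 := mul_le_mul_of_nonneg_right h3 (by positivity : 0 ≤ (P.K0 / P.H) ^ (-(1 / 4 : ℝ)))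
      linarith
  refine (Finset.sum_le_sum fun n _ => hterm n).trans ?_
  rw [Finset.sum_add_distrib, ← Finset.sum_mul, Finset.sum_const, Finset.card_range, nsmul_eq_mul]
  refine add_le_add (mul_le_mul_of_nonneg_right ?_ (by positivity)) le_rfl
  rw [geom_sum_eq (by norm_num)]
  have : (0:ℝ) ≤ (6 / 7 : ℝ) ^ N := by positivity
  rw [div_le_iff_of_neg (by norm_num)]
  linarith

/-- LEAF L-257-SM-SUM: the number of steps (`N = ⌊logb 2 (h/K0)⌋₊`) -/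
theorem fsm_choose_N {K0 h : ℝ} (hK : 0 < K0) (hh : K0 ≤ h) : ∃ N : ℕ, 2 ^ N * K0 ≤ h ∧ h < 2 ^ (N + 1) * K0 ∧ (N : ℝ) ≤ 2 * Real.log (h / K0) := by
  have hx : 1 ≤ h / K0 := by rwa [le_div_iff₀ hK, one_mul]
  obtain ⟨N, h1, h2⟩ := exists_nat_pow_near hx (by norm_num : (1:ℝ) < 2)
  refine ⟨N, ?_, ?_, ?_⟩
  · rwa [le_div_iff₀ hK] at h1
  · rwa [div_lt_iff₀ hK] at h2
  · have h3 := Real.log_le_log (by positivity) h1
    rw [Real.log_pow] at h3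
    have h4 := Real.log_two_gt_d9
    have h5 : (N : ℝ) * (1 / 2) ≤ N * Real.log 2 := mul_le_mul_of_nonneg_left (by linarith) (Nat.cast_nonneg N)
    linarith

/-- LEAF L-257-SM-OK: the hypotheses of the abstract theorem -/
theorem fsm_sys_ok {Q Qg J M1 : ℕ} {C0 Rc cH : ℝ} (hk : 1 ≤ k) (hQ : k + 3 ≤ Q) (hJ : 1 ≤ J) (hRc : 1 ≤ Rc) (hcH : 0 ≤ cH)
    (hhar : ∀ {ι : Type} (H K h t0 : ℝ) (b : E k) (s : Finset ι) (g : ι → E k → ℂ),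
      1 ≤ H → H ≤ K → K ≤ h → (∀ v ∈ s, Measurable (g v)) → (∀ v ∈ s, MemLp (g v) 2 volume) → (∀ v ∈ s, ∀ ξ, g v ξ ≠ 0 → ‖ξ - b‖ ≤ C0 / H) →
      fsmHar b (cH / (H * K)) (fsmCv (fsmSx (fsmJm Q K)) (fsmF h t0 J s g)))
    {β ι : Type} {H h K0 Mc Cs N0 N1 G0 : ℝ} (t0 : ℝ) {Y : Finset (ST k)} {caps : Finset β} {cb : β → E k} {cl : β → Finset ι} {g : ι → E k → ℂ}
    (hyp : SmHyp Qg M1 C0 Rc H h K0 Mc Cs N0 N1 G0 Y caps cb cl g) {N : ℕ} (hN : 2 ^ N * K0 ≤ h) :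
    (fsmSys Q H h K0 t0 Mc J Y caps cb cl g).Ok N Rc Cs N0 (Real.pi * (2 * Real.pi) ^ k * N1) cH := by
  have hH0 : 0 < H := by linarith [hyp.hH]
  have hK0 : 0 < K0 := by linarith [hyp.hH, hyp.hK]
  have hh0 : 0 < h := by linarith [hyp.hh]
  have hdat : ∀ b ∈ caps, ∀ v ∈ cl b, Dat (C0 / H + Rc) (g v) := by
    intro b hb v hv
    refine ⟨hyp.meas b hb v hv, fun ξ hξ => ?_, hyp.l2 b hb v hv⟩
    have h1 := hyp.supp b hb v hv ξ hξ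
    have h2 := hyp.cb_le b hb
    calc ‖ξ‖ = ‖(ξ - cb b) + cb b‖ := by rw [sub_add_cancel]
      _ ≤ ‖ξ - cb b‖ + ‖cb b‖ := norm_add_le _ _
      _ ≤ C0 / H + Rc := add_le_add h1 h2
  have hreg := fun b (hb : b ∈ caps) => fsm_F_reg hh0 t0 hJ (cl b) g (hdat b hb)
  have hN1 := hyp.hN1
  refine ⟨hk, hQ, hyp.hH, hyp.hK, hyp.hMc, hyp.hCs, hyp.hN0, by positivity, hcH, hRc, hyp.cb_le, hyp.slab, hyp.ball,
    fun b hb => (hreg b hb).2.1, fun b hb => (hreg b hb).1, fun b hb => (hreg b hb).2.2.1, ?_, ?_⟩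
  · show ∑ b ∈ caps, ∫ z, fsmF h t0 J (cl b) g z ≤ Real.pi * (2 * Real.pi) ^ k * N1 * (H ^ (k + 2) * Y.card)
    calc ∑ b ∈ caps, ∫ z, fsmF h t0 J (cl b) g z ≤ ∑ b ∈ caps, Real.pi * (2 * Real.pi) ^ k * (h ^ 2 * ∑ v ∈ cl b, ∫ ξ, ‖g v ξ‖ ^ 2) :=
          Finset.sum_le_sum fun b hb => (hreg b hb).2.2.2
      _ = Real.pi * (2 * Real.pi) ^ k * (h ^ 2 * ∑ b ∈ caps, ∑ v ∈ cl b, ∫ ξ, ‖g v ξ‖ ^ 2) := by
          rw [← Finset.mul_sum, ← Finset.mul_sum]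
      _ ≤ Real.pi * (2 * Real.pi) ^ k * (N1 * (H ^ (k + 2) * Y.card)) := mul_le_mul_of_nonneg_left hyp.energy (by positivity)
      _ = _ := by ring
  · intro b hb n hn
    show fsmHar (cb b) (cH / (H * (2 ^ n * K0))) (fsmCv (fsmSx (fsmJm Q (2 ^ n * K0))) (fsmF h t0 J (cl b) g))
    have h2n : (1:ℝ) ≤ 2 ^ n := one_le_pow₀ (by norm_num)
    refine hhar H (2 ^ n * K0) h t0 (cb b) (cl b) g hyp.hH ?_ ?_ (hyp.meas b hb) (hyp.l2 b hb) (hyp.supp b hb)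
    · have := hyp.hK
      nlinarith
    · refine le_trans (mul_le_mul_of_nonneg_right (pow_le_pow_right₀ (by norm_num) hn) hK0.le) hN

/-- **CONTRACT of the block SM.** -/
theorem fsm_main (k Q Qg J M1 : ℕ) (C0 Rc : ℝ) (hk : 1 ≤ k) (hQ : k + 3 ≤ Q) (hQg : Qg + k < Q) (hJ : 1 ≤ J) (hC0 : 0 ≤ C0) (hRc : 1 ≤ Rc) :
    ∃ C : ℝ, 0 ≤ C ∧ ∀ {β ι : Type} (H h K0 t0 Mc Cs N0 N1 G0 : ℝ) (Y : Finset (ST k)) (caps : Finset β) (cb : β → E k)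
      (cl : β → Finset ι) (g : ι → E k → ℂ), SmHyp Qg M1 C0 Rc H h K0 Mc Cs N0 N1 G0 Y caps cb cl g →
      ∑ z ∈ Y, ∑ b ∈ caps, min (∫ y : E k, fsmJ Q K0 (z.1 - y) * fsmF h t0 J (cl b) g (y, z.2)) Mc
        ≤ C * (G0 + (Cs * (Mc * H ^ k) + Real.sqrt (Cs * N0 * N1 * (Mc * H ^ k))) * ((K0 / H) ^ (-(1 / 4 : ℝ)) + H ^ (-(1 / 4 : ℝ)) * (1 + Real.log (h / K0))))
          * Y.card := by
  obtain ⟨cH, hcH, hhar⟩ := fsm_harnack k Q J (by omega) C0 hC0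
  obtain ⟨CT, hCT, htop⟩ := fsm_top_of_gram k Q Qg hQg
  obtain ⟨CA, hCA, habs⟩ := fsm_abs k Q M1 Qg hQ hQg Rc cH hcH hRc
  set cF : ℝ := Real.pi * (2 * Real.pi) ^ k with hcF
  have hcF0 : 0 ≤ cF := by positivity
  refine ⟨CA * (CT + 7 + 7 * Real.sqrt cF), by positivity, ?_⟩
  intro β ι H h K0 t0 Mc Cs N0 N1 G0 Y caps cb cl g hyp
  have hH0 : 0 < H := by linarith [hyp.hH]
  have hK0 : 0 < K0 := by linarith [hyp.hH, hyp.hK]
  obtain ⟨N, hN1, hN2, hN3⟩ := fsm_choose_N hK0 hyp.hh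
  set P := fsmSys Q H h K0 t0 Mc J Y caps cb cl g with hP
  have hOk : P.Ok N Rc Cs N0 (cF * N1) cH := fsm_sys_ok hk hQ hJ hRc hcH hhar t0 hyp hN1
  have hTop : P.Top N (CT * G0) M1 Qg := htop J M1 C0 Rc H h K0 t0 Mc Cs N0 N1 G0 Y caps cb cl g N hyp hN1 hN2
  have hG0 := hyp.hG0
  have main := habs P N Cs N0 (cF * N1) (CT * G0) rfl hOk (by positivity) hTop
  have hf0 : ∀ z ∈ Y, ∀ b ∈ caps, min (∫ y : E k, fsmJ Q K0 (z.1 - y) * fsmF h t0 J (cl b) g (y, z.2)) Mc = min (P.f0 b z) P.Mc := by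
    intro z _ b hb
    have := fsm_cv_jm (Q := Q) (K := K0) (by omega) hK0 (hOk.F_bc b hb) z
    show _ = min (fsmCv (fsmSx (fsmJm Q K0)) (fun z => fsmF h t0 J (cl b) g z) z) Mc
    rw [show (fun z => fsmF h t0 J (cl b) g z) = P.F b from rfl, this]
    rfl
  rw [Finset.sum_congr rfl fun z hz => Finset.sum_congr rfl fun b hb => hf0 z hz b hb]
  refine main.trans ?_
  have hsum := fsm_mu_sum P hyp.hH hyp.hK N
  show CA * (CT * G0 + (Cs * (Mc * H ^ k) + Real.sqrt (Cs * N0 * (cF * N1) * (Mc * H ^ k))) * ∑ n ∈ Finset.range N, P.mu n ^ (-(1 / 4 : ℝ))) * (Y.card : ℝ) ≤ _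
  set A := Cs * (Mc * H ^ k) with hA
  set B := Real.sqrt (Cs * N0 * N1 * (Mc * H ^ k)) with hB
  set Sg := ∑ n ∈ Finset.range N, P.mu n ^ (-(1 / 4 : ℝ)) with hSg
  set e1 := (K0 / H) ^ (-(1 / 4 : ℝ)) with he1
  set e2 := H ^ (-(1 / 4 : ℝ)) with he2
  have he1' : 0 ≤ e1 := Real.rpow_nonneg (by positivity) _
  have he2' : 0 ≤ e2 := Real.rpow_nonneg hH0.le _
  have hlog : 0 ≤ Real.log (h / K0) := Real.log_nonneg (by rw [le_div_iff₀ hK0]; linarith [hyp.hh])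
  have hA0 : 0 ≤ A := by
    have := hyp.hCs; have := hyp.hMc
    positivity
  have hB0 : 0 ≤ B := Real.sqrt_nonneg _
  have hsq : Real.sqrt (Cs * N0 * (cF * N1) * (Mc * H ^ k)) = Real.sqrt cF * B := by
    rw [hB, ← Real.sqrt_mul hcF0]
    congr 1
    ring
  have hSg' : Sg ≤ 7 * (e1 + e2 * (1 + Real.log (h / K0))) := by
    have h1 : Sg ≤ 7 * e1 + N * e2 := hsum
    have h2 : (N : ℝ) * e2 ≤ 2 * Real.log (h / K0) * e2 := mul_le_mul_of_nonneg_right hN3 he2'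
    nlinarith [mul_nonneg he2' hlog]
  have hSg0 : 0 ≤ Sg := by
    refine Finset.sum_nonneg fun n _ => Real.rpow_nonneg ?_ _
    have := fsm_mu_ge_one P hyp.hH hyp.hK n
    linarith
  set Er := e1 + e2 * (1 + Real.log (h / K0)) with hEr
  have hEr0 : 0 ≤ Er := by positivity
  have hs0 : 0 ≤ Real.sqrt cF := Real.sqrt_nonneg _
  rw [hsq]
  have key : CT * G0 + (A + Real.sqrt cF * B) * Sg ≤ (CT + 7 + 7 * Real.sqrt cF) * (G0 + (A + B) * Er) := by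
    have t1 : (A + Real.sqrt cF * B) * Sg ≤ (A + Real.sqrt cF * B) * (7 * Er) := mul_le_mul_of_nonneg_left hSg' (by positivity)
    have t2 : (CT + 7 + 7 * Real.sqrt cF) * (G0 + (A + B) * Er) - (CT * G0 + (A + Real.sqrt cF * B) * (7 * Er))
        = (7 + 7 * Real.sqrt cF) * G0 + (CT * (A + B) + 7 * B + 7 * Real.sqrt cF * A) * Er := by ring
    have t3 : 0 ≤ (7 + 7 * Real.sqrt cF) * G0 + (CT * (A + B) + 7 * B + 7 * Real.sqrt cF * A) * Er := by positivity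
    linarith
  calc CA * (CT * G0 + (A + Real.sqrt cF * B) * Sg) * (Y.card : ℝ)
      ≤ CA * ((CT + 7 + 7 * Real.sqrt cF) * (G0 + (A + B) * Er)) * (Y.card : ℝ) := by
        apply mul_le_mul_of_nonneg_right _ (by positivity)
        exact mul_le_mul_of_nonneg_left key hCA
    _ = _ := by ring

end Claimed.Agent.R257
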