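import Claimed.Agent.R257.FR1.BdC
import Claimed.Agent.R257.FR1.Rc
import Claimed.Agent.R257.FR1.SmMain
import Claimed.Agent.R257.FR1.Gr

/-!
# ROW 257, package FR1, block CL: (f:clipped) = H f:smoothing IN THE LANGUAGE OF THE TREES `tK`, `tF`      (architect helper16; captain FR1 helper249)

(FILE MOVED: this is helper16's `FR1/Cl.lean` of commit 753b32ed07, restored here by helper210 after `FR1/Cl.lean` was overwritten by the contract of helper249; `fcl_mainT` = helper16's former exit 1.)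

H `frame.tex` l.266-538.   INPUTS (all contracts on main): `fsm_main` (block SM, helper94), `fgr_sm_energy`, `fgr_sm_gram`, `fgr_sdat_reg` (block GR, helper30), `frc_env`, `frc_en`, `frc_Sz_mono` (block RC, proved), `fb_slab`, `netPi_spec` (block BD).
Every `sorry` is a LEAF `L-F1-CL*` (name in the docstring); statements are frozen; auxiliary lemmas directly above your theorem, prefix `fcl_`; edit ONLY your block.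

OBJECTS.   Fix `𝔠 : XCfg k Λ`, a field `i`, scales `H ≤ Kk ≤ 𝔠.h`.
* `𝔠.gp i H Kk T`     the cluster of the cell `T` (`none` outside `𝔠.s i`)
* `𝔠.cel i H Kk v`    the cells of the cluster `v`;      `𝔠.gS i H Kk v = (𝔠.A i).sdat (cel v)`  its physical data:  `ext (gS v) = ∑_{T ∈ cel v} U_T`
* `𝔠.clS i H Kk b`    the clusters of the bin `b` (as a `Finset` of `Option`s)
EXITS
* `fcl_mainT`   `∑_{q ∈ Yf} ∑_b min ((tF).eb c.P b (wz q)) Mc ≤ C (1 + (Mc H^k + √(N0 N1 Mc H^k)) ((Kk/H)^{-1/4} + H^{-1/4} (1 + log (h/Kk)))) #Yf`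
* `fcl_en`     `(tF).en ≤ C 𝔠.D i`           (no contract `L2At` needed)
both for all classes `c` with `c.Ok`, `Pw₀ ≤ c.P`, where `Pw₀` depends only on `k`, `P`, `K.ρ` (NOT on `K.J`: the class `c` is chosen before `K.J`).
-/

set_option autoImplicit false

namespace Claimed.Agent.R257.FR1

open Claimed.Agent.R257 Claimed.Agent.R257.FR2 Claimed.Agent.R257.Tree MeasureTheory
open scoped BigOperators Classical BoundedContinuousFunction InnerProductSpace ENNReal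

noncomputable section

variable {k : ℕ} {Λ : Type}

namespace XCfg

variable (𝔠 : XCfg k Λ) (i : Fin (k + 1)) [Fintype Λ]

/-- the cluster of a cell -/
def gp (H K : ℝ) (T : Λ × (Fin k → ℤ)) : Option (𝔠.CluT i H K) := if h : T ∈ 𝔠.s i then some (𝔠.cluOf i H K ⟨T.1, T.2, h⟩) else none

/-- the cells of a cluster -/
def cel (H K : ℝ) (v : Option (𝔠.CluT i H K)) : Finset (Λ × (Fin k → ℤ)) := (𝔠.s i).filter fun T => 𝔠.gp i H K T = v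

/-- the physical data of a cluster -/
def gS (H K : ℝ) (v : Option (𝔠.CluT i H K)) : E k → ℂ := (𝔠.A i).sdat (𝔠.cel i H K v)

/-- the clusters of a bin -/
def clS (H K : ℝ) (b : 𝔠.BinT i H) : Finset (Option (𝔠.CluT i H K)) := (𝔠.cluIn i H K b).image some

end XCfg

/-! ## 1. paper-free tools -/

/-- **LEAF L-F1-CL1: `frc_env` with a Bochner integral and the kernel `fsmJ`.**
PLAN: `(Pw₀, C)` from `frc_env k ρ Q`; new constant `C * ∫ fsmW Q`.   Pointwise `K₀^(-k) (1 + ‖z.1 - x‖²/K₀²)^(-Q/2) = (∫ fsmW Q) * fsmJ Q K₀ (z.1 - x)` (unfold `fsmJ`, `fsmW`; `norm_smul`, `mul_pow`, `Real.rpow_neg`, `Real.rpow_natCast`; `fsm_KJ_W_int_pos hQ`, `mul_inv_cancel₀`).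
`‖·‖ₑ ^ 2 = ENNReal.ofReal (‖·‖ ^ 2)`;  `∫⁻ ofReal (f) = ofReal (∫ f)` (`ofReal_integral_eq_lintegral_ofReal`): `f y = fsmJ Q K₀ (z.1 - y) * ‖ext g (y, z.2)‖²` is integrable: `(fsm_ext_l2 hg z.2).1.bdd_mul` with `fsmJ ≤ (∫ fsmW)⁻¹ (K₀^k)⁻¹` (`fsm_W_le_one`), `fsm_J_continuous`;
finally `ENNReal.ofReal_le_ofReal_iff`. -/
theorem fcl_env (k Q : ℕ) (hQ : k < Q) (ρ : ℝ) : ∃ Pw₀ C : ℝ, 0 ≤ C ∧ ∀ Pw C0 : ℝ, Pw₀ ≤ Pw → Pw ≤ C0 → ∀ (K₀ R₀ : ℝ) (v : E k) (g : E k → ℂ), 0 < K₀ → Dat R₀ g →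
    (∀ ξ, g ξ ≠ 0 → ‖ξ - v‖ ≤ ρ / K₀) → ∀ (z : ST k) (W : Finset (Lat k)),
    ∑ n ∈ W, rcSz C0 K₀ v (ext g) n ^ 2 * pw Pw K₀ v (lat n) z ≤ C * ∫ y : E k, fsmJ Q K₀ (z.1 - y) * ‖ext g (y, z.2)‖ ^ 2 := by
  obtain ⟨Pw₀, C, hC, h⟩ := frc_env k ρ (Q : ℝ)
  have hI := fsm_KJ_W_int_pos (k := k) hQ
  refine ⟨Pw₀, C * ∫ y : E k, fsmW Q y, by positivity, ?_⟩
  intro Pw C0 hPw hC0 K₀ R₀ v g hK hg hs z W
  have h1 := h Pw C0 hPw hC0 K₀ R₀ v g hK hg hs z W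
  have eK : ∀ x : E k, K₀ ^ (-(k : ℝ)) * (1 + ‖z.1 - x‖ ^ 2 / K₀ ^ 2) ^ (-(Q : ℝ) / 2) = (∫ y : E k, fsmW Q y) * fsmJ Q K₀ (z.1 - x) := by
    intro x
    unfold fsmJ
    rw [← mul_assoc, ← mul_assoc, mul_inv_cancel₀ hI.ne', one_mul]
    unfold fsmW
    rw [norm_smul, norm_inv, Real.norm_of_nonneg hK.le, mul_pow, inv_pow, Real.rpow_neg hK.le, Real.rpow_natCast,
      inv_mul_eq_div (K₀ ^ 2)]
  have hJ0 : ∀ y : E k, 0 ≤ fsmJ Q K₀ (z.1 - y) * ‖ext g (y, z.2)‖ ^ 2 := fun y =>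
    mul_nonneg (fsm_J_pos hQ hK _).le (by positivity)
  have hint : Integrable (fun y : E k => fsmJ Q K₀ (z.1 - y) * ‖ext g (y, z.2)‖ ^ 2) := by
    refine (fsm_ext_l2 hg z.2).1.bdd_mul (c := (∫ y : E k, fsmW Q y)⁻¹ * (K₀ ^ k)⁻¹) ?_ ?_
    · exact ((fsm_J_continuous Q K₀).comp (continuous_const.sub continuous_id)).aestronglyMeasurable
    · refine Filter.Eventually.of_forall fun y => ?_
      rw [Real.norm_of_nonneg (fsm_J_pos hQ hK _).le]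
      unfold fsmJ
      exact mul_le_of_le_one_right (by positivity) (fsm_W_le_one _ _)
  have e2 : ∫⁻ x, ENNReal.ofReal (K₀ ^ (-(k : ℝ)) * (1 + ‖z.1 - x‖ ^ 2 / K₀ ^ 2) ^ (-(Q : ℝ) / 2)) * ‖ext g (x, z.2)‖ₑ ^ 2
      = ENNReal.ofReal ((∫ y : E k, fsmW Q y) * ∫ y : E k, fsmJ Q K₀ (z.1 - y) * ‖ext g (y, z.2)‖ ^ 2) := by
    rw [← integral_const_mul, ofReal_integral_eq_lintegral_ofReal (hint.const_mul _)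
      (Filter.Eventually.of_forall fun y => mul_nonneg hI.le (hJ0 y))]
    refine lintegral_congr fun x => ?_
    rw [eK, ← ofReal_norm, ← ENNReal.ofReal_pow (norm_nonneg _),
      ← ENNReal.ofReal_mul (mul_nonneg hI.le (fsm_J_pos hQ hK _).le), mul_assoc]
  rw [e2, ← ENNReal.ofReal_mul hC] at h1
  have h0 : 0 ≤ ∫ y : E k, fsmJ Q K₀ (z.1 - y) * ‖ext g (y, z.2)‖ ^ 2 := integral_nonneg hJ0
  have h3 := (ENNReal.ofReal_le_ofReal_iff (by positivity)).1 h1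
  calc _ ≤ _ := h3
    _ = _ := by ring

/-- **LEAF L-F1-CL2: the density of a cap on the test slab.**
PLAN: unfold `fsmF`; `∫ fsmJ * (w * ∑) = w * ∑_v ∫ fsmJ * ‖ext‖²` (`integral_const_mul`, `integral_finset_sum`, `Finset.mul_sum`; integrability as in `fcl_env`);   `fsmWt h 0 J t = ((1 + t²/h⁴)^J)⁻¹ ≥ ((1 + T₁²)^J)⁻¹` since `t²/h⁴ ≤ T₁²` (`sub_zero`, `sq_abs`, `div_le_iff₀`);
the integrals are `≥ 0` (`integral_nonneg`, `fsm_J_pos`). -/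
theorem fcl_slab {ι : Type} {Q : ℕ} (hQ : k < Q) (J : ℕ) {K₀ h T₁ R₀ : ℝ} (hK : 0 < K₀) (hh : 0 < h) (s : Finset ι) (g : ι → E k → ℂ) (hg : ∀ v ∈ s, Dat R₀ (g v)) (z : ST k)
    (hz : |z.2| ≤ T₁ * h ^ 2) :
    ∑ v ∈ s, ∫ y : E k, fsmJ Q K₀ (z.1 - y) * ‖ext (g v) (y, z.2)‖ ^ 2 ≤ (1 + T₁ ^ 2) ^ J * ∫ y : E k, fsmJ Q K₀ (z.1 - y) * fsmF h 0 J s g (y, z.2) := by
  have hint : ∀ v ∈ s, Integrable (fun y : E k => fsmJ Q K₀ (z.1 - y) * ‖ext (g v) (y, z.2)‖ ^ 2) := by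
    intro v hv
    refine (fsm_ext_l2 (hg v hv) z.2).1.bdd_mul (c := (∫ y : E k, fsmW Q y)⁻¹ * (K₀ ^ k)⁻¹) ?_ (Filter.Eventually.of_forall fun y => ?_)
    · exact ((fsm_J_continuous Q K₀).comp (continuous_const.sub continuous_id)).aestronglyMeasurable
    · rw [Real.norm_of_nonneg (fsm_J_pos hQ hK _).le]
      unfold fsmJ
      have h0 := fsm_KJ_W_int_pos (k := k) hQ
      calc (∫ y : E k, fsmW Q y)⁻¹ * (K₀ ^ k)⁻¹ * fsmW Q (K₀⁻¹ • (z.1 - y)) ≤ (∫ y : E k, fsmW Q y)⁻¹ * (K₀ ^ k)⁻¹ * 1 :=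
            mul_le_mul_of_nonneg_left (fsm_W_le_one _ _) (by positivity)
        _ = _ := mul_one _
  have e : ∫ y : E k, fsmJ Q K₀ (z.1 - y) * fsmF h 0 J s g (y, z.2)
      = fsmWt h 0 J z.2 * ∑ v ∈ s, ∫ y : E k, fsmJ Q K₀ (z.1 - y) * ‖ext (g v) (y, z.2)‖ ^ 2 := by
    rw [← integral_finsetSum s hint, ← integral_const_mul]
    refine integral_congr_ae (Filter.Eventually.of_forall fun y => ?_)
    show fsmJ Q K₀ (z.1 - y) * (fsmWt h 0 J z.2 * ∑ v ∈ s, ‖ext (g v) (y, z.2)‖ ^ 2)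
      = fsmWt h 0 J z.2 * ∑ v ∈ s, fsmJ Q K₀ (z.1 - y) * ‖ext (g v) (y, z.2)‖ ^ 2
    rw [← Finset.mul_sum]
    ring
  have hS : 0 ≤ ∑ v ∈ s, ∫ y : E k, fsmJ Q K₀ (z.1 - y) * ‖ext (g v) (y, z.2)‖ ^ 2 :=
    Finset.sum_nonneg fun v _ => integral_nonneg fun y => mul_nonneg (fsm_J_pos hQ hK _).le (by positivity)
  have h1 : z.2 ^ 2 / h ^ 4 ≤ T₁ ^ 2 := by
    rw [div_le_iff₀ (by positivity)]
    have h2 : |z.2| ^ 2 ≤ (T₁ * h ^ 2) ^ 2 := pow_le_pow_left₀ (abs_nonneg _) hz 2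
    rw [sq_abs] at h2
    calc z.2 ^ 2 ≤ (T₁ * h ^ 2) ^ 2 := h2
      _ = _ := by ring
  have h2 : 1 ≤ (1 + T₁ ^ 2) ^ J * fsmWt h 0 J z.2 := by
    unfold fsmWt
    rw [sub_zero, ← div_eq_mul_inv, le_div_iff₀ (by positivity), one_mul]
    exact pow_le_pow_left₀ (by positivity) (by linarith) J
  rw [e, ← mul_assoc]
  exact le_mul_of_one_le_left hS h2

/-- **LEAF L-F1-CL3: `min` and constants.** -/
theorem fcl_min {a b C M : ℝ} (hC : 1 ≤ C) (hM : 0 ≤ M) (hb : 0 ≤ b) (h : a ≤ C * b) : min a M ≤ C * min b M := by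
  rcases le_total b M with h1 | h1
  · rw [min_eq_left h1]
    exact (min_le_left _ _).trans h
  · rw [min_eq_right h1]
    exact (min_le_right _ _).trans (le_mul_of_one_le_left hM hC)

/-! ## 2. the clusters of an exact configuration -/

section cfg

variable [Fintype Λ]

/-- **LEAF L-F1-CL4: the pre-cutoff field of a cluster is a cut exact field.**
PLAN: unfold `T2.pre`, `XCfg.tK`; evaluate the sum of bounded continuous functions (`BoundedContinuousFunction.coe_sum`, `Finset.sum_apply`, `apply_ite`), `hval`; `XCfg.W0` is an injective image of `(𝔠.s i).attach` (`Finset.sum_image`, as in `fb_leaf_sumsC`);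
`XCfg.lv`; `Finset.mul_sum`; `(fgr_sdat_reg (h𝔠.cls i) (Finset.filter_subset _ _)).2.2.2.1 z : ext (sdat t) z = fld t z`; `XFam.fld`, `Finset.sum_filter`, `Finset.sum_attach`-type rewriting: for `T ∈ 𝔠.s i`, `𝔠.gp i H Kk T = some p ↔ 𝔠.cluOf i H Kk ⟨T.1, T.2, hT⟩ = p` (`dif_pos`, `Option.some_inj`). -/
theorem fcl_pre (𝔠 : XCfg k Λ) {cthr T₁ : ℝ} {K : XCls} {P : ℕ} (h𝔠 : 𝔠.Ok cthr K T₁ P) (i : Fin (k + 1)) (χ₁ : ℝ → ℂ) (Cx H Kk : ℝ) (R : ℕ) (Yf : Finset (Lat k)) (x : XCfg.Aux)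
    (hval : ∀ T ∈ 𝔠.W0 i, ∀ z, toB (𝔠.lv i χ₁ T) z = 𝔠.lv i χ₁ T z) (p : 𝔠.CluT i H Kk) (z : ST k) :
    (𝔠.tK i χ₁ Cx H Kk R Yf x).pre p z = χ₁ (z.2 / 𝔠.h ^ 2) * ext (𝔠.gS i H Kk (some p)) z := by
  have e1 : (𝔠.tK i χ₁ Cx H Kk R Yf x).pre p z = ∑ T ∈ 𝔠.W0 i, if 𝔠.cluOf i H Kk T.1 = p then 𝔠.lv i χ₁ T z else 0 := by
    refine (fb_pre_apply (𝔠.tK i χ₁ Cx H Kk R Yf x) p z).trans ?_
    refine Finset.sum_congr rfl fun T hT => ?_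
    by_cases hc : 𝔠.cluOf i H Kk T.1 = p
    · rw [if_pos hc]
      exact (if_pos hc).trans (hval T hT z)
    · rw [if_neg hc]
      exact if_neg hc
  have e2 : ext (𝔠.gS i H Kk (some p)) z = ∑ T ∈ (𝔠.s i).attach, if 𝔠.gp i H Kk T.1 = some p then (𝔠.A i).U T.1 z else 0 := by
    unfold XCfg.gS XCfg.cel
    rw [(fgr_sdat_reg (h𝔠.cls i) (Finset.filter_subset _ _)).2.2.2.1 z]
    unfold XFam.fld
    rw [Finset.sum_filter, ← Finset.sum_attach]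
  rw [e1, e2]
  unfold XCfg.W0
  rw [Finset.sum_image, Finset.mul_sum]
  · refine Finset.sum_congr rfl fun T _ => ?_
    have hgp : 𝔠.gp i H Kk T.1 = some (𝔠.cluOf i H Kk ⟨T.1.1, T.1.2, T.2⟩) := by
      unfold XCfg.gp
      rw [dif_pos T.2]
    rw [hgp]
    by_cases hc : 𝔠.cluOf i H Kk ⟨T.1.1, T.1.2, T.2⟩ = p
    · rw [if_pos hc, if_pos (by rw [hc])]
      rfl
    · rw [if_neg hc, if_neg (fun h => hc (Option.some.inj h)), mul_zero]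
  · intro T _ T' _ he
    have h1 : T.1.1 = T'.1.1 := congrArg (fun u : 𝔠.UL i × Lat k => u.1.1) he
    have h2 : T.1.2 = T'.1.2 := congrArg (fun u : 𝔠.UL i × Lat k => u.2.1) he
    exact Subtype.ext (Prod.ext h1 h2)

/-- **LEAF L-F1-CL5: regularity and supports of the data of a cluster.**
PLAN: `fgr_sdat_reg (h𝔠.cls i) (Finset.filter_subset _ _)`: continuity (so `Measurable`), `MemLp`, and `gS ξ ≠ 0 → ∃ T ∈ cel, ‖ξ - fr T.1‖ ≤ K.ρ / h` (`h𝔠.scale i`).   For `T ∈ cel (some p)`: `T ∈ 𝔠.s i`, `cluOf ⟨T⟩ = p`, so `p.1.1 = piH H v`, `p.1.2 = piH Kk v` for `v = ⟨T.1, _⟩`;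
`(netPi_spec (inv_pos.2 _) (𝔠.frU i)).1 v`: `‖frU v - frU (piH · v)‖ ≤ (·)⁻¹`;  `K.ρ / h ≤ K.ρ / Kk ≤ K.ρ / H`;  `‖fr T.1‖ ≤ K.Cc` (`(h𝔠.cls i).freq`), `K.ρ / h ≤ K.ρ`. -/
theorem fcl_dat (𝔠 : XCfg k Λ) {cthr T₁ : ℝ} {K : XCls} {P : ℕ} (h𝔠 : 𝔠.Ok cthr K T₁ P) (hρ : 0 ≤ K.ρ) (i : Fin (k + 1)) {H Kk : ℝ} (hH : 1 ≤ H) (hHK : H ≤ Kk) (hKh : Kk ≤ 𝔠.h)
    (p : 𝔠.CluT i H Kk) :
    Dat (K.Cc + K.ρ) (𝔠.gS i H Kk (some p)) ∧ (∀ ξ, 𝔠.gS i H Kk (some p) ξ ≠ 0 → ‖ξ - 𝔠.frU i p.1.2‖ ≤ (K.ρ + 1) / Kk) ∧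
      ∀ ξ, 𝔠.gS i H Kk (some p) ξ ≠ 0 → ‖ξ - 𝔠.frU i p.1.1‖ ≤ (K.ρ + 1) / H := by
  obtain ⟨r1, -, r3, -, r5⟩ := fgr_sdat_reg (h𝔠.cls i) (Finset.filter_subset (fun T => 𝔠.gp i H Kk T = some p) (𝔠.s i))
  have hH0 : 0 < H := by linarith
  have hK0 : 0 < Kk := by linarith
  have hh0 : 0 < 𝔠.h := by linarith
  have key : ∀ ξ, 𝔠.gS i H Kk (some p) ξ ≠ 0 → ∃ w : E k, ‖ξ - w‖ ≤ K.ρ / 𝔠.h ∧ ‖w‖ ≤ K.Cc ∧ ‖w - 𝔠.frU i p.1.2‖ ≤ Kk⁻¹ ∧ ‖w - 𝔠.frU i p.1.1‖ ≤ H⁻¹ := by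
    intro ξ hξ
    obtain ⟨T, hT, hTξ⟩ := r5 ξ hξ
    rw [h𝔠.scale i] at hTξ
    rw [Finset.mem_filter] at hT
    obtain ⟨hTs, hTp⟩ := hT
    unfold XCfg.gp at hTp
    rw [dif_pos hTs] at hTp
    have hp : 𝔠.cluOf i H Kk ⟨T.1, T.2, hTs⟩ = p := Option.some.inj hTp
    refine ⟨(𝔠.A i).fr T.1, hTξ, (h𝔠.cls i).freq T hTs, ?_, ?_⟩
    · rw [← hp]
      exact ((netPi_spec (inv_pos.2 hK0) (𝔠.frU i)).1 ⟨T.1, T.2, hTs⟩).1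
    · rw [← hp]
      exact ((netPi_spec (inv_pos.2 hH0) (𝔠.frU i)).1 ⟨T.1, T.2, hTs⟩).1
  have hρh : K.ρ / 𝔠.h ≤ K.ρ / Kk := div_le_div_of_nonneg_left hρ hK0 hKh
  have hρK : K.ρ / Kk ≤ K.ρ / H := div_le_div_of_nonneg_left hρ hH0 hHK
  have hρ1 : K.ρ / H ≤ K.ρ := div_le_self hρ hH
  refine ⟨⟨r1.measurable, fun ξ hξ => ?_, r3⟩, fun ξ hξ => ?_, fun ξ hξ => ?_⟩
  · obtain ⟨w, h1, h2, -, -⟩ := key ξ hξ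
    calc ‖ξ‖ = ‖w + (ξ - w)‖ := by rw [add_sub_cancel]
      _ ≤ ‖w‖ + ‖ξ - w‖ := norm_add_le _ _
      _ ≤ K.Cc + K.ρ := by linarith
  · obtain ⟨w, h1, -, h3, -⟩ := key ξ hξ
    calc ‖ξ - 𝔠.frU i p.1.2‖ = ‖(ξ - w) + (w - 𝔠.frU i p.1.2)‖ := by rw [sub_add_sub_cancel]
      _ ≤ ‖ξ - w‖ + ‖w - 𝔠.frU i p.1.2‖ := norm_add_le _ _
      _ ≤ K.ρ / Kk + Kk⁻¹ := by linarith
      _ = _ := by rw [add_div, one_div]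
  · obtain ⟨w, h1, -, -, h4⟩ := key ξ hξ
    calc ‖ξ - 𝔠.frU i p.1.1‖ = ‖(ξ - w) + (w - 𝔠.frU i p.1.1)‖ := by rw [sub_add_sub_cancel]
      _ ≤ ‖ξ - w‖ + ‖w - 𝔠.frU i p.1.1‖ := norm_add_le _ _
      _ ≤ K.ρ / H + H⁻¹ := by linarith
      _ = _ := by rw [add_div, one_div]

/-- **LEAF L-F1-CL6: the fresh amplitudes of `tK` are weighted suprema of cut exact fields.**   PLAN: `T2.amp`, `T2.w1`, `rcSz` unfold to the same `iSup` (`rfl` after `funext`/`iSup_congr`), `fcl_pre`. -/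
theorem fcl_amp_eq (𝔠 : XCfg k Λ) {cthr T₁ : ℝ} {K : XCls} {P : ℕ} (h𝔠 : 𝔠.Ok cthr K T₁ P) (i : Fin (k + 1)) (c : TCls k) (χ₁ : ℝ → ℂ) (Cx H Kk : ℝ) (R : ℕ) (Yf : Finset (Lat k)) (x : XCfg.Aux)
    (hval : ∀ T ∈ 𝔠.W0 i, ∀ z, toB (𝔠.lv i χ₁ T) z = 𝔠.lv i χ₁ T z) (T : 𝔠.CluT i H Kk × Lat k) :
    (𝔠.tK i χ₁ Cx H Kk R Yf x).amp c T = c.Cχ * rcSz c.C0 Kk (𝔠.frU i T.1.1.2) (fun z => χ₁ (z.2 / 𝔠.h ^ 2) * ext (𝔠.gS i H Kk (some T.1)) z) T.2 := by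
  unfold T2.amp rcSz
  congr 1
  refine iSup_congr fun z => ?_
  rw [fcl_pre 𝔠 h𝔠 i χ₁ Cx H Kk R Yf x hval T.1 z]
  rfl

/-- **LEAF L-F1-CL7: the bin envelopes of `tF` are dominated by the smoothed densities** (H l.455-523).
PLAN.  `(Pw₀, C₁)` from `fcl_env k Q hQ (ρ + 1)`;  `C = Cχ² C₁ (1 + T₁²)^J`.
`(tF).eb c.P b z = ∑_{p ∈ cluIn b} ∑_{n ∈ latBox R} amp (p,n)² pw c.P Kk (frU p.1.2) (lat n) z` (unfold `T2.eb`, `T2.w0`, `XCfg.tF`; `Finset.sum_product`, `Finset.sum_ite`/`Finset.sum_filter`, `XCfg.cluIn`).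
`amp (p,n) ≤ Cχ rcSz c.C0 Kk v (ext (gS (some p))) n`: `fcl_amp_eq` + `frc_Sz_mono` (`B₁ = 1`, `‖χ₁‖ ≤ 1`, bound of the field: `inf_ext_bound`), squares: `pow_le_pow_left₀` (`t2_amp_nonneg`).   `fcl_env` (`Pw = c.P`, `C0 = c.C0`: `c.P ≤ c.C0` from `hc.P_lt`, `hc.C0_ge`; `fcl_dat`).
Sum over `p`: `Finset.sum_image` (`some` is injective) to pass to `clS b`, then `fcl_slab`. -/
theorem fcl_eb (k Q J : ℕ) (hQ : k < Q) (ρ : ℝ) (hρ : 0 ≤ ρ) : ∃ Pw₀ : ℝ, ∀ c : TCls k, c.Ok → Pw₀ ≤ c.P → ∀ T₁ : ℝ, ∃ C : ℝ, 1 ≤ C ∧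
    ∀ (Λ : Type) [Fintype Λ] (𝔠 : XCfg k Λ) (cthr : ℝ) (K : XCls) (P : ℕ), K.ρ = ρ → 𝔠.Ok cthr K T₁ P → ∀ (i : Fin (k + 1)) (χ₁ : ℝ → ℂ) (Cx H Kk : ℝ) (R : ℕ)
      (W1 : Finset (𝔠.BinT i H × Lat k)) (Yf : Finset (Lat k)) (x : XCfg.Aux), (∀ s, ‖χ₁ s‖ ≤ 1) → (∀ T ∈ 𝔠.W0 i, ∀ z, toB (𝔠.lv i χ₁ T) z = 𝔠.lv i χ₁ T z) →
      1 ≤ H → H ≤ Kk → Kk ≤ 𝔠.h → ∀ (b : 𝔠.BinT i H) (z : ST k), |z.2| ≤ T₁ * 𝔠.h ^ 2 →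
      (𝔠.tF i c χ₁ Cx H Kk R W1 Yf x).eb c.P b z ≤ C * ∫ y : E k, fsmJ Q Kk (z.1 - y) * fsmF 𝔠.h 0 J (𝔠.clS i H Kk b) (𝔠.gS i H Kk) (y, z.2) := by
  obtain ⟨Pw₀, C₁, hC₁, henv⟩ := fcl_env k Q hQ (ρ + 1)
  refine ⟨Pw₀, fun c hc hP T₁ => ⟨1 + c.Cχ ^ 2 * C₁ * (1 + T₁ ^ 2) ^ J, by
    have : 0 ≤ c.Cχ ^ 2 * C₁ * (1 + T₁ ^ 2) ^ J := by positivity
    linarith, ?_⟩⟩
  intro Λ _ 𝔠 cthr K P hKρ h𝔠 i χ₁ Cx H Kk R W1 Yf x hχ hval hH hHK hKh b z hz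
  have hH0 : 0 < H := by linarith
  have hK0 : 0 < Kk := by linarith
  have hh0 : 0 < 𝔠.h := by linarith
  have hρK : 0 ≤ K.ρ := by rw [hKρ]; exact hρ
  have hk0 : (0 : ℝ) ≤ k := Nat.cast_nonneg k
  have hPC : c.P ≤ c.C0 := by linarith [hc.P_lt, hc.C0_ge]
  have hC00 : 0 ≤ c.C0 := by linarith [hc.P_gt]
  have hCχ : 0 ≤ c.Cχ := by linarith [hc.one_le_Cχ]
  have hdat := fun p : 𝔠.CluT i H Kk => fcl_dat 𝔠 h𝔠 hρK i hH hHK hKh p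
  obtain ⟨am, ham⟩ : ∃ am : 𝔠.CluT i H Kk × Lat k → ℝ, am = fun T => (𝔠.tK i χ₁ Cx H Kk R Yf x).amp c T := ⟨_, rfl⟩
  have ham0 : ∀ T, 0 ≤ am T := fun T => by
    rw [ham]
    exact t2_amp_nonneg (𝔠.tK i χ₁ Cx H Kk R Yf x) c hc T
  have ham1 : ∀ T : 𝔠.CluT i H Kk × Lat k, am T = c.Cχ * rcSz c.C0 Kk (𝔠.frU i T.1.1.2) (fun z => χ₁ (z.2 / 𝔠.h ^ 2) * ext (𝔠.gS i H Kk (some T.1)) z) T.2 := fun T => by
    rw [ham]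
    exact fcl_amp_eq 𝔠 h𝔠 i c χ₁ Cx H Kk R Yf x hval T
  have e1 : (𝔠.tF i c χ₁ Cx H Kk R W1 Yf x).eb c.P b z
      = ∑ p ∈ 𝔠.cluIn i H Kk b, ∑ n ∈ latBox k R, am (p, n) ^ 2 * pw c.P Kk (𝔠.frU i p.1.2) (lat n) z := by
    have e0 : (𝔠.tF i c χ₁ Cx H Kk R W1 Yf x).eb c.P b z = ∑ T ∈ (Finset.univ : Finset (𝔠.CluT i H Kk)) ×ˢ latBox k R, if 𝔠.cluBin i H Kk T.1 = b then
        am T ^ 2 * pw c.P Kk (𝔠.frU i T.1.1.2) (lat T.2) z else 0 := by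
      unfold T2.eb
      refine Finset.sum_congr rfl fun T _ => ?_
      by_cases hp : 𝔠.cluBin i H Kk T.1 = b
      · rw [if_pos hp, ham]
        exact if_pos hp
      · rw [if_neg hp]
        exact if_neg hp
    rw [e0, Finset.sum_product]
    unfold XCfg.cluIn
    rw [Finset.sum_filter]
    refine Finset.sum_congr rfl fun p _ => ?_
    by_cases hp : 𝔠.cluBin i H Kk p = b
    · simp only [if_pos hp]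
    · simp only [if_neg hp, Finset.sum_const_zero]
  have h2 : ∀ p : 𝔠.CluT i H Kk, ∑ n ∈ latBox k R, am (p, n) ^ 2 * pw c.P Kk (𝔠.frU i p.1.2) (lat n) z
      ≤ c.Cχ ^ 2 * C₁ * ∫ y : E k, fsmJ Q Kk (z.1 - y) * ‖ext (𝔠.gS i H Kk (some p)) (y, z.2)‖ ^ 2 := by
    intro p
    have h3 := henv c.P c.C0 hP hPC Kk (K.Cc + K.ρ) (𝔠.frU i p.1.2) (𝔠.gS i H Kk (some p)) hK0 (hdat p).1 (by
      intro ξ hξ
      rw [← hKρ]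
      exact (hdat p).2.1 ξ hξ) z (latBox k R)
    calc ∑ n ∈ latBox k R, am (p, n) ^ 2 * pw c.P Kk (𝔠.frU i p.1.2) (lat n) z
        ≤ ∑ n ∈ latBox k R, c.Cχ ^ 2 * (rcSz c.C0 Kk (𝔠.frU i p.1.2) (ext (𝔠.gS i H Kk (some p))) n ^ 2 * pw c.P Kk (𝔠.frU i p.1.2) (lat n) z) := by
          refine Finset.sum_le_sum fun n _ => ?_
          have hw : 0 ≤ pw c.P Kk (𝔠.frU i p.1.2) (lat n) z := Real.rpow_nonneg (by positivity) _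
          have h4 : am (p, n) ≤ c.Cχ * rcSz c.C0 Kk (𝔠.frU i p.1.2) (ext (𝔠.gS i H Kk (some p))) n := by
            rw [ham1 (p, n)]
            refine mul_le_mul_of_nonneg_left ?_ hCχ
            have h5 := frc_Sz_mono (C0 := c.C0) (K₀ := Kk) (B₁ := 1) (𝔠.frU i p.1.2) (U := ext (𝔠.gS i H Kk (some p)))
              (U' := fun z => χ₁ (z.2 / 𝔠.h ^ 2) * ext (𝔠.gS i H Kk (some p)) z) hC00 (inf_ext_bound (hdat p).1) zero_le_one (by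
                intro w
                rw [norm_mul]
                exact mul_le_mul_of_nonneg_right (hχ _) (norm_nonneg _)) n
            rwa [one_mul] at h5
          have h6 := pow_le_pow_left₀ (ham0 (p, n)) h4 2
          rw [mul_pow] at h6
          calc _ ≤ c.Cχ ^ 2 * rcSz c.C0 Kk (𝔠.frU i p.1.2) (ext (𝔠.gS i H Kk (some p))) n ^ 2 * pw c.P Kk (𝔠.frU i p.1.2) (lat n) z :=
                mul_le_mul_of_nonneg_right h6 hw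
            _ = _ := by ring
      _ = c.Cχ ^ 2 * ∑ n ∈ latBox k R, rcSz c.C0 Kk (𝔠.frU i p.1.2) (ext (𝔠.gS i H Kk (some p))) n ^ 2 * pw c.P Kk (𝔠.frU i p.1.2) (lat n) z := by
          rw [Finset.mul_sum]
      _ ≤ c.Cχ ^ 2 * (C₁ * ∫ y : E k, fsmJ Q Kk (z.1 - y) * ‖ext (𝔠.gS i H Kk (some p)) (y, z.2)‖ ^ 2) :=
          mul_le_mul_of_nonneg_left h3 (by positivity)
      _ = _ := by ring
  have h7 : ∑ p ∈ 𝔠.cluIn i H Kk b, ∫ y : E k, fsmJ Q Kk (z.1 - y) * ‖ext (𝔠.gS i H Kk (some p)) (y, z.2)‖ ^ 2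
      = ∑ v ∈ 𝔠.clS i H Kk b, ∫ y : E k, fsmJ Q Kk (z.1 - y) * ‖ext (𝔠.gS i H Kk v) (y, z.2)‖ ^ 2 := by
    unfold XCfg.clS
    rw [Finset.sum_image fun a _ a' _ h => Option.some.inj h]
  have h8 := fcl_slab hQ J hK0 hh0 (𝔠.clS i H Kk b) (𝔠.gS i H Kk) (R₀ := K.Cc + K.ρ) (by
    intro v hv
    unfold XCfg.clS at hv
    rw [Finset.mem_image] at hv
    obtain ⟨p, -, rfl⟩ := hv
    exact (hdat p).1) z hz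
  have hI0 : 0 ≤ ∫ y : E k, fsmJ Q Kk (z.1 - y) * fsmF 𝔠.h 0 J (𝔠.clS i H Kk b) (𝔠.gS i H Kk) (y, z.2) := by
    refine integral_nonneg fun y => mul_nonneg (fsm_J_pos hQ hK0 _).le ?_
    unfold fsmF fsmWt
    positivity
  rw [e1]
  calc ∑ p ∈ 𝔠.cluIn i H Kk b, ∑ n ∈ latBox k R, am (p, n) ^ 2 * pw c.P Kk (𝔠.frU i p.1.2) (lat n) z
      ≤ ∑ p ∈ 𝔠.cluIn i H Kk b, c.Cχ ^ 2 * C₁ * ∫ y : E k, fsmJ Q Kk (z.1 - y) * ‖ext (𝔠.gS i H Kk (some p)) (y, z.2)‖ ^ 2 :=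
        Finset.sum_le_sum fun p _ => h2 p
    _ = c.Cχ ^ 2 * C₁ * ∑ v ∈ 𝔠.clS i H Kk b, ∫ y : E k, fsmJ Q Kk (z.1 - y) * ‖ext (𝔠.gS i H Kk v) (y, z.2)‖ ^ 2 := by
        rw [← Finset.mul_sum, h7]
    _ ≤ c.Cχ ^ 2 * C₁ * ((1 + T₁ ^ 2) ^ J * ∫ y : E k, fsmJ Q Kk (z.1 - y) * fsmF 𝔠.h 0 J (𝔠.clS i H Kk b) (𝔠.gS i H Kk) (y, z.2)) :=
        mul_le_mul_of_nonneg_left h8 (by positivity)
    _ = c.Cχ ^ 2 * C₁ * (1 + T₁ ^ 2) ^ J * ∫ y : E k, fsmJ Q Kk (z.1 - y) * fsmF 𝔠.h 0 J (𝔠.clS i H Kk b) (𝔠.gS i H Kk) (y, z.2) := by ring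
    _ ≤ _ := by
        refine mul_le_mul_of_nonneg_right ?_ hI0
        linarith

/-- the ball count of the witnesses `Yf` of the field `i` (form of `f1h_main`) -/
def BallY (𝔠 : XCfg k Λ) (i : Fin (k + 1)) (Yf : Finset (Lat k)) (H N0 : ℝ) : Prop :=
  ∀ (z : ST k) (ϱ : ℝ), H ≤ ϱ → ((Yf.filter fun q => ‖𝔠.wz i q - z‖ ≤ ϱ).card : ℝ) ≤ N0 * (ϱ / H) ^ k * (1 + ϱ / H ^ 2)

/-- **LEAF L-F1-CL8: geometry of the caps** (fields `cb_le`, `slab`, disjointness).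
PLAN: `Cs` from `fb_slab k Cc`.   `‖frU b.1‖ ≤ K.Cc`: `b.1.2 : ∃ m, (b.1.1, m) ∈ 𝔠.s i`, `(h𝔠.cls i).freq`.   Separation of the bins: `b = ⟨piH v, _⟩`, `b' = ⟨piH v', _⟩` (`b.2`), `b ≠ b'` gives `piH v ≠ piH v'`, `(netPi_spec (inv_pos.2 _) _).2 v v'`.
Disjointness: `v ∈ clS b ∩ clS b'` gives `v = some p`, `cluBin p = b`, `cluBin p = b'` (`Finset.mem_image`, `Finset.mem_filter`, `Finset.disjoint_left`). -/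
theorem fcl_caps (k : ℕ) (Cc : ℝ) : ∃ Cs : ℝ, 0 ≤ Cs ∧ ∀ (Λ : Type) [Fintype Λ] (𝔠 : XCfg k Λ) (cthr T₁ : ℝ) (K : XCls) (P : ℕ), K.Cc = Cc → 𝔠.Ok cthr K T₁ P → ∀ (i : Fin (k + 1)) (H Kk : ℝ), 1 ≤ H →
    (∀ b : 𝔠.BinT i H, ‖𝔠.frU i b.1‖ ≤ Cc) ∧
    (∀ (e : E k) (a lam : ℝ), ‖e‖ = 1 → 0 ≤ lam → (((Finset.univ : Finset (𝔠.BinT i H)).filter fun b => |⟪𝔠.frU i b.1, e⟫_ℝ - a| ≤ lam).card : ℝ) ≤ Cs * H ^ k * (lam + 1 / H)) ∧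
    ∀ b b' : 𝔠.BinT i H, b ≠ b' → Disjoint (𝔠.clS i H Kk b) (𝔠.clS i H Kk b') := by
  obtain ⟨Cs, hCs, hS⟩ := fb_slab k Cc
  refine ⟨Cs, hCs, ?_⟩
  intro Λ _ 𝔠 cthr T₁ K P hK h𝔠 i H Kk hH
  have hH0 : 0 < H := by linarith
  have hbd : ∀ b : 𝔠.BinT i H, ‖𝔠.frU i b.1‖ ≤ Cc := by
    intro b
    rw [← hK]
    exact fb_g_freq h𝔠 i b.1
  refine ⟨hbd, ?_, ?_⟩
  · intro e a lam he hlam
    refine hS (Finset.univ : Finset (𝔠.BinT i H)) (fun b => 𝔠.frU i b.1) H hH (fun b _ => hbd b) ?_ e a lam he hlam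
    intro b _ b' _ hbb
    obtain ⟨v, hv⟩ := b.2
    obtain ⟨v', hv'⟩ := b'.2
    have hne : 𝔠.piH i H v ≠ 𝔠.piH i H v' := by
      intro h
      apply hbb
      apply Subtype.ext
      rw [← hv, ← hv', h]
    have := (netPi_spec (inv_pos.2 hH0) (𝔠.frU i)).2 v v' hne
    rw [← hv, ← hv']
    exact this
  · intro b b' hbb
    rw [Finset.disjoint_left]
    intro v hv hv'
    unfold XCfg.clS at hv hv'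
    rw [Finset.mem_image] at hv hv'
    obtain ⟨p, hp, rfl⟩ := hv
    obtain ⟨p', hp', hpp⟩ := hv'
    have hpp' : p' = p := Option.some_inj.1 hpp
    subst hpp'
    unfold XCfg.cluIn at hp hp'
    rw [Finset.mem_filter] at hp hp'
    exact hbb (hp.2.symm.trans hp'.2)

/-- a cluster of the bin `b` -/
theorem fcl_hyp_mem (𝔠 : XCfg k Λ) (i : Fin (k + 1)) (H Kk : ℝ) (b : 𝔠.BinT i H) (v : Option (𝔠.CluT i H Kk)) (hv : v ∈ 𝔠.clS i H Kk b) :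
    ∃ p : 𝔠.CluT i H Kk, v = some p ∧ p.1.1 = b.1 := by
  unfold XCfg.clS at hv
  obtain ⟨p, hp, rfl⟩ := Finset.mem_image.1 hv
  unfold XCfg.cluIn at hp
  exact ⟨p, rfl, congrArg Subtype.val (Finset.mem_filter.1 hp).2⟩

theorem fcl_hyp_dat (𝔠 : XCfg k Λ) {cthr T₁ : ℝ} {K : XCls} {P : ℕ} (h𝔠 : 𝔠.Ok cthr K T₁ P) (hρ : 0 ≤ K.ρ) (i : Fin (k + 1)) {H Kk : ℝ} (hH : 1 ≤ H) (hHK : H ≤ Kk) (hKh : Kk ≤ 𝔠.h)
    (b : 𝔠.BinT i H) (v : Option (𝔠.CluT i H Kk)) (hv : v ∈ 𝔠.clS i H Kk b) :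
    Measurable (𝔠.gS i H Kk v) ∧ MemLp (𝔠.gS i H Kk v) 2 volume ∧ ∀ ξ, 𝔠.gS i H Kk v ξ ≠ 0 → ‖ξ - 𝔠.frU i b.1‖ ≤ (K.ρ + 1) / H := by
  obtain ⟨p, rfl, hp⟩ := fcl_hyp_mem 𝔠 i H Kk b v hv
  obtain ⟨h1, _, h3⟩ := fcl_dat 𝔠 h𝔠 hρ i hH hHK hKh p
  rw [hp] at h3
  exact ⟨h1.meas, h1.l2, h3⟩

/-- **LEAF L-F1-CL9: the hypotheses of the block SM.**
PLAN.  `Cs` from `fcl_caps k K.Cc`, `Ce` from `fgr_sm_energy k K`, `G0` from `fgr_sm_gram k P (P + k + 1) K (K.ρ + 1) T₁`.   Fields: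
`cb_le`, `slab`: `fcl_caps` (`le_max_left`).    `ball`: `z = wz q₀`; `(Yf.image wz).filter … = (Yf.filter …).image wz`, `Finset.card_image_le`, `hball`.    `meas`, `l2`, `supp`: `v ∈ clS b` gives `v = some p`, `cluBin p = b` i.e. `p.1.1 = b.1` (`congrArg Subtype.val`); `fcl_dat`.
`energy`: `fgr_sm_energy` with `gp = 𝔠.gp i H Kk`, `caps = univ`, `cl = clS` (`XCfg.gS`, `XCfg.cel` unfold to its form; `(𝔠.A i).h = 𝔠.h`), `XCfg.D`, `hD`; `Finset.card_image_of_injOn` (the witnesses are separated: `hY.2 i`, a vanishing difference has norm `0 < 1`).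
`gram`: `fgr_sm_gram` (centres: `fcl_dat`-type estimate for the LABELS: `‖fr T.1 - frU b.1‖ ≤ 1/H ≤ (K.ρ+1)/H` by `netPi_spec`), `z = wz q`, `(h𝔠.wit q (hY.1 hq) i)`: `|z.2| ≤ T₁ h²`, `env ≤ 1`. -/
theorem fcl_hyp (k P : ℕ) (K : XCls) (T₁ : ℝ) (hkP : k < P) (hPJ : P ≤ K.J) (hkJ : 2 * k + 1 ≤ K.J) (hρ : 0 ≤ K.ρ) : ∃ Cs Ce G0 : ℝ, 0 ≤ Cs ∧ 0 ≤ Ce ∧ 0 ≤ G0 ∧
    ∀ (Λ : Type) [Fintype Λ] (𝔠 : XCfg k Λ) (cthr : ℝ), 𝔠.Ok cthr K T₁ P → ∀ (i : Fin (k + 1)) (H Kk Mc N0 N1 : ℝ) (Yf : Finset (Lat k)), 1 ≤ H → H ≤ Kk → Kk ≤ 𝔠.h → 0 < Mc → 0 ≤ N0 → 0 ≤ N1 →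
      SepY 𝔠 Yf → BallY 𝔠 i Yf H N0 → 𝔠.D i ≤ N1 * (H ^ (k + 2) * Yf.card) →
      SmHyp (P + k + 1) (2 * K.J + P) (K.ρ + 1) (max K.Cc 1) H 𝔠.h Kk Mc Cs N0 (Ce * N1) G0 (Yf.image (𝔠.wz i)) (Finset.univ : Finset (𝔠.BinT i H)) (fun b => 𝔠.frU i b.1)
        (𝔠.clS i H Kk) (𝔠.gS i H Kk) := by
  obtain ⟨Cs, hCs, hcaps⟩ := fcl_caps k K.Cc
  obtain ⟨Ce, hCe, hen⟩ := fgr_sm_energy k K hkJ hρ
  obtain ⟨G0, hG0, hgr⟩ := fgr_sm_gram k P (P + k + 1) K (K.ρ + 1) T₁ hkP (by omega) hPJ hρ (by linarith)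
  refine ⟨Cs, Ce, G0, hCs, hCe, hG0, ?_⟩
  intro Λ _ 𝔠 cthr h𝔠 i H Kk Mc N0 N1 Yf hH hHK hKh hMc hN0 hN1 hY hball hD
  obtain ⟨hc1, hc2, hc3⟩ := hcaps Λ 𝔠 cthr T₁ K P rfl h𝔠 i H Kk hH
  have hH0 : 0 < H := by linarith
  have hinj : Set.InjOn (𝔠.wz i) (Yf : Set (Lat k)) := by
    intro q hq q' hq' he
    by_contra hne
    have := hY.2 i q hq q' hq' hne
    rw [he, sub_self, norm_zero] at this
    linarith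
  have hdis : ∀ b ∈ (Finset.univ : Finset (𝔠.BinT i H)), ∀ b' ∈ (Finset.univ : Finset (𝔠.BinT i H)), b ≠ b' → Disjoint (𝔠.clS i H Kk b) (𝔠.clS i H Kk b') :=
    fun b _ b' _ hbb => hc3 b b' hbb
  refine ⟨hH, hHK, hKh, hMc, hCs, hN0, mul_nonneg hCe hN1, hG0, fun b _ => (hc1 b).trans (le_max_left _ _), ?_, ?_, ?_, ?_, ?_, ?_, ?_⟩
  · intro e c lam he hlam
    convert hc2 e c lam he hlam
  · -- ball
    intro z _ r hr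
    rw [Finset.filter_image]
    refine le_trans ?_ (hball z r hr)
    exact_mod_cast Finset.card_image_le
  · exact fun b _ v hv => (fcl_hyp_dat 𝔠 h𝔠 hρ i hH hHK hKh b v hv).1
  · exact fun b _ v hv => (fcl_hyp_dat 𝔠 h𝔠 hρ i hH hHK hKh b v hv).2.1
  · exact fun b _ v hv => (fcl_hyp_dat 𝔠 h𝔠 hρ i hH hHK hKh b v hv).2.2
  · -- energy
    have h1 := hen Λ (𝔠.BinT i H) (Option (𝔠.CluT i H Kk)) (𝔠.A i) (𝔠.s i) (𝔠.a i) (h𝔠.cls i) (𝔠.gp i H Kk) Finset.univ (𝔠.clS i H Kk) hdis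
    rw [h𝔠.scale i] at h1
    rw [Finset.card_image_of_injOn hinj]
    have h2 : 𝔠.h ^ 2 * ∑ b : 𝔠.BinT i H, ∑ v ∈ 𝔠.clS i H Kk b, ∫ ξ, ‖𝔠.gS i H Kk v ξ‖ ^ 2 ≤ Ce * (𝔠.A i).en (𝔠.s i) (𝔠.a i) := by
      unfold XCfg.gS XCfg.cel
      convert h1
    calc _ ≤ Ce * (𝔠.A i).en (𝔠.s i) (𝔠.a i) := h2
      _ ≤ Ce * (N1 * (H ^ (k + 2) * Yf.card)) := mul_le_mul_of_nonneg_left hD hCe
      _ = _ := by ring
  · -- gram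
    intro z hz τ
    obtain ⟨q, hq, rfl⟩ := Finset.mem_image.1 hz
    obtain ⟨_, hw2, _, hw4⟩ := h𝔠.wit q (hY.1 hq) i
    have h1 := hgr Λ (𝔠.BinT i H) (Option (𝔠.CluT i H Kk)) (𝔠.A i) (𝔠.s i) (𝔠.a i) (h𝔠.cls i) (𝔠.gp i H Kk) Finset.univ (𝔠.clS i H Kk) (fun b => 𝔠.frU i b.1) H hdis hH
      (by rw [h𝔠.scale i]; exact hHK.trans hKh) (by
        intro b _ v hv T hT hgp
        obtain ⟨p, rfl, hp⟩ := fcl_hyp_mem 𝔠 i H Kk b v hv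
        unfold XCfg.gp at hgp
        rw [dif_pos hT] at hgp
        have hpe : 𝔠.cluOf i H Kk ⟨T.1, T.2, hT⟩ = p := Option.some_inj.1 hgp
        have h2 := ((netPi_spec (inv_pos.2 hH0) (𝔠.frU i)).1 ⟨T.1, T.2, hT⟩).1
        have h3 : netPi H⁻¹ (𝔠.frU i) ⟨T.1, T.2, hT⟩ = b.1 := by
          rw [← hp, ← hpe]
          rfl
        rw [h3] at h2
        refine le_trans h2 ?_
        rw [inv_eq_one_div]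
        exact div_le_div_of_nonneg_right (by linarith) hH0.le) (𝔠.wz i q) τ (by rw [h𝔠.scale i]; exact hw2)
    rw [h𝔠.scale i] at h1
    have h2 : (𝔠.h ^ k)⁻¹ * ∑ b : 𝔠.BinT i H, ∑ v ∈ 𝔠.clS i H Kk b, ∫ x : E k, fsmW (P + k + 1) (𝔠.h⁻¹ • (x - (𝔠.wz i q).1 - τ • ((2 : ℝ) • 𝔠.frU i b.1))) *
          ‖ext (𝔠.gS i H Kk v) (x, (𝔠.wz i q).2 + τ)‖ ^ 2 ≤ G0 * (𝔠.A i).env (𝔠.s i) (𝔠.a i) P (𝔠.wz i q) * (1 + |τ| / (H * 𝔠.h)) ^ (2 * K.J + P) := by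
      unfold XCfg.gS XCfg.cel
      convert h1
    refine le_trans h2 ?_
    have h5 : 0 ≤ (1 + |τ| / (H * 𝔠.h)) ^ (2 * K.J + P) := by
      have : 0 < 𝔠.h := by linarith [h𝔠.two_le]
      positivity
    refine mul_le_mul_of_nonneg_right ?_ h5
    calc G0 * (𝔠.A i).env (𝔠.s i) (𝔠.a i) P (𝔠.wz i q) ≤ G0 * 1 := mul_le_mul_of_nonneg_left hw4 hG0
      _ = G0 := mul_one _

/-- the cells of the clusters are disjoint -/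
theorem fcl_en_group (𝔠 : XCfg k Λ) (i : Fin (k + 1)) (H Kk : ℝ) (F : Λ × (Fin k → ℤ) → ℝ) :
    ∑ p : 𝔠.CluT i H Kk, ∑ T ∈ 𝔠.cel i H Kk (some p), F T ≤ ∑ T ∈ 𝔠.s i, F T := by
  unfold XCfg.cel
  simp only [Finset.sum_filter]
  rw [Finset.sum_comm]
  refine Finset.sum_le_sum fun T hT => ?_
  have e : 𝔠.gp i H Kk T = some (𝔠.cluOf i H Kk ⟨T.1, T.2, hT⟩) := by
    unfold XCfg.gp
    rw [dif_pos hT]
  rw [e]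
  simp only [Option.some_inj]
  rw [Finset.sum_ite_eq, if_pos (Finset.mem_univ _)]

/-- the energy of one cluster -/
theorem fcl_en_one {C₁ C0 B₁ Kk h R₀ ρ' : ℝ} {v : E k} {g : E k → ℂ} {χ₁ : ℝ → ℂ} (hC₁ : 0 ≤ C₁) (hB₁ : 0 ≤ B₁) (hK : 0 < Kk) (hKh : Kk ≤ h) (hg : Dat R₀ g)
    (hs : ∀ ξ, g ξ ≠ 0 → ‖ξ - v‖ ≤ ρ' / Kk) (hdec : ∀ s, ‖χ₁ s‖ ≤ B₁ * (1 + |s|) ^ (-(1 : ℝ)))
    (hen : ∀ (K₀ h R₀ t₀ B₁ : ℝ) (v : E k) (g : E k → ℂ) (τ : ℝ → ℂ) (En : ℝ≥0∞),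
      0 < K₀ → K₀ ≤ h → Dat R₀ g → (∀ ξ, g ξ ≠ 0 → ‖ξ - v‖ ≤ ρ' / K₀) → 0 ≤ B₁ → (∀ t, ‖τ t‖ ≤ B₁ * (1 + |t - t₀| / h ^ 2) ^ (-(1 : ℝ))) →
      (∀ t, ∫⁻ x, ‖ext g (x, t)‖ₑ ^ 2 ≤ En) → ∀ W : Finset (Lat k),
      ENNReal.ofReal (K₀ ^ (k + 2) * ∑ n ∈ W, rcSz C0 K₀ v (fun z => τ z.2 * ext g z) n ^ 2) ≤ ENNReal.ofReal (C₁ * B₁ ^ 2 * h ^ 2) * En) (W : Finset (Lat k)) :
    Kk ^ (k + 2) * ∑ n ∈ W, rcSz C0 Kk v (fun z => χ₁ (z.2 / h ^ 2) * ext g z) n ^ 2 ≤ C₁ * B₁ ^ 2 * h ^ 2 * ((2 * Real.pi) ^ k * ∫ ξ, ‖g ξ‖ ^ 2) := by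
  have hh : 0 < h := hK.trans_le hKh
  have hI : 0 ≤ ∫ ξ, ‖g ξ‖ ^ 2 := integral_nonneg fun ξ => by positivity
  have h1 := hen Kk h R₀ 0 B₁ v g (fun t => χ₁ (t / h ^ 2)) (ENNReal.ofReal ((2 * Real.pi) ^ k * ∫ ξ, ‖g ξ‖ ^ 2)) hK hKh hg hs hB₁ (by
      intro t
      have := hdec (t / h ^ 2)
      rw [abs_div, abs_of_pos (show (0 : ℝ) < h ^ 2 by positivity)] at this
      rw [sub_zero]
      exact this) (by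
      intro t
      obtain ⟨hi, he⟩ := fsm_ext_l2 hg t
      rw [← he, ofReal_integral_eq_lintegral_ofReal hi (Filter.Eventually.of_forall fun y => by positivity)]
      refine le_of_eq (lintegral_congr fun y => ?_)
      rw [← ofReal_norm, ENNReal.ofReal_pow (norm_nonneg _)]) W
  rw [← ENNReal.ofReal_mul (by positivity), ENNReal.ofReal_le_ofReal_iff (by positivity)] at h1
  exact h1

/-- **LEAF L-F1-CL10 = EXIT 2: the energy of the leaves of `tF`** (H (f:actual-packet-energy), l.455-470).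
PLAN.  `(C0₀, C₁)` from `frc_en k (ρ + 1) 1`, `(B₁, _)` from `hχ.decay 1`, `Ce` from `fgr_energy k K`;  `C = max 1 (Cχ² C₁ B₁² (2π)^k Ce)`.
`(tF).en = Kk^(k+2) ∑_p ∑_{n ∈ latBox R} amp (p,n)²` (`T2.en`, `XCfg.tF`, `Finset.sum_product`), `fcl_amp_eq`, `mul_pow`.   For every `p`: `frc_en` with `g = gS (some p)` (`fcl_dat`), `τ t = χ₁ (t / h²)`, `t₀ = 0` (`sub_zero`, `abs_div`),
`En = ENNReal.ofReal ((2π)^k ∫ ‖g‖²)` (`fsm_ext_l2`, `ofReal_integral_eq_lintegral_ofReal`, `‖·‖ₑ ^ 2 = ofReal (‖·‖²)`); leave `ENNReal` by `ENNReal.ofReal_le_ofReal_iff` (`← ENNReal.ofReal_mul`).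
`∫ ‖gS (some p)‖² ≤ Ce h^k ∑_{T ∈ cel (some p)} a_T²` (`fgr_energy`), the sets `cel (some p)` are pairwise disjoint subsets of `𝔠.s i` (`Finset.sum_fiberwise_le…`/`fgr_sum_group`/`Finset.sum_biUnion`);  `h² h^k = h^(k+2)`; `XCfg.D`, `XFam.en`, `h𝔠.scale i`. -/
theorem fcl_en (k : ℕ) (ρ : ℝ) (hρ : 0 ≤ ρ) : ∃ C0₀ : ℝ, ∀ c : TCls k, c.Ok → C0₀ ≤ c.C0 → ∀ (K : XCls) (T₁ : ℝ) (χ₁ χh : ℝ → ℂ), K.ρ = ρ → 2 * k + 1 ≤ K.J → XCut T₁ χ₁ χh → ∃ C : ℝ, 1 ≤ C ∧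
    ∀ (Λ : Type) [Fintype Λ] (𝔠 : XCfg k Λ) (cthr : ℝ) (P : ℕ), 𝔠.Ok cthr K T₁ P → ∀ (i : Fin (k + 1)) (Cx H Kk : ℝ) (R : ℕ) (W1 : Finset (𝔠.BinT i H × Lat k)) (Yf : Finset (Lat k)) (x : XCfg.Aux),
      (∀ T ∈ 𝔠.W0 i, ∀ z, toB (𝔠.lv i χ₁ T) z = 𝔠.lv i χ₁ T z) → 1 ≤ H → H ≤ Kk → Kk ≤ 𝔠.h → (𝔠.tF i c χ₁ Cx H Kk R W1 Yf x).en ≤ C * 𝔠.D i := by
  obtain ⟨C0₀, C₁, hC₁, hen⟩ := frc_en k (ρ + 1) 1 (by norm_num)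
  refine ⟨C0₀, fun c hc hC0 K T₁ χ₁ χh hKρ hkJ hχ => ?_⟩
  obtain ⟨B₁, hB₁, hdec⟩ := hχ.decay 1
  have hρK : 0 ≤ K.ρ := by rw [hKρ]; exact hρ
  obtain ⟨Ce, hCe, hE⟩ := fgr_energy k K hkJ hρK
  refine ⟨max 1 (c.Cχ ^ 2 * (C₁ * B₁ ^ 2 * ((2 * Real.pi) ^ k * Ce))), le_max_left _ _, ?_⟩
  intro Λ _ 𝔠 cthr P h𝔠 i Cx H Kk R W1 Yf x hval hH hHK hKh
  have hK0 : 0 < Kk := by linarith
  have hh : 0 < 𝔠.h := by linarith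
  have hD0 : 0 ≤ 𝔠.D i := by
    unfold XCfg.D XFam.en
    rw [h𝔠.scale i]
    positivity
  have e1 : (𝔠.tF i c χ₁ Cx H Kk R W1 Yf x).en = Kk ^ (k + 2) * ∑ T ∈ (Finset.univ : Finset (𝔠.CluT i H Kk)) ×ˢ latBox k R, (𝔠.tK i χ₁ Cx H Kk R Yf x).amp c T ^ 2 := rfl
  rw [e1, Finset.sum_product, Finset.mul_sum]
  have hone : ∀ p : 𝔠.CluT i H Kk, Kk ^ (k + 2) * ∑ n ∈ latBox k R, (𝔠.tK i χ₁ Cx H Kk R Yf x).amp c (p, n) ^ 2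
      ≤ c.Cχ ^ 2 * (C₁ * B₁ ^ 2 * ((2 * Real.pi) ^ k * Ce)) * (𝔠.h ^ (k + 2) * ∑ T ∈ 𝔠.cel i H Kk (some p), 𝔠.a i T ^ 2) := by
    intro p
    obtain ⟨hd1, hd2, _⟩ := fcl_dat 𝔠 h𝔠 hρK i hH hHK hKh p
    rw [hKρ] at hd2
    have h1 := fcl_en_one (C0 := c.C0) hC₁ hB₁ hK0 hKh hd1 hd2 hdec (hen c.C0 hC0) (latBox k R)
    have h2 : ∫ ξ, ‖𝔠.gS i H Kk (some p) ξ‖ ^ 2 ≤ Ce * 𝔠.h ^ k * ∑ T ∈ 𝔠.cel i H Kk (some p), 𝔠.a i T ^ 2 := by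
      have := hE Λ (𝔠.A i) (𝔠.s i) (𝔠.a i) (h𝔠.cls i) (𝔠.cel i H Kk (some p)) (Finset.filter_subset _ _)
      rw [h𝔠.scale i] at this
      exact this
    have e2 : ∀ n, (𝔠.tK i χ₁ Cx H Kk R Yf x).amp c (p, n) ^ 2 = c.Cχ ^ 2 * rcSz c.C0 Kk (𝔠.frU i p.1.2) (fun z => χ₁ (z.2 / 𝔠.h ^ 2) * ext (𝔠.gS i H Kk (some p)) z) n ^ 2 := by
      intro n
      rw [← mul_pow]
      exact congrArg (· ^ 2) (fcl_amp_eq 𝔠 h𝔠 i c χ₁ Cx H Kk R Yf x hval (p, n))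
    simp only [e2]
    rw [← Finset.mul_sum]
    calc Kk ^ (k + 2) * (c.Cχ ^ 2 * ∑ n ∈ latBox k R, rcSz c.C0 Kk (𝔠.frU i p.1.2) (fun z => χ₁ (z.2 / 𝔠.h ^ 2) * ext (𝔠.gS i H Kk (some p)) z) n ^ 2)
        = c.Cχ ^ 2 * (Kk ^ (k + 2) * ∑ n ∈ latBox k R, rcSz c.C0 Kk (𝔠.frU i p.1.2) (fun z => χ₁ (z.2 / 𝔠.h ^ 2) * ext (𝔠.gS i H Kk (some p)) z) n ^ 2) := by ring
      _ ≤ c.Cχ ^ 2 * (C₁ * B₁ ^ 2 * 𝔠.h ^ 2 * ((2 * Real.pi) ^ k * ∫ ξ, ‖𝔠.gS i H Kk (some p) ξ‖ ^ 2)) := mul_le_mul_of_nonneg_left h1 (sq_nonneg _)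
      _ ≤ c.Cχ ^ 2 * (C₁ * B₁ ^ 2 * 𝔠.h ^ 2 * ((2 * Real.pi) ^ k * (Ce * 𝔠.h ^ k * ∑ T ∈ 𝔠.cel i H Kk (some p), 𝔠.a i T ^ 2))) := by
          refine mul_le_mul_of_nonneg_left (mul_le_mul_of_nonneg_left (mul_le_mul_of_nonneg_left h2 (by positivity)) (by positivity)) (sq_nonneg _)
      _ = _ := by ring
  have hc0 : 0 ≤ c.Cχ ^ 2 * (C₁ * B₁ ^ 2 * ((2 * Real.pi) ^ k * Ce)) := by positivity
  calc ∑ p : 𝔠.CluT i H Kk, Kk ^ (k + 2) * ∑ n ∈ latBox k R, (𝔠.tK i χ₁ Cx H Kk R Yf x).amp c (p, n) ^ 2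
      ≤ ∑ p : 𝔠.CluT i H Kk, c.Cχ ^ 2 * (C₁ * B₁ ^ 2 * ((2 * Real.pi) ^ k * Ce)) * (𝔠.h ^ (k + 2) * ∑ T ∈ 𝔠.cel i H Kk (some p), 𝔠.a i T ^ 2) :=
        Finset.sum_le_sum fun p _ => hone p
    _ = c.Cχ ^ 2 * (C₁ * B₁ ^ 2 * ((2 * Real.pi) ^ k * Ce)) * (𝔠.h ^ (k + 2) * ∑ p : 𝔠.CluT i H Kk, ∑ T ∈ 𝔠.cel i H Kk (some p), 𝔠.a i T ^ 2) := by
        rw [Finset.mul_sum, Finset.mul_sum]
    _ ≤ c.Cχ ^ 2 * (C₁ * B₁ ^ 2 * ((2 * Real.pi) ^ k * Ce)) * (𝔠.h ^ (k + 2) * ∑ T ∈ 𝔠.s i, 𝔠.a i T ^ 2) :=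
        mul_le_mul_of_nonneg_left (mul_le_mul_of_nonneg_left (fcl_en_group 𝔠 i H Kk _) (by positivity)) hc0
    _ = c.Cχ ^ 2 * (C₁ * B₁ ^ 2 * ((2 * Real.pi) ^ k * Ce)) * 𝔠.D i := by
        unfold XCfg.D XFam.en
        rw [h𝔠.scale i]
    _ ≤ _ := mul_le_mul_of_nonneg_right (le_max_right _ _) hD0

/-- **EXIT 1 OF THE BLOCK CL = (f:clipped), summed over the witnesses.** -/
theorem fcl_mainT (k P : ℕ) (ρ : ℝ) (hk : 1 ≤ k) (hkP : k < P) (hρ0 : 0 ≤ ρ) : ∃ Pw₀ : ℝ, ∀ c : TCls k, c.Ok → Pw₀ ≤ c.P → ∀ (K : XCls) (T₁ : ℝ), K.ρ = ρ → P ≤ K.J → 2 * k + 1 ≤ K.J → ∃ C : ℝ, 1 ≤ C ∧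
    ∀ (Λ : Type) [Fintype Λ] (𝔠 : XCfg k Λ) (cthr : ℝ), 𝔠.Ok cthr K T₁ P → ∀ (i : Fin (k + 1)) (χ₁ : ℝ → ℂ) (Cx H Kk : ℝ) (R : ℕ) (W1 : Finset (𝔠.BinT i H × Lat k)) (Yf : Finset (Lat k))
      (x : XCfg.Aux) (Mc N0 N1 : ℝ), (∀ s, ‖χ₁ s‖ ≤ 1) → (∀ T ∈ 𝔠.W0 i, ∀ z, toB (𝔠.lv i χ₁ T) z = 𝔠.lv i χ₁ T z) → 1 ≤ H → H ≤ Kk → Kk ≤ 𝔠.h → 0 < Mc → 0 ≤ N0 → 0 ≤ N1 →
      SepY 𝔠 Yf → BallY 𝔠 i Yf H N0 → 𝔠.D i ≤ N1 * (H ^ (k + 2) * Yf.card) →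
      ∑ q ∈ Yf, ∑ b : 𝔠.BinT i H, min ((𝔠.tF i c χ₁ Cx H Kk R W1 Yf x).eb c.P b (𝔠.wz i q)) Mc
        ≤ C * (1 + (Mc * H ^ k + Real.sqrt (N0 * N1 * (Mc * H ^ k))) * ((Kk / H) ^ (-(1 / 4 : ℝ)) + H ^ (-(1 / 4 : ℝ)) * (1 + Real.log (𝔠.h / Kk)))) * Yf.card := by
  obtain ⟨Pw₀, hEb⟩ := fcl_eb k (P + 2 * k + 3) 1 (by omega) ρ hρ0
  refine ⟨Pw₀, fun c hc hP K T₁ hKρ hPJ hkJ => ?_⟩
  have hρ : 0 ≤ K.ρ := by rw [hKρ]; exact hρ0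
  obtain ⟨Cs, Ce, G0, hCs, hCe, hG0, hHyp⟩ := fcl_hyp k P K T₁ hkP hPJ hkJ hρ
  obtain ⟨Csm, hCsm, hSm⟩ := fsm_main k (P + 2 * k + 3) (P + k + 1) 1 (2 * K.J + P) (K.ρ + 1) (max K.Cc 1) hk (by omega) (by omega) le_rfl (by linarith) (le_max_right _ _)
  obtain ⟨C1, hC1, hEb'⟩ := hEb c hc hP T₁
  have hs0 : 0 ≤ Real.sqrt (Cs * Ce) := Real.sqrt_nonneg _
  refine ⟨1 + C1 * (Csm * (G0 + Cs + Real.sqrt (Cs * Ce))), by nlinarith [mul_nonneg (by linarith : (0 : ℝ) ≤ C1) (mul_nonneg hCsm (by positivity : 0 ≤ G0 + Cs + Real.sqrt (Cs * Ce)))], ?_⟩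
  intro Λ _ 𝔠 cthr h𝔠 i χ₁ Cx H Kk R W1 Yf x Mc N0 N1 hχ hval hH hHK hKh hMc hN0 hN1 hY hball hD
  have hH0 : 0 < H := by linarith
  have hK0 : 0 < Kk := by linarith
  have hyp := hHyp Λ 𝔠 cthr h𝔠 i H Kk Mc N0 N1 Yf hH hHK hKh hMc hN0 hN1 hY hball hD
  have hsm := hSm H 𝔠.h Kk 0 Mc Cs N0 (Ce * N1) G0 (Yf.image (𝔠.wz i)) Finset.univ (fun b : 𝔠.BinT i H => 𝔠.frU i b.1) (𝔠.clS i H Kk) (𝔠.gS i H Kk) hyp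
  have hinj : Set.InjOn (𝔠.wz i) (Yf : Set (Lat k)) := by
    intro q hq q' hq' he
    by_contra hne
    have := hY.2 i q hq q' hq' hne
    rw [he, sub_self, norm_zero] at this
    linarith
  rw [Finset.sum_image hinj, Finset.card_image_of_injOn hinj] at hsm
  set A := Mc * H ^ k with hA
  set B := Real.sqrt (N0 * N1 * A) with hB
  set Er := (Kk / H) ^ (-(1 / 4 : ℝ)) + H ^ (-(1 / 4 : ℝ)) * (1 + Real.log (𝔠.h / Kk)) with hEr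
  have hA0 : 0 ≤ A := by positivity
  have hB0 : 0 ≤ B := Real.sqrt_nonneg _
  have hlog : 0 ≤ Real.log (𝔠.h / Kk) := Real.log_nonneg (by rw [le_div_iff₀ hK0]; linarith)
  have hEr0 : 0 ≤ Er := by
    have h1 : 0 ≤ (Kk / H) ^ (-(1 / 4 : ℝ)) := Real.rpow_nonneg (by positivity) _
    have h2 : 0 ≤ H ^ (-(1 / 4 : ℝ)) := Real.rpow_nonneg hH0.le _
    positivity
  have hsq : Real.sqrt (Cs * N0 * (Ce * N1) * A) = Real.sqrt (Cs * Ce) * B := by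
    rw [hB, ← Real.sqrt_mul (by positivity)]
    congr 1
    ring
  rw [hsq] at hsm
  have hint0 : ∀ (b : 𝔠.BinT i H) (z : ST k), 0 ≤ ∫ y : E k, fsmJ (P + 2 * k + 3) Kk (z.1 - y) * fsmF 𝔠.h 0 1 (𝔠.clS i H Kk b) (𝔠.gS i H Kk) (y, z.2) := by
    intro b z
    refine integral_nonneg fun y => mul_nonneg (fsm_J_pos (by omega) hK0 _).le ?_
    unfold fsmF fsmWt
    positivity
  have h1 : ∑ q ∈ Yf, ∑ b : 𝔠.BinT i H, min ((𝔠.tF i c χ₁ Cx H Kk R W1 Yf x).eb c.P b (𝔠.wz i q)) Mc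
      ≤ C1 * ∑ q ∈ Yf, ∑ b : 𝔠.BinT i H, min (∫ y : E k, fsmJ (P + 2 * k + 3) Kk ((𝔠.wz i q).1 - y) * fsmF 𝔠.h 0 1 (𝔠.clS i H Kk b) (𝔠.gS i H Kk) (y, (𝔠.wz i q).2)) Mc := by
    rw [Finset.mul_sum]
    refine Finset.sum_le_sum fun q hq => ?_
    rw [Finset.mul_sum]
    refine Finset.sum_le_sum fun b _ => ?_
    exact fcl_min hC1 hMc.le (hint0 b _) (hEb' Λ 𝔠 cthr K P hKρ h𝔠 i χ₁ Cx H Kk R W1 Yf x hχ hval hH hHK hKh b (𝔠.wz i q) (h𝔠.wit q (hY.1 hq) i).2.1)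
  have hC10 : 0 ≤ C1 := by linarith
  have hcard : (0 : ℝ) ≤ Yf.card := Nat.cast_nonneg _
  have key : G0 + (Cs * A + Real.sqrt (Cs * Ce) * B) * Er ≤ (G0 + Cs + Real.sqrt (Cs * Ce)) * (1 + (A + B) * Er) := by
    have t : (G0 + Cs + Real.sqrt (Cs * Ce)) * (1 + (A + B) * Er) - (G0 + (Cs * A + Real.sqrt (Cs * Ce) * B) * Er)
        = Cs + Real.sqrt (Cs * Ce) + (G0 * (A + B) + Cs * B + Real.sqrt (Cs * Ce) * A) * Er := by ring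
    have t' : 0 ≤ Cs + Real.sqrt (Cs * Ce) + (G0 * (A + B) + Cs * B + Real.sqrt (Cs * Ce) * A) * Er := by positivity
    linarith
  have hZ : 0 ≤ 1 + (A + B) * Er := by positivity
  calc _ ≤ C1 * _ := h1
    _ ≤ C1 * (Csm * (G0 + (Cs * A + Real.sqrt (Cs * Ce) * B) * Er) * Yf.card) := mul_le_mul_of_nonneg_left hsm hC10
    _ ≤ C1 * (Csm * ((G0 + Cs + Real.sqrt (Cs * Ce)) * (1 + (A + B) * Er)) * Yf.card) := by gcongr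
    _ = C1 * (Csm * (G0 + Cs + Real.sqrt (Cs * Ce))) * (1 + (A + B) * Er) * Yf.card := by ring
    _ ≤ (1 + C1 * (Csm * (G0 + Cs + Real.sqrt (Cs * Ce)))) * (1 + (A + B) * Er) * Yf.card := by
        have : 0 ≤ (1 + (A + B) * Er) * Yf.card := by positivity
        nlinarith

end cfg

end

end Claimed.Agent.R257.FR1
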