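import Claimed.Agent.R257.FR1.NA
import Claimed.Agent.R257.FR1.ClT

/-!
# ROW 257, package FR1, block CL: THE CLIPPED SQUARE SUM OF THE RECONSTRUCTED PACKETS  (H f:smoothing, (f:clipped); `frame.tex` l.266-277, 454-525)      (contract: helper249; architect of the proofs: helper16; prefix `fcl_`)

The tree `tF = 𝔠.tF i c χ₁ Cx H Kk R W1 Yf x` (`FR1/Bld.lean`) has the leaves `χ_T V_p` = output packets of scale `Kk` of the tree `tK : h → Kk` (clusters `p` inside the bins `b`), sizes `s0 T = (tK).amp c T = Cχ sup |V_p| (1 + d_T)^{-C0}`,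
`V_p = χ₁(t/h²) ext (𝔠.gC i H Kk p)`.      `tF.eb A b z = ∑_{T : bin = b} s0 T² (1 + d_T(z))^{-A}` does not depend on `W1`, `Yf`, `x`, and increases with the window `R`.
* `fcl_main`   from `fsm_main` (`FR1/SmMain.lean`: caps = all the bins, `cb b = 𝔠.frU i b.1`, `cl = 𝔠.cluIn i H Kk`, `g = 𝔠.gC i H Kk`, `t0 = 0`), `fgr_sm_energy`, `fgr_sm_gram` (`FR1/Gr.lean`), `fb_slab` (`FR1/BdC.lean`),
               `frc_env`, `frc_Sz_mono` (`FR1/Rc.lean`): `eb c.P b z ≤ C ∑_{p ∈ cl b} ∫ j_{Kk}(z.1 - x) |ext (gC p)(x, z.2)|² dx ≤ C' ∫ fsmJ Q Kk (z.1 - y) fsmF h 0 J (cl b) gC (y, z.2) dy` on the slab `|z.2| ≤ T₁ h²`; `min (C' a) Mc ≤ C' min a Mc`.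
* `fcl_top`    no smoothing: local Cauchy + convolution (`t2_cauchy` for `tK` at the order `c.P`).
-/

set_option autoImplicit false

namespace Claimed.Agent.R257.FR1

open Claimed.Agent.R257 Claimed.Agent.R257.FR2 Claimed.Agent.R257.Tree
open scoped BigOperators Classical BoundedContinuousFunction

noncomputable section

variable {k : ℕ}

/-- the exact class with a nonnegative radius -/
theorem fcl_ok_mono {Λ : Type} [Fintype Λ] {𝔠 : XCfg k Λ} {cthr T₁ : ℝ} {K : XCls} {P : ℕ} (h : 𝔠.Ok cthr K T₁ P) : 𝔠.Ok cthr { K with ρ := max K.ρ 0 } T₁ P :=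
  { two_le := h.two_le, scale := h.scale, one_le_Q := h.one_le_Q, trans := h.trans, thr_ge := h.thr_ge, wit := h.wit,
    cls := fun i =>
      { one_le := (h.cls i).one_le, smooth := (h.cls i).smooth, supp := fun T hT η hη => ((h.cls i).supp T hT η hη).trans (le_max_left _ _), bound := (h.cls i).bound,
        freq := (h.cls i).freq, mult := (h.cls i).mult } }

/-- **CONTRACT CL-1** (block CL, helper16).   The order `c.P` of the work weight must be large (`Pw₀` depends only on `k`, the radius `ρ` of the data and the original order `P`). -/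
theorem fcl_main (k : ℕ) (ρ : ℝ) (P : ℕ) (hP : k + 3 ≤ P) : ∃ Pw₀ : ℝ, ∀ X : Ctx k, X.Ok → X.K.ρ = ρ → X.P = P → Pw₀ ≤ X.c.P → ∃ C : ℝ, 1 ≤ C ∧
    ∀ (Λ : Type) [Fintype Λ] (𝔠 : XCfg k Λ), X.Cfg 𝔠 → ∀ (i : Fin (k + 1)) (H Kk Mc N0 N1 : ℝ) (Y' : Finset (Lat k)), 1 ≤ H → H ≤ Kk → Kk ≤ 𝔠.h → 0 < Mc → 1 ≤ N0 → 1 ≤ N1 → SepY 𝔠 Y' →
    (∀ (z : ST k) (ϱ : ℝ), H ≤ ϱ → ((Y'.filter fun q => ‖𝔠.wz i q - z‖ ≤ ϱ).card : ℝ) ≤ N0 * (ϱ / H) ^ k * (1 + ϱ / H ^ 2)) →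
    𝔠.D i ≤ N1 * (H ^ (k + 2) * Y'.card) →
    ∀ (R : ℕ) (W1 : Finset (𝔠.BinT i H × Lat k)) (Yf : Finset (Lat k)) (x : XCfg.Aux),
      ∑ q ∈ Y', ∑ b, min ((𝔠.tF i X.c X.χ₁ X.Cx H Kk R W1 Yf x).eb X.c.P b (𝔠.wz i q)) Mc
        ≤ C * (1 + (Mc * H ^ k + Real.sqrt (N0 * N1 * (Mc * H ^ k))) * ((Kk / H) ^ (-(1 / 4 : ℝ)) + H ^ (-(1 / 4 : ℝ)) * (1 + Real.log (𝔠.h / Kk)))) * Y'.card := by
  by_cases hk : 1 ≤ k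
  swap
  · exact ⟨0, fun X hX => absurd hX.c_ok.k_pos hk⟩
  obtain ⟨Pw₀, h⟩ := fcl_mainT k P (max ρ 0) hk (by omega) (le_max_right _ _)
  refine ⟨Pw₀, fun X hX hρ hPX hPw => ?_⟩
  have hc := hX.c_ok
  have hk0 : (0 : ℝ) ≤ k := Nat.cast_nonneg k
  have hJ := hX.fit.J
  have hJ1 : P ≤ X.K.J := by
    have h1 : (P : ℝ) ≤ X.K.J := by
      have := hX.P_le
      rw [hPX] at this
      linarith [hc.P_lt, hc.M_gt, hc.C0_ge, hc.P_gt]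
    exact_mod_cast h1
  have hJ2 : 2 * k + 1 ≤ X.K.J := by
    have h1 : ((2 * k + 1 : ℕ) : ℝ) ≤ X.K.J := by
      push_cast
      linarith [hc.P_lt, hc.M_gt, hc.C0_ge, hc.P_gt]
    exact_mod_cast h1
  obtain ⟨C, hC, h'⟩ := h X.c hc hPw { X.K with ρ := max X.K.ρ 0 } X.T₁ (by rw [← hρ]) hJ1 hJ2
  refine ⟨C, hC, fun Λ _ 𝔠 h𝔠 i H Kk Mc N0 N1 Y' hH hHK hKh hMc hN0 hN1 hY hball hD R W1 Yf x => ?_⟩
  have h𝔠' : 𝔠.Ok X.cthr X.K X.T₁ P := by rw [← hPX]; exact h𝔠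
  exact h' Λ 𝔠 X.cthr (fcl_ok_mono h𝔠') i X.χ₁ X.Cx H Kk R W1 Y' x Mc N0 N1 hX.cut.le_one (fun T hT => (hX.leaf Λ 𝔠 h𝔠 i T hT).2) hH hHK hKh hMc (by linarith) (by linarith) hY hball hD

/-- **LEAF L-F1-CL2: no smoothing.**
PLAN: `C₁` from `t2_cauchy X.c … (A := X.c.P)` (`k + 2 < c.P` = `c_ok.P_gt`, `c.P ≤ c.Q` = `c_ok.P_lt.le`), `ϖ` from `fn_goodK` (import `FR1/NA.lean`).   `t2_eb_sum` for `tF`: `∑_b eb P b z = ∑_{T ∈ univ ×ˢ latBox R} (tK).amp c T² · pw P Kk (frU p.1.2) (lat T.2) z`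
`= ∑_{S ∈ (tK).W1} (tK).amp c S² (tK).w1 P S z` (`rfl`; `amp` does not depend on `Yf`, `x`: use the good tree `tK … ∅ (auxOf c Mc ϖ)`, `SepY 𝔠 ∅`) `≤ C₁ (h/Kk)^k ∑_{W0} s0² w0 P` and `fn_leaf_env` (`A = c.P`).   `C := C₁ Cx²`. -/
theorem fcl_top (X : Ctx k) (hX : X.Ok) : ∃ C : ℝ, 1 ≤ C ∧ ∀ (Λ : Type) [Fintype Λ] (𝔠 : XCfg k Λ), X.Cfg 𝔠 → ∀ (i : Fin (k + 1)) (H Kk : ℝ), 1 ≤ H → H ≤ Kk → Kk ≤ 𝔠.h →
    ∀ (R : ℕ) (W1 : Finset (𝔠.BinT i H × Lat k)) (Yf : Finset (Lat k)) (x : XCfg.Aux), ∀ q ∈ 𝔠.Y,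
      ∑ b, (𝔠.tF i X.c X.χ₁ X.Cx H Kk R W1 Yf x).eb X.c.P b (𝔠.wz i q) ≤ C * (𝔠.h / Kk) ^ k := by
  obtain ⟨C₁, hC₁, hcau⟩ := t2_cauchy X.c hX.c_ok hX.hℓ hX.htr (A := X.c.P) hX.c_ok.P_gt hX.c_ok.P_lt.le
  obtain ⟨ϖ, hϖ, hgood⟩ := fn_goodK X hX
  have hCx : 1 ≤ X.Cx ^ 2 := one_le_pow₀ hX.one_le_Cx
  refine ⟨C₁ * X.Cx ^ 2, one_le_mul_of_one_le_of_one_le hC₁ hCx, ?_⟩
  intro Λ _ 𝔠 h𝔠 i H Kk hH hHK hKh R W1 Yf x q hq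
  have hsep : SepY 𝔠 ∅ := ⟨Finset.empty_subset _, fun _ q hq => absurd hq (Finset.notMem_empty _)⟩
  obtain ⟨Mc, hg⟩ := hgood Λ 𝔠 h𝔠 i H Kk hH hHK hKh R ∅ hsep
  rw [t2_eb_sum]
  have h1 := hcau _ hg (𝔠.wz i q)
  have h2 := fn_leaf_env X 𝔠 h𝔠 i q hq X.c.P hX.P_le
  have hK0 : 0 < Kk := lt_of_lt_of_le one_pos (hH.trans hHK)
  have hh0 : 0 < 𝔠.h := lt_of_lt_of_le hK0 hKh
  have hr : 0 ≤ C₁ * (𝔠.h / Kk) ^ k := by positivity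
  have h3 : C₁ * (𝔠.h / Kk) ^ k * ∑ T ∈ 𝔠.W0 i, (X.Cx * 𝔠.a i (T.1.1, T.2.1)) ^ 2 * pw X.c.P 𝔠.h (𝔠.frU i T.1) (lat T.2) (𝔠.wz i q)
      ≤ C₁ * (𝔠.h / Kk) ^ k * X.Cx ^ 2 := mul_le_mul_of_nonneg_left h2 hr
  calc _ ≤ C₁ * (𝔠.h / Kk) ^ k * ∑ T ∈ 𝔠.W0 i, (X.Cx * 𝔠.a i (T.1.1, T.2.1)) ^ 2 * pw X.c.P 𝔠.h (𝔠.frU i T.1) (lat T.2) (𝔠.wz i q) := h1
    _ ≤ C₁ * (𝔠.h / Kk) ^ k * X.Cx ^ 2 := h3
    _ = C₁ * X.Cx ^ 2 * (𝔠.h / Kk) ^ k := by ring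


end

end Claimed.Agent.R257.FR1
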