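import Claimed.Agent.R257.Frame.Stmt
import Claimed.Agent.R257.Tree.Defs

/-!
# ROW 257 (S0497), package FR1 (H `frame.tex` l.1-577), file 1: EXACT PACKETS, THE EXACT FRAME STATEMENT, NORMALISED COUNTER-CONFIGURATIONS      (captain helper249)

NOTHING is sorried in this file (definitions only).     Language: `Infra/Defs` (`car`, `ext`), `Pk/Defs` (`natX`, `IsPk`), `Tree/Defs` (`Lat`, `lat`, `pw`, `TCls`, `TDat`), `Frame/Stmt` (`Transv`, `FrameStmt`).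

## 1. Exact packets, LATTICE FORM (H Lemma f:exact)
An exact packet of scale `h` has a label `v : Λ` (frequency `fr v`; at most `Cm` labels in a ball of radius `1/h`), a SPATIAL lattice point `m`, and smooth native data `G` supported in the ball `ρ`:
  `U_T(z) = car (fr v) z * ext G (natX h (fr v) z - lat (m, 0))   =   ∫ car (fr v + η/h) z · e^{-i m·η} G(η) dη`     (an exact solution for ALL times; the native centre is taken at the time `0`, where `natX h v (x,0) = (x/h, 0)` does not depend on `v`).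
Amplitude `a_T` = bound of the derivatives of `G` of order `≤ J`.    NO time cutoff in the statement: the witnesses lie in the slab `|t| ≤ T₁ h²`; the cutoff `χ_h` (compact Fourier support, bounded below on the slab) is an INTERNAL device (`FR1/Xp*.lean`).
RELABELLING IS FREE at the level of the data: `fr v = v' + e/h`  ⟹  `U = car v' · ext (e^{i m·e} G(· - e)) (natX h v' z - lat (m,0))`;    moving the centre by `r`: multiply `G` by `e^{-i r·η}`;    several packets in one cell: add the data.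

## 2. `XFrameStmt k` = f:frame for exact packets.      Block EX (`FR1/Ex*.lean`):  `XFrameStmt k → FrameStmt k`.

## 3. Normalised counter-configurations `NCfg` = what H l.120-577 extracts from a failing exact configuration; `CorePow`, `CoreSub` = what FR2 + FR3 (H l.578-1804) must REFUTE.
      Block NORM (`FR1/Norm*.lean`):  `(∀ c, CoreSub c ∧ ∀ σ c', CorePow c σ c') → XFrameStmt k`.       FINITE LOGIC, no sequences:
      fixed constants `C₁` (FR1)  →  `CoreSub` gives `β_s, E, Λ_s`  →  `σ₀ = σ₀(E)`  →  `CorePow σ₀` gives `β_p, Λ_p`  →  failure constant `M₀`.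
      ONE ORDER: the envelopes of order `c.P ≥ P` are SMALLER than those of order `P`, so the same class `c` (with `c.P = P_work`) serves the power case, the subpower case `K₀ ≤ h` and the subpower case `K₀ > h`.
-/

set_option autoImplicit false

namespace Claimed.Agent.R257.FR1

open Claimed.Agent.R257 Claimed.Agent.R257.FR2 Claimed.Agent.R257.Tree
open scoped BigOperators Classical BoundedContinuousFunction ContDiff

noncomputable section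

variable {k : ℕ} {Λ : Type}

/-! ## 1. exact packets -/

/-- a family of exact packets of scale `h` in lattice form: cells `(label, spatial lattice point)` -/
structure XFam (k : ℕ) (Λ : Type) where
  /-- scale -/
  h : ℝ
  /-- frequencies of the labels -/
  fr : Λ → E k
  /-- native data, recentred -/
  G : Λ × (Fin k → ℤ) → E k → ℂ

/-- the exact packet `U_T` -/
def XFam.U (A : XFam k Λ) (T : Λ × (Fin k → ℤ)) (z : ST k) : ℂ :=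
  car (A.fr T.1) z * ext (A.G T) (natX A.h (A.fr T.1) z - lat (T.2, 0))

/-- the uncut exact field -/
def XFam.fld (A : XFam k Λ) (s : Finset (Λ × (Fin k → ℤ))) (z : ST k) : ℂ := ∑ T ∈ s, A.U T z

/-- the square envelope `∑_T a_T² w_T(z)` of order `P` -/
def XFam.env (A : XFam k Λ) (s : Finset (Λ × (Fin k → ℤ))) (a : Λ × (Fin k → ℤ) → ℝ) (P : ℝ) (z : ST k) : ℝ :=
  ∑ T ∈ s, a T ^ 2 * pw P A.h (A.fr T.1) (lat (T.2, 0)) z

/-- the energy parameter `D = h^{k+2} ∑ a_T²` -/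
def XFam.en (A : XFam k Λ) (s : Finset (Λ × (Fin k → ℤ))) (a : Λ × (Fin k → ℤ) → ℝ) : ℝ := A.h ^ (k + 2) * ∑ T ∈ s, a T ^ 2

/-- parameters of the exact class -/
structure XCls where
  /-- number of controlled derivatives of the data -/
  J : ℕ
  /-- radius of the supports of the data -/
  ρ : ℝ
  /-- radius of the frequency region -/
  Cc : ℝ
  /-- multiplicity of the labels -/
  Cm : ℝ

/-- the cells `s` of `A` are exact packets of the class `K` with amplitudes `a` -/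
structure XFam.In [Fintype Λ] (A : XFam k Λ) (s : Finset (Λ × (Fin k → ℤ))) (K : XCls) (a : Λ × (Fin k → ℤ) → ℝ) : Prop where
  one_le : 1 ≤ A.h
  smooth : ∀ T ∈ s, ContDiff ℝ ∞ (A.G T)
  supp : ∀ T ∈ s, ∀ η, A.G T η ≠ 0 → ‖η‖ ≤ K.ρ
  bound : ∀ T ∈ s, ∀ j ≤ K.J, ∀ η, ‖iteratedFDeriv ℝ j (A.G T) η‖ ≤ a T
  freq : ∀ T ∈ s, ‖A.fr T.1‖ ≤ K.Cc
  mult : ∀ ξ : E k, ((Finset.univ.filter fun v => ‖A.fr v - ξ‖ ≤ A.h⁻¹).card : ℝ) ≤ K.Cm

/-! ## 2. the exact frame statement -/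

/-- an exact configuration: `k + 1` exact fields, thresholds, unit cubes with separate witnesses -/
structure XCfg (k : ℕ) (Λ : Type) where
  A : Fin (k + 1) → XFam k Λ
  s : Fin (k + 1) → Finset (Λ × (Fin k → ℤ))
  a : Fin (k + 1) → Λ × (Fin k → ℤ) → ℝ
  h : ℝ
  Q : ℝ
  thr : Fin (k + 1) → ℝ
  Y : Finset (Lat k)
  wz : Fin (k + 1) → Lat k → ST k

/-- the hypotheses of f:frame for exact packets -/
structure XCfg.Ok [Fintype Λ] (𝔠 : XCfg k Λ) (c : ℝ) (K : XCls) (T₁ : ℝ) (P : ℕ) : Prop where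
  two_le : 2 ≤ 𝔠.h
  scale : ∀ i, (𝔠.A i).h = 𝔠.h
  cls : ∀ i, (𝔠.A i).In (𝔠.s i) K (𝔠.a i)
  one_le_Q : 1 ≤ 𝔠.Q
  trans : ∀ lb : Fin (k + 1) → Λ × (Fin k → ℤ), (∀ i, lb i ∈ 𝔠.s i) → Transv 𝔠.Q (fun i => (𝔠.A i).fr (lb i).1)
  thr_ge : ∀ i, 𝔠.h ^ c ≤ 𝔠.thr i
  wit : ∀ q ∈ 𝔠.Y, ∀ i, 𝔠.wz i q ∈ cube q ∧ |(𝔠.wz i q).2| ≤ T₁ * 𝔠.h ^ 2 ∧ 𝔠.thr i ≤ ‖(𝔠.A i).fld (𝔠.s i) (𝔠.wz i q)‖ ∧
    (𝔠.A i).env (𝔠.s i) (𝔠.a i) P (𝔠.wz i q) ≤ 1

/-- `D_i` -/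
def XCfg.D (𝔠 : XCfg k Λ) (i : Fin (k + 1)) : ℝ := (𝔠.A i).en (𝔠.s i) (𝔠.a i)

/-- `H_g^{-2} ∑_i D_i / A_i²` -/
def XCfg.rhs (𝔠 : XCfg k Λ) : ℝ := (∏ i, 𝔠.thr i) ^ (-(4 / ((k : ℝ) * ((k : ℝ) + 1)))) * ∑ i, 𝔠.D i / 𝔠.thr i ^ 2

/-- **f:frame for exact packets, explicit constants** -/
def XFrameWith (k : ℕ) (c : ℝ) (K : XCls) (T₁ : ℝ) (P : ℕ) (C : ℝ) : Prop :=
  ∀ (Λ : Type) [Fintype Λ] (𝔠 : XCfg k Λ), 𝔠.Ok c K T₁ P → (𝔠.Y.card : ℝ) ≤ C * 𝔠.Q ^ C * 𝔠.rhs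

/-- **f:frame for exact packets** -/
def XFrameStmt (k : ℕ) : Prop :=
  ∀ (c ρ Cc Cm T₁ : ℝ), 0 < c → ∃ P₀ : ℕ, ∀ P : ℕ, P₀ ≤ P → ∃ (J : ℕ) (C : ℝ), XFrameWith k c ⟨J, ρ, Cc, Cm⟩ T₁ P C

/-! ## 3. normalised counter-configurations -/

/-- `k + 1` two-height trees (`c.ℓ = c.tr = 1`: height `0` = leaves of scale `κ 0`, height `1` = the RETAINED ORIGINAL TRANSITION MASKS `W 1` of scale `κ 1 = H_i`) over ONE set of witness cubes `Y` -/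
structure NCfg (k : ℕ) (c : TCls k) where
  D : Fin (k + 1) → TDat c
  Y : Type
  fY : Fintype Y
  /-- the witnesses of the field `i` are indexed by the common set `Y` -/
  wy : ∀ i, Y ≃ (D i).Y
  /-- the original scale -/
  h : ℝ
  /-- the excess amplitude `S = max S_i` -/
  S : ℝ
  /-- a field with `S_i = S` -/
  i₀ : Fin (k + 1)
  /-- the loss (`Λ^{o(1)}`) -/
  K : ℝ

attribute [instance] NCfg.fY

namespace NCfg

variable {c : TCls k} (𝔫 : NCfg k c)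

/-- the transition scale `H_i` -/
def H (i : Fin (k + 1)) : ℝ := (𝔫.D i).κ 1

/-- the witness of the field `i` in the cube `y` -/
def pt (i : Fin (k + 1)) (y : 𝔫.Y) : ST k := (𝔫.D i).pt (𝔫.wy i y)

/-- the leaf field seen through the retained masks -/
def root (i : Fin (k + 1)) (z : ST k) : ℂ := (𝔫.D i).Ev 0 (fun T => (𝔫.D i).g0 T.1) z

/-- the leaf energy `κ₀^{k+2} ∑ s₀²` -/
def En (i : Fin (k + 1)) : ℝ := (𝔫.D i).κ 0 ^ (k + 2) * ∑ T ∈ (𝔫.D i).W 0, (𝔫.D i).s0 T ^ 2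

/-- number of witnesses in the enlargement of native radius `r` of the mask `T` -/
def occ (i : Fin (k + 1)) (r : ℝ) (T : (𝔫.D i).Lb 1 × Lat k) : ℕ := (Finset.univ.filter fun y : 𝔫.Y => ‖(𝔫.D i).X 1 T (𝔫.pt i y)‖ ≤ r).card

/-- **the common properties** (threshold `A_i = H_i^{k/2}`; all losses `≤ K`) -/
structure Ok : Prop where
  good : ∀ i, (𝔫.D i).Good
  nonempty : Nonempty 𝔫.Y
  one_le_K : 1 ≤ 𝔫.K
  one_le_S : 1 ≤ 𝔫.S
  /-- the witnesses of one cube -/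
  same : ∀ i j y, ‖𝔫.pt i y - 𝔫.pt j y‖ ≤ k
  /-- the masked leaf field is high -/
  high : ∀ i y, 𝔫.H i ^ ((k : ℝ) / 2) ≤ 𝔫.K * ‖𝔫.root i (𝔫.pt i y)‖
  /-- (f:hbalance) / (f:subbalance) -/
  bal_le : ∀ i, (Fintype.card 𝔫.Y : ℝ) * 𝔫.H i ^ (k + 2) ≤ 𝔫.K * 𝔫.En i
  le_bal : ∀ i, 𝔫.En i ≤ 𝔫.K * ((Fintype.card 𝔫.Y : ℝ) * 𝔫.H i ^ (k + 2))
  H_cmp : ∀ i j, 𝔫.H i ≤ 𝔫.K * 𝔫.H j
  /-- (f:original-amplitudes) + (f:original-energy) + balance: FEW retained masks in the field `i₀` -/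
  masks : (((𝔫.D 𝔫.i₀).W 1).card : ℝ) * 𝔫.S ^ 2 ≤ 𝔫.K * ((Fintype.card 𝔫.Y : ℝ) * 𝔫.H 𝔫.i₀ ^ k)
  /-- transversality of ALL the leaf labels -/
  trans : ∀ lb : ∀ i, (𝔫.D i).Lb 0, Transv 𝔫.K (fun i => (𝔫.D i).fr 0 (lb i))
  ϖ_le : ∀ i, (𝔫.D i).ϖ ≤ 𝔫.K
  κ_le : ∀ i, (𝔫.D i).κ 0 ≤ 𝔫.h

/-- **power case**: base `Λ = h`, leaves = the original packets, `h^σ ≤ S ≤ h^{C₁}`, `H_i ≥ h^{c'}` -/
structure Pow (σ c' C₁ β Λ₀ : ℝ) : Prop extends 𝔫.Ok where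
  big : Λ₀ ≤ 𝔫.h
  loss : 𝔫.K ≤ 𝔫.h ^ β
  S_ge : 𝔫.h ^ σ ≤ 𝔫.S
  S_le : 𝔫.S ≤ 𝔫.h ^ C₁
  leaf : ∀ i, (𝔫.D i).κ 0 = 𝔫.h
  H_ge : ∀ i, 𝔫.h ^ c' ≤ 𝔫.H i
  /-- the FULL (unmasked) leaf square envelope is bounded at the witnesses (hypothesis `env ≤ 1` of f:frame; H l.982 "full weights"; consumer: cross-field test `GTestX`) -/
  env0 : ∀ i y, ∑ T ∈ (𝔫.D i).W 0, (𝔫.D i).s0 T ^ 2 * (𝔫.D i).wA c.P 0 T (𝔫.pt i y) ≤ 𝔫.K

/-- **subpower case**: base `Λ = S`, leaves of scale `κ 0 ∈ [H_i, H_i S^{C₁}]`, clipping threshold `M_c ∈ [H_i^{-k}, H_i^{-k} S^{C₁}]`, occupancy of the retained masks `≤ S^{C₁}` in the enlargement of native radius `S`,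
`H_i ≥ S^E` -/
structure Sub (C₁ β E Λ₀ : ℝ) : Prop extends 𝔫.Ok where
  big : Λ₀ ≤ 𝔫.S
  loss : 𝔫.K ≤ 𝔫.S ^ β
  H_ge : ∀ i, 𝔫.S ^ E ≤ 𝔫.H i
  leaf : ∀ i, (𝔫.D i).κ 0 ≤ 𝔫.H i * 𝔫.S ^ C₁
  /-- the leaf scales of the fields are comparable (`κ 0 = min (H_i S^L) h`) -/
  leaf_cmp : ∀ i j, (𝔫.D i).κ 0 ≤ 𝔫.K * (𝔫.D j).κ 0
  Mc_le : ∀ i, (𝔫.D i).Mc ≤ 𝔫.H i ^ (-(k : ℝ)) * 𝔫.S ^ C₁
  le_Mc : ∀ i, 𝔫.H i ^ (-(k : ℝ)) ≤ (𝔫.D i).Mc
  occ_le : ∀ i, ∀ T ∈ (𝔫.D i).W 1, (𝔫.occ i 𝔫.S T : ℝ) ≤ 𝔫.S ^ C₁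

end NCfg

/-- **what FR2 + FR3 refute in the power case** (H l.578-1802) -/
def CorePow (c : TCls k) (σ c' : ℝ) : Prop := ∀ C₁ : ℝ, ∃ β Λ₀ : ℝ, 0 < β ∧ ∀ 𝔫 : NCfg k c, ¬ 𝔫.Pow σ c' C₁ β Λ₀

/-- **what FR2 + FR3 refute in the subpower case** (H l.578-1804) -/
def CoreSub (c : TCls k) : Prop := ∀ C₁ : ℝ, ∃ β E Λ₀ : ℝ, 0 < β ∧ ∀ 𝔫 : NCfg k c, ¬ 𝔫.Sub C₁ β E Λ₀

/-- ROOM above the order `Q` (a third order `Q₂ = Q + (k+2) k / 2` is used by the instance of f:angular): FR1 chooses `C0`, `M` last -/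
def Room (c : TCls k) : Prop := c.Q + ((k : ℝ) + 2) * k / 2 + k + 2 ≤ c.C0 ∧ c.Q + ((k : ℝ) + 2) * k / 2 ≤ c.M

/-- the core of the frame theorem -/
def CoreStmt (k : ℕ) : Prop := ∀ c : TCls k, c.Ok → Room c → c.ℓ = 1 → c.tr = 1 → CoreSub c ∧ ∀ σ c' : ℝ, 0 < σ → 0 < c' → CorePow c σ c'

end

end Claimed.Agent.R257.FR1
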