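import Claimed.Agent.R257.FR1.Defs
import Claimed.Agent.R257.Infra.Alg
import Claimed.Agent.R257.Infra.Lay.Repr
import Claimed.Agent.R257.Infra.Lay.PktDecay
import Claimed.Agent.R257.Infra.Lay.Ext

/-!
# ROW 257 (S0497), package FR1, block EX (H `frame.tex` l.69-130, Lemma f:exact), file A: THE EXPANSION OF AN ATOM INTO EXACT LAYERS      (helper273)

NOTHING is sorried in this file.   The analytic core (Fourier inversion, Fourier series in native time, decay of the amplitudes) is `Infra/Lay` (helper245): `ifl_repr`, `ifl_amp_bound'`, `ifl_pkt_decay`.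

* `fxaU h v c G z = car v z * ext G (natX h v z - (c, 0))`     exact packet of scale `h`, label `v`, REAL native centre `(c, 0)`, data `G`.     `XFam.U A T = fxaU A.h (A.fr T.1) (iflLat T.2) (A.G T)`  (`fxa_U_eq`).
* DATA LEVEL OPERATIONS: `fxa_relabel` (`v + e/h → v`), `fxa_recentre` (`c + r → c`), `fxa_U_sum`, `fxa_U_const_mul`; the classes: `IflAmp.shift`, `IflAmp.modul`, `IflAmp.sum`.
* `fxa_decay`      `‖fxaU h v c G z‖ ≤ C b (1 + |s|)^A (1 + |X - c|)^(-A)`, `(X, s) = natX h v z`.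
* `fxa_atom`       **the expansion**: on the slab `|t| ≤ T₁ h²`
      `car ω z * φ (chart h ω y τ z) = ∑_κ fxaMod P h κ z * fxaU h (ω + a/h) (y/h) (G κ) z`,   `κ = (a, l)`,  `‖D^j G κ‖ ≤ C (1 + |κ|)^(-M)` (`j ≤ J`), `supp G κ ⊆ B(0, √k)`, `|fxaMod| = 1`, `P = fxaP R T₀ T₁`.
  The time centre `τ` is absorbed in the profile (translate it: support radius `R + T₀`), so no loss in `a`; the native centre stays at `(y/h, 0)` = intercept at the common reference time `0`.
-/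

set_option autoImplicit false

namespace Claimed.Agent.R257.FR1

open Claimed.Agent.R257 Claimed.Agent.R257.Tree MeasureTheory Metric Set
open scoped ContDiff InnerProductSpace Real

variable {k : ℕ} {Λ ι : Type}

/-- exact packet of scale `h`, label `v`, real native centre `(c, 0)`, data `G` -/
noncomputable def fxaU (h : ℝ) (v c : E k) (G : E k → ℂ) (z : ST k) : ℂ := car v z * ext G (natX h v z - (c, 0))

theorem fxa_U_eq (A : XFam k Λ) (T : Λ × (Fin k → ℤ)) (z : ST k) : A.U T z = fxaU A.h (A.fr T.1) (iflLat T.2) (A.G T) z := by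
  unfold XFam.U fxaU lat iflLat
  simp

theorem fxa_car_norm (v : E k) (z : ST k) : ‖car v z‖ = 1 := by
  unfold car
  rw [mul_comm, Complex.norm_exp_ofReal_mul_I]

theorem fxa_E_eq_car (η : E k) (X : ST k) : iflE (⟪X.1, η⟫_ℝ - X.2 * ‖η‖ ^ 2) = car η X := rfl

/-- characters: `car η (X - (c, 0)) = e(-c·η) car η X` -/
theorem fxa_car_sub (η c : E k) (X : ST k) : car η (X - (c, 0)) = iflE (-⟪c, η⟫_ℝ) * car η X := by
  unfold car iflE
  rw [← Complex.exp_add, ← mul_add, ← Complex.ofReal_add]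
  congr 3
  simp only [Prod.fst_sub, Prod.snd_sub, inner_sub_left, sub_zero]
  ring

/-- Galilean covariance in native coordinates -/
theorem fxa_car_add (e η : E k) (X : ST k) : car (e + η) X = car e X * car η (X.1 - (2 * X.2) • e, X.2) := by
  have h := inf_car_shift e η 1 X
  simpa using h

theorem fxa_natX_add (h : ℝ) (v e : E k) (z : ST k) :
    natX h (v + h⁻¹ • e) z = ((natX h v z).1 - (2 * (natX h v z).2) • e, (natX h v z).2) := by
  unfold natX
  refine Prod.ext ?_ rfl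
  simp only [smul_add, smul_sub, smul_smul]
  rw [sub_sub]
  congr 2
  congr 1
  ring

theorem fxa_car_natX (h : ℝ) (v e : E k) (z : ST k) : car (v + h⁻¹ • e) z = car v z * car e (natX h v z) :=
  inf_car_pmap v e h z

/-- **relabelling**: `v + e/h → v` -/
theorem fxa_relabel (h : ℝ) (v e c : E k) (G : E k → ℂ) (z : ST k) :
    fxaU h (v + h⁻¹ • e) c G z = fxaU h v c (fun η => iflE ⟪c, e⟫_ℝ * G (η - e)) z := by
  unfold fxaU ext
  rw [fxa_car_natX, fxa_natX_add, mul_assoc, ← integral_const_mul]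
  congr 1
  rw [← integral_sub_right_eq_self _ e]
  refine integral_congr_ae (Filter.Eventually.of_forall fun η => ?_)
  simp only
  set X := natX h v z with hX
  have h1 : car η (X - (c, 0)) = car e (X - (c, 0)) * car (η - e) ((X - (c, 0)).1 - (2 * (X - (c, 0)).2) • e, (X - (c, 0)).2) := by
    rw [← fxa_car_add, add_sub_cancel]
  have h2 : ((X - (c, 0)).1 - (2 * (X - (c, 0)).2) • e, (X - (c, 0)).2) = (X.1 - (2 * X.2) • e, X.2) - (c, 0) := by
    refine Prod.ext ?_ ?_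
    · simp only [Prod.fst_sub, Prod.snd_sub, sub_zero]
      abel
    · simp
  rw [h1, h2, fxa_car_sub e c X]
  have h3 : iflE (-⟪c, e⟫_ℝ) * iflE ⟪c, e⟫_ℝ = 1 := ifl_E_neg_mul _
  linear_combination (-(car e X * car (η - e) ((X.1 - (2 * X.2) • e, X.2) - (c, 0)) * G (η - e))) * h3

/-- **recentring**: `c + r → c` -/
theorem fxa_recentre (h : ℝ) (v c r : E k) (G : E k → ℂ) (z : ST k) :
    fxaU h v (c + r) G z = fxaU h v c (fun η => iflE (-⟪r, η⟫_ℝ) * G η) z := by
  unfold fxaU ext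
  congr 1
  refine integral_congr_ae (Filter.Eventually.of_forall fun η => ?_)
  simp only
  have e1 : natX h v z - (c + r, 0) = (natX h v z - (c, 0)) - (r, 0) := by
    refine Prod.ext ?_ ?_
    · simp only [Prod.fst_sub]
      abel
    · simp
  rw [e1, fxa_car_sub η r]
  ring

theorem fxa_U_const_mul (h : ℝ) (v c : E k) (G : E k → ℂ) (a : ℂ) (z : ST k) :
    fxaU h v c (fun η => a * G η) z = a * fxaU h v c G z := by
  unfold fxaU
  rw [ifl_ext_smul]
  ring

theorem fxa_ext_integrable {G : E k → ℂ} (hG : Integrable G) (X : ST k) : Integrable fun ξ => car ξ X * G ξ :=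
  hG.bdd_mul (c := 1) (inf_A2_car_cont X).aestronglyMeasurable (Filter.Eventually.of_forall fun ξ => (inf_car_norm ξ X).le)

theorem fxa_U_sum (h : ℝ) (v c : E k) (s : Finset ι) (G : ι → E k → ℂ) (hG : ∀ α ∈ s, Integrable (G α)) (z : ST k) :
    fxaU h v c (fun η => ∑ α ∈ s, G α η) z = ∑ α ∈ s, fxaU h v c (G α) z := by
  unfold fxaU ext
  rw [← Finset.mul_sum, ← integral_finsetSum s fun α hα => fxa_ext_integrable (hG α hα) _]
  congr 2
  funext η
  rw [Finset.mul_sum]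

/-! ## the classes of data -/

theorem fxa_E_iterDeriv (j : ℕ) : iteratedDeriv j iflE = fun s => Complex.I ^ j * iflE s := by
  induction j with
  | zero => simp
  | succ j ih =>
    rw [iteratedDeriv_succ, ih]
    funext s
    have h1 : HasDerivAt iflE (Complex.I * iflE s) s := by
      unfold iflE
      have h2 : HasDerivAt (fun s : ℝ => Complex.I * (s : ℂ)) (Complex.I * 1) s :=
        (Complex.ofRealCLM.hasDerivAt (x := s)).const_mul Complex.I
      have h3 := h2.cexp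
      rw [mul_one] at h3
      rw [mul_comm]
      exact h3
    rw [(h1.const_mul (Complex.I ^ j)).deriv]
    ring

theorem fxa_E_contDiff : ContDiff ℝ ∞ iflE := by
  unfold iflE
  exact (contDiff_const.mul Complex.ofRealCLM.contDiff).cexp

/-- derivatives of a character -/
theorem fxa_char_bound (l : E k →L[ℝ] ℝ) (j : ℕ) (η : E k) : ‖iteratedFDeriv ℝ j (fun η => iflE (l η)) η‖ ≤ ‖l‖ ^ j := by
  have e : (fun η => iflE (l η)) = iflE ∘ l := rfl
  rw [e, l.iteratedFDeriv_comp_right fxa_E_contDiff η (i := j) (by exact_mod_cast le_top)]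
  refine (ContinuousMultilinearMap.norm_compContinuousLinearMap_le _ _).trans ?_
  rw [norm_iteratedFDeriv_eq_norm_iteratedDeriv, fxa_E_iterDeriv, norm_mul, norm_pow, Complex.norm_I, one_pow, one_mul, ifl_E_norm, one_mul]
  simp

end Claimed.Agent.R257.FR1

namespace Claimed.Agent.R257

open MeasureTheory Metric Set
open scoped ContDiff InnerProductSpace Real

variable {k : ℕ} {ι : Type}

/-- translation of the data -/
theorem IflAmp.shift {N : ℕ} {r b : ℝ} {a : E k → ℂ} (h : IflAmp N r b a) (e : E k) : IflAmp N (r + ‖e‖) b (fun η => a (η - e)) := by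
  refine ⟨h.smooth.comp (contDiff_id.sub contDiff_const), fun η hη => ?_, fun j hj η => ?_⟩
  · have h1 := h.supp _ hη
    have h2 : ‖η‖ ≤ ‖η - e‖ + ‖e‖ := by simpa using norm_add_le (η - e) e
    linarith
  · rw [iteratedFDeriv_comp_sub]
    exact h.bound j hj _

/-- modulation of the data -/
theorem IflAmp.modul {N : ℕ} {r b : ℝ} {a : E k → ℂ} (h : IflAmp N r b a) (u : E k) :
    IflAmp N r ((1 + ‖u‖) ^ N * b) (fun η => iflE (-⟪u, η⟫_ℝ) * a η) := by
  have hb : 0 ≤ b := h.nonneg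
  set l : E k →L[ℝ] ℝ := -(innerSL ℝ u) with hl
  have hln : ‖l‖ = ‖u‖ := by rw [hl, norm_neg, innerSL_apply_norm]
  have e : (fun η => iflE (-⟪u, η⟫_ℝ)) = fun η => iflE (l η) := by
    funext η
    simp [hl]
  have hs : ContDiff ℝ ∞ fun η => iflE (-⟪u, η⟫_ℝ) := by
    rw [e]
    exact FR1.fxa_E_contDiff.comp l.contDiff
  refine ⟨hs.mul h.smooth, fun η hη => h.supp η (right_ne_zero_of_mul hη), fun j hj η => ?_⟩
  refine (norm_iteratedFDeriv_mul_le hs h.smooth η (n := j) (by exact_mod_cast le_top)).trans ?_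
  calc ∑ i ∈ Finset.range (j + 1), (j.choose i : ℝ) * ‖iteratedFDeriv ℝ i (fun η => iflE (-⟪u, η⟫_ℝ)) η‖ * ‖iteratedFDeriv ℝ (j - i) a η‖
      ≤ ∑ i ∈ Finset.range (j + 1), ‖u‖ ^ i * 1 ^ (j - i) * (j.choose i : ℝ) * b := by
        refine Finset.sum_le_sum fun i hi => ?_
        have h1 : ‖iteratedFDeriv ℝ i (fun η => iflE (-⟪u, η⟫_ℝ)) η‖ ≤ ‖u‖ ^ i := by
          rw [e, ← hln]
          exact FR1.fxa_char_bound l i η
        have h2 := h.bound (j - i) ((Nat.sub_le _ _).trans hj) η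
        calc (j.choose i : ℝ) * ‖iteratedFDeriv ℝ i (fun η => iflE (-⟪u, η⟫_ℝ)) η‖ * ‖iteratedFDeriv ℝ (j - i) a η‖
            ≤ (j.choose i : ℝ) * ‖u‖ ^ i * b := by gcongr
          _ = _ := by ring
    _ = (‖u‖ + 1) ^ j * b := by rw [add_pow, Finset.sum_mul]
    _ ≤ (1 + ‖u‖) ^ N * b := by
        rw [add_comm]
        exact mul_le_mul_of_nonneg_right (pow_le_pow_right₀ (by linarith [norm_nonneg u]) hj) hb

/-- finite sums of data -/
theorem IflAmp.sum {N : ℕ} {r : ℝ} (s : Finset ι) {b : ι → ℝ} {a : ι → E k → ℂ} (h : ∀ α ∈ s, IflAmp N r (b α) (a α)) :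
    IflAmp N r (∑ α ∈ s, b α) (fun η => ∑ α ∈ s, a α η) := by
  refine ⟨ContDiff.sum fun α hα => (h α hα).smooth, fun η hη => ?_, fun j hj η => ?_⟩
  · obtain ⟨α, hα, hne⟩ := Finset.exists_ne_zero_of_sum_ne_zero hη
    exact (h α hα).supp η hne
  · rw [iteratedFDeriv_fun_sum_apply fun α hα => ((h α hα).smooth.of_le (by exact_mod_cast le_top)).contDiffAt]
    exact (norm_sum_le _ _).trans (Finset.sum_le_sum fun α hα => (h α hα).bound j hj η)

/-- translation of a profile in native time -/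
theorem Prof.tshift {J : ℕ} {R B : ℝ} {φ : ST k → ℂ} (h : Prof J R B φ) (τ : ℝ) : Prof J (R + |τ|) B (fun X => φ (X - (0, τ))) := by
  refine ⟨h.smooth.comp (contDiff_id.sub contDiff_const), fun X hX => ?_, fun j hj X => ?_⟩
  · have h1 := h.supp _ hX
    have h2 : ‖X‖ ≤ ‖X - ((0 : E k), τ)‖ + ‖((0 : E k), τ)‖ := by simpa using norm_add_le (X - ((0 : E k), τ)) ((0 : E k), τ)
    have h3 : ‖((0 : E k), τ)‖ = |τ| := by
      rw [Prod.norm_def, norm_zero, Real.norm_eq_abs, max_eq_right (abs_nonneg _)]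
    linarith
  · rw [iteratedFDeriv_comp_sub]
    exact h.bound j hj _

end Claimed.Agent.R257

namespace Claimed.Agent.R257.FR1

open Claimed.Agent.R257 Claimed.Agent.R257.Tree MeasureTheory Metric Set
open scoped ContDiff InnerProductSpace Real

variable {k : ℕ} {Λ ι : Type}

/-! ## decay -/

theorem fxa_H_zero (a : E k → ℂ) (X : ST k) : iflH a 0 X = ((((2 * π) ^ k)⁻¹ : ℝ) : ℂ) * ext a X := by
  unfold iflH ext
  congr 2
  funext θ
  rw [zero_add, fxa_E_eq_car, mul_comm]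

/-- **decay of an exact field** (`ifl_pkt_decay` with shift `0`) -/
theorem fxa_ext_decay (k A : ℕ) (r : ℝ) (hr : 0 ≤ r) : ∃ C : ℝ, 0 ≤ C ∧ ∀ (G : E k → ℂ) (b : ℝ) (X : ST k), IflAmp A r b G →
    ‖ext G X‖ ≤ C * b * (1 + |X.2|) ^ A * (1 + ‖X.1‖) ^ (-(A : ℤ)) := by
  obtain ⟨C, hC, H⟩ := ifl_pkt_decay k A r hr
  refine ⟨(2 * π) ^ k * C, by positivity, fun G b X hG => ?_⟩
  have h1 := H G b 0 X hG
  rw [fxa_H_zero, norm_mul, Complex.norm_real, Real.norm_of_nonneg (by positivity), norm_zero, add_zero, one_pow, mul_one,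
    inv_mul_le_iff₀ (by positivity)] at h1
  calc ‖ext G X‖ ≤ (2 * π) ^ k * (C * b * (1 + |X.2|) ^ A * (1 + ‖X.1‖) ^ (-(A : ℤ))) := h1
    _ = _ := by ring

/-- **decay of an exact packet** -/
theorem fxa_decay (k A : ℕ) (r : ℝ) (hr : 0 ≤ r) : ∃ C : ℝ, 0 ≤ C ∧ ∀ (h : ℝ) (v c : E k) (G : E k → ℂ) (b : ℝ) (z : ST k), IflAmp A r b G →
    ‖fxaU h v c G z‖ ≤ C * b * (1 + |(natX h v z).2|) ^ A * (1 + ‖(natX h v z).1 - c‖) ^ (-(A : ℤ)) := by
  obtain ⟨C, hC, H⟩ := fxa_ext_decay k A r hr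
  refine ⟨C, hC, fun h v c G b z hG => ?_⟩
  unfold fxaU
  rw [norm_mul, fxa_car_norm, one_mul]
  have h1 := H G b (natX h v z - (c, 0)) hG
  simp only [Prod.fst_sub, Prod.snd_sub, sub_zero] at h1
  exact h1

/-! ## the expansion -/

/-- the native field of a layer is an exact field in the shifted frame -/
theorem fxa_H_eq (a : E k → ℂ) (e : E k) (X : ST k) :
    iflH a e X = car e X * ext (fun θ => ((((2 * π) ^ k)⁻¹ : ℝ) : ℂ) * a θ) (X.1 - (2 * X.2) • e, X.2) := by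
  unfold iflH ext
  rw [← integral_const_mul, ← integral_const_mul]
  congr 1
  funext θ
  rw [fxa_E_eq_car, fxa_car_add]
  ring

/-- the period of the Fourier series in native time -/
noncomputable def fxaP (R T₀ T₁ : ℝ) : ℝ := 2 * (max R 0 + |T₀| + |T₁| + 1)

/-- the common unimodular factor of the layer `κ` -/
noncomputable def fxaMod (P h : ℝ) (κ : Lat k) (z : ST k) : ℂ := iflE (2 * π * κ.2 * (z.2 / h ^ 2) / P)

theorem fxa_mod_norm (P h : ℝ) (κ : Lat k) (z : ST k) : ‖fxaMod P h κ z‖ = 1 := ifl_E_norm _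

theorem fxa_chart_eq (h : ℝ) (w y : E k) (τ : ℝ) (z : ST k) : chart h w y τ z = (natX h w z - (h⁻¹ • y, 0)) - (0, τ) := by
  unfold chart natX
  refine Prod.ext ?_ ?_
  · simp only [Prod.fst_sub, sub_zero, smul_sub]
    abel
  · simp

/-- **THE EXPANSION OF AN ATOM INTO EXACT LAYERS** -/
theorem fxa_atom (k : ℕ) (R T₀ T₁ : ℝ) (J M : ℕ) : ∃ J₀ : ℕ, ∀ B : ℝ, ∃ C : ℝ, 0 ≤ C ∧
    ∀ (φ : ST k → ℂ) (h τ : ℝ) (w y : E k), Prof J₀ R B φ → |τ| ≤ T₀ → 0 < h →
    ∃ G : Lat k → E k → ℂ, (∀ κ, IflAmp J (Real.sqrt k) (C * (1 + iflKn κ) ^ (-(M : ℤ))) (G κ)) ∧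
      ∀ z : ST k, |z.2| ≤ T₁ * h ^ 2 →
        HasSum (fun κ : Lat k => fxaMod (fxaP R T₀ T₁) h κ z * fxaU h (w + h⁻¹ • iflLat κ.1) (h⁻¹ • y) (G κ) z) (car w z * φ (chart h w y τ z)) := by
  set P := fxaP R T₀ T₁ with hPdef
  set R' : ℝ := max R 0 + |T₀| with hR'
  have hR0 : 0 ≤ max R 0 := le_max_right _ _
  have hP : 0 < P := by rw [hPdef]; unfold fxaP; positivity
  have hRP : 2 * R' < P := by rw [hPdef, hR']; unfold fxaP; linarith [abs_nonneg T₁]
  have hTP : |T₁| ≤ P / 2 := by rw [hPdef]; unfold fxaP; linarith [abs_nonneg T₀]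
  obtain ⟨J₁, H₁⟩ := ifl_amp_bound' k M J R' P hP
  obtain ⟨J₂, H₂⟩ := ifl_repr k R' P hRP hP
  refine ⟨max J₁ J₂, fun B => ?_⟩
  obtain ⟨C, hC, HA⟩ := H₁ B
  set c0 : ℝ := ((2 * π) ^ k)⁻¹ with hc0
  have hc00 : 0 ≤ c0 := by rw [hc0]; positivity
  refine ⟨c0 * C, by positivity, fun φ h τ w y hφ hτ hh => ?_⟩
  have hφ' : Prof (max J₁ J₂) R' B (fun X => φ (X - (0, τ))) :=
    (hφ.tshift τ).mono le_rfl (by rw [hR']; linarith [le_max_left R 0, le_abs_self T₀]) le_rfl
  set ψ : ST k → ℂ := fun X => φ (X - (0, τ)) with hψ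
  refine ⟨fun κ θ => iflE (-⟪h⁻¹ • y, iflLat κ.1⟫_ℝ) * (((c0 : ℝ) : ℂ) * iflA P ψ κ θ), fun κ => ?_, fun z hz => ?_⟩
  · have h1 := ((HA ψ (hφ'.mono (le_max_left _ _) le_rfl le_rfl) κ).const_mul ((c0 : ℝ) : ℂ)).const_mul (iflE (-⟪h⁻¹ • y, iflLat κ.1⟫_ℝ))
    rw [ifl_E_norm, one_mul, Complex.norm_real, Real.norm_of_nonneg hc00, ← mul_assoc] at h1
    exact h1
  · set W : ST k := natX h w z - (h⁻¹ • y, 0) with hW
    have hW2 : W.2 = z.2 / h ^ 2 := by
      rw [hW]
      unfold natX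
      simp
    have hX : |W.2| ≤ P / 2 := by
      refine le_trans ?_ hTP
      rw [hW2, abs_div, abs_of_pos (by positivity : (0:ℝ) < h ^ 2), div_le_iff₀ (by positivity)]
      exact hz.trans (mul_le_mul_of_nonneg_right (le_abs_self _) (by positivity))
    have h1 := (H₂ B ψ (hφ'.mono (le_max_right _ _) le_rfl le_rfl) W hX).mul_left (car w z)
    have e0 : ψ W = φ (chart h w y τ z) := by rw [fxa_chart_eq]
    rw [e0] at h1
    refine h1.congr_fun fun κ => ?_
    rw [fxa_U_const_mul, fxa_H_eq]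
    unfold fxaU fxaMod
    rw [fxa_car_natX, fxa_natX_add]
    have e1 : car (iflLat κ.1) W = iflE (-⟪h⁻¹ • y, iflLat κ.1⟫_ℝ) * car (iflLat κ.1) (natX h w z) := fxa_car_sub _ _ _
    have e2 : (W.1 - (2 * W.2) • iflLat κ.1, W.2)
        = ((natX h w z).1 - (2 * (natX h w z).2) • iflLat κ.1, (natX h w z).2) - (h⁻¹ • y, 0) := by
      rw [hW]
      refine Prod.ext ?_ ?_
      · simp only [Prod.fst_sub, Prod.snd_sub, sub_zero]
        abel
      · simp
    rw [e1, e2, hW2]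
    ring

end Claimed.Agent.R257.FR1
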