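import Claimed.Agent.R257.FR1.Defs
import Claimed.Agent.R257.Infra.Lay.Main
import Claimed.Agent.R257.Pk.Api

/-!
# ROW 257 (S0497), package FR1, block EX (H `frame.tex` l.69-130, Lemma f:exact): `XFrameStmt k → FrameStmt k`.       DEFINITIONS + INTERFACE WITH EX-A            (captain EX helper164; EX-A helper273)

NOTHING is sorried in this file.      EXIT (`ExBMain.lean`):  `fxb_main : 1 ≤ k → ExpStmt k → CellStmt k → XFrameStmt k → FrameStmt k`.      EX-A (helper273, `FR1/ExA*.lean`) proves `ExpStmt k` and `CellStmt k`.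

## PLAN
Input: `k + 1` arrays `A i` of scale `h` (compact smooth profiles, `|tc| ≤ T₀`), coefficients `cf i`, thresholds `a i ≥ h^c`, cubes `Y`, witnesses.     `T₁ = T₀ + R`: a witness has `|t| ≤ T₁ h²` (some atom does not vanish).
(0) ELEMENTARY BOUND `fxb_elem`: `|Y| ≤ C h^{k+2} rhs` (Cauchy + a priori `L²` count).   It settles `h < h₀` and `Q > h^{1/4}` (`h^{k+2} ≤ Q^{4(k+2)}`).      From now on `h ≥ h₀`, `Q ≤ h^{1/4}`.
(1) EXPANSION (`ExpStmt`, EX-A): every atom is `∑_κ u_κ(z) · (exact packet with label om + a/h, centre (y/h, 0), data G κ)` on the slab, `κ = (a, l) ∈ Lat k`, `|u_κ| = 1` THE SAME for all atoms, `‖G κ‖_{C^J} ≤ C λ_κ^{-M}`, `λ_κ = 1 + iflKn κ`,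
    each term `≤ C λ_κ^{-M} (1 + |chart|)^{-Ad}`.     Layer `κ` of the field = the FREE exact family `layF A cf G κ ν` (`FFam`: real labels, real centres).
(2) TAIL: `∑_{λ_κ > √h} |layer κ| ≤ C h^{k/2} h^{-(M-k-2)/2} ≤ 1/2 ≤ a i / 2` (`fxb_layer_le`, `ifl_summable_tail`).
(3) PIGEONHOLE `fxb_pigeon`: every cube has a tuple `κ⃗` with `|layer κ_i| ≥ c₀ λ_{κ_i}^{-b} a i` for all `i`.
(4) LATTICE NORMAL FORM `lnf` (`ExBLnf.lean`): label := `rnd (h w)/h`, centre := `rnd c` (`CellStmt`, EX-A: relabelling and recentring at the level of the data), merge the packets of one cell (at most `m₁ = C(k,T₀) m₀`: `fxb_fibre`).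
    Envelope and energy grow by constants; passing from `(om, (y/h, tc))` to `(om + a/h, (y/h, 0))` costs `(C λ)^P` (`fxb_env_shift`), absorbed by `M = M' + P`.
(5) ONE TUPLE `fxb_tuple`: rescale the layer by `ν = 1/μ_κ`, `μ_κ = Cμ λ_κ^{-M'}`: envelope `≤ 1`, energy `≤ D_i`, threshold `(c₀/Cμ) λ^{M'-b} a i ≥ h^{c/2}`; labels moved by `≤ (√h + √k)/h`: `Transv (2Q)` (`fxb_transv`); `XFrameWith`.
(6) SUM over the tuples `fxb_sum`: `∑_{κ⃗} ∏_j λ_{κ_j}^{-e(M'-b)} = (∑_κ λ^{-e(M'-b)})^{k+1} < ∞`, `e = 4/(k(k+1))`, `M' - b = k(k+1)(k+2)`.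
-/

set_option autoImplicit false

namespace Claimed.Agent.R257.FR1

open Claimed.Agent.R257 Claimed.Agent.R257.Tree
open scoped BigOperators Classical ContDiff

noncomputable section

variable {k : ℕ} {ι : Type}

/-! ## free exact families -/

/-- a family of exact packets of scale `h` with REAL labels `w`, REAL spatial centres `c` (native units, at the time `0`) and native data `g` -/
structure FFam (k : ℕ) (ι : Type) where
  h : ℝ
  w : ι → E k
  c : ι → E k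
  g : ι → E k → ℂ

/-- the exact packet -/
def FFam.U (𝔉 : FFam k ι) (α : ι) (z : ST k) : ℂ := car (𝔉.w α) z * ext (𝔉.g α) (natX 𝔉.h (𝔉.w α) z - (𝔉.c α, 0))

/-- the field -/
def FFam.fld (𝔉 : FFam k ι) (s : Finset ι) (z : ST k) : ℂ := ∑ α ∈ s, 𝔉.U α z

/-- the square envelope of order `P` with the amplitudes `b` -/
def FFam.env (𝔉 : FFam k ι) (s : Finset ι) (b : ι → ℝ) (P : ℝ) (z : ST k) : ℝ := ∑ α ∈ s, b α ^ 2 * pw P 𝔉.h (𝔉.w α) (𝔉.c α, 0) z

/-- size of a layer -/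
def lam (κ : Lat k) : ℝ := 1 + iflKn κ

/-! ## interface with EX-A -/

/-- **the expansion of one atom** with explicit constants.   `u` = common unimodular time modulations, `J` = controlled derivatives of the data, `M` = decay in the layer, `Ad` = spatial decay of the terms. -/
def ExpAt (k J M Ad : ℕ) (R T₀ B : ℝ) (J₀ : ℕ) (u : ℝ → Lat k → ST k → ℂ) (C : ℝ) : Prop :=
  ∀ (h : ℝ) (om y : E k) (tc : ℝ) (pf : ST k → ℂ), 1 ≤ h → |tc| ≤ T₀ → Prof J₀ R B pf →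
    ∃ G : Lat k → E k → ℂ, (∀ κ, IflAmp J (Real.sqrt k) (C * lam κ ^ (-(M : ℤ))) (G κ)) ∧
      ∀ z : ST k, |z.2| ≤ (T₀ + R) * h ^ 2 →
        HasSum (fun κ : Lat k => u h κ z * (car (om + h⁻¹ • iflLat κ.1) z * ext (G κ) (natX h (om + h⁻¹ • iflLat κ.1) z - (h⁻¹ • y, 0))))
          (car om z * pf (chart h om y tc z)) ∧
        ∀ κ, ‖ext (G κ) (natX h (om + h⁻¹ • iflLat κ.1) z - (h⁻¹ • y, 0))‖ ≤ C * lam κ ^ (-(M : ℤ)) * (1 + ‖chart h om y tc z‖) ^ (-(Ad : ℤ))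

/-- **EX-A, part 1** (H l.78-95; `Infra/Lay`: `ifl_repr`, `ifl_amp_bound'`, `ifl_pkt_decay`) -/
def ExpStmt (k : ℕ) : Prop :=
  ∀ (J M Ad : ℕ) (R T₀ : ℝ), 0 ≤ R → 0 ≤ T₀ → ∃ (J₀ : ℕ) (u : ℝ → Lat k → ST k → ℂ), (∀ h κ z, ‖u h κ z‖ = 1) ∧ ∀ B : ℝ, ∃ C : ℝ, 0 ≤ C ∧ ExpAt k J M Ad R T₀ B J₀ u C

/-- **EX-A, part 2: relabelling and recentring at the level of the data.**   `G η' = g (η' - e) e^{-i (c - m)·η'} e^{i c·e}`, `e = h (w - v')`. -/
def CellStmt (k : ℕ) : Prop :=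
  ∀ J : ℕ, ∃ C : ℝ, 1 ≤ C ∧ ∀ (h : ℝ) (w v' c : E k) (m : Fin k → ℤ) (g : E k → ℂ) (r b : ℝ), 0 < h → IflAmp J r b g →
    ∃ G : E k → ℂ, IflAmp J (r + h * ‖w - v'‖) (C * (1 + ‖c - iflLat m‖) ^ J * b) G ∧
      ∀ z : ST k, car w z * ext g (natX h w z - (c, 0)) = car v' z * ext G (natX h v' z - lat (m, 0))

/-! ## the layers of an array -/

/-- the layer `κ` of the array `A` with the coefficients `cf`, the data `G α κ` of the expansions of its atoms, rescaled by `ν` -/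
def layF (A : Arr k ι) (cf : ι → ℂ) (G : ι → Lat k → E k → ℂ) (κ : Lat k) (ν : ℝ) : FFam k ι where
  h := A.L
  w := fun α => A.om α + A.L⁻¹ • iflLat κ.1
  c := fun α => A.L⁻¹ • A.y α
  g := fun α η => (cf α * ((A.L ^ (-(k : ℝ) / 2) * ν : ℝ) : ℂ)) * G α κ η

/-! ## the lattice normal form -/

/-- coordinatewise rounding -/
def rnd (x : E k) : Fin k → ℤ := fun i => round (x i)

/-- the box of labels -/
def boxF (k n₀ : ℕ) : Finset (Fin k → ℤ) := Fintype.piFinset fun _ => Finset.Icc (-(n₀ : ℤ)) n₀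

/-- the type of labels -/
abbrev Box (k n₀ : ℕ) : Type := ↥(boxF k n₀)

theorem zero_mem_boxF (k n₀ : ℕ) : (0 : Fin k → ℤ) ∈ boxF k n₀ := by
  simp [boxF, Fintype.mem_piFinset]

/-- integer vector as a label (junk `0` outside the box) -/
def toBox (n₀ : ℕ) (v : Fin k → ℤ) : Box k n₀ := if h : v ∈ boxF k n₀ then ⟨v, h⟩ else ⟨0, zero_mem_boxF k n₀⟩

/-- the cell of a free packet -/
def FFam.cell (𝔉 : FFam k ι) (n₀ : ℕ) (α : ι) : Box k n₀ × (Fin k → ℤ) := (toBox n₀ (rnd (𝔉.h • 𝔉.w α)), rnd (𝔉.c α))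

/-- the lattice normal form of a free family; `Gc α` = the data of `α` relabelled to `rnd (h w)/h` and recentred at `rnd c` (`CellStmt`) -/
def lnf (𝔉 : FFam k ι) (s : Finset ι) (n₀ : ℕ) (Gc : ι → E k → ℂ) : XFam k (Box k n₀) where
  h := 𝔉.h
  fr := fun v => 𝔉.h⁻¹ • iflLat v.1
  G := fun T η => ∑ α ∈ s.filter (fun α => 𝔉.cell n₀ α = T), Gc α η

/-- the occupied cells -/
def lnfS (𝔉 : FFam k ι) (s : Finset ι) (n₀ : ℕ) : Finset (Box k n₀ × (Fin k → ℤ)) := s.image (𝔉.cell n₀)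

/-- the amplitudes of the cells -/
def lnfA (𝔉 : FFam k ι) (s : Finset ι) (n₀ : ℕ) (b : ι → ℝ) (T : Box k n₀ × (Fin k → ℤ)) : ℝ := ∑ α ∈ s.filter (fun α => 𝔉.cell n₀ α = T), b α

end

end Claimed.Agent.R257.FR1
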