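import Claimed.Agent.R257.FR1.ExA
import Claimed.Agent.R257.FR1.ExBDefs

/-!
# ROW 257 (S0497), package FR1, block EX, file A2: THE TWO CONTRACTS OF EX-A      (helper273)

NOTHING is sorried in this file.    `fxa_expStmt : ExpStmt k`,  `fxa_cellStmt : CellStmt k`   (contracts of helper164, `FR1/ExBDefs.lean`).
-/

set_option autoImplicit false

namespace Claimed.Agent.R257.FR1

open Claimed.Agent.R257 Claimed.Agent.R257.Tree MeasureTheory Metric Set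
open scoped ContDiff InnerProductSpace Real

variable {k : ℕ}

theorem fxa_lam_ge_one (κ : Lat k) : 1 ≤ lam κ := by
  unfold lam iflKn
  have := norm_nonneg (iflLat κ.1)
  have := abs_nonneg ((κ.2 : ℤ) : ℝ)
  linarith

theorem fxa_lam_ge_norm (κ : Lat k) : ‖iflLat κ.1‖ ≤ lam κ := by
  unfold lam iflKn
  have := abs_nonneg ((κ.2 : ℤ) : ℝ)
  linarith

/-- **EX-A, part 2** -/
theorem fxa_cellStmt (k : ℕ) : CellStmt k := by
  intro J
  refine ⟨1, le_rfl, fun h w v' c m g r b hh hg => ?_⟩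
  set e : E k := h • (w - v') with he
  set r' : E k := c - iflLat m with hr'
  refine ⟨fun η => iflE (-⟪r', η⟫_ℝ) * (iflE ⟪c, e⟫_ℝ * g (η - e)), ?_, fun z => ?_⟩
  · have h1 := (((hg.shift e).const_mul (iflE ⟪c, e⟫_ℝ)).modul r')
    rw [ifl_E_norm, one_mul] at h1
    have e1 : ‖e‖ = h * ‖w - v'‖ := by rw [he, norm_smul, Real.norm_of_nonneg hh.le]
    rw [e1] at h1
    rw [one_mul]
    exact h1
  · have e1 : w = v' + h⁻¹ • e := by
      rw [he, smul_smul, inv_mul_cancel₀ hh.ne', one_smul, add_sub_cancel]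
    have e2 : c = iflLat m + r' := by rw [hr', add_sub_cancel]
    have e3 : lat (m, 0) = (iflLat m, (0 : ℝ)) := by
      unfold lat iflLat
      simp
    have h1 := fxa_relabel h v' e c g z
    have h2 := fxa_recentre h v' (iflLat m) r' (fun η => iflE ⟪c, e⟫_ℝ * g (η - e)) z
    rw [← e2] at h2
    rw [← e1] at h1
    rw [e3]
    exact h1.trans h2

/-- comparison of the two native frames on the slab -/
theorem fxa_chart_le {h T₀ T₁ : ℝ} (om y : E k) (tc : ℝ) (κ : Lat k) (z : ST k) (hh : 0 < h) (hT₀ : 0 ≤ T₀) (hT₁ : 0 ≤ T₁) (htc : |tc| ≤ T₀)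
    (hz : |z.2| ≤ T₁ * h ^ 2) :
    1 + ‖chart h om y tc z‖ ≤ (1 + 3 * T₁ + T₀) * lam κ * (1 + ‖(natX h (om + h⁻¹ • iflLat κ.1) z - (h⁻¹ • y, (0 : ℝ))).1‖) := by
  set a : E k := iflLat κ.1 with ha
  set X : ST k := natX h om z with hX
  have hs : |X.2| ≤ T₁ := by
    rw [hX]
    unfold natX
    simp only
    rw [abs_div, abs_of_pos (by positivity : (0:ℝ) < h ^ 2), div_le_iff₀ (by positivity)]
    exact hz
  rw [fxa_natX_add, fxa_chart_eq, ← hX]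
  simp only [Prod.fst_sub]
  set u : E k := X.1 - (2 * X.2) • a - h⁻¹ • y with hu
  have h1 : ‖X - (h⁻¹ • y, (0 : ℝ)) - ((0 : E k), tc)‖ ≤ ‖u‖ + 2 * T₁ * ‖a‖ + T₁ + T₀ := by
    rw [Prod.norm_def]
    refine max_le ?_ ?_
    · simp only [Prod.fst_sub, sub_zero]
      have e : X.1 - h⁻¹ • y = u + (2 * X.2) • a := by rw [hu]; abel
      rw [e]
      refine (norm_add_le _ _).trans ?_
      rw [norm_smul, Real.norm_eq_abs, abs_mul, abs_two]
      have : 2 * |X.2| * ‖a‖ ≤ 2 * T₁ * ‖a‖ := by gcongr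
      linarith
    · simp only [Prod.snd_sub, sub_zero, Real.norm_eq_abs]
      have := abs_sub X.2 tc
      have h0 := norm_nonneg u
      have h00 : 0 ≤ 2 * T₁ * ‖a‖ := by positivity
      linarith
  have hl1 := fxa_lam_ge_one κ
  have hl2 : ‖a‖ ≤ lam κ := fxa_lam_ge_norm κ
  have hu0 := norm_nonneg u
  have ha0 := norm_nonneg a
  have h2 : 1 + (‖u‖ + 2 * T₁ * ‖a‖ + T₁ + T₀) ≤ (1 + 3 * T₁ + T₀) * lam κ * (1 + ‖u‖) := by
    have h3 : 1 + 2 * T₁ * ‖a‖ + T₁ + T₀ ≤ (1 + 3 * T₁ + T₀) * lam κ := by nlinarith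
    have h4 : 1 ≤ (1 + 3 * T₁ + T₀) * lam κ := by nlinarith
    nlinarith
  linarith

/-- **EX-A, part 1** -/
theorem fxa_expStmt (k : ℕ) : ExpStmt k := by
  intro J M Ad R T₀ hR hT₀
  set T₁ : ℝ := T₀ + R with hT₁
  have hT₁0 : 0 ≤ T₁ := by positivity
  obtain ⟨J₀, H⟩ := fxa_atom k R T₀ T₁ (max J Ad) (M + Ad)
  obtain ⟨Cd, hCd, Hd⟩ := fxa_ext_decay k Ad (Real.sqrt k) (Real.sqrt_nonneg _)
  refine ⟨J₀, fun h κ z => fxaMod (fxaP R T₀ T₁) h κ z, fun h κ z => fxa_mod_norm _ _ _ _, fun B => ?_⟩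
  obtain ⟨C, hC, HA⟩ := H B
  set c₁ : ℝ := 1 + 3 * T₁ + T₀ with hc₁
  have hc₁0 : 0 < c₁ := by positivity
  refine ⟨C + Cd * C * (1 + T₁) ^ Ad * c₁ ^ Ad, by positivity, fun h om y tc pf hh htc hpf => ?_⟩
  have hh0 : 0 < h := by linarith
  obtain ⟨G, hG, hsum⟩ := HA pf h tc om y hpf htc hh0
  have hlam : ∀ κ : Lat k, (1 + iflKn κ) ^ (-((M + Ad : ℕ) : ℤ)) = lam κ ^ (-(M : ℤ)) * lam κ ^ (-(Ad : ℤ)) := fun κ => by
    have := fxa_lam_ge_one κ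
    unfold lam at this ⊢
    rw [← zpow_add₀ (by positivity)]
    congr 1
    push_cast
    ring
  have hle1 : ∀ κ : Lat k, lam κ ^ (-(Ad : ℤ)) ≤ 1 := fun κ => by
    rw [zpow_neg, zpow_natCast]
    exact inv_le_one_of_one_le₀ (one_le_pow₀ (fxa_lam_ge_one κ))
  refine ⟨G, fun κ => ?_, fun z hz => ⟨hsum z hz, fun κ => ?_⟩⟩
  · refine (hG κ).mono (le_max_left _ _) le_rfl ?_
    have hl0 : 0 < lam κ := by linarith [fxa_lam_ge_one κ]
    rw [hlam]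
    have h1 : 0 ≤ lam κ ^ (-(M : ℤ)) := by positivity
    calc C * (lam κ ^ (-(M : ℤ)) * lam κ ^ (-(Ad : ℤ))) ≤ C * (lam κ ^ (-(M : ℤ)) * 1) := by
          have := hle1 κ
          gcongr
      _ ≤ (C + Cd * C * (1 + T₁) ^ Ad * c₁ ^ Ad) * lam κ ^ (-(M : ℤ)) := by
          rw [mul_one]
          have : 0 ≤ Cd * C * (1 + T₁) ^ Ad * c₁ ^ Ad := by positivity
          nlinarith
  · set X : ST k := natX h (om + h⁻¹ • iflLat κ.1) z - (h⁻¹ • y, (0 : ℝ)) with hX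
    have hl0 : 0 < lam κ := by linarith [fxa_lam_ge_one κ]
    have h1 := Hd (G κ) _ X ((hG κ).mono (le_max_right _ _) le_rfl le_rfl)
    have hs : |X.2| ≤ T₁ := by
      rw [hX]
      unfold natX
      simp only [Prod.snd_sub, sub_zero]
      rw [abs_div, abs_of_pos (by positivity : (0:ℝ) < h ^ 2), div_le_iff₀ (by positivity)]
      exact hz
    have h2 := fxa_chart_le om y tc κ z hh0 hT₀ hT₁0 htc hz
    rw [← hX, ← hc₁] at h2
    have h3 : (1 + ‖X.1‖) ^ (-(Ad : ℤ)) ≤ (c₁ * lam κ) ^ Ad * (1 + ‖chart h om y tc z‖) ^ (-(Ad : ℤ)) := by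
      rw [zpow_neg, zpow_natCast, zpow_neg, zpow_natCast, ← div_eq_mul_inv, le_div_iff₀ (by positivity), inv_mul_le_iff₀ (by positivity),
        ← mul_pow, mul_comm]
      exact pow_le_pow_left₀ (by positivity) h2 Ad
    rw [hlam] at h1
    have e4 : lam κ ^ (-(Ad : ℤ)) * lam κ ^ Ad = 1 := by
      rw [zpow_neg, zpow_natCast, inv_mul_cancel₀ (by positivity)]
    have hM0 : 0 ≤ lam κ ^ (-(M : ℤ)) := by positivity
    have hA0 : 0 ≤ lam κ ^ (-(Ad : ℤ)) := by positivity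
    have hch : 0 ≤ (1 + ‖chart h om y tc z‖) ^ (-(Ad : ℤ)) := by positivity
    calc ‖ext (G κ) X‖ ≤ Cd * (C * (lam κ ^ (-(M : ℤ)) * lam κ ^ (-(Ad : ℤ)))) * (1 + |X.2|) ^ Ad * (1 + ‖X.1‖) ^ (-(Ad : ℤ)) := h1
      _ ≤ Cd * (C * (lam κ ^ (-(M : ℤ)) * lam κ ^ (-(Ad : ℤ)))) * (1 + T₁) ^ Ad * ((c₁ * lam κ) ^ Ad * (1 + ‖chart h om y tc z‖) ^ (-(Ad : ℤ))) := by
          gcongr
      _ = Cd * C * (1 + T₁) ^ Ad * c₁ ^ Ad * lam κ ^ (-(M : ℤ)) * (1 + ‖chart h om y tc z‖) ^ (-(Ad : ℤ)) * (lam κ ^ (-(Ad : ℤ)) * lam κ ^ Ad) := by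
          rw [mul_pow]
          ring
      _ = Cd * C * (1 + T₁) ^ Ad * c₁ ^ Ad * lam κ ^ (-(M : ℤ)) * (1 + ‖chart h om y tc z‖) ^ (-(Ad : ℤ)) := by rw [e4, mul_one]
      _ ≤ (C + Cd * C * (1 + T₁) ^ Ad * c₁ ^ Ad) * lam κ ^ (-(M : ℤ)) * (1 + ‖chart h om y tc z‖) ^ (-(Ad : ℤ)) := by
          have : Cd * C * (1 + T₁) ^ Ad * c₁ ^ Ad ≤ C + Cd * C * (1 + T₁) ^ Ad * c₁ ^ Ad := by linarith
          gcongr

end Claimed.Agent.R257.FR1
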