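import Claimed.Agent.R257.FR1.ExBDefs

/-!
# FR1, block EX, file 2: PAPER-FREE NUMERICS (transversality under shifts, pigeonhole over the layers, sum over the tuples, tails of series, rounding)            (captain EX helper164)            CONTRACT
Every `sorry` is a leaf `L-F1-EXB-*`.  Statements are frozen; auxiliary lemmas directly above your theorem (prefix `fxb_`); edit only your block.
-/

set_option autoImplicit false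

namespace Claimed.Agent.R257.FR1

open Claimed.Agent.R257 Claimed.Agent.R257.Tree
open scoped BigOperators Classical

noncomputable section

variable {k : ℕ}

/-- the exponent `4/(k(k+1))` -/
def fxe (k : ℕ) : ℝ := 4 / ((k : ℝ) * ((k : ℝ) + 1))

/-- **LEAF L-F1-EXB-TRANSV.**   `‖∑ t i • ξ i‖ ≤ ‖∑ t i • ξ' i‖ + ε ∑ |t i|` (`norm_sum_le`, `norm_smul`), so `(1 - Q ε) ∑ |t i| ≤ Q (‖∑ t i • ξ' i‖ + |∑ t i|)`, `1 - Q ε ≥ 1/2`. -/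
theorem fxb_transv {Q ε : ℝ} {ξ ξ' : Fin (k + 1) → E k} (h : Transv Q ξ) (hQ : 0 ≤ Q) (hε : ∀ i, ‖ξ' i - ξ i‖ ≤ ε) (hQε : Q * ε ≤ 1 / 2) : Transv (2 * Q) ξ' := by
  intro t
  have h1 := h t
  have h2 : ‖∑ i, t i • ξ i‖ ≤ ‖∑ i, t i • ξ' i‖ + ε * ∑ i, |t i| := by
    have e : ∑ i, t i • ξ i = ∑ i, t i • ξ' i - ∑ i, t i • (ξ' i - ξ i) := by
      rw [← Finset.sum_sub_distrib]
      refine Finset.sum_congr rfl fun i _ => ?_
      rw [smul_sub]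
      abel
    rw [e]
    refine (norm_sub_le _ _).trans (add_le_add le_rfl ?_)
    refine (norm_sum_le _ _).trans ?_
    rw [Finset.mul_sum]
    refine Finset.sum_le_sum fun i _ => ?_
    rw [norm_smul, Real.norm_eq_abs, mul_comm]
    exact mul_le_mul_of_nonneg_right (hε i) (abs_nonneg _)
  have hS : 0 ≤ ∑ i, |t i| := Finset.sum_nonneg fun i _ => abs_nonneg _
  have h3 : Q * ‖∑ i, t i • ξ i‖ ≤ Q * (‖∑ i, t i • ξ' i‖ + ε * ∑ i, |t i|) := mul_le_mul_of_nonneg_left h2 hQ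
  have h4 : Q * ε * ∑ i, |t i| ≤ 1 / 2 * ∑ i, |t i| := mul_le_mul_of_nonneg_right hQε hS
  linarith

/-- **LEAF L-F1-EXB-PIGEON.**   For `q ∈ Y` and `i` there is `κ ∈ 𝒦` with `θ i κ ≤ φ i κ q` (otherwise `∑ φ ≤ ∑ θ < a i / 2`: `Finset.sum_le_sum`); `choose`; `q` lies in the set of the tuple `κs i = κ`;  `Finset.card_le_card` + `Finset.card_biUnion_le`, cast to `ℝ`. -/
theorem fxb_pigeon {m : ℕ} {Yt L : Type} (Y : Finset Yt) (𝒦 : Finset L) (φ : Fin m → L → Yt → ℝ) (θ : Fin m → L → ℝ) (a : Fin m → ℝ)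
    (hφ : ∀ q ∈ Y, ∀ i, a i / 2 ≤ ∑ κ ∈ 𝒦, φ i κ q) (hθ : ∀ i, ∑ κ ∈ 𝒦, θ i κ < a i / 2) :
    (Y.card : ℝ) ≤ ∑ κs ∈ Fintype.piFinset (fun _ : Fin m => 𝒦), ((Y.filter fun q => ∀ i, θ i (κs i) ≤ φ i (κs i) q).card : ℝ) := by
  have h1 : ∀ q ∈ Y, ∀ i, ∃ κ ∈ 𝒦, θ i κ ≤ φ i κ q := by
    intro q hq i
    by_contra hcon
    push Not at hcon
    have : ∑ κ ∈ 𝒦, φ i κ q ≤ ∑ κ ∈ 𝒦, θ i κ := Finset.sum_le_sum fun κ hκ => (hcon κ hκ).le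
    linarith [hφ q hq i, hθ i]
  have hsub : Y ⊆ (Fintype.piFinset (fun _ : Fin m => 𝒦)).biUnion fun κs => Y.filter fun q => ∀ i, θ i (κs i) ≤ φ i (κs i) q := by
    intro q hq
    choose κ hκ hκ' using h1 q hq
    rw [Finset.mem_biUnion]
    exact ⟨κ, Fintype.mem_piFinset.2 hκ, Finset.mem_filter.2 ⟨hq, hκ'⟩⟩
  calc (Y.card : ℝ) ≤ (((Fintype.piFinset (fun _ : Fin m => 𝒦)).biUnion fun κs => Y.filter fun q => ∀ i, θ i (κs i) ≤ φ i (κs i) q).card : ℝ) := by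
        exact_mod_cast Finset.card_le_card hsub
    _ ≤ _ := by exact_mod_cast Finset.card_biUnion_le

theorem one_le_lam (κ : Lat k) : 1 ≤ lam κ := by
  unfold lam
  linarith [ifl_Kn_nonneg κ]

/-- **LEAF L-F1-EXB-SUM: the sum over the tuples of layers.**   `e = fxe k > 0`.   For one tuple:  `(∏ g₀ λ_i^{a₁} a i)^(-e) = g₀^(-e(k+1)) (∏ λ_i^(-e a₁)) (∏ a i)^(-e)` (`Real.mul_rpow`, `Real.finsetProd_rpow`, `Finset.prod_mul_distrib`, `Finset.prod_const`, `Finset.card_fin`, `Real.rpow_natCast`, `Real.rpow_mul`),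
`D i / (g₀ λ^{a₁} a i)² ≤ g₀^(-2) D i / (a i)²` (`λ ≥ 1`).   `∑_{κs} ∏_i λ_{κs i}^(-e a₁) = (∑_κ λ_κ^(-e a₁))^(k+1)` (`Finset.prod_univ_sum` backwards, `Finset.prod_const`). -/
theorem fxb_sum (hk : 1 ≤ k) (𝒦 : Finset (Lat k)) (X g₀ S : ℝ) (a₁ : ℕ) (a D : Fin (k + 1) → ℝ) (hX : 0 ≤ X) (hg₀ : 0 < g₀) (ha : ∀ i, 0 < a i) (hD : ∀ i, 0 ≤ D i)
    (hS : ∑ κ ∈ 𝒦, lam κ ^ (-(fxe k * a₁)) ≤ S) :
    ∑ κs ∈ Fintype.piFinset (fun _ : Fin (k + 1) => 𝒦), X * ((∏ i, g₀ * lam (κs i) ^ a₁ * a i) ^ (-fxe k) * ∑ i, D i / (g₀ * lam (κs i) ^ a₁ * a i) ^ 2) ≤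
      X * g₀ ^ (-(fxe k * ((k : ℝ) + 1) + 2)) * S ^ (k + 1) * ((∏ i, a i) ^ (-fxe k) * ∑ i, D i / a i ^ 2) := by
  obtain ⟨e, he⟩ : ∃ e : ℝ, e = fxe k := ⟨_, rfl⟩
  rw [← he] at hS ⊢
  have hl1 : ∀ κ : Lat k, 1 ≤ lam κ := one_le_lam
  have hl0 : ∀ κ : Lat k, 0 < lam κ := fun κ => lt_of_lt_of_le one_pos (hl1 κ)
  have hA : ∀ κs : Fin (k + 1) → Lat k, (∏ i, g₀ * lam (κs i) ^ a₁ * a i) ^ (-e)
      = g₀ ^ (-(e * ((k : ℝ) + 1))) * (∏ i, lam (κs i) ^ (-(e * a₁))) * (∏ i, a i) ^ (-e) := fun κs => by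
    rw [Finset.prod_mul_distrib, Finset.prod_mul_distrib, Finset.prod_const, Finset.card_univ, Fintype.card_fin,
      Real.mul_rpow (mul_nonneg (pow_nonneg hg₀.le _) (Finset.prod_nonneg fun i _ => pow_nonneg (hl0 _).le _)) (Finset.prod_nonneg fun i _ => (ha i).le),
      Real.mul_rpow (pow_nonneg hg₀.le _) (Finset.prod_nonneg fun i _ => pow_nonneg (hl0 _).le _),
      ← Real.finsetProd_rpow _ _ (fun i _ => pow_nonneg (hl0 _).le _), ← Real.rpow_natCast g₀, ← Real.rpow_mul hg₀.le]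
    congr 2
    · congr 1
      push_cast
      ring
    · refine Finset.prod_congr rfl fun i _ => ?_
      rw [← Real.rpow_natCast (lam (κs i)), ← Real.rpow_mul (hl0 _).le]
      congr 1
      ring
  have hB : ∀ κs : Fin (k + 1) → Lat k, ∑ i, D i / (g₀ * lam (κs i) ^ a₁ * a i) ^ 2 ≤ g₀ ^ (-(2 : ℝ)) * ∑ i, D i / a i ^ 2 := fun κs => by
    rw [Finset.mul_sum]
    refine Finset.sum_le_sum fun i _ => ?_
    have h1 : 1 ≤ lam (κs i) ^ a₁ := one_le_pow₀ (hl1 _)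
    have h2 : (g₀ * a i) ^ 2 ≤ (g₀ * lam (κs i) ^ a₁ * a i) ^ 2 := by
      refine pow_le_pow_left₀ (mul_pos hg₀ (ha i)).le ?_ 2
      have := mul_pos hg₀ (ha i)
      nlinarith
    have h3 : g₀ ^ (-(2 : ℝ)) * (D i / a i ^ 2) = D i / (g₀ * a i) ^ 2 := by
      rw [Real.rpow_neg hg₀.le, Real.rpow_two, mul_pow]
      have := hg₀.ne'
      have := (ha i).ne'
      field_simp
    rw [h3]
    exact div_le_div_of_nonneg_left (hD i) (pow_pos (mul_pos hg₀ (ha i)) 2) h2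
  have hSg : 0 ≤ ∑ i, D i / a i ^ 2 := Finset.sum_nonneg fun i _ => div_nonneg (hD i) (pow_nonneg (ha i).le 2)
  have hPa : 0 ≤ (∏ i, a i) ^ (-e) := Real.rpow_nonneg (Finset.prod_nonneg fun i _ => (ha i).le) _
  have hone : ∀ κs : Fin (k + 1) → Lat k, X * ((∏ i, g₀ * lam (κs i) ^ a₁ * a i) ^ (-e) * ∑ i, D i / (g₀ * lam (κs i) ^ a₁ * a i) ^ 2)
      ≤ X * g₀ ^ (-(e * ((k : ℝ) + 1) + 2)) * ((∏ i, a i) ^ (-e) * ∑ i, D i / a i ^ 2) * ∏ i, lam (κs i) ^ (-(e * a₁)) := fun κs => by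
    have hL : 0 ≤ ∏ i, lam (κs i) ^ (-(e * a₁)) := Finset.prod_nonneg fun i _ => Real.rpow_nonneg (hl0 _).le _
    have hg1 : 0 ≤ g₀ ^ (-(e * ((k : ℝ) + 1))) := Real.rpow_nonneg hg₀.le _
    have hsplit : g₀ ^ (-(e * ((k : ℝ) + 1) + 2)) = g₀ ^ (-(e * ((k : ℝ) + 1))) * g₀ ^ (-(2 : ℝ)) := by
      rw [← Real.rpow_add hg₀]
      congr 1
      ring
    rw [hA, hsplit]
    calc X * (g₀ ^ (-(e * ((k : ℝ) + 1))) * (∏ i, lam (κs i) ^ (-(e * a₁))) * (∏ i, a i) ^ (-e) * ∑ i, D i / (g₀ * lam (κs i) ^ a₁ * a i) ^ 2)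
        ≤ X * (g₀ ^ (-(e * ((k : ℝ) + 1))) * (∏ i, lam (κs i) ^ (-(e * a₁))) * (∏ i, a i) ^ (-e) * (g₀ ^ (-(2 : ℝ)) * ∑ i, D i / a i ^ 2)) :=
          mul_le_mul_of_nonneg_left (mul_le_mul_of_nonneg_left (hB κs) (mul_nonneg (mul_nonneg hg1 hL) hPa)) hX
      _ = _ := by ring
  have hprod : ∑ κs ∈ Fintype.piFinset (fun _ : Fin (k + 1) => 𝒦), ∏ i, lam (κs i) ^ (-(e * a₁)) = (∑ κ ∈ 𝒦, lam κ ^ (-(e * a₁))) ^ (k + 1) := by
    have h := Finset.prod_univ_sum (fun _ : Fin (k + 1) => 𝒦) (fun _ κ => lam κ ^ (-(e * a₁)))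
    rw [Finset.prod_const, Finset.card_univ, Fintype.card_fin] at h
    exact h.symm
  have hS0 : 0 ≤ ∑ κ ∈ 𝒦, lam κ ^ (-(e * a₁)) := Finset.sum_nonneg fun κ _ => Real.rpow_nonneg (hl0 _).le _
  calc _ ≤ ∑ κs ∈ Fintype.piFinset (fun _ : Fin (k + 1) => 𝒦),
        X * g₀ ^ (-(e * ((k : ℝ) + 1) + 2)) * ((∏ i, a i) ^ (-e) * ∑ i, D i / a i ^ 2) * ∏ i, lam (κs i) ^ (-(e * a₁)) := Finset.sum_le_sum fun κs _ => hone κs
    _ = X * g₀ ^ (-(e * ((k : ℝ) + 1) + 2)) * ((∏ i, a i) ^ (-e) * ∑ i, D i / a i ^ 2) * (∑ κ ∈ 𝒦, lam κ ^ (-(e * a₁))) ^ (k + 1) := by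
        rw [← Finset.mul_sum, hprod]
    _ ≤ X * g₀ ^ (-(e * ((k : ℝ) + 1) + 2)) * ((∏ i, a i) ^ (-e) * ∑ i, D i / a i ^ 2) * S ^ (k + 1) :=
        mul_le_mul_of_nonneg_left (pow_le_pow_left₀ hS0 hS _) (mul_nonneg (mul_nonneg hX (Real.rpow_nonneg hg₀.le _)) (mul_nonneg hPa hSg))
    _ = _ := by ring

/-- **LEAF L-F1-EXB-SER.**   `‖V‖ ≤ ∑' ‖f κ‖` (`hf.tsum_eq`, `norm_tsum_le_tsum_norm`; summable by comparison with `β w`);  `∑' ‖f κ‖ = ∑_{κ ∈ 𝒦} ‖f κ‖ + ∑' (if κ ∈ 𝒦 then 0 else ‖f κ‖)` (`Summable.sum_add_tsum_compl` or `tsum_eq_sum` + `Summable.tsum_add` on the two indicator pieces);  the second is `≤ β ∑' (if κ ∈ 𝒦 then 0 else w κ)` (`Summable.tsum_le_tsum`, `tsum_mul_left`). -/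
theorem fxb_series {L : Type} {f : L → ℂ} {V : ℂ} (hf : HasSum f V) (w : L → ℝ) (β τ : ℝ) (hw : Summable w) (hw0 : ∀ κ, 0 ≤ w κ) (hβ : 0 ≤ β) (hfw : ∀ κ, ‖f κ‖ ≤ β * w κ)
    (𝒦 : Finset L) (hτ : ∑' κ, (if κ ∈ 𝒦 then 0 else w κ) ≤ τ) : ‖V‖ ≤ ∑ κ ∈ 𝒦, ‖f κ‖ + β * τ := by
  have hsn : Summable fun κ => ‖f κ‖ := Summable.of_nonneg_of_le (fun κ => norm_nonneg _) hfw (hw.mul_left β)
  have hs1 : Summable fun κ => if κ ∈ 𝒦 then ‖f κ‖ else 0 :=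
    Summable.of_nonneg_of_le (fun κ => by split_ifs <;> simp) (fun κ => by split_ifs <;> simp) hsn
  have hs2 : Summable fun κ => if κ ∈ 𝒦 then 0 else ‖f κ‖ :=
    Summable.of_nonneg_of_le (fun κ => by split_ifs <;> simp) (fun κ => by split_ifs <;> simp) hsn
  have hs3 : Summable fun κ => if κ ∈ 𝒦 then 0 else w κ :=
    Summable.of_nonneg_of_le (fun κ => by split_ifs; exacts [le_rfl, hw0 κ]) (fun κ => by split_ifs; exacts [hw0 κ, le_rfl]) hw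
  have e1 : ∑' κ, ‖f κ‖ = ∑' κ, (if κ ∈ 𝒦 then ‖f κ‖ else 0) + ∑' κ, (if κ ∈ 𝒦 then 0 else ‖f κ‖) := by
    rw [← hs1.tsum_add hs2]
    refine tsum_congr fun κ => ?_
    split_ifs <;> simp
  have e2 : ∑' κ, (if κ ∈ 𝒦 then ‖f κ‖ else 0) = ∑ κ ∈ 𝒦, ‖f κ‖ := by
    rw [tsum_eq_sum (s := 𝒦) (fun κ hκ => if_neg hκ)]
    exact Finset.sum_congr rfl fun κ hκ => if_pos hκ
  have e3 : ∑' κ, (if κ ∈ 𝒦 then 0 else ‖f κ‖) ≤ β * τ := by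
    calc ∑' κ, (if κ ∈ 𝒦 then 0 else ‖f κ‖) ≤ ∑' κ, β * (if κ ∈ 𝒦 then 0 else w κ) := by
          refine hs2.tsum_le_tsum (fun κ => ?_) (hs3.mul_left β)
          split_ifs
          · simp
          · exact hfw κ
      _ = β * ∑' κ, (if κ ∈ 𝒦 then 0 else w κ) := tsum_mul_left
      _ ≤ β * τ := mul_le_mul_of_nonneg_left hτ hβ
  calc ‖V‖ = ‖∑' κ, f κ‖ := by rw [hf.tsum_eq]
    _ ≤ ∑' κ, ‖f κ‖ := norm_tsum_le_tsum_norm hsn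
    _ ≤ _ := by
        rw [e1, e2]
        linarith

/-- the layers of size `≤ r` -/
def layS (k : ℕ) (r : ℝ) : Finset (Lat k) :=
  ((Fintype.piFinset fun _ : Fin k => Finset.Icc (-(⌈r⌉₊ : ℤ)) ⌈r⌉₊) ×ˢ Finset.Icc (-(⌈r⌉₊ : ℤ)) ⌈r⌉₊).filter fun κ => lam κ ≤ r

/-- **LEAF L-F1-EXB-LAYS.**   `⟸`: `|κ.1 i| ≤ ‖iflLat κ.1‖ ≤ iflKn κ ≤ r ≤ ⌈r⌉₊` (`EuclideanSpace.norm_eq`/`PiLp.norm_apply_le`), `|κ.2| ≤ iflKn κ`; `Int.cast` inequalities (`Int.cast_le`, `abs_le`, `Nat.le_ceil`). -/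
theorem mem_layS (r : ℝ) (κ : Lat k) : κ ∈ layS k r ↔ lam κ ≤ r := by
  unfold layS
  rw [Finset.mem_filter]
  refine ⟨fun h => h.2, fun h => ⟨?_, h⟩⟩
  have hr : r ≤ (⌈r⌉₊ : ℝ) := Nat.le_ceil r
  have hlam : 1 + (‖iflLat κ.1‖ + |(κ.2 : ℝ)|) ≤ r := h
  have hn0 := norm_nonneg (iflLat κ.1)
  have ha0 := abs_nonneg (κ.2 : ℝ)
  have hbox : ∀ z : ℤ, |(z : ℝ)| ≤ r → z ∈ Finset.Icc (-(⌈r⌉₊ : ℤ)) ⌈r⌉₊ := fun z hz => by
    rw [Finset.mem_Icc]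
    obtain ⟨h1, h2⟩ := abs_le.1 (hz.trans hr)
    constructor
    · have : ((-(⌈r⌉₊ : ℤ) : ℤ) : ℝ) ≤ (z : ℝ) := by
        push_cast
        exact h1
      exact_mod_cast this
    · have : (z : ℝ) ≤ ((⌈r⌉₊ : ℤ) : ℝ) := by
        push_cast
        exact h2
      exact_mod_cast this
  rw [Finset.mem_product, Fintype.mem_piFinset]
  refine ⟨fun i => hbox _ ?_, hbox _ (by linarith)⟩
  have h1 : ‖(iflLat κ.1) i‖ ≤ ‖iflLat κ.1‖ := PiLp.norm_apply_le _ i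
  have h2 : (iflLat κ.1) i = (κ.1 i : ℝ) := rfl
  rw [h2, Real.norm_eq_abs] at h1
  linarith

/-- **LEAF L-F1-EXB-LAYS: the tail of the layers.**   `ifl_summable_tail k (k + 2) K₁` with `ϱ = r - 1`:  `κ ∉ layS k r ⟹ r - 1 ≤ iflKn κ` (`mem_layS`), termwise comparison (`Summable.tsum_le_tsum`/`tsum_le_tsum`; both sides summable by `ifl_summable`, `Summable.of_nonneg_of_le`);  `1 + ϱ = r`. -/
theorem fxb_tail (k K₁ : ℕ) : ∃ C : ℝ, 0 ≤ C ∧ ∀ r : ℝ, 1 ≤ r →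
    ∑' κ : Lat k, (if κ ∈ layS k r then 0 else lam κ ^ (-((k + 2 + K₁ : ℕ) : ℤ))) ≤ C * r ^ (-(K₁ : ℤ)) := by
  obtain ⟨C, hC, h⟩ := ifl_summable_tail k (k + 2) K₁ (by omega)
  refine ⟨C, hC, fun r hr => ?_⟩
  have h1 := h (r - 1) (by linarith)
  rw [show 1 + (r - 1) = r by ring] at h1
  refine le_trans ?_ h1
  have hsum := ifl_summable k (k + 2 + K₁) (by omega)
  have hpos : ∀ κ : Lat k, 0 ≤ (1 + iflKn κ) ^ (-((k + 2 + K₁ : ℕ) : ℤ)) := fun κ => zpow_nonneg (by linarith [ifl_Kn_nonneg κ]) _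
  refine Summable.tsum_le_tsum (fun κ => ?_) ?_ ?_
  · by_cases hκ : κ ∈ layS k r
    · rw [if_pos hκ]
      split_ifs
      · exact hpos κ
      · exact le_rfl
    · rw [if_neg hκ]
      rw [mem_layS, not_le] at hκ
      have : r - 1 ≤ iflKn κ := by
        unfold lam at hκ
        linarith
      rw [if_pos this]
      exact le_rfl
  · refine Summable.of_nonneg_of_le (fun κ => ?_) (fun κ => ?_) hsum
    · split_ifs
      · exact le_rfl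
      · exact hpos κ
    · split_ifs
      · exact hpos κ
      · exact le_rfl
  · refine Summable.of_nonneg_of_le (fun κ => ?_) (fun κ => ?_) hsum
    · split_ifs
      · exact hpos κ
      · exact le_rfl
    · split_ifs
      · exact le_rfl
      · exact hpos κ

/-- **LEAF L-F1-EXB-LAYS.**   `ifl_summable k N`;  `∑_{κ ∈ 𝒦} ≤ ∑'` (`Summable.sum_le_tsum`);  `lam κ ^ (-(N:ℝ)) = lam κ ^ (-(N:ℤ))` (`Real.rpow_neg`, `Real.rpow_natCast`, `zpow_neg`, `zpow_natCast`). -/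
theorem fxb_lam_sum (k N : ℕ) (hN : k + 1 < N) : ∃ S : ℝ, 0 ≤ S ∧ ∀ 𝒦 : Finset (Lat k), ∑ κ ∈ 𝒦, lam κ ^ (-(N : ℝ)) ≤ S := by
  have hsum := ifl_summable k N hN
  have hpos : ∀ κ : Lat k, 0 ≤ (1 + iflKn κ) ^ (-(N : ℤ)) := fun κ => zpow_nonneg (by linarith [ifl_Kn_nonneg κ]) _
  refine ⟨∑' κ : Lat k, (1 + iflKn κ) ^ (-(N : ℤ)), tsum_nonneg hpos, fun 𝒦 => ?_⟩
  have e : ∀ κ : Lat k, lam κ ^ (-(N : ℝ)) = (1 + iflKn κ) ^ (-(N : ℤ)) := fun κ => by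
    have h0 : 0 ≤ lam κ := by linarith [one_le_lam κ]
    rw [Real.rpow_neg h0, Real.rpow_natCast, zpow_neg, zpow_natCast]
    rfl
  rw [Finset.sum_congr rfl fun κ _ => e κ]
  exact hsum.sum_le_tsum _ fun κ _ => hpos κ

/-! ## rounding -/

/-- **LEAF L-F1-EXB-RND.**   `EuclideanSpace.norm_eq`, `abs_sub_round`: every coordinate is `≤ 1/2 ≤ 1`, `∑ ≤ k`, `Real.sqrt_le_sqrt`. -/
theorem norm_sub_rnd (x : E k) : ‖x - iflLat (rnd x)‖ ≤ Real.sqrt k := by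
  rw [EuclideanSpace.norm_eq]
  refine Real.sqrt_le_sqrt ?_
  calc ∑ i, ‖(x - iflLat (rnd x)) i‖ ^ 2 ≤ ∑ _i : Fin k, (1 : ℝ) := by
        refine Finset.sum_le_sum fun i _ => ?_
        have h1 : (x - iflLat (rnd x)) i = x i - (round (x i) : ℝ) := rfl
        rw [h1, Real.norm_eq_abs]
        have h2 := abs_sub_round (x i)
        have h3 := abs_nonneg (x i - (round (x i) : ℝ))
        nlinarith
    _ = k := by simp

/-- **LEAF L-F1-EXB-RND.**   `round_add_intCast`. -/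
theorem rnd_add_lat (x : E k) (a : Fin k → ℤ) : rnd (x + iflLat a) = rnd x + a := by
  funext i
  have h1 : (x + iflLat a) i = x i + (a i : ℝ) := rfl
  show round ((x + iflLat a) i) = round (x i) + a i
  rw [h1, round_add_intCast]

/-- **LEAF L-F1-EXB-RND.**   `|round (x i)| ≤ |x i| + 1 ≤ ‖x‖ + 1 ≤ n₀`. -/
theorem rnd_mem_box (x : E k) (n₀ : ℕ) (h : ‖x‖ + 1 ≤ n₀) : rnd x ∈ boxF k n₀ := by
  unfold boxF
  rw [Fintype.mem_piFinset]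
  intro i
  have h1 : ‖x i‖ ≤ ‖x‖ := PiLp.norm_apply_le x i
  rw [Real.norm_eq_abs] at h1
  have h2 := abs_sub_round (x i)
  have h3 : |(round (x i) : ℝ)| ≤ n₀ := by
    have e : (round (x i) : ℝ) = x i - (x i - round (x i)) := by ring
    rw [e]
    refine (abs_sub _ _).trans ?_
    linarith
  obtain ⟨h4, h5⟩ := abs_le.1 h3
  rw [Finset.mem_Icc]
  constructor
  · have : ((-(n₀ : ℤ) : ℤ) : ℝ) ≤ (rnd x i : ℝ) := by
      push_cast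
      exact h4
    exact_mod_cast this
  · have : (rnd x i : ℝ) ≤ ((n₀ : ℤ) : ℝ) := by
      push_cast
      exact h5
    exact_mod_cast this

/-- **LEAF L-F1-EXB-RND: at most `3^k` lattice points in a ball of radius `1`.**   `v ↦ fun i => v.1 i` maps the set injectively into `Fintype.piFinset fun i => Finset.Icc ⌈ξ i - 1⌉ ⌊ξ i + 1⌋` (`ifl_summ_mem_Icc`, `ifl_summ_card_Icc`, `Fintype.card_piFinset`, `Finset.prod_le_pow_card`). -/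
theorem box_mult (n₀ : ℕ) (ξ : E k) : ((Finset.univ.filter fun v : Box k n₀ => ‖iflLat v.1 - ξ‖ ≤ 1).card : ℝ) ≤ 3 ^ k := by
  have hcard : (Finset.univ.filter fun v : Box k n₀ => ‖iflLat v.1 - ξ‖ ≤ 1).card ≤ (Fintype.piFinset fun i : Fin k => Finset.Icc ⌈ξ i - 1⌉ ⌊ξ i + 1⌋).card := by
    refine Finset.card_le_card_of_injOn (fun v => v.1) (fun v hv => ?_) (fun v _ v' _ h => Subtype.ext h)
    have hv' : ‖iflLat v.1 - ξ‖ ≤ 1 := (Finset.mem_filter.1 hv).2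
    rw [Finset.mem_coe, Fintype.mem_piFinset]
    intro i
    refine ifl_summ_mem_Icc ?_
    have h1 : ‖(iflLat v.1 - ξ) i‖ ≤ ‖iflLat v.1 - ξ‖ := PiLp.norm_apply_le _ i
    have h2 : (iflLat v.1 - ξ) i = (v.1 i : ℝ) - ξ i := rfl
    rw [h2, Real.norm_eq_abs] at h1
    exact h1.trans hv'
  have h3 : (Fintype.piFinset fun i : Fin k => Finset.Icc ⌈ξ i - 1⌉ ⌊ξ i + 1⌋).card ≤ 3 ^ k := by
    rw [Fintype.card_piFinset]
    calc ∏ i : Fin k, (Finset.Icc ⌈ξ i - 1⌉ ⌊ξ i + 1⌋).card ≤ ∏ _i : Fin k, 3 := Finset.prod_le_prod' fun i _ => ifl_summ_card_Icc _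
      _ = 3 ^ k := by simp
  exact_mod_cast hcard.trans h3

end

end Claimed.Agent.R257.FR1
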