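import Claimed.Agent.R257.FR1.ExBAbs
import Claimed.Agent.R257.Pk.ApiInt

/-!
# FR1, block EX, file 3: ELEMENTARY BOUNDS FOR ARRAYS (count, Cauchy, a priori `L²` count, the elementary frame bound, the slab, multiplicity of the lattice cells)            (captain EX helper164)            CONTRACT
TRICK: `Arr.In.mult` has literally the form of `PFam.In.mult` for the family `⟨A.L, A.om, fun α => (A.L⁻¹ • A.y α, A.tc α), 0⟩` (ZERO profiles: `BD.FS S 0` holds with the density `0`, amplitudes `0`), and `natX L om z - (L⁻¹ • y, tc) = chart L om y tc z` (`chart_eq_natX`):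
all counting lemmas of `Pk/Api.lean`, `Pk/ApiInt.lean` apply to arrays.
Every `sorry` is a leaf `L-F1-EXB-*`.  Statements are frozen; auxiliary lemmas directly above your theorem (prefix `fxb_`); edit only your block.
-/

set_option autoImplicit false

namespace Claimed.Agent.R257.FR1

open Claimed.Agent.R257 Claimed.Agent.R257.Tree
open scoped BigOperators Classical

noncomputable section

variable {k : ℕ} {ι : Type}

/-- **LEAF L-F1-EXB-COUNT** (H (p:count) for arrays).   `pk_count k hM K.Rω` for the zero-profile family of the header, class `⟨1, 0, K.Rω, K.m₀⟩`, amplitudes `0`;  `PFam.d`, `chart_eq_natX`. -/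
theorem fxb_count (k : ℕ) {M : ℝ} (hM : (k : ℝ) + 1 < M) (K : Cls) : ∃ C : ℝ, 0 ≤ C ∧ ∀ (ι : Type) (A : Arr k ι) (s : Finset ι), A.In s K → ∀ z : ST k,
    ∑ α ∈ s, (1 + ‖chart A.L (A.om α) (A.y α) (A.tc α) z‖) ^ (-M) ≤ C * A.L ^ k := by
  obtain ⟨C, hC, H⟩ := pk_count k hM K.Rω
  refine ⟨C * K.m₀, by positivity, fun ι A s hA z => ?_⟩
  set F : PFam k ι := ⟨A.L, A.om, fun α => (A.L⁻¹ • A.y α, A.tc α), fun _ _ => 0⟩ with hF
  have hIn : F.In s ⟨1, 0, K.Rω, K.m₀⟩ (fun _ => 0) :=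
    ⟨hA.one_le, fun T _ => BD.bdu_FS_zero _, fun T _ X => by simp [hF], hA.freq, hA.mult⟩
  have h1 := H ι F s ⟨1, 0, K.Rω, K.m₀⟩ (fun _ => 0) hIn le_rfl z
  have e : ∀ α, F.d α z = ‖chart A.L (A.om α) (A.y α) (A.tc α) z‖ := fun α => by
    rw [chart_eq_natX]
    rfl
  simp only [e] at h1
  exact h1

/-- **LEAF L-F1-EXB-WCS: weighted Cauchy-Schwarz for sums of decaying terms.**   `‖∑ t α‖ ≤ ∑ (β α (1+d α)^(-P/2)) (1+d α)^(-(Ad - P/2))`, `Finset.sum_mul_sq_le_sq_mul_sq`;  `((1+d)^(-P/2))² = (1+d)^(-P)` (`Real.rpow_natCast`, `Real.rpow_mul`/`Real.rpow_add`). -/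
theorem fxb_wcs (s : Finset ι) (t : ι → ℂ) (β d : ι → ℝ) (P Ad : ℝ) (hβ : ∀ α ∈ s, 0 ≤ β α) (hd : ∀ α ∈ s, 0 ≤ d α) (ht : ∀ α ∈ s, ‖t α‖ ≤ β α * (1 + d α) ^ (-Ad)) :
    ‖∑ α ∈ s, t α‖ ^ 2 ≤ (∑ α ∈ s, β α ^ 2 * (1 + d α) ^ (-P)) * ∑ α ∈ s, (1 + d α) ^ (-(2 * Ad - P)) := by
  have h1 : ‖∑ α ∈ s, t α‖ ≤ ∑ α ∈ s, (β α * (1 + d α) ^ (-(P / 2))) * (1 + d α) ^ (-(Ad - P / 2)) := by
    refine (norm_sum_le _ _).trans (Finset.sum_le_sum fun α hα => ?_)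
    have := hd α hα
    rw [mul_assoc, ← Real.rpow_add (by positivity)]
    have e : -(P / 2) + -(Ad - P / 2) = -Ad := by ring
    rw [e]
    exact ht α hα
  have h2 := Finset.sum_mul_sq_le_sq_mul_sq s (fun α => β α * (1 + d α) ^ (-(P / 2))) (fun α => (1 + d α) ^ (-(Ad - P / 2)))
  have e1 : ∀ α ∈ s, (β α * (1 + d α) ^ (-(P / 2))) ^ 2 = β α ^ 2 * (1 + d α) ^ (-P) := fun α hα => by
    have := hd α hα
    rw [mul_pow, ← Real.rpow_natCast ((1 + d α) ^ (-(P / 2))), ← Real.rpow_mul (by positivity)]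
    congr 2
    push_cast
    ring
  have e2 : ∀ α ∈ s, ((1 + d α) ^ (-(Ad - P / 2))) ^ 2 = (1 + d α) ^ (-(2 * Ad - P)) := fun α hα => by
    have := hd α hα
    rw [← Real.rpow_natCast ((1 + d α) ^ (-(Ad - P / 2))), ← Real.rpow_mul (by positivity)]
    congr 1
    push_cast
    ring
  rw [Finset.sum_congr rfl e1, Finset.sum_congr rfl e2] at h2
  exact (pow_le_pow_left₀ (norm_nonneg _) h1 2).trans h2

/-- **LEAF L-F1-EXB-CAUCHY.**   `‖cf α * atom α z‖ ≤ (‖cf α‖ L^(-k/2) B (1+R)^Ad) (1 + ‖chart‖)^(-Ad)`, `Ad = P + k + 2` (the profile vanishes for `‖chart‖ > R`, is `≤ B` by `Prof.bound 0`, `norm_iteratedFDeriv_zero`; `norm_car`);   `fxb_wcs`, `fxb_count` with `M = 2 Ad - P`;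
`(L^(-k/2))² = L^(-k)`;  `Arr.env`, `Arr.wt`: `(1+x)^(-(P:ℤ)) = (1+x)^(-(P:ℝ))`.   (If `K.B < 0` or `K.R < 0` all profiles vanish.) -/
theorem fxb_cauchy (k : ℕ) (K : Cls) (P : ℕ) : ∃ C : ℝ, 0 ≤ C ∧ ∀ (ι : Type) (A : Arr k ι) (s : Finset ι) (cf : ι → ℂ) (z : ST k), A.In s K →
    ‖A.fld s cf z‖ ^ 2 ≤ C * A.L ^ k * A.env s cf P z := by
  set Ad : ℝ := (P : ℝ) + k + 2 with hAd
  have hk0 : (0 : ℝ) ≤ k := Nat.cast_nonneg k
  have hP0 : (0 : ℝ) ≤ P := Nat.cast_nonneg P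
  obtain ⟨C₀, hC₀, H₀⟩ := fxb_count k (M := 2 * Ad - P) (by rw [hAd]; linarith) K
  set G : ℝ := |K.B| * (1 + |K.R|) ^ Ad with hG
  have hG0 : 0 ≤ G := by positivity
  refine ⟨G ^ 2 * C₀, by positivity, fun ι A s cf z hA => ?_⟩
  have hL0 : 0 < A.L := lt_of_lt_of_le one_pos hA.one_le
  set d : ι → ℝ := fun α => ‖chart A.L (A.om α) (A.y α) (A.tc α) z‖ with hd
  have h1 := fxb_wcs s (fun α => cf α * A.atom α z) (fun α => ‖cf α‖ * A.L ^ (-(k : ℝ) / 2) * G) d P Ad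
    (fun α _ => by positivity) (fun α _ => norm_nonneg _) (fun α hα => by
      have hd0 : 0 ≤ d α := norm_nonneg _
      unfold Arr.atom
      rw [norm_mul, norm_mul, norm_mul, Complex.norm_real, Real.norm_of_nonneg (by positivity)]
      have hcar : ‖car (A.om α) z‖ = 1 := by
        unfold car
        rw [mul_comm, Complex.norm_exp_ofReal_mul_I]
      rw [hcar, mul_one]
      have h2 : ‖A.pf α (chart A.L (A.om α) (A.y α) (A.tc α) z)‖ ≤ G * (1 + d α) ^ (-Ad) := by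
        by_cases h0 : A.pf α (chart A.L (A.om α) (A.y α) (A.tc α) z) = 0
        · rw [h0, norm_zero]
          positivity
        · have h3 : d α ≤ |K.R| := ((hA.prof α hα).supp _ h0).trans (le_abs_self _)
          have h4 : ‖A.pf α (chart A.L (A.om α) (A.y α) (A.tc α) z)‖ ≤ |K.B| := by
            have := (hA.prof α hα).bound 0 (Nat.zero_le _) (chart A.L (A.om α) (A.y α) (A.tc α) z)
            rw [norm_iteratedFDeriv_zero] at this
            exact this.trans (le_abs_self _)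
          have h5 : 1 ≤ (1 + |K.R|) ^ Ad * (1 + d α) ^ (-Ad) := by
            rw [Real.rpow_neg (by positivity), ← div_eq_mul_inv, le_div_iff₀ (by positivity), one_mul]
            exact Real.rpow_le_rpow (by positivity) (by linarith) (by rw [hAd]; positivity)
          calc _ ≤ |K.B| * 1 := by rw [mul_one]; exact h4
            _ ≤ |K.B| * ((1 + |K.R|) ^ Ad * (1 + d α) ^ (-Ad)) := mul_le_mul_of_nonneg_left h5 (abs_nonneg _)
            _ = _ := by rw [hG]; ring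
      calc ‖cf α‖ * (A.L ^ (-(k : ℝ) / 2) * ‖A.pf α (chart A.L (A.om α) (A.y α) (A.tc α) z)‖)
          ≤ ‖cf α‖ * (A.L ^ (-(k : ℝ) / 2) * (G * (1 + d α) ^ (-Ad))) := by gcongr
        _ = _ := by ring)
  have e1 : ∑ α ∈ s, (‖cf α‖ * A.L ^ (-(k : ℝ) / 2) * G) ^ 2 * (1 + d α) ^ (-(P : ℝ)) = G ^ 2 * A.env s cf P z := by
    unfold Arr.env Arr.wt
    rw [Finset.mul_sum, Finset.mul_sum]
    refine Finset.sum_congr rfl fun α _ => ?_
    have e2 : (A.L ^ (-(k : ℝ) / 2)) ^ 2 = A.L ^ (-(k : ℝ)) := by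
      rw [← Real.rpow_natCast, ← Real.rpow_mul hL0.le]
      congr 1
      push_cast
      ring
    have e3 : (1 + d α) ^ (-(P : ℝ)) = (1 + ‖chart A.L (A.om α) (A.y α) (A.tc α) z‖) ^ (-(P : ℤ)) := by
      rw [Real.rpow_neg (by positivity), Real.rpow_natCast, zpow_neg, zpow_natCast]
    rw [mul_pow, mul_pow, e2, e3]
    ring
  rw [e1] at h1
  have henv : 0 ≤ A.env s cf P z := by
    unfold Arr.env Arr.wt
    have : ∀ α ∈ s, 0 ≤ ‖cf α‖ ^ 2 * (1 + ‖chart A.L (A.om α) (A.y α) (A.tc α) z‖) ^ (-(P : ℤ)) := fun α _ => by positivity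
    have := Finset.sum_nonneg this
    positivity
  calc ‖A.fld s cf z‖ ^ 2 ≤ G ^ 2 * A.env s cf P z * ∑ α ∈ s, (1 + d α) ^ (-(2 * Ad - P)) := h1
    _ ≤ G ^ 2 * A.env s cf P z * (C₀ * A.L ^ k) := mul_le_mul_of_nonneg_left (H₀ ι A s hA z) (by positivity)
    _ = _ := by ring

/-- the parity class of a cube -/
def fxbPar (q : Lat k) : (Fin k → ZMod 2) × ZMod 2 := (fun i => (q.1 i : ZMod 2), (q.2 : ZMod 2))

theorem fxb_cubes_two_le {a b : ℤ} (h : (a : ZMod 2) = (b : ZMod 2)) (hne : a ≠ b) : 2 ≤ |a - b| := by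
  have h1 : ((a - b : ℤ) : ZMod 2) = 0 := by push_cast; rw [h, sub_self]
  rw [ZMod.intCast_zmod_eq_zero_iff_dvd] at h1
  obtain ⟨c, hc⟩ := h1
  have hc0 : c ≠ 0 := by
    rintro rfl
    apply hne
    push_cast at hc
    omega
  rw [hc, abs_mul]
  have : 1 ≤ |c| := Int.one_le_abs hc0
  push_cast
  simp only [abs_two]
  linarith

theorem fxb_cubes_sep_real {a b : ℤ} {x y : ℝ} (h : 2 ≤ |a - b|) (hx : (a : ℝ) ≤ x ∧ x < a + 1) (hy : (b : ℝ) ≤ y ∧ y < b + 1) : 1 ≤ |x - y| := by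
  have h' : (2 : ℝ) ≤ |(a : ℝ) - b| := by exact_mod_cast h
  rcases le_abs'.1 h' with h1 | h1
  · rw [le_abs']
    left
    linarith [hx.2, hy.1]
  · rw [le_abs']
    right
    linarith [hx.1, hy.2]

/-- witnesses of distinct cubes of the same parity class are `1`-separated -/
theorem fxb_cubes_sep {q q' : Lat k} (hp : fxbPar q = fxbPar q') (hne : q ≠ q') {z z' : ST k} (hz : z ∈ cube q) (hz' : z' ∈ cube q') : 1 ≤ ‖z - z'‖ := by
  have h1 : ∀ i, ((q.1 i : ℤ) : ZMod 2) = (q'.1 i : ZMod 2) := fun i => congrFun (congrArg Prod.fst hp) i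
  have h2 : ((q.2 : ℤ) : ZMod 2) = (q'.2 : ZMod 2) := congrArg Prod.snd hp
  by_cases h3 : q.2 = q'.2
  · have h4 : q.1 ≠ q'.1 := fun h => hne (Prod.ext h h3)
    obtain ⟨i, hi⟩ := Function.ne_iff.1 h4
    have h5 := fxb_cubes_sep_real (fxb_cubes_two_le (h1 i) hi) (hz.1 i) (hz'.1 i)
    have h6 : |z.1 i - z'.1 i| ≤ ‖z.1 - z'.1‖ := by
      have := PiLp.norm_apply_le (z.1 - z'.1) i
      simpa using this
    exact (h5.trans h6).trans (norm_fst_le (z - z'))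
  · have h5 := fxb_cubes_sep_real (fxb_cubes_two_le h2 h3) hz.2 hz'.2
    exact h5.trans (by simpa using norm_snd_le (z - z'))

/-- **sums over one witness per unit cube** `≤ 2^(k+1) ×` the bound for `1`-separated sets -/
theorem fxb_cubes_split (Y : Finset (Lat k)) (wz : Lat k → ST k) (hw : ∀ q ∈ Y, wz q ∈ cube q) (f : ST k → ℝ) (b : ℝ)
    (hb : ∀ Y' : Finset (ST k), USep Y' → ∑ z ∈ Y', f z ≤ b) : ∑ q ∈ Y, f (wz q) ≤ 2 ^ (k + 1) * b := by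
  have hcls : ∀ c : (Fin k → ZMod 2) × ZMod 2, ∑ q ∈ Y.filter (fun q => fxbPar q = c), f (wz q) ≤ b := by
    intro c
    have hinj : Set.InjOn wz (Y.filter (fun q => fxbPar q = c) : Set (Lat k)) := by
      intro q hq q' hq' he
      by_contra hne
      have hq1 := Finset.mem_filter.1 hq
      have hq2 := Finset.mem_filter.1 hq'
      have := fxb_cubes_sep (hq1.2.trans hq2.2.symm) hne (hw q hq1.1) (hw q' hq2.1)
      rw [he, sub_self, norm_zero] at this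
      linarith
    rw [← Finset.sum_image (f := f) hinj]
    refine hb _ fun z hz z' hz' hne => ?_
    obtain ⟨q, hq, rfl⟩ := Finset.mem_image.1 hz
    obtain ⟨q', hq', rfl⟩ := Finset.mem_image.1 hz'
    have hq1 := Finset.mem_filter.1 hq
    have hq2 := Finset.mem_filter.1 hq'
    exact fxb_cubes_sep (hq1.2.trans hq2.2.symm) (fun h => hne (by rw [h])) (hw q hq1.1) (hw q' hq2.1)
  have hcard : (Finset.univ : Finset ((Fin k → ZMod 2) × ZMod 2)).card = 2 ^ (k + 1) := by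
    rw [Finset.card_univ, Fintype.card_prod, Fintype.card_fun, ZMod.card, Fintype.card_fin, pow_succ]
  calc ∑ q ∈ Y, f (wz q) = ∑ c : (Fin k → ZMod 2) × ZMod 2, ∑ q ∈ Y.filter (fun q => fxbPar q = c), f (wz q) :=
        (Finset.sum_fiberwise Y fxbPar fun q => f (wz q)).symm
    _ ≤ ∑ _c : (Fin k → ZMod 2) × ZMod 2, b := Finset.sum_le_sum fun c _ => hcls c
    _ = 2 ^ (k + 1) * b := by
        rw [Finset.sum_const, hcard, nsmul_eq_mul]
        push_cast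
        rfl

/-- **LEAF L-F1-EXB-CUBES: one point per lattice cube.**   Split `Y` by the parities `q ↦ (fun i => q.1 i % 2, q.2 % 2)` (`2^(k+1)` classes; `Finset.sum_fiberwise`-type identity or `Finset.sum_le_card_nsmul` over `Fintype.piFinset`);  two distinct cubes of one class differ by `≥ 2` in a coordinate, so their points differ by `> 1` in it and
`1 ≤ ‖wz q - wz q'‖` (`ST k` has the sup norm of `(‖·‖₂, |·|)`, `|x i| ≤ ‖x‖`): the image of a class under `wz` is `USep` and `wz` is injective on it (`Finset.sum_image`);  `pk_usep_tube k hM C₀`. -/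
theorem fxb_cubes (k : ℕ) {M : ℝ} (hM : (k : ℝ) + 1 < M) (C₀ : ℝ) : ∃ C : ℝ, 0 ≤ C ∧ ∀ (Y : Finset (Lat k)) (wz : Lat k → ST k), (∀ q ∈ Y, wz q ∈ cube q) →
    ∀ (N : ℝ) (v : E k) (u : ST k), 1 ≤ N → ‖v‖ ≤ C₀ → ∑ q ∈ Y, (1 + ‖natX N v (wz q) - u‖) ^ (-M) ≤ C * N ^ (k + 2) := by
  obtain ⟨C, hC, H⟩ := pk_usep_tube k hM C₀
  refine ⟨2 ^ (k + 1) * C, by positivity, fun Y wz hw N v u hN hv => ?_⟩
  have := fxb_cubes_split Y wz hw (fun z => (1 + ‖natX N v z - u‖) ^ (-M)) (C * N ^ (k + 2)) fun Y' hY' => H Y' hY' N v u hN hv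
  calc _ ≤ 2 ^ (k + 1) * (C * N ^ (k + 2)) := this
    _ = _ := by ring

/-- **LEAF L-F1-EXB-APRIORI.**   `fxb_cauchy` with `P = k + 2`:  `‖V‖² ≤ C L^k env = C ∑ ‖cf α‖² wt`;  exchange the sums;  `fxb_cubes` (`M = k + 2`, `C₀ = K.Rω`, `u = (L⁻¹ • y, tc)`, `chart_eq_natX`). -/
theorem fxb_apriori (k : ℕ) (K : Cls) : ∃ C : ℝ, 0 ≤ C ∧ ∀ (ι : Type) (A : Arr k ι) (s : Finset ι) (cf : ι → ℂ) (Y : Finset (Lat k)) (wz : Lat k → ST k), A.In s K →
    (∀ q ∈ Y, wz q ∈ cube q) → ∑ q ∈ Y, ‖A.fld s cf (wz q)‖ ^ 2 ≤ C * A.L ^ (k + 2) * energy s cf := by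
  obtain ⟨C₁, hC₁, H₁⟩ := fxb_cauchy k K (k + 2)
  obtain ⟨C₂, hC₂, H₂⟩ := fxb_cubes k (M := (k : ℝ) + 2) (by linarith) K.Rω
  refine ⟨C₁ * C₂, by positivity, fun ι A s cf Y wz hA hw => ?_⟩
  have hL0 : 0 < A.L := lt_of_lt_of_le one_pos hA.one_le
  have e0 : A.L ^ k * A.L ^ (-(k : ℝ)) = 1 := by
    rw [Real.rpow_neg hL0.le, Real.rpow_natCast, mul_inv_cancel₀ (by positivity)]
  have h1 : ∀ q ∈ Y, ‖A.fld s cf (wz q)‖ ^ 2 ≤ C₁ * ∑ α ∈ s, ‖cf α‖ ^ 2 * (1 + ‖natX A.L (A.om α) (wz q) - (A.L⁻¹ • A.y α, A.tc α)‖) ^ (-((k : ℝ) + 2)) := by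
    intro q _
    have h2 := H₁ ι A s cf (wz q) hA
    unfold Arr.env Arr.wt at h2
    have e1 : ∀ α, (1 + ‖chart A.L (A.om α) (A.y α) (A.tc α) (wz q)‖) ^ (-((k + 2 : ℕ) : ℤ))
        = (1 + ‖natX A.L (A.om α) (wz q) - (A.L⁻¹ • A.y α, A.tc α)‖) ^ (-((k : ℝ) + 2)) := fun α => by
      rw [chart_eq_natX, Real.rpow_neg (by positivity), zpow_neg, zpow_natCast, ← Real.rpow_natCast]
      push_cast
      rfl
    simp only [e1] at h2
    calc _ ≤ _ := h2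
      _ = C₁ * (A.L ^ k * A.L ^ (-(k : ℝ))) * ∑ α ∈ s, ‖cf α‖ ^ 2 * (1 + ‖natX A.L (A.om α) (wz q) - (A.L⁻¹ • A.y α, A.tc α)‖) ^ (-((k : ℝ) + 2)) := by ring
      _ = _ := by rw [e0, mul_one]
  calc ∑ q ∈ Y, ‖A.fld s cf (wz q)‖ ^ 2
      ≤ ∑ q ∈ Y, C₁ * ∑ α ∈ s, ‖cf α‖ ^ 2 * (1 + ‖natX A.L (A.om α) (wz q) - (A.L⁻¹ • A.y α, A.tc α)‖) ^ (-((k : ℝ) + 2)) := Finset.sum_le_sum h1
    _ = C₁ * ∑ α ∈ s, ‖cf α‖ ^ 2 * ∑ q ∈ Y, (1 + ‖natX A.L (A.om α) (wz q) - (A.L⁻¹ • A.y α, A.tc α)‖) ^ (-((k : ℝ) + 2)) := by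
        rw [← Finset.mul_sum, Finset.sum_comm]
        congr 1
        refine Finset.sum_congr rfl fun α _ => ?_
        rw [Finset.mul_sum]
    _ ≤ C₁ * ∑ α ∈ s, ‖cf α‖ ^ 2 * (C₂ * A.L ^ (k + 2)) := by
        refine mul_le_mul_of_nonneg_left (Finset.sum_le_sum fun α hα => ?_) hC₁
        exact mul_le_mul_of_nonneg_left (H₂ Y wz hw A.L (A.om α) _ hA.one_le (hA.freq α hα)) (by positivity)
    _ = _ := by
        unfold energy
        rw [← Finset.sum_mul]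
        ring

/-- **LEAF L-F1-EXB-ELEM: THE ELEMENTARY FRAME BOUND** `|Y| ≤ C h^{k+2} rhs`.
PLAN.  `Y = ∅` trivial.   `C₁` from `fxb_cauchy k K P`, `C₂` from `fxb_apriori k K`.   (a) at a witness: `a j² ≤ C₁ h^k` for all `j`, so `(∏ a j)^e ≤ ((C₁ h^k)^((k+1)/2))^e = (C₁ h^k)^(2/k) = C₁^(2/k) h²`  (`e (k+1)/2 = 2/k`), i.e. `1 ≤ C₁^(2/k) h² (∏ a j)^(-e)`.
(b) `|Y| (a 0)² ≤ ∑_q ‖V_0‖² ≤ C₂ h^(k+2) energy_0 = C₂ h^k (h² energy_0)`, so `|Y| ≤ C₂ h^k ∑_i h² energy_i / (a i)²`.      Multiply (a) and (b):  `C = C₂ (C₁ + 1)^(2/k)`. -/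
theorem fxb_elem (hk : 1 ≤ k) (K : Cls) (P : ℕ) : ∃ C : ℝ, 0 ≤ C ∧ ∀ (ι : Type) (A : Fin (k + 1) → Arr k ι) (s : Fin (k + 1) → Finset ι) (cf : Fin (k + 1) → ι → ℂ) (h : ℝ) (a : Fin (k + 1) → ℝ)
    (Y : Finset (Lat k)) (wz : Fin (k + 1) → Lat k → ST k), 1 ≤ h → (∀ i, (A i).L = h) → (∀ i, (A i).In (s i) K) → (∀ i, 0 < a i) →
    (∀ q ∈ Y, ∀ i, wz i q ∈ cube q ∧ a i ≤ ‖(A i).fld (s i) (cf i) (wz i q)‖ ∧ (A i).env (s i) (cf i) P (wz i q) ≤ 1) →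
    (Y.card : ℝ) ≤ C * h ^ (k + 2) * ((∏ i, a i) ^ (-fxe k) * ∑ i, h ^ 2 * energy (s i) (cf i) / a i ^ 2) := by
  obtain ⟨C₁, hC₁, H₁⟩ := fxb_cauchy k K P
  obtain ⟨C₂, hC₂, H₂⟩ := fxb_apriori k K
  have hk0 : (0 : ℝ) < k := by exact_mod_cast hk
  refine ⟨C₂ * (C₁ + 1) ^ (2 / (k : ℝ)), by positivity, fun ι A s cf h a Y wz hh hL hIn ha hw => ?_⟩
  have hh0 : 0 < h := by linarith
  have hen : ∀ i, 0 ≤ energy (s i) (cf i) := fun i => Finset.sum_nonneg fun _ _ => by positivity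
  have hterm : ∀ i, 0 ≤ h ^ 2 * energy (s i) (cf i) / a i ^ 2 := fun i => by
    have := hen i
    have := ha i
    positivity
  set S : ℝ := ∑ i, h ^ 2 * energy (s i) (cf i) / a i ^ 2 with hS
  have hS0 : 0 ≤ S := Finset.sum_nonneg fun i _ => hterm i
  set Pr : ℝ := ∏ i, a i with hPr
  have hPr0 : 0 < Pr := Finset.prod_pos fun i _ => ha i
  rcases Y.eq_empty_or_nonempty with rfl | ⟨q₀, hq₀⟩
  · simp only [Finset.card_empty, Nat.cast_zero]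
    positivity
  -- (a)
  have ha2 : ∀ j, a j ^ 2 ≤ (C₁ + 1) * h ^ k := fun j => by
    obtain ⟨-, h1, h2⟩ := hw q₀ hq₀ j
    have h3 := H₁ ι (A j) (s j) (cf j) (wz j q₀) (hIn j)
    rw [hL j] at h3
    calc a j ^ 2 ≤ ‖(A j).fld (s j) (cf j) (wz j q₀)‖ ^ 2 := pow_le_pow_left₀ (ha j).le h1 2
      _ ≤ C₁ * h ^ k * (A j).env (s j) (cf j) P (wz j q₀) := h3
      _ ≤ C₁ * h ^ k * 1 := mul_le_mul_of_nonneg_left h2 (by positivity)
      _ ≤ (C₁ + 1) * h ^ k := by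
          have : 0 ≤ h ^ k := by positivity
          nlinarith
  have hPr2 : Pr ^ 2 ≤ ((C₁ + 1) * h ^ k) ^ (k + 1) := by
    rw [hPr, ← Finset.prod_pow]
    calc ∏ i, a i ^ 2 ≤ ∏ _i : Fin (k + 1), (C₁ + 1) * h ^ k := Finset.prod_le_prod (fun i _ => by positivity) fun i _ => ha2 i
      _ = _ := by rw [Finset.prod_const, Finset.card_univ, Fintype.card_fin]
  have hfx : 0 < fxe k := by unfold fxe; positivity
  have hPre : Pr ^ fxe k ≤ (C₁ + 1) ^ (2 / (k : ℝ)) * h ^ 2 := by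
    have e1 : Pr ^ fxe k = (Pr ^ 2) ^ (fxe k / 2) := by
      rw [← Real.rpow_natCast, ← Real.rpow_mul hPr0.le]
      congr 1
      push_cast
      ring
    have e2 : (((C₁ + 1) * h ^ k) ^ (k + 1)) ^ (fxe k / 2) = (C₁ + 1) ^ (2 / (k : ℝ)) * h ^ 2 := by
      rw [← Real.rpow_natCast ((C₁ + 1) * h ^ k), ← Real.rpow_mul (by positivity)]
      have e3 : ((k + 1 : ℕ) : ℝ) * (fxe k / 2) = 2 / (k : ℝ) := by
        unfold fxe
        push_cast
        field_simp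
        ring
      rw [e3, Real.mul_rpow (by positivity) (by positivity), ← Real.rpow_natCast h k, ← Real.rpow_mul hh0.le]
      congr 1
      rw [mul_div_assoc', mul_comm, mul_div_assoc, div_self hk0.ne', mul_one]
      norm_num
    rw [e1, ← e2]
    exact Real.rpow_le_rpow (by positivity) hPr2 (by positivity)
  have hone : 1 ≤ (C₁ + 1) ^ (2 / (k : ℝ)) * h ^ 2 * Pr ^ (-fxe k) := by
    rw [Real.rpow_neg hPr0.le, ← div_eq_mul_inv, le_div_iff₀ (by positivity), one_mul]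
    exact hPre
  -- (b)
  have hb : (Y.card : ℝ) ≤ C₂ * h ^ k * S := by
    have h1 : (Y.card : ℝ) * a 0 ^ 2 ≤ C₂ * h ^ (k + 2) * energy (s 0) (cf 0) := by
      have h2 := H₂ ι (A 0) (s 0) (cf 0) Y (wz 0) (hIn 0) fun q hq => (hw q hq 0).1
      rw [hL 0] at h2
      refine le_trans ?_ h2
      rw [← nsmul_eq_mul, ← Finset.sum_const]
      exact Finset.sum_le_sum fun q hq => pow_le_pow_left₀ (ha 0).le (hw q hq 0).2.1 2
    have h3 : h ^ 2 * energy (s 0) (cf 0) / a 0 ^ 2 ≤ S := Finset.single_le_sum (fun i _ => hterm i) (Finset.mem_univ 0)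
    have ha0 := ha 0
    calc (Y.card : ℝ) = (Y.card : ℝ) * a 0 ^ 2 / a 0 ^ 2 := by field_simp
      _ ≤ C₂ * h ^ (k + 2) * energy (s 0) (cf 0) / a 0 ^ 2 := by gcongr
      _ = C₂ * h ^ k * (h ^ 2 * energy (s 0) (cf 0) / a 0 ^ 2) := by ring
      _ ≤ C₂ * h ^ k * S := by gcongr
  calc (Y.card : ℝ) ≤ C₂ * h ^ k * S * 1 := by rw [mul_one]; exact hb
    _ ≤ C₂ * h ^ k * S * ((C₁ + 1) ^ (2 / (k : ℝ)) * h ^ 2 * Pr ^ (-fxe k)) := mul_le_mul_of_nonneg_left hone (by positivity)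
    _ = _ := by ring

/-- **LEAF L-F1-EXB-SLAB.**   Some atom does not vanish at `z` (`Finset.sum_eq_zero` contrapositive), so `‖chart‖ ≤ K.R` (`Prof.supp`), in particular `|z.2 / L² - tc| ≤ K.R` (second component of the sup norm), `|z.2| / L² ≤ T₀ + K.R`. -/
theorem fxb_slab {A : Arr k ι} {s : Finset ι} {K : Cls} (hA : A.In s K) {T₀ : ℝ} (htc : ∀ α ∈ s, |A.tc α| ≤ T₀) (cf : ι → ℂ) {z : ST k} (hz : A.fld s cf z ≠ 0) :
    |z.2| ≤ (T₀ + K.R) * A.L ^ 2 := by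
  have hL0 : 0 < A.L := lt_of_lt_of_le one_pos hA.one_le
  obtain ⟨α, hα, hne⟩ := Finset.exists_ne_zero_of_sum_ne_zero hz
  have h1 : A.pf α (chart A.L (A.om α) (A.y α) (A.tc α) z) ≠ 0 := by
    intro h0
    apply hne
    unfold Arr.atom
    rw [h0, mul_zero, mul_zero]
  have h2 := (norm_snd_le _).trans ((hA.prof α hα).supp _ h1)
  unfold chart at h2
  simp only [Real.norm_eq_abs] at h2
  have h3 := htc α hα
  have h4 : |z.2 / A.L ^ 2| ≤ T₀ + K.R := by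
    have e : z.2 / A.L ^ 2 = (z.2 / A.L ^ 2 - A.tc α) + A.tc α := by ring
    rw [e]
    exact (abs_add_le _ _).trans (by linarith)
  rwa [abs_div, abs_of_pos (by positivity : (0:ℝ) < A.L ^ 2), div_le_iff₀ (by positivity)] at h4

/-- **LEAF L-F1-EXB-FIBRE: multiplicity of the lattice cells.**
PLAN.  The fibre `F` consists of `α ∈ s` with `L • om α ∈ n + [-1/2,1/2]^k`, `L⁻¹ • y α ∈ m + [-1/2,1/2]^k`, `|tc α| ≤ T₀`.   Cover: `τ ∈ {j : ℤ, |j| ≤ T₀ + 1}` with `|tc - τ| ≤ 1` (`τ = round tc`);   `ξ ∈ n + (1/⌈√k⌉)ℤ^k ∩ cube`, or simply a finite `1`-net of the ball `‖· - iflLat n‖ ≤ √k`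
(`BD.exists_sep_net`, `BD.card_le_of_sep`: `≤ (2√k + 1)^k` points);   for fixed `τ`: `‖L⁻¹ • y + (2 τ L) • om - (iflLat m + 2 τ iflLat n)‖ ≤ √k + 2 (T₀+1) √k`, a finite `1`-net of that ball.   `Arr.In.mult` for every triple `(ξ, τ, y')`;
`F ⊆ ⋃ triples`, `Finset.card_biUnion_le`.   `m₁ = N_ξ N_τ N_y m₀`. -/
theorem fxb_fibre (k : ℕ) (K : Cls) (T₀ : ℝ) : ∃ m₁ : ℕ, ∀ (ι : Type) (A : Arr k ι) (s : Finset ι), A.In s K → (∀ α ∈ s, |A.tc α| ≤ T₀) → ∀ n m : Fin k → ℤ,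
    (s.filter fun α => rnd (A.L • A.om α) = n ∧ rnd (A.L⁻¹ • A.y α) = m).card ≤ m₁ := by
  obtain ⟨c₃, hc₃, H⟩ := pkw_slot k (P' := (k : ℝ) + 2) (by linarith)
  set D : ℝ := Real.sqrt k + |T₀| with hD
  have hD0 : 0 ≤ D := by positivity
  set Cn : ℝ := (Real.sqrt k * Real.sqrt k + 2) ^ k with hCn
  refine ⟨⌈(1 + D) ^ ((k : ℝ) + 2) * (Cn * (c₃ * K.m₀))⌉₊, fun ι A s hA htc n m => ?_⟩
  set F : Finset ι := s.filter fun α => rnd (A.L • A.om α) = n ∧ rnd (A.L⁻¹ • A.y α) = m with hF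
  have hL0 : 0 < A.L := lt_of_lt_of_le one_pos hA.one_le
  set Fm : PFam k ι := ⟨A.L, A.om, fun α => (A.L⁻¹ • A.y α, A.tc α), fun _ _ => 0⟩ with hFm
  have hIn : Fm.In s ⟨1, 0, K.Rω, K.m₀⟩ (fun _ => 0) :=
    ⟨hA.one_le, fun T _ => BD.bdu_FS_zero _, fun T _ X => by simp [hFm], hA.freq, hA.mult⟩
  set z : ST k := (A.L • iflLat m, 0) with hz
  obtain ⟨Fa, hFa1, hFa2⟩ := inf_A6_ball_cover k (Real.sqrt k) (Real.sqrt_nonneg _) (iflLat n)
  have hd : ∀ α ∈ F, Fm.d α z ≤ D := by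
    intro α hα
    obtain ⟨hαs, -, h2⟩ := Finset.mem_filter.1 hα
    have e : natX A.L (A.om α) z = (iflLat m, 0) := by
      unfold natX
      simp only [hz, mul_zero, zero_smul, sub_zero, zero_div, smul_smul, inv_mul_cancel₀ hL0.ne', one_smul]
    change ‖natX A.L (A.om α) z - (A.L⁻¹ • A.y α, A.tc α)‖ ≤ D
    rw [e, Prod.norm_def]
    refine max_le ?_ ?_
    · simp only [Prod.fst_sub]
      have := norm_sub_rnd (A.L⁻¹ • A.y α)
      rw [h2, norm_sub_rev] at this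
      linarith [abs_nonneg T₀]
    · simp only [Prod.snd_sub, zero_sub, norm_neg, Real.norm_eq_abs]
      have := htc α hαs
      linarith [le_abs_self T₀, Real.sqrt_nonneg (k : ℝ)]
  have hcov : ∀ α ∈ F, ∃ p ∈ Fa, ‖A.om α - A.L⁻¹ • p‖ ≤ 1 / A.L := by
    intro α hα
    obtain ⟨-, h1, -⟩ := Finset.mem_filter.1 hα
    have h3 : A.L • A.om α ∈ Metric.closedBall (iflLat n) (Real.sqrt k) := by
      rw [Metric.mem_closedBall, dist_eq_norm, ← h1]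
      exact norm_sub_rnd _
    obtain ⟨p, hp, hzp⟩ := Set.mem_iUnion₂.1 (hFa2 h3)
    refine ⟨p, hp, ?_⟩
    rw [Metric.mem_closedBall, dist_eq_norm] at hzp
    have e : A.om α - A.L⁻¹ • p = A.L⁻¹ • (A.L • A.om α - p) := by
      rw [smul_sub, smul_smul, inv_mul_cancel₀ hL0.ne', one_smul]
    rw [e, norm_smul, norm_inv, Real.norm_of_nonneg hL0.le, one_div]
    exact mul_le_of_le_one_right (by positivity) hzp
  have hpos : ∀ α, 0 ≤ (1 + Fm.d α z) ^ (-((k : ℝ) + 2)) := fun α => by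
    have := Fm.d_nonneg α z
    positivity
  have h1 : (F.card : ℝ) * (1 + D) ^ (-((k : ℝ) + 2)) ≤ ∑ α ∈ F, (1 + Fm.d α z) ^ (-((k : ℝ) + 2)) := by
    rw [← nsmul_eq_mul, ← Finset.sum_const]
    refine Finset.sum_le_sum fun α hα => ?_
    have := Fm.d_nonneg α z
    exact Real.rpow_le_rpow_of_nonpos (by positivity) (by linarith [hd α hα]) (by
      have : (0 : ℝ) ≤ k := Nat.cast_nonneg k
      linarith)
  have h2 : ∑ α ∈ F, (1 + Fm.d α z) ^ (-((k : ℝ) + 2))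
      ≤ ∑ p ∈ Fa, ∑ α ∈ s.filter (fun α => ‖Fm.v α - A.L⁻¹ • p‖ ≤ 1 / Fm.N), (1 + Fm.d α z) ^ (-((k : ℝ) + 2)) := by
    have h3 : ∑ α ∈ F, (1 + Fm.d α z) ^ (-((k : ℝ) + 2)) ≤ ∑ α ∈ s, ∑ p ∈ Fa, if ‖Fm.v α - A.L⁻¹ • p‖ ≤ 1 / Fm.N then (1 + Fm.d α z) ^ (-((k : ℝ) + 2)) else 0 := by
      refine (Finset.sum_le_sum fun α hα => ?_).trans
        (Finset.sum_le_sum_of_subset_of_nonneg (Finset.filter_subset _ _) fun α _ _ => Finset.sum_nonneg fun p _ => by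
          split_ifs
          · exact hpos α
          · exact le_rfl)
      obtain ⟨p, hp, hcp⟩ := hcov α hα
      have := Finset.single_le_sum (f := fun p => if ‖Fm.v α - A.L⁻¹ • p‖ ≤ 1 / Fm.N then (1 + Fm.d α z) ^ (-((k : ℝ) + 2)) else 0)
        (fun p _ => by
          split_ifs
          · exact hpos α
          · exact le_rfl) hp
      have hcp' : ‖Fm.v α - A.L⁻¹ • p‖ ≤ 1 / Fm.N := hcp
      simpa only [if_pos hcp'] using this
    rw [Finset.sum_comm] at h3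
    simpa only [Finset.sum_filter] using h3
  have h4 : ∑ p ∈ Fa, ∑ α ∈ s.filter (fun α => ‖Fm.v α - A.L⁻¹ • p‖ ≤ 1 / Fm.N), (1 + Fm.d α z) ^ (-((k : ℝ) + 2)) ≤ Cn * (c₃ * K.m₀) := by
    calc _ ≤ ∑ _p ∈ Fa, c₃ * K.m₀ := Finset.sum_le_sum fun p _ => by
          have := H ι Fm s ⟨1, 0, K.Rω, K.m₀⟩ (fun _ => 0) hIn (A.L⁻¹ • p) z
          convert this
      _ = Fa.card * (c₃ * K.m₀) := by rw [Finset.sum_const, nsmul_eq_mul]
      _ ≤ Cn * (c₃ * K.m₀) := mul_le_mul_of_nonneg_right hFa1 (by positivity)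
  have h5 : (F.card : ℝ) ≤ (1 + D) ^ ((k : ℝ) + 2) * (Cn * (c₃ * K.m₀)) := by
    have h6 := (h1.trans h2).trans h4
    rw [Real.rpow_neg (by positivity), ← div_eq_mul_inv, div_le_iff₀ (by positivity)] at h6
    linarith
  exact Nat.cast_le.1 (h5.trans (Nat.le_ceil _))

end

end Claimed.Agent.R257.FR1
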