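import Claimed.Agent.R257.FR1.ExBArr

/-!
# FR1, block EX, file 4: THE LATTICE NORMAL FORM OF A FREE EXACT FAMILY, AND THE LAYERS OF AN ARRAY            (captain EX helper164)            CONTRACT
`lnf 𝔉 s n₀ Gc` (`ExBDefs.lean`): labels `rnd (h w)/h`, centres `rnd c`, the data of the packets of one cell are added.      `LnfHyp` = what the construction needs.
Every `sorry` is a leaf `L-F1-EXB-*`.  Statements are frozen; auxiliary lemmas directly above your theorem (prefix `fxb_`); edit only your block.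
-/

set_option autoImplicit false

namespace Claimed.Agent.R257.FR1

open Claimed.Agent.R257 Claimed.Agent.R257.Tree
open scoped BigOperators Classical ContDiff

noncomputable section

variable {k : ℕ} {ι : Type}

/-- the lattice label of a free packet -/
def FFam.lb (𝔉 : FFam k ι) (α : ι) : E k := 𝔉.h⁻¹ • iflLat (rnd (𝔉.h • 𝔉.w α))

/-- hypotheses of the lattice normal form: `Gc α` = relabelled and recentred data with the bounds `b α`, all labels in the box, at most `m₁` packets per cell -/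
structure LnfHyp (𝔉 : FFam k ι) (s : Finset ι) (n₀ : ℕ) (Gc : ι → E k → ℂ) (J : ℕ) (ρ : ℝ) (b : ι → ℝ) (m₁ : ℕ) : Prop where
  one_le : 1 ≤ 𝔉.h
  box : ∀ α ∈ s, rnd (𝔉.h • 𝔉.w α) ∈ boxF k n₀
  amp : ∀ α ∈ s, IflAmp J ρ (b α) (Gc α)
  eq : ∀ α ∈ s, ∀ z, 𝔉.U α z = car (𝔉.lb α) z * ext (Gc α) (natX 𝔉.h (𝔉.lb α) z - lat (rnd (𝔉.c α), 0))
  fib : ∀ T, (s.filter fun α => 𝔉.cell n₀ α = T).card ≤ m₁

variable {𝔉 : FFam k ι} {s : Finset ι} {n₀ : ℕ} {Gc : ι → E k → ℂ} {J : ℕ} {ρ : ℝ} {b : ι → ℝ} {m₁ : ℕ}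

/-- **LEAF L-F1-EXB-LNF1.**   `toBox` on the box is the identity (`dif_pos`). -/
theorem LnfHyp.cell_eq (H : LnfHyp 𝔉 s n₀ Gc J ρ b m₁) {α : ι} (hα : α ∈ s) :
    (lnf 𝔉 s n₀ Gc).fr (𝔉.cell n₀ α).1 = 𝔉.lb α ∧ (𝔉.cell n₀ α).2 = rnd (𝔉.c α) := by
  refine ⟨?_, rfl⟩
  have h := H.box α hα
  simp only [lnf, FFam.cell, toBox, dif_pos h, FFam.lb]

theorem fxb_ext_sum (t : Finset ι) (g : ι → E k → ℂ) (hg : ∀ α ∈ t, MeasureTheory.Integrable (g α)) (z : ST k) :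
    ext (fun η => ∑ α ∈ t, g α η) z = ∑ α ∈ t, ext (g α) z := by
  unfold ext
  simp only [Finset.mul_sum]
  rw [MeasureTheory.integral_finsetSum]
  intro α hα
  refine (hg α hα).bdd_mul (c := 1) ?_ (Filter.Eventually.of_forall fun ξ => (norm_car ξ z).le)
  have : Continuous fun ξ : E k => car ξ z := by
    unfold car
    fun_prop
  exact this.aestronglyMeasurable

/-- **LEAF L-F1-EXB-LNF1: the field is unchanged.**   `XFam.U T z = car (fr T.1) z * ext (∑_{α → T} Gc α) (…) = ∑_{α → T} car … * ext (Gc α) (…)` (`ext` is linear: `integral_finset_sum`, integrable: `‖car‖ = 1`, `IflAmp.integrable`; `Finset.mul_sum`);  for `α → T`: `cell_eq` and `H.eq`;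
`∑_{T ∈ s.image cell} ∑_{α ∈ s, cell α = T} = ∑_{α ∈ s}` (`Finset.sum_fiberwise_of_maps_to`). -/
theorem LnfHyp.fld_eq (H : LnfHyp 𝔉 s n₀ Gc J ρ b m₁) (z : ST k) : (lnf 𝔉 s n₀ Gc).fld (lnfS 𝔉 s n₀) z = 𝔉.fld s z := by
  unfold XFam.fld FFam.fld lnfS
  rw [← Finset.sum_fiberwise_of_maps_to (g := 𝔉.cell n₀) (t := s.image (𝔉.cell n₀)) (fun α hα => Finset.mem_image_of_mem _ hα)]
  refine Finset.sum_congr rfl fun T hT => ?_
  unfold XFam.U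
  show car _ z * ext (fun η => ∑ α ∈ s.filter (fun α => 𝔉.cell n₀ α = T), Gc α η) _ = _
  rw [fxb_ext_sum _ _ (fun α hα => (H.amp α (Finset.mem_filter.1 hα).1).integrable), Finset.mul_sum]
  refine Finset.sum_congr rfl fun α hα => ?_
  obtain ⟨hα1, rfl⟩ := Finset.mem_filter.1 hα
  rw [H.eq α hα1, (H.cell_eq hα1).1, (H.cell_eq hα1).2]
  rfl

theorem fxb_amp_sum {N : ℕ} {r : ℝ} (s : Finset ι) {b : ι → ℝ} {a : ι → E k → ℂ} (h : ∀ α ∈ s, IflAmp N r (b α) (a α)) :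
    IflAmp N r (∑ α ∈ s, b α) (fun η => ∑ α ∈ s, a α η) := by
  refine ⟨ContDiff.sum fun α hα => (h α hα).smooth, fun η hη => ?_, fun j hj η => ?_⟩
  · obtain ⟨α, hα, hne⟩ := Finset.exists_ne_zero_of_sum_ne_zero hη
    exact (h α hα).supp η hne
  · rw [iteratedFDeriv_fun_sum_apply fun α hα => ((h α hα).smooth.of_le (by exact_mod_cast le_top)).contDiffAt]
    exact (norm_sum_le _ _).trans (Finset.sum_le_sum fun α hα => (h α hα).bound j hj η)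

/-- **LEAF L-F1-EXB-LNF2: the class.**   `smooth`: `ContDiff.sum`;  `supp`: a nonzero sum has a nonzero term;  `bound`: `iteratedFDeriv_sum`(`iteratedFDeriv_fun_sum`), `norm_sum_le`;  `freq`: `T = cell α`, `cell_eq`, `hfr`;
`mult`: `‖h⁻¹ • iflLat v - ξ‖ ≤ h⁻¹ ⟺ ‖iflLat v - h • ξ‖ ≤ 1` (`norm_smul`, `smul_sub`), `box_mult`. -/
theorem LnfHyp.cls (H : LnfHyp 𝔉 s n₀ Gc J ρ b m₁) {Cc : ℝ} (hfr : ∀ α ∈ s, ‖𝔉.lb α‖ ≤ Cc) :
    (lnf 𝔉 s n₀ Gc).In (lnfS 𝔉 s n₀) ⟨J, ρ, Cc, 3 ^ k⟩ (lnfA 𝔉 s n₀ b) := by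
  have hs : ∀ T, IflAmp J ρ (lnfA 𝔉 s n₀ b T) ((lnf 𝔉 s n₀ Gc).G T) := fun T =>
    fxb_amp_sum _ (fun α hα => H.amp α (Finset.mem_filter.1 hα).1)
  refine ⟨H.one_le, fun T _ => (hs T).smooth, fun T _ => (hs T).supp, fun T _ => (hs T).bound, fun T hT => ?_, fun ξ => ?_⟩
  · obtain ⟨α, hα, rfl⟩ := Finset.mem_image.1 hT
    rw [(H.cell_eq hα).1]
    exact hfr α hα
  · have h0 : 0 < 𝔉.h := by linarith [H.one_le]
    have h1 := box_mult n₀ (𝔉.h • ξ)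
    have h2 : ∀ v : Box k n₀, (‖(lnf 𝔉 s n₀ Gc).fr v - ξ‖ ≤ (lnf 𝔉 s n₀ Gc).h⁻¹) ↔ ‖iflLat v.1 - 𝔉.h • ξ‖ ≤ 1 := by
      intro v
      have e : (lnf 𝔉 s n₀ Gc).fr v - ξ = 𝔉.h⁻¹ • (iflLat v.1 - 𝔉.h • ξ) := by
        rw [smul_sub, smul_smul, inv_mul_cancel₀ h0.ne', one_smul]
        rfl
      rw [e, norm_smul, Real.norm_eq_abs, abs_of_pos (inv_pos.2 h0)]
      show 𝔉.h⁻¹ * _ ≤ 𝔉.h⁻¹ ↔ _
      constructor
      · intro h
        have := mul_le_mul_of_nonneg_left h h0.le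
        rwa [← mul_assoc, mul_inv_cancel₀ h0.ne', one_mul] at this
      · intro h
        calc 𝔉.h⁻¹ * _ ≤ 𝔉.h⁻¹ * 1 := mul_le_mul_of_nonneg_left h (inv_pos.2 h0).le
          _ = _ := mul_one _
    simp only [h2]
    exact h1

theorem fxb_lb_sub (𝔉 : FFam k ι) (α : ι) (h0 : 0 < 𝔉.h) : ‖𝔉.lb α - 𝔉.w α‖ ≤ 𝔉.h⁻¹ * Real.sqrt k := by
  have e : 𝔉.lb α - 𝔉.w α = 𝔉.h⁻¹ • (iflLat (rnd (𝔉.h • 𝔉.w α)) - 𝔉.h • 𝔉.w α) := by
    rw [smul_sub, smul_smul, inv_mul_cancel₀ h0.ne', one_smul]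
    rfl
  rw [e, norm_smul, Real.norm_eq_abs, abs_of_pos (inv_pos.2 h0), norm_sub_rev]
  exact mul_le_mul_of_nonneg_left (norm_sub_rnd _) (inv_pos.2 h0).le

/-- **LEAF L-F1-EXB-LNF3: Peetre between the lattice cell and the free packet.**   First components: `natX h lb z - rnd c` and `natX h w z - c` differ by `(c - iflLat (rnd c)) + 2 (t/h²) (h • w - iflLat (rnd (h • w)))`, of norm `≤ √k + 2 T₁ √k` (`norm_sub_rnd`); second components agree (`Int.cast_zero`).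
So `1 + ‖free‖ ≤ (1 + ‖lattice‖)(1 + √k (1 + 2 T₁))`;  `Real.rpow_le_rpow_of_nonpos`/`Real.mul_rpow`. -/
theorem fxb_pw_lattice (𝔉 : FFam k ι) (α : ι) (h1 : 1 ≤ 𝔉.h) {P T₁ : ℝ} (hP : 0 ≤ P) (hT₁ : 0 ≤ T₁) {z : ST k} (hz : |z.2| ≤ T₁ * 𝔉.h ^ 2) :
    pw P 𝔉.h (𝔉.lb α) (lat (rnd (𝔉.c α), 0)) z ≤ (1 + Real.sqrt k * (1 + 2 * T₁)) ^ P * pw P 𝔉.h (𝔉.w α) (𝔉.c α, 0) z := by
  have h0 : 0 < 𝔉.h := by linarith
  have hk : 0 ≤ Real.sqrt k := Real.sqrt_nonneg _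
  unfold pw
  obtain ⟨L, hL⟩ : ∃ L, L = ‖natX 𝔉.h (𝔉.lb α) z - lat (rnd (𝔉.c α), 0)‖ := ⟨_, rfl⟩
  obtain ⟨F, hF⟩ : ∃ F, F = ‖natX 𝔉.h (𝔉.w α) z - (𝔉.c α, 0)‖ := ⟨_, rfl⟩
  have hL0 : 0 ≤ L := hL ▸ norm_nonneg _
  have hF0 : 0 ≤ F := hF ▸ norm_nonneg _
  have hD : F ≤ L + Real.sqrt k * (1 + 2 * T₁) := by
    have e : natX 𝔉.h (𝔉.w α) z - (𝔉.c α, 0) = (natX 𝔉.h (𝔉.lb α) z - lat (rnd (𝔉.c α), 0))
        + ((𝔉.h⁻¹ * (2 * z.2)) • (𝔉.lb α - 𝔉.w α) - (𝔉.c α - iflLat (rnd (𝔉.c α))), 0) := by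
      refine Prod.ext ?_ ?_
      · simp only [natX, lat, Prod.fst_sub, Prod.fst_add]
        show _ = _ - iflLat (rnd (𝔉.c α)) + _
        simp only [smul_sub, smul_smul]
        abel
      · simp [natX, lat]
    have h2 : ‖(((𝔉.h⁻¹ * (2 * z.2)) • (𝔉.lb α - 𝔉.w α) - (𝔉.c α - iflLat (rnd (𝔉.c α))), 0) : ST k)‖ ≤ Real.sqrt k * (1 + 2 * T₁) := by
      rw [Prod.norm_def, norm_zero, max_eq_left (norm_nonneg _)]
      have h3 : ‖(𝔉.h⁻¹ * (2 * z.2)) • (𝔉.lb α - 𝔉.w α)‖ ≤ 2 * T₁ * Real.sqrt k := by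
        rw [norm_smul, Real.norm_eq_abs, abs_mul, abs_mul, abs_of_pos (inv_pos.2 h0), abs_two]
        calc 𝔉.h⁻¹ * (2 * |z.2|) * ‖𝔉.lb α - 𝔉.w α‖ ≤ 𝔉.h⁻¹ * (2 * (T₁ * 𝔉.h ^ 2)) * (𝔉.h⁻¹ * Real.sqrt k) := by
              gcongr
              exact fxb_lb_sub 𝔉 α h0
          _ = 2 * T₁ * Real.sqrt k := by
              field_simp
      have h4 := norm_sub_rnd (𝔉.c α)
      calc _ ≤ ‖(𝔉.h⁻¹ * (2 * z.2)) • (𝔉.lb α - 𝔉.w α)‖ + ‖𝔉.c α - iflLat (rnd (𝔉.c α))‖ := norm_sub_le _ _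
        _ ≤ 2 * T₁ * Real.sqrt k + Real.sqrt k := add_le_add h3 h4
        _ = _ := by ring
    rw [hF, e, hL]
    exact (norm_add_le _ _).trans (by gcongr)
  rw [← hL, ← hF]
  obtain ⟨K, hK⟩ : ∃ K, K = 1 + Real.sqrt k * (1 + 2 * T₁) := ⟨_, rfl⟩
  rw [← hK]
  have hK1 : 1 ≤ K := by
    rw [hK]
    have : 0 ≤ Real.sqrt k * (1 + 2 * T₁) := by positivity
    linarith
  have hFK : 1 + F ≤ (1 + L) * K := by
    have : 0 ≤ L * (K - 1) := mul_nonneg hL0 (by linarith)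
    nlinarith
  have h5 : ((1 + L) * K) ^ (-P) ≤ (1 + F) ^ (-P) :=
    Real.rpow_le_rpow_of_nonpos (by linarith) hFK (by linarith)
  calc (1 + L) ^ (-P) = K ^ P * ((1 + L) * K) ^ (-P) := by
        rw [Real.mul_rpow (by linarith) (by linarith), Real.rpow_neg (by linarith : 0 ≤ K)]
        have : K ^ P ≠ 0 := (Real.rpow_pos_of_pos (by linarith) _).ne'
        field_simp
    _ ≤ K ^ P * (1 + F) ^ (-P) := mul_le_mul_of_nonneg_left h5 (Real.rpow_nonneg (by linarith) _)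

theorem fxb_lnfA_sq (H : LnfHyp 𝔉 s n₀ Gc J ρ b m₁) (T : Box k n₀ × (Fin k → ℤ)) :
    lnfA 𝔉 s n₀ b T ^ 2 ≤ m₁ * ∑ α ∈ s.filter (fun α => 𝔉.cell n₀ α = T), b α ^ 2 := by
  unfold lnfA
  refine (sq_sum_le_card_mul_sum_sq).trans ?_
  have : ((s.filter fun α => 𝔉.cell n₀ α = T).card : ℝ) ≤ m₁ := by exact_mod_cast H.fib T
  exact mul_le_mul_of_nonneg_right this (Finset.sum_nonneg fun α _ => sq_nonneg _)

/-- **LEAF L-F1-EXB-LNF3: the envelope.**   `(lnfA T)² = (∑_{α → T} b α)² ≤ m₁ ∑_{α → T} (b α)²` (`sq_sum_le_card_mul_sum_sq`, `H.fib`);  `fxb_pw_lattice` for `α → T` (`cell_eq`);  `Finset.sum_fiberwise_of_maps_to`. -/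
theorem LnfHyp.env_le (H : LnfHyp 𝔉 s n₀ Gc J ρ b m₁) {P T₁ : ℝ} (hP : 0 ≤ P) (hT₁ : 0 ≤ T₁) {z : ST k} (hz : |z.2| ≤ T₁ * 𝔉.h ^ 2) :
    (lnf 𝔉 s n₀ Gc).env (lnfS 𝔉 s n₀) (lnfA 𝔉 s n₀ b) P z ≤ m₁ * (1 + Real.sqrt k * (1 + 2 * T₁)) ^ P * 𝔉.env s b P z := by
  unfold XFam.env FFam.env lnfS
  rw [← Finset.sum_fiberwise_of_maps_to (g := 𝔉.cell n₀) (t := s.image (𝔉.cell n₀)) (fun α hα => Finset.mem_image_of_mem _ hα), Finset.mul_sum]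
  refine Finset.sum_le_sum fun T hT => ?_
  have hpw : 0 ≤ pw P (lnf 𝔉 s n₀ Gc).h ((lnf 𝔉 s n₀ Gc).fr T.1) (lat (T.2, 0)) z := by
    unfold pw
    positivity
  calc _ ≤ (m₁ * ∑ α ∈ s.filter (fun α => 𝔉.cell n₀ α = T), b α ^ 2) * pw P (lnf 𝔉 s n₀ Gc).h ((lnf 𝔉 s n₀ Gc).fr T.1) (lat (T.2, 0)) z :=
        mul_le_mul_of_nonneg_right (fxb_lnfA_sq H T) hpw
    _ = ∑ α ∈ s.filter (fun α => 𝔉.cell n₀ α = T), m₁ * (b α ^ 2 * pw P (lnf 𝔉 s n₀ Gc).h ((lnf 𝔉 s n₀ Gc).fr T.1) (lat (T.2, 0)) z) := by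
        rw [mul_assoc, Finset.sum_mul, Finset.mul_sum]
    _ ≤ ∑ α ∈ s.filter (fun α => 𝔉.cell n₀ α = T), m₁ * (b α ^ 2 * ((1 + Real.sqrt k * (1 + 2 * T₁)) ^ P * pw P 𝔉.h (𝔉.w α) (𝔉.c α, 0) z)) := by
        refine Finset.sum_le_sum fun α hα => ?_
        obtain ⟨hα1, rfl⟩ := Finset.mem_filter.1 hα
        rw [(H.cell_eq hα1).1, (H.cell_eq hα1).2]
        exact mul_le_mul_of_nonneg_left (mul_le_mul_of_nonneg_left (fxb_pw_lattice 𝔉 α H.one_le hP hT₁ hz) (sq_nonneg _)) (Nat.cast_nonneg _)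
    _ = _ := by
        rw [Finset.mul_sum]
        refine Finset.sum_congr rfl fun α _ => ?_
        ring

/-- **LEAF L-F1-EXB-LNF3: the energy.**   as `env_le` without weights. -/
theorem LnfHyp.en_le (H : LnfHyp 𝔉 s n₀ Gc J ρ b m₁) :
    (lnf 𝔉 s n₀ Gc).en (lnfS 𝔉 s n₀) (lnfA 𝔉 s n₀ b) ≤ m₁ * (𝔉.h ^ (k + 2) * ∑ α ∈ s, b α ^ 2) := by
  unfold XFam.en lnfS
  have h0 : 0 ≤ 𝔉.h ^ (k + 2) := pow_nonneg (by linarith [H.one_le]) _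
  rw [← Finset.sum_fiberwise_of_maps_to (g := 𝔉.cell n₀) (t := s.image (𝔉.cell n₀)) (fun α hα => Finset.mem_image_of_mem _ hα) (fun α => b α ^ 2)]
  show 𝔉.h ^ (k + 2) * _ ≤ _
  calc _ ≤ 𝔉.h ^ (k + 2) * ∑ T ∈ s.image (𝔉.cell n₀), m₁ * ∑ α ∈ s.filter (fun α => 𝔉.cell n₀ α = T), b α ^ 2 :=
        mul_le_mul_of_nonneg_left (Finset.sum_le_sum fun T _ => fxb_lnfA_sq H T) h0
    _ = _ := by
        rw [← Finset.mul_sum]
        ring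

/-- **LEAF L-F1-EXB-LNF1: the labels move by `≤ √k / h`.**   `T = cell α`, `cell_eq`;  `lb α - w α = h⁻¹ • (iflLat (rnd (h • w)) - h • w)`, `norm_sub_rnd`. -/
theorem LnfHyp.label (H : LnfHyp 𝔉 s n₀ Gc J ρ b m₁) {T : Box k n₀ × (Fin k → ℤ)} (hT : T ∈ lnfS 𝔉 s n₀) :
    ∃ α ∈ s, ‖(lnf 𝔉 s n₀ Gc).fr T.1 - 𝔉.w α‖ ≤ Real.sqrt k / 𝔉.h := by
  obtain ⟨α, hα, rfl⟩ := Finset.mem_image.1 hT
  refine ⟨α, hα, ?_⟩
  rw [(H.cell_eq hα).1, div_eq_inv_mul]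
  exact fxb_lb_sub 𝔉 α (by linarith [H.one_le])

/-! ## the layers of an array -/

/-- the data of the expansions of all atoms of `s` (conclusion of `ExpAt` for every atom) -/
structure LayHyp (A : Arr k ι) (s : Finset ι) (G : ι → Lat k → E k → ℂ) (u : ℝ → Lat k → ST k → ℂ) (J M Ad : ℕ) (T₁ C : ℝ) : Prop where
  amp : ∀ α ∈ s, ∀ κ, IflAmp J (Real.sqrt k) (C * lam κ ^ (-(M : ℤ))) (G α κ)
  sum : ∀ α ∈ s, ∀ z : ST k, |z.2| ≤ T₁ * A.L ^ 2 →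
    HasSum (fun κ : Lat k => u A.L κ z * (car (A.om α + A.L⁻¹ • iflLat κ.1) z * ext (G α κ) (natX A.L (A.om α + A.L⁻¹ • iflLat κ.1) z - (A.L⁻¹ • A.y α, 0))))
      (car (A.om α) z * A.pf α (chart A.L (A.om α) (A.y α) (A.tc α) z))
  dec : ∀ α ∈ s, ∀ z : ST k, |z.2| ≤ T₁ * A.L ^ 2 → ∀ κ,
    ‖ext (G α κ) (natX A.L (A.om α + A.L⁻¹ • iflLat κ.1) z - (A.L⁻¹ • A.y α, 0))‖ ≤ C * lam κ ^ (-(M : ℤ)) * (1 + ‖chart A.L (A.om α) (A.y α) (A.tc α) z‖) ^ (-(Ad : ℤ))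

/-- **LEAF L-F1-EXB-LAY0.**   `choose` in `ExpAt` over `α ∈ s` (`if h : α ∈ s then … else 0`, or `Classical.choose` with `dite`). -/
theorem exists_layHyp {J M Ad J₀ : ℕ} {R T₀ B C : ℝ} {u : ℝ → Lat k → ST k → ℂ} (hE : ExpAt k J M Ad R T₀ B J₀ u C) {A : Arr k ι} {s : Finset ι} {Rw : ℝ} {m₀ : ℕ}
    (hA : A.In s ⟨J₀, R, B, Rw, m₀⟩) (htc : ∀ α ∈ s, |A.tc α| ≤ T₀) : ∃ G : ι → Lat k → E k → ℂ, LayHyp A s G u J M Ad (T₀ + R) C := by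
  have h : ∀ α, ∃ Gα : Lat k → E k → ℂ, α ∈ s → ((∀ κ, IflAmp J (Real.sqrt k) (C * lam κ ^ (-(M : ℤ))) (Gα κ)) ∧
      ∀ z : ST k, |z.2| ≤ (T₀ + R) * A.L ^ 2 →
        HasSum (fun κ : Lat k => u A.L κ z * (car (A.om α + A.L⁻¹ • iflLat κ.1) z * ext (Gα κ) (natX A.L (A.om α + A.L⁻¹ • iflLat κ.1) z - (A.L⁻¹ • A.y α, 0))))
          (car (A.om α) z * A.pf α (chart A.L (A.om α) (A.y α) (A.tc α) z)) ∧
        ∀ κ, ‖ext (Gα κ) (natX A.L (A.om α + A.L⁻¹ • iflLat κ.1) z - (A.L⁻¹ • A.y α, 0))‖ ≤ C * lam κ ^ (-(M : ℤ)) * (1 + ‖chart A.L (A.om α) (A.y α) (A.tc α) z‖) ^ (-(Ad : ℤ))) := by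
    intro α
    by_cases hα : α ∈ s
    · obtain ⟨Gα, h1⟩ := hE A.L (A.om α) (A.y α) (A.tc α) (A.pf α) hA.one_le (htc α hα) (hA.prof α hα)
      exact ⟨Gα, fun _ => h1⟩
    · exact ⟨fun _ _ => 0, fun h => absurd h hα⟩
  choose G hG using h
  exact ⟨G, fun α hα => (hG α hα).1, fun α hα z hz => ((hG α hα).2 z hz).1, fun α hα z hz => ((hG α hα).2 z hz).2⟩

variable {A : Arr k ι} {G : ι → Lat k → E k → ℂ} {u : ℝ → Lat k → ST k → ℂ} {M Ad : ℕ} {T₁ C : ℝ}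

/-- **LEAF L-F1-EXB-LAY1.**   `ext` is homogeneous (`ifl_ext_smul`), `Finset.mul_sum`. -/
theorem layF_fld_smul (A : Arr k ι) (cf : ι → ℂ) (G : ι → Lat k → E k → ℂ) (κ : Lat k) (ν : ℝ) (s : Finset ι) (z : ST k) :
    (layF A cf G κ ν).fld s z = (ν : ℂ) * (layF A cf G κ 1).fld s z := by
  unfold FFam.fld FFam.U layF
  simp only
  rw [Finset.mul_sum]
  refine Finset.sum_congr rfl fun α _ => ?_
  rw [ifl_ext_smul, ifl_ext_smul]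
  push_cast
  ring

/-- **LEAF L-F1-EXB-LAY1: the field is the sum of its layers.**   `hasSum_sum` over `α ∈ s` of `(H.sum α hα z hz).mul_left (cf α * L^(-k/2))`;   `Arr.fld`, `Arr.atom`, `FFam.fld`, `FFam.U`, `layF`, `ifl_ext_smul`; `ring`-type rearrangement inside `HasSum.congr`/`funext`. -/
theorem LayHyp.hasSum (H : LayHyp A s G u J M Ad T₁ C) (cf : ι → ℂ) {z : ST k} (hz : |z.2| ≤ T₁ * A.L ^ 2) :
    HasSum (fun κ : Lat k => u A.L κ z * (layF A cf G κ 1).fld s z) (A.fld s cf z) := by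
  have h1 := hasSum_sum fun α (hα : α ∈ s) => (H.sum α hα z hz).mul_left (cf α * ((A.L ^ (-(k : ℝ) / 2) : ℝ) : ℂ))
  have e1 : A.fld s cf z = ∑ α ∈ s, cf α * ((A.L ^ (-(k : ℝ) / 2) : ℝ) : ℂ) * (car (A.om α) z * A.pf α (chart A.L (A.om α) (A.y α) (A.tc α) z)) := by
    unfold Arr.fld Arr.atom
    refine Finset.sum_congr rfl fun α _ => ?_
    ring
  rw [e1]
  refine h1.congr_fun fun κ => ?_
  unfold FFam.fld FFam.U layF
  simp only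
  rw [Finset.mul_sum]
  refine Finset.sum_congr rfl fun α _ => ?_
  rw [ifl_ext_smul]
  push_cast
  ring

/-- **LEAF L-F1-EXB-LAY2: size of a layer.**   `‖(layF …).U α z‖ ≤ (‖cf α‖ L^(-k/2) C λ^(-M)) (1 + ‖chart‖)^(-Ad)` (`H.dec`, `norm_car`, `ifl_ext_smul`);  `fxb_wcs` with `d α = ‖chart‖`;  `fxb_count` with the exponent `2 Ad - P > k + 1`;   `Arr.env`.   The constant is `C_count`. -/
theorem fxb_layer_le (k : ℕ) (K : Cls) (P Ad : ℕ) (hAd : P + k + 1 < 2 * Ad) : ∃ Cl : ℝ, 0 ≤ Cl ∧ ∀ (ι : Type) (A : Arr k ι) (s : Finset ι) (cf : ι → ℂ) (G : ι → Lat k → E k → ℂ)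
    (u : ℝ → Lat k → ST k → ℂ) (J M : ℕ) (T₁ C : ℝ) (κ : Lat k) (z : ST k), A.In s K → 0 ≤ C → LayHyp A s G u J M Ad T₁ C → |z.2| ≤ T₁ * A.L ^ 2 →
    ‖(layF A cf G κ 1).fld s z‖ ^ 2 ≤ Cl * (C * lam κ ^ (-(M : ℤ))) ^ 2 * A.L ^ k * A.env s cf P z := by
  have hAd' : (k : ℝ) + 1 < 2 * (Ad : ℝ) - P := by
    have : ((P + k + 1 : ℕ) : ℝ) < ((2 * Ad : ℕ) : ℝ) := by exact_mod_cast hAd
    push_cast at this
    linarith
  obtain ⟨C₀, hC₀, H₀⟩ := fxb_count k (M := 2 * (Ad : ℝ) - P) hAd' K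
  refine ⟨C₀, hC₀, fun ι A s cf G u J M T₁ C κ z hA hC H hz => ?_⟩
  have hL0 : 0 < A.L := lt_of_lt_of_le one_pos hA.one_le
  have hl0 : 0 < lam κ := lt_of_lt_of_le one_pos (one_le_lam κ)
  set g : ℝ := C * lam κ ^ (-(M : ℤ)) with hg
  have hg0 : 0 ≤ g := by positivity
  set d : ι → ℝ := fun α => ‖chart A.L (A.om α) (A.y α) (A.tc α) z‖ with hd
  have h1 := fxb_wcs s (fun α => (layF A cf G κ 1).U α z) (fun α => ‖cf α‖ * A.L ^ (-(k : ℝ) / 2) * g) d P Ad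
    (fun α _ => by positivity) (fun α _ => norm_nonneg _) (fun α hα => by
      have hd0 : 0 ≤ d α := norm_nonneg _
      unfold FFam.U layF
      simp only
      rw [ifl_ext_smul, norm_mul, norm_mul, norm_mul, Complex.norm_real, Real.norm_of_nonneg (by positivity), mul_one]
      have hcar : ‖car (A.om α + A.L⁻¹ • iflLat κ.1) z‖ = 1 := by
        unfold car
        rw [mul_comm, Complex.norm_exp_ofReal_mul_I]
      rw [hcar, one_mul]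
      have h2 := H.dec α hα z hz κ
      have e3 : (1 + d α) ^ (-(Ad : ℝ)) = (1 + ‖chart A.L (A.om α) (A.y α) (A.tc α) z‖) ^ (-(Ad : ℤ)) := by
        rw [Real.rpow_neg (by positivity), Real.rpow_natCast, zpow_neg, zpow_natCast]
      rw [e3]
      calc ‖cf α‖ * A.L ^ (-(k : ℝ) / 2) * ‖ext (G α κ) (natX A.L (A.om α + A.L⁻¹ • iflLat κ.1) z - (A.L⁻¹ • A.y α, 0))‖
          ≤ ‖cf α‖ * A.L ^ (-(k : ℝ) / 2) * (g * (1 + ‖chart A.L (A.om α) (A.y α) (A.tc α) z‖) ^ (-(Ad : ℤ))) := by gcongr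
        _ = _ := by ring)
  have e1 : ∑ α ∈ s, (‖cf α‖ * A.L ^ (-(k : ℝ) / 2) * g) ^ 2 * (1 + d α) ^ (-(P : ℝ)) = g ^ 2 * A.env s cf P z := by
    unfold Arr.env Arr.wt
    rw [Finset.mul_sum, Finset.mul_sum]
    refine Finset.sum_congr rfl fun α _ => ?_
    have e2 : (A.L ^ (-(k : ℝ) / 2)) ^ 2 = A.L ^ (-(k : ℝ)) := by
      rw [← Real.rpow_natCast, ← Real.rpow_mul hL0.le]
      congr 1
      push_cast
      ring
    have e3 : (1 + d α) ^ (-(P : ℝ)) = (1 + ‖chart A.L (A.om α) (A.y α) (A.tc α) z‖) ^ (-(P : ℤ)) := by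
      rw [Real.rpow_neg (by positivity), Real.rpow_natCast, zpow_neg, zpow_natCast]
    rw [mul_pow, mul_pow, e2, e3]
    ring
  rw [e1] at h1
  have henv : 0 ≤ A.env s cf P z := by
    unfold Arr.env Arr.wt
    have : ∀ α ∈ s, 0 ≤ ‖cf α‖ ^ 2 * (1 + ‖chart A.L (A.om α) (A.y α) (A.tc α) z‖) ^ (-(P : ℤ)) := fun α _ => by positivity
    have := Finset.sum_nonneg this
    positivity
  calc ‖(layF A cf G κ 1).fld s z‖ ^ 2 ≤ g ^ 2 * A.env s cf P z * ∑ α ∈ s, (1 + d α) ^ (-(2 * (Ad : ℝ) - P)) := h1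
    _ ≤ g ^ 2 * A.env s cf P z * (C₀ * A.L ^ k) := mul_le_mul_of_nonneg_left (H₀ ι A s hA z) (by positivity)
    _ = _ := by ring

/-- **LEAF L-F1-EXB-LAY3: Peetre between the shifted label with centre `(y/h, 0)` and the original chart.**   First components differ by `2 (t/h²) iflLat a`, of norm `≤ 2 T₁ iflKn κ`; second components by `tc`.   `1 + ‖chart‖ ≤ (1 + ‖natX … - …‖)(1 + 2 T₁ + T₀) λ_κ`.   `Arr.wt` has a `zpow`. -/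
theorem fxb_env_shift (A : Arr k ι) (α : ι) (κ : Lat k) (hL : 1 ≤ A.L) {T₀ T₁ : ℝ} (hT₁ : 0 ≤ T₁) (htc : |A.tc α| ≤ T₀) (P : ℕ) {z : ST k} (hz : |z.2| ≤ T₁ * A.L ^ 2) :
    pw P A.L (A.om α + A.L⁻¹ • iflLat κ.1) (A.L⁻¹ • A.y α, 0) z ≤ ((1 + 2 * T₁ + T₀) * lam κ) ^ P * A.wt P α z := by
  have hL0 : 0 < A.L := by linarith
  have hT₀ : 0 ≤ T₀ := (abs_nonneg _).trans htc
  set a : E k := iflLat κ.1 with ha
  set W : ST k := natX A.L (A.om α + A.L⁻¹ • a) z - (A.L⁻¹ • A.y α, 0) with hW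
  set σ : ℝ := z.2 / A.L ^ 2 with hσ
  have hs : |σ| ≤ T₁ := by
    rw [hσ, abs_div, abs_of_pos (by positivity : (0:ℝ) < A.L ^ 2), div_le_iff₀ (by positivity)]
    exact hz
  have e1 : chart A.L (A.om α) (A.y α) (A.tc α) z = W + ((2 * σ) • a, -A.tc α) := by
    rw [hW, hσ]
    unfold chart natX
    refine Prod.ext ?_ ?_
    · simp only [Prod.fst_add, Prod.fst_sub, smul_sub, smul_add, smul_smul]
      have e2 : A.L⁻¹ * (2 * z.2 * A.L⁻¹) = 2 * (z.2 / A.L ^ 2) := by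
        field_simp
      rw [e2]
      abel
    · simp only [Prod.snd_add, Prod.snd_sub, sub_zero]
      ring
  have hl1 := one_le_lam κ
  have hl2 : ‖a‖ ≤ lam κ := by
    unfold lam iflKn
    have := abs_nonneg ((κ.2 : ℤ) : ℝ)
    linarith
  have h1 : ‖chart A.L (A.om α) (A.y α) (A.tc α) z‖ ≤ ‖W‖ + (2 * T₁ * ‖a‖ + T₀) := by
    rw [e1]
    refine (norm_add_le _ _).trans (add_le_add le_rfl ?_)
    rw [Prod.norm_def]
    refine max_le ?_ ?_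
    · simp only
      rw [norm_smul, Real.norm_eq_abs, abs_mul, abs_two]
      have : 2 * |σ| * ‖a‖ ≤ 2 * T₁ * ‖a‖ := by gcongr
      linarith
    · simp only [norm_neg, Real.norm_eq_abs]
      have : 0 ≤ 2 * T₁ * ‖a‖ := by positivity
      linarith
  have hW0 := norm_nonneg W
  have ha0 := norm_nonneg a
  have h2 : 1 + ‖chart A.L (A.om α) (A.y α) (A.tc α) z‖ ≤ (1 + 2 * T₁ + T₀) * lam κ * (1 + ‖W‖) := by
    have h3 : 1 + 2 * T₁ * ‖a‖ + T₀ ≤ (1 + 2 * T₁ + T₀) * lam κ := by nlinarith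
    have h4 : 1 ≤ (1 + 2 * T₁ + T₀) * lam κ := by nlinarith
    nlinarith
  unfold pw Arr.wt
  rw [← hW, Real.rpow_neg (by positivity), Real.rpow_natCast, zpow_neg, zpow_natCast, ← div_eq_mul_inv, le_div_iff₀ (by positivity),
    inv_mul_le_iff₀ (by positivity), ← mul_pow, mul_comm]
  exact pow_le_pow_left₀ (by positivity) h2 P

end

end Claimed.Agent.R257.FR1
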