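import Claimed.Agent.R257.FR1.ExBLnf

/-!
# FR1, block EX, file 5: ONE TUPLE OF LAYERS, THE MAIN CASE, THE EXIT            (captain EX helper164)            CONTRACT
EXIT:  `fxb_main : 1 ≤ k → ExpStmt k → CellStmt k → XFrameStmt k → FrameStmt k`.
Every `sorry` is a leaf `L-F1-EXB-*`.  Statements are frozen; auxiliary lemmas directly above your theorem (prefix `fxb_`); edit only your block.
-/

set_option autoImplicit false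

namespace Claimed.Agent.R257.FR1

open Claimed.Agent.R257 Claimed.Agent.R257.Tree
open scoped BigOperators Classical

noncomputable section

variable {k : ℕ}

/-- **LEAF L-F1-EXB-MONO.**   `rhs ≥ 0` (`Real.rpow_nonneg`, `Finset.prod_nonneg`: `thr i ≥ h^c > 0`; `en ≥ 0`), `Q ≥ 1`.   If `C < 0`: `C Q^C rhs ≤ 0 ≤ C' Q^C' rhs`.   If `0 ≤ C`: `Real.rpow_le_rpow_of_exponent_le`. -/
theorem XFrameWith.mono {c : ℝ} {K : XCls} {T₁ : ℝ} {P : ℕ} {C C' : ℝ} (h : XFrameWith k c K T₁ P C) (hC : C ≤ C') (hC' : 0 ≤ C') : XFrameWith k c K T₁ P C' := by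
  intro Λ _ 𝔠 ok
  have h1 := h Λ 𝔠 ok
  have hh : (0 : ℝ) < 𝔠.h := by linarith [ok.two_le]
  have hthr : ∀ i, 0 < 𝔠.thr i := fun i => lt_of_lt_of_le (Real.rpow_pos_of_pos hh c) (ok.thr_ge i)
  have hrhs : 0 ≤ 𝔠.rhs := by
    unfold XCfg.rhs
    apply mul_nonneg
    · exact Real.rpow_nonneg (Finset.prod_nonneg fun i _ => (hthr i).le) _
    · apply Finset.sum_nonneg
      intro i _
      apply div_nonneg _ (by positivity)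
      unfold XCfg.D XFam.en
      rw [ok.scale i]
      apply mul_nonneg (by positivity)
      exact Finset.sum_nonneg fun T _ => sq_nonneg _
  have hQ : 0 < 𝔠.Q := by linarith [ok.one_le_Q]
  have hQC' : 0 ≤ 𝔠.Q ^ C' := Real.rpow_nonneg hQ.le _
  rcases lt_or_ge C 0 with hneg | hpos
  · have : C * 𝔠.Q ^ C * 𝔠.rhs ≤ 0 := by
      apply mul_nonpos_of_nonpos_of_nonneg _ hrhs
      exact mul_nonpos_of_nonpos_of_nonneg hneg.le (Real.rpow_nonneg hQ.le _)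
    exact h1.trans (this.trans (by positivity))
  · refine h1.trans (mul_le_mul_of_nonneg_right ?_ hrhs)
    exact mul_le_mul hC (Real.rpow_le_rpow_of_exponent_le ok.one_le_Q hC) (Real.rpow_nonneg hQ.le _) hC'

/-- the label of a layer packet in native units -/
theorem fxb_tuple_hw {ι : Type} (A : Arr k ι) (hL : 0 < A.L) (α : ι) (κ : Lat k) :
    A.L • (A.om α + A.L⁻¹ • iflLat κ.1) = A.L • A.om α + iflLat κ.1 := by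
  rw [smul_add, smul_inv_smul₀ hL.ne']

theorem fxb_tuple_lat_le (κ : Lat k) : ‖iflLat κ.1‖ ≤ lam κ := by
  unfold lam iflKn
  have := abs_nonneg ((κ.2 : ℤ) : ℝ)
  linarith

set_option maxHeartbeats 800000 in
/-- one field, one layer: the exact family in lattice form -/
theorem fxb_field (hcell : CellStmt k) (R B Rw T₀ : ℝ) (m₀ J₀ P J M' Ad : ℕ) (Cexp : ℝ) (hR : 0 ≤ R) (hT₀ : 0 ≤ T₀) (hCexp : 0 ≤ Cexp) :
    ∃ Cμ : ℝ, 1 ≤ Cμ ∧ ∀ (ι : Type) (A : Arr k ι) (s : Finset ι) (cf : ι → ℂ) (G : ι → Lat k → E k → ℂ) (u : ℝ → Lat k → ST k → ℂ) (κ : Lat k) (n₀ : ℕ),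
      n₀ = ⌈A.L * (Rw + 1)⌉₊ + 1 → A.In s ⟨J₀, R, B, Rw, m₀⟩ → (∀ α ∈ s, |A.tc α| ≤ T₀) → LayHyp A s G u J (M' + P) Ad (T₀ + R) Cexp → lam κ ≤ Real.sqrt A.L →
      ∃ (𝔛 : XFam k (Box k n₀)) (S : Finset (Box k n₀ × (Fin k → ℤ))) (a : Box k n₀ × (Fin k → ℤ) → ℝ),
        𝔛.h = A.L ∧ 𝔛.In S ⟨J, 2 * Real.sqrt k, Rw + 1 + Real.sqrt k, 3 ^ k⟩ a ∧
        (∀ T ∈ S, ∃ α ∈ s, ‖𝔛.fr T.1 - A.om α‖ ≤ (Real.sqrt k + Real.sqrt A.L) / A.L) ∧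
        (∀ z, ‖𝔛.fld S z‖ = lam κ ^ M' / Cμ * ‖(layF A cf G κ 1).fld s z‖) ∧
        (∀ z : ST k, |z.2| ≤ (T₀ + R) * A.L ^ 2 → 𝔛.env S a P z ≤ A.env s cf P z) ∧
        𝔛.en S a ≤ A.L ^ 2 * energy s cf := by
  obtain ⟨Cc, hCc, hcl⟩ := hcell J
  obtain ⟨m₁, hm₁⟩ := fxb_fibre k ⟨J₀, R, B, Rw, m₀⟩ T₀
  have hsk : 0 ≤ Real.sqrt k := Real.sqrt_nonneg _
  obtain ⟨T₁, hT₁d⟩ : ∃ T₁ : ℝ, T₁ = T₀ + R := ⟨_, rfl⟩
  have hT₁ : 0 ≤ T₁ := by rw [hT₁d]; positivity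
  obtain ⟨Cs₁, hCs₁d⟩ : ∃ Cs₁ : ℝ, Cs₁ = 1 + Real.sqrt k * (1 + 2 * T₁) := ⟨_, rfl⟩
  obtain ⟨Cs₂, hCs₂d⟩ : ∃ Cs₂ : ℝ, Cs₂ = 1 + 2 * T₁ + T₀ := ⟨_, rfl⟩
  have hCs₁ : 1 ≤ Cs₁ := by rw [hCs₁d]; nlinarith
  have hCs₂ : 1 ≤ Cs₂ := by rw [hCs₂d]; linarith
  obtain ⟨Cb, hCbd⟩ : ∃ Cb : ℝ, Cb = Cc * (1 + Real.sqrt k) ^ J * Cexp := ⟨_, rfl⟩
  have hCb : 0 ≤ Cb := by rw [hCbd]; positivity
  obtain ⟨W, hWd⟩ : ∃ W : ℝ, W = m₁ * Cs₁ ^ P * Cs₂ ^ P * Cb ^ 2 := ⟨_, rfl⟩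
  have hW : 0 ≤ W := by rw [hWd]; positivity
  have hsW := Real.sqrt_nonneg W
  refine ⟨Real.sqrt W + 1, by linarith, ?_⟩
  obtain ⟨Cμ, hCμd⟩ : ∃ Cμ : ℝ, Cμ = Real.sqrt W + 1 := ⟨_, rfl⟩
  rw [← hCμd]
  have hCμ1 : 1 ≤ Cμ := by rw [hCμd]; linarith
  have hCμ0 : 0 < Cμ := by linarith
  have hWC : W ≤ Cμ ^ 2 := by
    have := Real.sq_sqrt hW
    rw [hCμd]; nlinarith
  intro ι A s cf G u κ n₀ hn₀ hIn htc hG hlam
  have hL1 : 1 ≤ A.L := hIn.one_le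
  have hL0 : 0 < A.L := by linarith
  have hsL : Real.sqrt A.L ≤ A.L := by
    rw [Real.sqrt_le_left hL0.le]
    nlinarith
  have hl1 := one_le_lam κ
  have hl0 : 0 < lam κ := by linarith
  obtain ⟨ν, hνd⟩ : ∃ ν : ℝ, ν = lam κ ^ M' / Cμ := ⟨_, rfl⟩
  have hν0 : 0 < ν := by rw [hνd]; positivity
  set 𝔉 : FFam k ι := layF A cf G κ ν with h𝔉
  have h𝔉h : 𝔉.h = A.L := rfl
  have h𝔉w : ∀ α, 𝔉.w α = A.om α + A.L⁻¹ • iflLat κ.1 := fun α => rfl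
  have h𝔉c : ∀ α, 𝔉.c α = A.L⁻¹ • A.y α := fun α => rfl
  -- y = ν λ^{-M}
  obtain ⟨y, hyd⟩ : ∃ y : ℝ, y = ν * lam κ ^ (-((M' + P : ℕ) : ℤ)) := ⟨_, rfl⟩
  have hy : y = 1 / (Cμ * lam κ ^ P) := by
    rw [hyd, hνd, zpow_neg, zpow_natCast, pow_add]
    field_simp
  have hy0 : 0 ≤ y := by rw [hy]; positivity
  have hy2 : y ^ 2 * lam κ ^ P ≤ 1 / Cμ ^ 2 := by
    have h1 : (1 : ℝ) ≤ lam κ ^ P := one_le_pow₀ hl1
    have e : y ^ 2 * lam κ ^ P = 1 / Cμ ^ 2 * (1 / lam κ ^ P) := by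
      rw [hy]; field_simp
    rw [e]
    have : 1 / lam κ ^ P ≤ 1 := by rw [div_le_one (by positivity)]; exact h1
    calc 1 / Cμ ^ 2 * (1 / lam κ ^ P) ≤ 1 / Cμ ^ 2 * 1 := mul_le_mul_of_nonneg_left this (by positivity)
      _ = _ := mul_one _
  have hy2' : y ^ 2 ≤ 1 / Cμ ^ 2 := by
    have h1 : (1 : ℝ) ≤ lam κ ^ P := one_le_pow₀ hl1
    calc y ^ 2 = y ^ 2 * 1 := (mul_one _).symm
      _ ≤ y ^ 2 * lam κ ^ P := mul_le_mul_of_nonneg_left h1 (by positivity)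
      _ ≤ _ := hy2
  -- amplitudes
  set e₀ : ι → ℝ := fun α => ‖cf α‖ * A.L ^ (-(k : ℝ) / 2) with he₀
  have he₀0 : ∀ α, 0 ≤ e₀ α := fun α => by rw [he₀]; positivity
  have he₀sq : ∀ α, e₀ α ^ 2 = A.L ^ (-(k : ℝ)) * ‖cf α‖ ^ 2 := fun α => by
    have : (A.L ^ (-(k : ℝ) / 2)) ^ 2 = A.L ^ (-(k : ℝ)) := by
      rw [← Real.rpow_natCast, ← Real.rpow_mul hL0.le]
      congr 1
      push_cast
      ring
    show (‖cf α‖ * A.L ^ (-(k : ℝ) / 2)) ^ 2 = _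
    rw [mul_pow, this]; ring
  set b₀ : ι → ℝ := fun α => Cexp * y * e₀ α with hb₀
  have hb₀0 : ∀ α, 0 ≤ b₀ α := fun α => by have := he₀0 α; rw [hb₀]; positivity
  have hamp₀ : ∀ α ∈ s, IflAmp J (Real.sqrt k) (b₀ α) (𝔉.g α) := by
    intro α hα
    have h1 := (hG.amp α hα κ).const_mul (cf α * ((A.L ^ (-(k : ℝ) / 2) * ν : ℝ) : ℂ))
    have e : ‖cf α * ((A.L ^ (-(k : ℝ) / 2) * ν : ℝ) : ℂ)‖ * (Cexp * lam κ ^ (-((M' + P : ℕ) : ℤ))) = b₀ α := by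
      rw [norm_mul, Complex.norm_real, Real.norm_of_nonneg (by positivity)]
      show _ = Cexp * y * (‖cf α‖ * A.L ^ (-(k : ℝ) / 2))
      rw [hyd]; ring
    rw [e] at h1
    exact h1
  have hwlb : ∀ α, A.L * ‖𝔉.w α - 𝔉.lb α‖ ≤ Real.sqrt k := by
    intro α
    have e : 𝔉.w α - 𝔉.lb α = A.L⁻¹ • (A.L • 𝔉.w α - iflLat (rnd (A.L • 𝔉.w α))) := by
      unfold FFam.lb
      rw [h𝔉h, smul_sub, inv_smul_smul₀ hL0.ne']
    rw [e, norm_smul, Real.norm_of_nonneg (inv_nonneg.2 hL0.le), ← mul_assoc, mul_inv_cancel₀ hL0.ne', one_mul]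
    exact norm_sub_rnd _
  have hex : ∀ α, ∃ G' : E k → ℂ, α ∈ s → (IflAmp J (2 * Real.sqrt k) (Cc * (1 + Real.sqrt k) ^ J * b₀ α) G' ∧
      ∀ z, 𝔉.U α z = car (𝔉.lb α) z * ext G' (natX 𝔉.h (𝔉.lb α) z - lat (rnd (𝔉.c α), 0))) := by
    intro α
    by_cases hα : α ∈ s
    · obtain ⟨G', h1, h2⟩ := hcl A.L (𝔉.w α) (𝔉.lb α) (𝔉.c α) (rnd (𝔉.c α)) (𝔉.g α) (Real.sqrt k) (b₀ α) hL0 (hamp₀ α hα)
      refine ⟨G', fun _ => ⟨h1.mono le_rfl (by linarith [hwlb α]) ?_, fun z => h2 z⟩⟩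
      have h3 : (1 + ‖𝔉.c α - iflLat (rnd (𝔉.c α))‖) ^ J ≤ (1 + Real.sqrt k) ^ J :=
        pow_le_pow_left₀ (by positivity) (by linarith [norm_sub_rnd (𝔉.c α)]) J
      have := hb₀0 α
      gcongr
    · exact ⟨0, fun h => absurd h hα⟩
  choose Gc hGc using hex
  set b : ι → ℝ := fun α => Cc * (1 + Real.sqrt k) ^ J * b₀ α with hb
  have hbeq : ∀ α, b α = Cb * y * e₀ α := fun α => by
    show Cc * (1 + Real.sqrt k) ^ J * (Cexp * y * e₀ α) = _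
    rw [hCbd]; ring
  have hlatle : ‖iflLat κ.1‖ ≤ Real.sqrt A.L := (fxb_tuple_lat_le κ).trans hlam
  have hbox : ∀ α ∈ s, rnd (𝔉.h • 𝔉.w α) ∈ boxF k n₀ := by
    intro α hα
    apply rnd_mem_box
    rw [h𝔉h, h𝔉w, fxb_tuple_hw A hL0, hn₀]
    push_cast
    have h1 : ‖A.L • A.om α + iflLat κ.1‖ ≤ A.L * Rw + A.L := by
      refine (norm_add_le _ _).trans ?_
      rw [norm_smul, Real.norm_of_nonneg hL0.le]
      have := hIn.freq α hα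
      have h2 : A.L * ‖A.om α‖ ≤ A.L * Rw := mul_le_mul_of_nonneg_left this hL0.le
      linarith
    have h2 := Nat.le_ceil (A.L * (Rw + 1))
    linarith
  have H : LnfHyp 𝔉 s n₀ Gc J (2 * Real.sqrt k) b m₁ := by
    refine ⟨hL1, hbox, fun α hα => (hGc α hα).1, fun α hα => (hGc α hα).2, fun T => ?_⟩
    refine le_trans (Finset.card_le_card ?_) (hm₁ ι A s hIn htc (T.1.1 - κ.1) T.2)
    intro α hα
    rw [Finset.mem_filter] at hα ⊢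
    obtain ⟨hαs, hαT⟩ := hα
    refine ⟨hαs, ?_, ?_⟩
    · have h1 : (𝔉.cell n₀ α).1.1 = T.1.1 := by rw [hαT]
      have h2 : (𝔉.cell n₀ α).1.1 = rnd (𝔉.h • 𝔉.w α) := by
        unfold FFam.cell toBox
        simp only
        rw [dif_pos (hbox α hαs)]
      rw [h2, h𝔉h, h𝔉w, fxb_tuple_hw A hL0, rnd_add_lat] at h1
      rw [← h1]; simp
    · have h1 : (𝔉.cell n₀ α).2 = T.2 := by rw [hαT]
      exact h1
  have hfr : ∀ α ∈ s, ‖𝔉.lb α‖ ≤ Rw + 1 + Real.sqrt k := by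
    intro α hα
    have h1 : ‖𝔉.lb α‖ ≤ ‖𝔉.w α‖ + ‖𝔉.w α - 𝔉.lb α‖ := by
      have : 𝔉.lb α = 𝔉.w α - (𝔉.w α - 𝔉.lb α) := by abel
      calc ‖𝔉.lb α‖ = ‖𝔉.w α - (𝔉.w α - 𝔉.lb α)‖ := by rw [← this]
        _ ≤ _ := norm_sub_le _ _
    have h2 : ‖𝔉.w α - 𝔉.lb α‖ ≤ Real.sqrt k := by
      have := hwlb α
      have h3 : ‖𝔉.w α - 𝔉.lb α‖ ≤ A.L * ‖𝔉.w α - 𝔉.lb α‖ := le_mul_of_one_le_left (norm_nonneg _) hL1
      linarith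
    have h3 : ‖𝔉.w α‖ ≤ Rw + 1 := by
      rw [h𝔉w]
      refine (norm_add_le _ _).trans ?_
      rw [norm_smul, Real.norm_of_nonneg (inv_nonneg.2 hL0.le)]
      have h4 : A.L⁻¹ * ‖iflLat κ.1‖ ≤ 1 := by
        rw [inv_mul_le_iff₀ hL0, mul_one]
        exact hlatle.trans hsL
      linarith [hIn.freq α hα]
    linarith
  refine ⟨lnf 𝔉 s n₀ Gc, lnfS 𝔉 s n₀, lnfA 𝔉 s n₀ b, rfl, H.cls hfr, ?_, ?_, ?_, ?_⟩
  · intro T hT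
    obtain ⟨α, hα, h1⟩ := H.label hT
    refine ⟨α, hα, ?_⟩
    rw [h𝔉h, h𝔉w] at h1
    have e : (lnf 𝔉 s n₀ Gc).fr T.1 - A.om α = ((lnf 𝔉 s n₀ Gc).fr T.1 - (A.om α + A.L⁻¹ • iflLat κ.1)) + A.L⁻¹ • iflLat κ.1 := by abel
    rw [e]
    refine (norm_add_le _ _).trans ?_
    rw [norm_smul, Real.norm_of_nonneg (inv_nonneg.2 hL0.le), add_div]
    have h2 : A.L⁻¹ * ‖iflLat κ.1‖ ≤ Real.sqrt A.L / A.L := by
      rw [div_eq_inv_mul]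
      exact mul_le_mul_of_nonneg_left hlatle (inv_nonneg.2 hL0.le)
    linarith
  · intro z
    rw [H.fld_eq, h𝔉, layF_fld_smul, norm_mul, Complex.norm_real, Real.norm_of_nonneg hν0.le, hνd]
  · intro z hz
    have hz' : |z.2| ≤ T₁ * 𝔉.h ^ 2 := by rw [hT₁d]; exact hz
    have h1 := H.env_le (P := (P : ℝ)) (Nat.cast_nonneg P) hT₁ hz'
    rw [← hCs₁d, Real.rpow_natCast] at h1
    refine h1.trans ?_
    have h2 : 𝔉.env s b P z ≤ Cb ^ 2 * (y ^ 2 * lam κ ^ P) * Cs₂ ^ P * A.env s cf P z := by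
      unfold FFam.env Arr.env
      rw [Finset.mul_sum, Finset.mul_sum]
      refine Finset.sum_le_sum fun α hα => ?_
      have h3 := fxb_env_shift A α κ hL1 hT₁ (htc α hα) P (z := z) (by rw [hT₁d]; exact hz)
      rw [← hCs₂d] at h3
      have h4 : pw P 𝔉.h (𝔉.w α) (𝔉.c α, 0) z ≤ (Cs₂ * lam κ) ^ P * A.wt P α z := h3
      calc b α ^ 2 * pw P 𝔉.h (𝔉.w α) (𝔉.c α, 0) z ≤ b α ^ 2 * ((Cs₂ * lam κ) ^ P * A.wt P α z) :=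
            mul_le_mul_of_nonneg_left h4 (by positivity)
        _ = _ := by
            rw [hbeq, mul_pow, mul_pow, he₀sq, mul_pow]; ring
    have henv0 : 0 ≤ A.env s cf P z := by
      unfold Arr.env Arr.wt
      have : 0 ≤ ∑ α ∈ s, ‖cf α‖ ^ 2 * (1 + ‖chart A.L (A.om α) (A.y α) (A.tc α) z‖) ^ (-(P : ℤ)) :=
        Finset.sum_nonneg fun α _ => by positivity
      positivity
    calc (m₁ : ℝ) * Cs₁ ^ P * 𝔉.env s b P z ≤ m₁ * Cs₁ ^ P * (Cb ^ 2 * (y ^ 2 * lam κ ^ P) * Cs₂ ^ P * A.env s cf P z) :=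
          mul_le_mul_of_nonneg_left h2 (by positivity)
      _ = W * (y ^ 2 * lam κ ^ P) * A.env s cf P z := by rw [hWd]; ring
      _ ≤ W * (1 / Cμ ^ 2) * A.env s cf P z := by gcongr
      _ ≤ 1 * A.env s cf P z := by
          refine mul_le_mul_of_nonneg_right ?_ henv0
          rw [mul_one_div, div_le_one (by positivity)]
          exact hWC
      _ = _ := one_mul _
  · have h1 := H.en_le
    refine h1.trans ?_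
    have hen0 : 0 ≤ energy s cf := by
      unfold energy
      exact Finset.sum_nonneg fun α _ => by positivity
    have e1 : ∑ α ∈ s, b α ^ 2 = Cb ^ 2 * y ^ 2 * A.L ^ (-(k : ℝ)) * energy s cf := by
      unfold energy
      rw [Finset.mul_sum]
      refine Finset.sum_congr rfl fun α _ => ?_
      rw [hbeq, mul_pow, mul_pow, he₀sq]; ring
    have e2 : A.L ^ (k + 2) * A.L ^ (-(k : ℝ)) = A.L ^ 2 := by
      rw [← Real.rpow_natCast, ← Real.rpow_add hL0, ← Real.rpow_natCast]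
      congr 1
      push_cast
      ring
    have hmW : (m₁ : ℝ) * Cb ^ 2 ≤ W := by
      rw [hWd]
      have h2 : (1 : ℝ) ≤ Cs₁ ^ P * Cs₂ ^ P := one_le_mul_of_one_le_of_one_le (one_le_pow₀ hCs₁) (one_le_pow₀ hCs₂)
      have h3 : 0 ≤ (m₁ : ℝ) * Cb ^ 2 := by positivity
      calc (m₁ : ℝ) * Cb ^ 2 = 1 * ((m₁ : ℝ) * Cb ^ 2) := (one_mul _).symm
        _ ≤ (Cs₁ ^ P * Cs₂ ^ P) * ((m₁ : ℝ) * Cb ^ 2) := mul_le_mul_of_nonneg_right h2 h3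
        _ = _ := by ring
    rw [h𝔉h, e1]
    calc (m₁ : ℝ) * (A.L ^ (k + 2) * (Cb ^ 2 * y ^ 2 * A.L ^ (-(k : ℝ)) * energy s cf))
        = (m₁ * Cb ^ 2) * y ^ 2 * ((A.L ^ (k + 2) * A.L ^ (-(k : ℝ))) * energy s cf) := by ring
      _ ≤ W * (1 / Cμ ^ 2) * ((A.L ^ (k + 2) * A.L ^ (-(k : ℝ))) * energy s cf) := by
          rw [e2]
          gcongr
      _ ≤ 1 * ((A.L ^ (k + 2) * A.L ^ (-(k : ℝ))) * energy s cf) := by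
          refine mul_le_mul_of_nonneg_right ?_ (by rw [e2]; positivity)
          rw [mul_one_div, div_le_one (by positivity)]
          exact hWC
      _ = _ := by rw [one_mul, e2]

/-- **LEAF L-F1-EXB-TUPLE: the exact frame estimate for one tuple of layers.**
PLAN.  `T₁ = T₀ + R`, `K = ⟨J₀,R,B,Rw,m₀⟩`, `M = M' + P`.   `Cc` (`≥ 1`) from `hcell J`, `m₁` from `fxb_fibre k K T₀`.   `Cs₁ = 1 + √k (1 + 2 T₁)`, `Cs₂ = 1 + 2 T₁ + T₀`, `Cb = Cc (1 + √k)^J Cexp`.     `Cμ := √(m₁ Cs₁^P Cs₂^P Cb²) + 1`  (so `m₁ Cs₁^P Cs₂^P Cb² ≤ Cμ²`).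
For a configuration: `λ_i = lam (κs i)`, `μ_i = Cμ λ_i^(-M')`, `ν_i = 1/μ_i = λ_i^M' / Cμ`, `𝔉 i = layF (A i) (cf i) (G i) (κs i) ν_i`, `n₀ = ⌈h (Rw + 1)⌉₊ + 1`.
* data: `(𝔉 i).g α = const • G i α κ` is `IflAmp J √k (b₀ α)`, `b₀ α = ‖cf i α‖ h^(-k/2) ν_i Cexp λ_i^(-M)` (`IflAmp.const_mul`, `LayHyp.amp`).   `hcell` with `w = (𝔉 i).w α`, `v' = (𝔉 i).lb α`, `c = (𝔉 i).c α`, `m = rnd c`:  `Gc i α`, `IflAmp J (√k + h ‖w - v'‖) (Cc (1 + ‖c - iflLat m‖)^J b₀ α)`,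
  `h ‖w - v'‖ ≤ √k`, `‖c - iflLat m‖ ≤ √k` (`norm_sub_rnd`), `IflAmp.mono`:  `IflAmp J (2 √k) (b i α)`, `b i α = Cc (1+√k)^J b₀ α`.   (`choose` over `α ∈ s i` with `dite`.)
* `LnfHyp (𝔉 i) (s i) n₀ (Gc i) J (2√k) (b i) m₁`:  `box`: `rnd_mem_box`, `‖h • w‖ ≤ h Rw + ‖iflLat a‖ ≤ h Rw + √h ≤ h (Rw + 1)`;   `fib`: `rnd (h • (om + h⁻¹ • iflLat a)) = rnd (h • om) + a` (`rnd_add_lat`, `smul_add`, `smul_inv_smul₀`), `toBox` injective on the box, `fxb_fibre` with `n = T.1.1 - a`, `m = T.2`.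
* `XCfg`:  `A i = lnf …`, `s i = lnfS …`, `a i = lnfA … (b i)`, `h`, `Q := 2 Q`, `thr i = θ i λ_i^M' / Cμ`, `Y`, `wz`.     `XCfg.Ok c' ⟨J, 2√k, Rw + 1 + √k, 3^k⟩ T₁ P`:
  `cls`: `LnfHyp.cls`, `‖lb α‖ ≤ ‖w α‖ + √k/h ≤ Rw + √h/h + √k`;     `trans`: `LnfHyp.label` gives `α_i ∈ s i` with `‖fr - om α_i‖ ≤ √k/h + ‖iflLat a‖/h ≤ (√k + √h)/h`, `fxb_transv`;
  `wit`: `LnfHyp.fld_eq`, `layF_fld_smul`: `‖fld‖ = ν_i ‖layer‖ ≥ ν_i θ i`;     envelope: `LnfHyp.env_le`, then `FFam.env (𝔉 i) (s i) (b i) P z = ∑ (b i α)² pw … ≤ Cb² ν_i² λ_i^(-2M) (Cs₂ λ_i)^P h^(-k) ∑ ‖cf‖² wt = Cb² Cs₂^P ν_i² λ_i^(P - 2M) env` (`fxb_env_shift`),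
  `λ^(P-2M) = λ^(-2M'-P) ≤ λ^(-2M')`, so the envelope is `≤ Cμ² ν_i² λ_i^(-2M') env = env ≤ 1`.
* energy: `LnfHyp.en_le`: `D_i ≤ m₁ h^(k+2) ∑ (b i α)² ≤ Cμ² ν_i² λ_i^(-2M') h² energy = h² energy`.     `hX _ 𝔠 ok`, unfold `XCfg.rhs`, `XCfg.D`, monotone in `D_i` (`0 ≤ Cx`). -/
theorem fxb_tuple (hk : 1 ≤ k) (hcell : CellStmt k) (c' R B Rw T₀ : ℝ) (m₀ J₀ P J M' Ad : ℕ) (Cexp Cx : ℝ) (hR : 0 ≤ R) (hT₀ : 0 ≤ T₀) (hCexp : 0 ≤ Cexp) (hCx : 0 ≤ Cx)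
    (hX : XFrameWith k c' ⟨J, 2 * Real.sqrt k, Rw + 1 + Real.sqrt k, 3 ^ k⟩ (T₀ + R) P Cx) :
    ∃ Cμ : ℝ, 1 ≤ Cμ ∧ ∀ (ι : Type) (A : Fin (k + 1) → Arr k ι) (s : Fin (k + 1) → Finset ι) (cf : Fin (k + 1) → ι → ℂ) (G : Fin (k + 1) → ι → Lat k → E k → ℂ)
      (u : ℝ → Lat k → ST k → ℂ) (h Q : ℝ) (θ : Fin (k + 1) → ℝ) (κs : Fin (k + 1) → Lat k) (Y : Finset (Lat k)) (wz : Fin (k + 1) → Lat k → ST k),
      2 ≤ h → (∀ i, (A i).L = h) → (∀ i, (A i).In (s i) ⟨J₀, R, B, Rw, m₀⟩) → (∀ i, ∀ α ∈ s i, |(A i).tc α| ≤ T₀) → 1 ≤ Q →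
      (∀ lb : Fin (k + 1) → ι, (∀ i, lb i ∈ s i) → Transv Q (fun i => (A i).om (lb i))) →
      (∀ i, LayHyp (A i) (s i) (G i) u J (M' + P) Ad (T₀ + R) Cexp) →
      (∀ i, lam (κs i) ≤ Real.sqrt h) → Q * ((Real.sqrt k + Real.sqrt h) / h) ≤ 1 / 2 →
      (∀ i, h ^ c' ≤ θ i * lam (κs i) ^ M' / Cμ) →
      (∀ q ∈ Y, ∀ i, wz i q ∈ cube q ∧ |(wz i q).2| ≤ (T₀ + R) * h ^ 2 ∧ θ i ≤ ‖(layF (A i) (cf i) (G i) (κs i) 1).fld (s i) (wz i q)‖ ∧ (A i).env (s i) (cf i) P (wz i q) ≤ 1) →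
      (Y.card : ℝ) ≤ Cx * (2 * Q) ^ Cx *
        ((∏ i, θ i * lam (κs i) ^ M' / Cμ) ^ (-fxe k) * ∑ i, h ^ 2 * energy (s i) (cf i) / (θ i * lam (κs i) ^ M' / Cμ) ^ 2) := by
  obtain ⟨Cμ, hCμ, hF⟩ := fxb_field hcell R B Rw T₀ m₀ J₀ P J M' Ad Cexp hR hT₀ hCexp
  refine ⟨Cμ, hCμ, ?_⟩
  intro ι A s cf G u h Q θ κs Y wz hh hL hIn htc hQ htr hG hlam hQε hthr hwit
  have hCμ0 : 0 < Cμ := by linarith
  have hh0 : 0 < h := by linarith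
  obtain ⟨n₀, hn₀⟩ : ∃ n₀ : ℕ, n₀ = ⌈h * (Rw + 1)⌉₊ + 1 := ⟨_, rfl⟩
  have hF' := fun i => hF ι (A i) (s i) (cf i) (G i) u (κs i) n₀ (by rw [hL i]; exact hn₀) (hIn i) (htc i) (hG i) (by rw [hL i]; exact hlam i)
  choose 𝔛 S a h1 h2 h3 h4 h5 h6 using hF'
  have hthr0 : ∀ i, 0 < θ i * lam (κs i) ^ M' / Cμ := fun i => lt_of_lt_of_le (Real.rpow_pos_of_pos hh0 c') (hthr i)
  set 𝔠 : XCfg k (Box k n₀) := ⟨𝔛, S, a, h, 2 * Q, fun i => θ i * lam (κs i) ^ M' / Cμ, Y, wz⟩ with h𝔠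
  have ok : 𝔠.Ok c' ⟨J, 2 * Real.sqrt k, Rw + 1 + Real.sqrt k, 3 ^ k⟩ (T₀ + R) P := by
    refine ⟨hh, fun i => (h1 i).trans (hL i), h2, ?_, ?_, hthr, ?_⟩
    · show 1 ≤ 2 * Q
      linarith
    · intro lb hlb
      have hex : ∀ i, ∃ α ∈ s i, ‖(𝔛 i).fr (lb i).1 - (A i).om α‖ ≤ (Real.sqrt k + Real.sqrt h) / h := fun i => by
        have := h3 i (lb i) (hlb i)
        rw [hL i] at this
        exact this
      choose α hα hαd using hex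
      exact fxb_transv (htr α hα) (by linarith) hαd hQε
    · intro q hq i
      obtain ⟨w1, w2, w3, w4⟩ := hwit q hq i
      refine ⟨w1, w2, ?_, ?_⟩
      · show θ i * lam (κs i) ^ M' / Cμ ≤ ‖(𝔛 i).fld (S i) (wz i q)‖
        rw [h4 i]
        have hν : 0 ≤ lam (κs i) ^ M' / Cμ := by
          have := one_le_lam (κs i)
          positivity
        calc θ i * lam (κs i) ^ M' / Cμ = lam (κs i) ^ M' / Cμ * θ i := by ring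
          _ ≤ _ := mul_le_mul_of_nonneg_left w3 hν
      · refine (h5 i (wz i q) ?_).trans w4
        rw [hL i]; exact w2
  have key := hX _ 𝔠 ok
  refine key.trans ?_
  have hQ0 : 0 ≤ (2 * Q) ^ Cx := Real.rpow_nonneg (by linarith) _
  refine mul_le_mul_of_nonneg_left ?_ (mul_nonneg hCx hQ0)
  unfold XCfg.rhs XCfg.D fxe
  refine mul_le_mul_of_nonneg_left ?_ (Real.rpow_nonneg (Finset.prod_nonneg fun i _ => (hthr0 i).le) _)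
  refine Finset.sum_le_sum fun i _ => ?_
  have := h6 i
  rw [hL i] at this
  exact div_le_div_of_nonneg_right this (by positivity)

/-- **LEAF L-F1-EXB-H0: the numerical conditions on `h`.**   (i) `h^(k/2) (√h)^(-K₁) ≤ h^(-1/2)` for `K₁ ≥ k + 1`, so (i) holds for `h ≥ 4 X₁² + 1`;   (ii) `h ≥ X₂^(2/c)`;   (iii) `√k + √h ≤ (√k + 1) √h`, `h^(1/4) √h / h = h^(-1/4)`: `h ≥ (2 (√k + 1))⁴`.   `h₀` = the maximum (and `≥ 2`). -/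
theorem fxb_h0 (k K₁ : ℕ) (hK₁ : k + 1 ≤ K₁) (c X₁ X₂ : ℝ) (hc : 0 < c) (hX₁ : 0 ≤ X₁) (hX₂ : 0 < X₂) : ∃ h₀ : ℝ, 2 ≤ h₀ ∧ ∀ h : ℝ, h₀ ≤ h →
    X₁ * Real.sqrt (h ^ k) * Real.sqrt h ^ (-(K₁ : ℤ)) ≤ 1 / 2 ∧ X₂ * h ^ (c / 2) ≤ h ^ c ∧ h ^ (1 / 4 : ℝ) * ((Real.sqrt k + Real.sqrt h) / h) ≤ 1 / 2 := by
  refine ⟨max 2 (max (4 * X₁ ^ 2 + 1) (max (X₂ ^ (2 / c)) ((2 * (Real.sqrt k + 1)) ^ 4))), le_max_left _ _, fun h hh => ?_⟩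
  have h2 : 2 ≤ h := (le_max_left _ _).trans hh
  have hA : 4 * X₁ ^ 2 + 1 ≤ h := ((le_max_left _ _).trans (le_max_right _ _)).trans hh
  have hB : X₂ ^ (2 / c) ≤ h := ((le_max_left _ _).trans ((le_max_right _ _).trans (le_max_right _ _))).trans hh
  have hD : (2 * (Real.sqrt k + 1)) ^ 4 ≤ h := ((le_max_right _ _).trans ((le_max_right _ _).trans (le_max_right _ _))).trans hh
  have h0 : 0 < h := by linarith
  obtain ⟨r, hr⟩ : ∃ r : ℝ, r = Real.sqrt h := ⟨_, rfl⟩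
  have hr2 : r ^ 2 = h := by rw [hr]; exact Real.sq_sqrt h0.le
  have hr1 : 1 ≤ r := by
    rw [hr]; exact Real.one_le_sqrt.mpr (by linarith)
  have hr0 : 0 < r := by linarith
  refine ⟨?_, ?_, ?_⟩
  · have e1 : Real.sqrt (h ^ k) = r ^ k := by
      rw [← hr2, ← pow_mul, mul_comm, pow_mul, Real.sqrt_sq (by positivity)]
    rw [e1, ← hr, zpow_neg, zpow_natCast]
    obtain ⟨d, rfl⟩ := Nat.exists_eq_add_of_le hK₁
    have e2 : r ^ (k + 1 + d) = r ^ k * (r * r ^ d) := by ring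
    have hrd : 1 ≤ r ^ d := one_le_pow₀ hr1
    have hX : 2 * X₁ ≤ r := by
      apply le_of_sq_le_sq _ hr0.le |> fun f => f
      nlinarith
    rw [e2, mul_inv, mul_assoc, ← mul_assoc (r ^ k), mul_inv_cancel₀ (by positivity), one_mul, ← div_eq_mul_inv,
      div_le_iff₀ (by positivity)]
    nlinarith
  · have e1 : h ^ c = h ^ (c / 2) * h ^ (c / 2) := by
      rw [← Real.rpow_add h0]; congr 1; ring
    rw [e1]
    apply mul_le_mul_of_nonneg_right _ (Real.rpow_nonneg h0.le _)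
    have := Real.rpow_le_rpow (Real.rpow_nonneg hX₂.le _) hB (by positivity : 0 ≤ c / 2)
    rw [← Real.rpow_mul hX₂.le] at this
    have e2 : 2 / c * (c / 2) = 1 := by field_simp
    rwa [e2, Real.rpow_one] at this
  · obtain ⟨q, hq⟩ : ∃ q : ℝ, q = h ^ (1 / 4 : ℝ) := ⟨_, rfl⟩
    have hq0 : 0 < q := by rw [hq]; exact Real.rpow_pos_of_pos h0 _
    have hq4 : q ^ 4 = h := by
      rw [hq, ← Real.rpow_natCast, ← Real.rpow_mul h0.le]; norm_num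
    have hq2 : q ^ 2 = r := by
      have : (q ^ 2) ^ 2 = r ^ 2 := by rw [hr2, ← hq4]; ring
      exact (pow_left_inj₀ (by positivity) hr0.le (by norm_num)).mp this
    obtain ⟨m, hm⟩ : ∃ m : ℝ, m = Real.sqrt k := ⟨_, rfl⟩
    have hm0 : 0 ≤ m := by rw [hm]; exact Real.sqrt_nonneg _
    rw [← hm] at hD ⊢
    rw [← hq, ← hr, ← hq2, ← hq4]
    have hqm : 2 * (m + 1) ≤ q := by
      rw [← hq4] at hD
      exact (pow_le_pow_iff_left₀ (by positivity) hq0.le (by norm_num)).mp hD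
    have hq1 : 1 ≤ q ^ 2 := by rw [hq2]; exact hr1
    rw [← mul_div_assoc, div_le_iff₀ (by positivity)]
    have t1 : m + q ^ 2 ≤ (m + 1) * q ^ 2 := by nlinarith
    have t2 : q * (m + q ^ 2) ≤ q * ((m + 1) * q ^ 2) := mul_le_mul_of_nonneg_left t1 hq0.le
    have t3 : (2 * (m + 1)) * q ^ 3 ≤ q * q ^ 3 := mul_le_mul_of_nonneg_right hqm (by positivity)
    nlinarith

/-- **LEAF L-F1-EXB-BIG: the main case `h ≥ h₀`, `Q ≤ h^{1/4}`.**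
CONSTANTS.  `b = k + 2`, `a₁ = k (k+1) (k+2)` (so `fxe k * a₁ = 4 (k+2)`), `M' = b + a₁`, `M = M' + P = (k + 2) + K₁`, `K₁ = a₁ + P ≥ k + 1`, `Ad = P + k + 2`.
`hexp J M Ad R T₀`: `J₀`, `u`, `|u| = 1`; at `B`: `Cexp`, `hE`.   `K = ⟨J₀,R,B,Rw,m₀⟩`.   `Cl` (`fxb_layer_le k K P Ad`), `Ct` (`fxb_tail k K₁`), `S_b` (`fxb_lam_sum k (k+2)`), `S` (`fxb_lam_sum k (4 (k+2))`), `Cμ` (`fxb_tuple … (c/2) … M' Ad Cexp Cx`).
`c₀ = 1/(4 (S_b + 1))`, `g₀ = c₀/Cμ`.   `h₀` from `fxb_h0 k K₁ c (√Cl Cexp Ct) (1/g₀)`.      `C = Cx g₀^(-(fxe k (k+1) + 2)) S^(k+1)`.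
CONFIGURATION.  (1) `G i` from `exists_layHyp hE`.   (2) `a i ≥ h^c ≥ 1 > 0`; at a witness the field is `≠ 0`: `fxb_slab`.
(3) `fxb_series` for `f κ = u h κ z * (layF … κ 1).fld (s i) z` (`LayHyp.hasSum`), `w κ = lam κ^(-M)` (`ifl_summable`), `β = √(Cl h^k) Cexp` (`fxb_layer_le`, `env ≤ 1`, `Real.le_sqrt`/`abs_le_of_sq_le`), `𝒦 = layS k (√h)`, `τ = Ct (√h)^(-K₁)` (`fxb_tail`, `1 ≤ √h`):
    `a i ≤ ∑_{κ ∈ 𝒦} ‖layer κ‖ + 1/2`, hence `a i / 2 ≤ ∑_{κ ∈ 𝒦} ‖layer κ‖`.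
(4) `fxb_pigeon` with `φ i κ q = ‖(layF … κ 1).fld (s i) (wz i q)‖`, `θ i κ = c₀ * a i / lam κ ^ b`:  `∑_{𝒦} θ ≤ c₀ S_b a i < a i / 2`.
(5) for `κs ∈ piFinset 𝒦`: `fxb_tuple` for `Y.filter …`, `θ i := θ i (κs i)`:   `θ i (κs i) * λ^M' / Cμ = g₀ * λ^a₁ * a i ≥ g₀ h^c ≥ h^(c/2)`;   `lam ≤ √h` by `mem_layS`;   `Q (…) ≤ h^(1/4) (…) ≤ 1/2`.
(6) `fxb_sum` with `X = Cx (2Q)^Cx`, `D i = h² energy`. -/
theorem fxb_big (hk : 1 ≤ k) (hexp : ExpStmt k) (hcell : CellStmt k) (c R B Rw T₀ : ℝ) (m₀ : ℕ) (hc : 0 < c) (hR : 0 ≤ R) (hT₀ : 0 ≤ T₀) (P J : ℕ) (Cx : ℝ) (hCx : 0 ≤ Cx)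
    (hX : XFrameWith k (c / 2) ⟨J, 2 * Real.sqrt k, Rw + 1 + Real.sqrt k, 3 ^ k⟩ (T₀ + R) P Cx) :
    ∃ (J₀ : ℕ) (h₀ C : ℝ), 0 ≤ C ∧ ∀ (ι : Type) (A : Fin (k + 1) → Arr k ι) (s : Fin (k + 1) → Finset ι) (cf : Fin (k + 1) → ι → ℂ) (h Q : ℝ) (a : Fin (k + 1) → ℝ)
      (Y : Finset (Lat k)) (wz : Fin (k + 1) → Lat k → ST k), h₀ ≤ h → 2 ≤ h → Q ≤ h ^ (1 / 4 : ℝ) →
      (∀ i, (A i).L = h) → (∀ i, (A i).In (s i) ⟨J₀, R, B, Rw, m₀⟩) → (∀ i, ∀ α ∈ s i, |(A i).tc α| ≤ T₀) → 1 ≤ Q →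
      (∀ lb : Fin (k + 1) → ι, (∀ i, lb i ∈ s i) → Transv Q (fun i => (A i).om (lb i))) → (∀ i, h ^ c ≤ a i) →
      (∀ q ∈ Y, ∀ i, wz i q ∈ cube q ∧ a i ≤ ‖(A i).fld (s i) (cf i) (wz i q)‖ ∧ (A i).env (s i) (cf i) P (wz i q) ≤ 1) →
      (Y.card : ℝ) ≤ C * (2 * Q) ^ Cx * ((∏ i, a i) ^ (-fxe k) * ∑ i, h ^ 2 * energy (s i) (cf i) / a i ^ 2) := by
  obtain ⟨a₁, ha₁⟩ : ∃ a₁ : ℕ, a₁ = k * (k + 1) * (k + 2) := ⟨_, rfl⟩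
  obtain ⟨M', hM'⟩ : ∃ M' : ℕ, M' = (k + 2) + a₁ := ⟨_, rfl⟩
  obtain ⟨K₁, hK₁⟩ : ∃ K₁ : ℕ, K₁ = a₁ + P := ⟨_, rfl⟩
  obtain ⟨Ad, hAd⟩ : ∃ Ad : ℕ, Ad = P + k + 2 := ⟨_, rfl⟩
  have hM : M' + P = k + 2 + K₁ := by omega
  have hK₁k : k + 1 ≤ K₁ := by
    have : 1 * (k + 1) * 1 ≤ k * (k + 1) * (k + 2) := Nat.mul_le_mul (Nat.mul_le_mul hk le_rfl) (by omega)
    omega
  obtain ⟨J₀, u, hu, hB⟩ := hexp J (M' + P) Ad R T₀ hR hT₀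
  obtain ⟨Cexp, hCexp, hE⟩ := hB B
  obtain ⟨Cl, hCl, hlay⟩ := fxb_layer_le k ⟨J₀, R, B, Rw, m₀⟩ P Ad (by omega)
  obtain ⟨Ct, hCt, htail⟩ := fxb_tail k K₁
  obtain ⟨Sb, hSb, hsb⟩ := fxb_lam_sum k (k + 2) (by omega)
  obtain ⟨S, hS, hs⟩ := fxb_lam_sum k (4 * (k + 2)) (by omega)
  obtain ⟨Cμ, hCμ, htup⟩ := fxb_tuple hk hcell (c / 2) R B Rw T₀ m₀ J₀ P J M' Ad Cexp Cx hR hT₀ hCexp hCx hX
  have hCμ0 : 0 < Cμ := by linarith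
  obtain ⟨c₀, hc₀⟩ : ∃ c₀ : ℝ, c₀ = 1 / (4 * (Sb + 1)) := ⟨_, rfl⟩
  have hc₀0 : 0 < c₀ := by rw [hc₀]; positivity
  obtain ⟨g₀, hg₀⟩ : ∃ g₀ : ℝ, g₀ = c₀ / Cμ := ⟨_, rfl⟩
  have hg₀0 : 0 < g₀ := by rw [hg₀]; positivity
  obtain ⟨h₀, -, hh₀⟩ := fxb_h0 k K₁ hK₁k c (Real.sqrt Cl * Cexp * Ct) (1 / g₀) hc (by positivity) (by positivity)
  refine ⟨J₀, h₀, Cx * g₀ ^ (-(fxe k * ((k : ℝ) + 1) + 2)) * S ^ (k + 1), by positivity, ?_⟩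
  intro ι A s cf h Q a Y wz hh0 hh2 hQh hL hIn htc hQ htr ha hw
  obtain ⟨hi, hii, hiii⟩ := hh₀ h hh0
  have hhpos : 0 < h := by linarith
  have hh1 : 1 ≤ h := by linarith
  have hsq1 : 1 ≤ Real.sqrt h := by rw [Real.one_le_sqrt]; exact hh1
  have hG : ∀ i, ∃ G, LayHyp (A i) (s i) G u J (M' + P) Ad (T₀ + R) Cexp := fun i => exists_layHyp hE (hIn i) (htc i)
  choose G hG using hG
  have ha1 : ∀ i, 1 ≤ a i := fun i => (Real.one_le_rpow hh1 hc.le).trans (ha i)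
  have ha0 : ∀ i, 0 < a i := fun i => by linarith [ha1 i]
  have hslab : ∀ q ∈ Y, ∀ i, |(wz i q).2| ≤ (T₀ + R) * h ^ 2 := by
    intro q hq i
    have hne : (A i).fld (s i) (cf i) (wz i q) ≠ 0 := by
      intro h0
      have := (hw q hq i).2.1
      rw [h0, norm_zero] at this
      linarith [ha0 i]
    have := fxb_slab (hIn i) (htc i) (cf i) hne
    rwa [hL i] at this
  -- the layers
  set 𝒦 : Finset (Lat k) := layS k (Real.sqrt h) with h𝒦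
  set φ : Fin (k + 1) → Lat k → Lat k → ℝ := fun i κ q => ‖(layF (A i) (cf i) (G i) κ 1).fld (s i) (wz i q)‖ with hφd
  set θ : Fin (k + 1) → Lat k → ℝ := fun i κ => c₀ * a i / lam κ ^ (k + 2) with hθd
  have hlam0 : ∀ κ : Lat k, 0 < lam κ := fun κ => by linarith [one_le_lam κ]
  have hφ : ∀ q ∈ Y, ∀ i, a i / 2 ≤ ∑ κ ∈ 𝒦, φ i κ q := by
    intro q hq i
    have hz := hslab q hq i
    have hz' : |(wz i q).2| ≤ (T₀ + R) * (A i).L ^ 2 := by rw [hL i]; exact hz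
    have hsum := (hG i).hasSum (cf i) hz'
    have hsw : Summable fun κ : Lat k => lam κ ^ (-((M' + P : ℕ) : ℤ)) := ifl_summable k (M' + P) (by omega)
    have hfw : ∀ κ : Lat k, ‖u (A i).L κ (wz i q) * (layF (A i) (cf i) (G i) κ 1).fld (s i) (wz i q)‖ ≤
        (Real.sqrt (Cl * h ^ k) * Cexp) * lam κ ^ (-((M' + P : ℕ) : ℤ)) := by
      intro κ
      rw [norm_mul, hu, one_mul]
      have h1 := hlay ι (A i) (s i) (cf i) (G i) u J (M' + P) (T₀ + R) Cexp κ (wz i q) (hIn i) hCexp (hG i) hz'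
      rw [hL i] at h1
      have hw0 : 0 ≤ lam κ ^ (-((M' + P : ℕ) : ℤ)) := zpow_nonneg (hlam0 κ).le _
      have h2 : ‖(layF (A i) (cf i) (G i) κ 1).fld (s i) (wz i q)‖ ^ 2 ≤ (Cl * h ^ k) * (Cexp * lam κ ^ (-((M' + P : ℕ) : ℤ))) ^ 2 := by
        refine h1.trans ?_
        have h3 := (hw q hq i).2.2
        have h4 : 0 ≤ Cl * (Cexp * lam κ ^ (-((M' + P : ℕ) : ℤ))) ^ 2 * h ^ k := by positivity
        calc Cl * (Cexp * lam κ ^ (-((M' + P : ℕ) : ℤ))) ^ 2 * h ^ k * (A i).env (s i) (cf i) P (wz i q)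
            ≤ Cl * (Cexp * lam κ ^ (-((M' + P : ℕ) : ℤ))) ^ 2 * h ^ k * 1 := mul_le_mul_of_nonneg_left h3 h4
          _ = _ := by ring
      have h5 := Real.sqrt_le_sqrt h2
      rw [Real.sqrt_sq (norm_nonneg _), Real.sqrt_mul (by positivity), Real.sqrt_sq (by positivity)] at h5
      linarith
    have hτ : ∑' κ : Lat k, (if κ ∈ 𝒦 then 0 else lam κ ^ (-((M' + P : ℕ) : ℤ))) ≤ Ct * Real.sqrt h ^ (-(K₁ : ℤ)) := by
      rw [hM]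
      exact htail (Real.sqrt h) hsq1
    have h6 := fxb_series hsum (fun κ : Lat k => lam κ ^ (-((M' + P : ℕ) : ℤ))) (Real.sqrt (Cl * h ^ k) * Cexp) (Ct * Real.sqrt h ^ (-(K₁ : ℤ))) hsw
      (fun κ => zpow_nonneg (hlam0 κ).le _) (by positivity) hfw 𝒦 (by convert hτ)
    have h7 : Real.sqrt (Cl * h ^ k) * Cexp * (Ct * Real.sqrt h ^ (-(K₁ : ℤ))) ≤ 1 / 2 := by
      rw [Real.sqrt_mul hCl]
      calc Real.sqrt Cl * Real.sqrt (h ^ k) * Cexp * (Ct * Real.sqrt h ^ (-(K₁ : ℤ)))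
          = Real.sqrt Cl * Cexp * Ct * Real.sqrt (h ^ k) * Real.sqrt h ^ (-(K₁ : ℤ)) := by ring
        _ ≤ 1 / 2 := hi
    have h8 : ∑ κ ∈ 𝒦, ‖u (A i).L κ (wz i q) * (layF (A i) (cf i) (G i) κ 1).fld (s i) (wz i q)‖ = ∑ κ ∈ 𝒦, φ i κ q :=
      Finset.sum_congr rfl fun κ _ => by rw [norm_mul, hu, one_mul]
    rw [h8] at h6
    have h9 := (hw q hq i).2.1
    linarith [ha1 i]
  have hθ : ∀ i, ∑ κ ∈ 𝒦, θ i κ < a i / 2 := by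
    intro i
    have e : ∑ κ ∈ 𝒦, θ i κ = c₀ * a i * ∑ κ ∈ 𝒦, lam κ ^ (-((k + 2 : ℕ) : ℝ)) := by
      rw [Finset.mul_sum]
      refine Finset.sum_congr rfl fun κ _ => ?_
      rw [Real.rpow_neg (hlam0 κ).le, Real.rpow_natCast]
      show c₀ * a i / lam κ ^ (k + 2) = _
      rw [div_eq_mul_inv]
    rw [e]
    have h1 : c₀ * a i * ∑ κ ∈ 𝒦, lam κ ^ (-((k + 2 : ℕ) : ℝ)) ≤ c₀ * a i * Sb :=
      mul_le_mul_of_nonneg_left (hsb 𝒦) (by have := ha0 i; positivity)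
    have h2 : c₀ * Sb < 1 / 2 := by
      rw [hc₀, div_mul_eq_mul_div, one_mul, div_lt_div_iff₀ (by positivity) (by norm_num)]
      linarith
    have h3 : c₀ * a i * Sb = (c₀ * Sb) * a i := by ring
    nlinarith [ha0 i]
  have hpig := fxb_pigeon Y 𝒦 φ θ a hφ hθ
  set D : Fin (k + 1) → ℝ := fun i => h ^ 2 * energy (s i) (cf i) with hDd
  have hD0 : ∀ i, 0 ≤ D i := fun i => by
    have : 0 ≤ energy (s i) (cf i) := by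
      unfold energy
      exact Finset.sum_nonneg fun α _ => by positivity
    rw [hDd]
    positivity
  have hX0 : 0 ≤ Cx * (2 * Q) ^ Cx := mul_nonneg hCx (Real.rpow_nonneg (by linarith) _)
  have heq : ∀ (i : Fin (k + 1)) (κ : Lat k), θ i κ * lam κ ^ M' / Cμ = g₀ * lam κ ^ a₁ * a i := by
    intro i κ
    have := hlam0 κ
    show c₀ * a i / lam κ ^ (k + 2) * lam κ ^ M' / Cμ = _
    rw [hg₀, hM', pow_add]
    field_simp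
    ring
  have htuple : ∀ κs ∈ Fintype.piFinset (fun _ : Fin (k + 1) => 𝒦), ((Y.filter fun q => ∀ i, θ i (κs i) ≤ φ i (κs i) q).card : ℝ) ≤
      Cx * (2 * Q) ^ Cx * ((∏ i, g₀ * lam (κs i) ^ a₁ * a i) ^ (-fxe k) * ∑ i, D i / (g₀ * lam (κs i) ^ a₁ * a i) ^ 2) := by
    intro κs hκs
    rw [Fintype.mem_piFinset] at hκs
    have h1 := htup ι A s cf G u h Q (fun i => θ i (κs i)) κs (Y.filter fun q => ∀ i, θ i (κs i) ≤ φ i (κs i) q) wz hh2 hL hIn htc hQ htr hG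
      (fun i => (mem_layS _ _).1 (hκs i))
      (le_trans (mul_le_mul_of_nonneg_right hQh (by positivity)) hiii)
      (fun i => by
        rw [heq]
        have h2 : h ^ (c / 2) ≤ g₀ * h ^ c := by
          rw [one_div, inv_mul_le_iff₀ hg₀0] at hii
          exact hii
        have h3 : (1 : ℝ) ≤ lam (κs i) ^ a₁ := one_le_pow₀ (one_le_lam _)
        calc h ^ (c / 2) ≤ g₀ * h ^ c := h2
          _ ≤ g₀ * a i := mul_le_mul_of_nonneg_left (ha i) hg₀0.le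
          _ = g₀ * 1 * a i := by ring
          _ ≤ g₀ * lam (κs i) ^ a₁ * a i := by
              have := ha0 i
              gcongr)
      (fun q hq i => by
        rw [Finset.mem_filter] at hq
        exact ⟨(hw q hq.1 i).1, hslab q hq.1 i, hq.2 i, (hw q hq.1 i).2.2⟩)
    simp only [heq] at h1
    exact h1
  have hSS : ∑ κ ∈ 𝒦, lam κ ^ (-(fxe k * a₁)) ≤ S := by
    have e : fxe k * (a₁ : ℝ) = ((4 * (k + 2) : ℕ) : ℝ) := by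
      have hk0 : (0 : ℝ) < k := by exact_mod_cast hk
      rw [ha₁]
      unfold fxe
      push_cast
      field_simp
    rw [e]
    exact hs 𝒦
  have hsum := fxb_sum hk 𝒦 (Cx * (2 * Q) ^ Cx) g₀ S a₁ a D hX0 hg₀0 ha0 hD0 hSS
  calc (Y.card : ℝ) ≤ _ := hpig
    _ ≤ _ := Finset.sum_le_sum htuple
    _ ≤ _ := hsum
    _ = _ := by ring

/-- **LEAF L-F1-EXB-MAIN: EXIT OF BLOCK EX.**
PLAN.  `intro c R B Rw T₀ m₀ hc`.   `R' = max R 0`, `T₀' = max T₀ 0`.   `P₀` from `hX (c/2) (2√k) (Rw + 1 + √k) (3^k) (T₀' + R') (half_pos hc)`.   For `P ≥ P₀`: `J`, `Cx`; `Cx' = max Cx 0` (`XFrameWith.mono`).   `fxb_big … R' B Rw T₀' m₀ … P J Cx'`: `J₀`, `h₀`, `C₁`.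
`fxb_elem hk ⟨J₀,R',B,Rw,m₀⟩ P`: `C₂`.      `C := max (C₁ 2^Cx') (max Cx' (max (C₂ (max h₀ 1)^(k+2)) (max C₂ (4 (k+2)))))`.
A configuration of the class `⟨J₀,R,B,Rw,m₀⟩` is one of the class `⟨J₀,R',B,Rw,m₀⟩` (`Prof.mono`), `|tc| ≤ T₀ ≤ T₀'`.   `rhs ≥ 0`, `Q^C ≥ 1`, `unfold fxe`.
(a) `h₀ ≤ h`, `Q ≤ h^(1/4)`: `fxb_big`, `(2Q)^Cx' = 2^Cx' Q^Cx' ≤ 2^Cx' Q^C` (`Real.mul_rpow`, `Real.rpow_le_rpow_of_exponent_le`).   (b) `h < h₀`: `fxb_elem`, `h^(k+2) ≤ (max h₀ 1)^(k+2)`.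
(c) `h^(1/4) < Q`: `h ≤ Q⁴`, `h^(k+2) ≤ Q^(4(k+2)) ≤ Q^C`; `fxb_elem`. -/
theorem fxb_main (hk : 1 ≤ k) (hexp : ExpStmt k) (hcell : CellStmt k) (hX : XFrameStmt k) : FrameStmt k := by
  intro c R B Rw T₀ m₀ hc
  obtain ⟨P₀, hP₀⟩ := hX (c / 2) (2 * Real.sqrt k) (Rw + 1 + Real.sqrt k) (3 ^ k) (max T₀ 0 + max R 0) (half_pos hc)
  refine ⟨P₀, fun P hP => ?_⟩
  obtain ⟨J, Cx, hCx⟩ := hP₀ P hP
  have hCx' := hCx.mono (le_max_left Cx 0) (le_max_right Cx 0)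
  obtain ⟨J₀, h₀, C₁, hC₁, hbig⟩ := fxb_big hk hexp hcell c (max R 0) B Rw (max T₀ 0) m₀ hc (le_max_right _ _) (le_max_right _ _) P J (max Cx 0)
    (le_max_right _ _) hCx'
  obtain ⟨C₂, hC₂, helem⟩ := fxb_elem hk ⟨J₀, max R 0, B, Rw, m₀⟩ P
  set Cx' : ℝ := max Cx 0 with hCxd
  have hCx0 : 0 ≤ Cx' := le_max_right _ _
  set C : ℝ := max (C₁ * 2 ^ Cx') (max Cx' (max (C₂ * (max h₀ 1) ^ (k + 2)) (max C₂ ((4 * (k + 2) : ℕ) : ℝ)))) with hCd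
  have hCa : C₁ * 2 ^ Cx' ≤ C := le_max_left _ _
  have hCb : Cx' ≤ C := (le_max_left _ _).trans (le_max_right _ _)
  have hCc : C₂ * (max h₀ 1) ^ (k + 2) ≤ C := (le_max_left _ _).trans ((le_max_right _ _).trans (le_max_right _ _))
  have hCd' : C₂ ≤ C := (le_max_left _ _).trans ((le_max_right _ _).trans ((le_max_right _ _).trans (le_max_right _ _)))
  have hCe : ((4 * (k + 2) : ℕ) : ℝ) ≤ C := (le_max_right _ _).trans ((le_max_right _ _).trans ((le_max_right _ _).trans (le_max_right _ _)))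
  have hC0 : 0 ≤ C := hCx0.trans hCb
  refine ⟨J₀, C, ?_⟩
  intro ι A s cf h Q a Y wz hh hL hIn htc hQ htr ha hw
  have hh0 : 0 < h := by linarith
  have hh1 : 1 ≤ h := by linarith
  have hIn' : ∀ i, (A i).In (s i) ⟨J₀, max R 0, B, Rw, m₀⟩ := fun i =>
    ⟨(hIn i).one_le, fun α hα => ((hIn i).prof α hα).mono le_rfl (le_max_left _ _) le_rfl, (hIn i).freq, (hIn i).mult⟩
  have htc' : ∀ i, ∀ α ∈ s i, |(A i).tc α| ≤ max T₀ 0 := fun i α hα => (htc i α hα).trans (le_max_left _ _)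
  have ha0 : ∀ i, 0 < a i := fun i => lt_of_lt_of_le (Real.rpow_pos_of_pos hh0 c) (ha i)
  set rhs : ℝ := (∏ i, a i) ^ (-fxe k) * ∑ i, h ^ 2 * energy (s i) (cf i) / a i ^ 2 with hrhs
  have hrhs0 : 0 ≤ rhs := by
    refine mul_nonneg (Real.rpow_nonneg (Finset.prod_nonneg fun i _ => (ha0 i).le) _) (Finset.sum_nonneg fun i _ => ?_)
    unfold energy
    have : 0 ≤ ∑ α ∈ s i, ‖cf i α‖ ^ 2 := Finset.sum_nonneg fun α _ => by positivity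
    have := ha0 i
    positivity
  have hgoal : C * Q ^ C * (∏ i, a i) ^ (-(4 / ((k : ℝ) * ((k : ℝ) + 1)))) * ∑ i, h ^ 2 * energy (s i) (cf i) / a i ^ 2 = C * Q ^ C * rhs := by
    rw [hrhs]; unfold fxe; ring
  rw [hgoal]
  have hQC : 1 ≤ Q ^ C := Real.one_le_rpow hQ hC0
  have hel := helem ι A s cf h a Y wz hh1 hL hIn' ha0 hw
  by_cases h1 : h₀ ≤ h
  · by_cases h2 : Q ≤ h ^ (1 / 4 : ℝ)
    · have hb := hbig ι A s cf h Q a Y wz h1 hh h2 hL hIn' htc' hQ htr ha hw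
      refine hb.trans ?_
      refine mul_le_mul_of_nonneg_right ?_ hrhs0
      rw [Real.mul_rpow (by norm_num) (by linarith), ← mul_assoc]
      exact mul_le_mul hCa (Real.rpow_le_rpow_of_exponent_le hQ hCb) (Real.rpow_nonneg (by linarith) _) hC0
    · push Not at h2
      refine hel.trans ?_
      refine mul_le_mul_of_nonneg_right ?_ hrhs0
      have h3 : h ≤ Q ^ 4 := by
        have e : h = (h ^ (1 / 4 : ℝ)) ^ 4 := by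
          rw [← Real.rpow_natCast, ← Real.rpow_mul hh0.le]; norm_num
        rw [e]
        exact pow_le_pow_left₀ (Real.rpow_nonneg hh0.le _) h2.le 4
      have h4 : h ^ (k + 2) ≤ Q ^ C := by
        calc h ^ (k + 2) ≤ (Q ^ 4) ^ (k + 2) := pow_le_pow_left₀ hh0.le h3 _
          _ = Q ^ ((4 * (k + 2) : ℕ) : ℝ) := by rw [← pow_mul, Real.rpow_natCast]
          _ ≤ Q ^ C := Real.rpow_le_rpow_of_exponent_le hQ hCe
      exact mul_le_mul hCd' h4 (by positivity) hC0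
  · push Not at h1
    refine hel.trans ?_
    refine mul_le_mul_of_nonneg_right ?_ hrhs0
    have h3 : h ^ (k + 2) ≤ (max h₀ 1) ^ (k + 2) := pow_le_pow_left₀ hh0.le (h1.le.trans (le_max_left _ _)) _
    calc C₂ * h ^ (k + 2) ≤ C₂ * (max h₀ 1) ^ (k + 2) := mul_le_mul_of_nonneg_left h3 hC₂
      _ ≤ C := hCc
      _ = C * 1 := (mul_one _).symm
      _ ≤ C * Q ^ C := mul_le_mul_of_nonneg_left hQC hC0

end

end Claimed.Agent.R257.FR1
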