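import Claimed.Agent.R257.FR1.ExBMain
import Claimed.Agent.R257.FR1.ExA2

/-!
# FR1, block EX: THE EXIT            (captain EX helper164)
`fex_main : 1 ≤ k → XFrameStmt k → FrameStmt k`  (H `frame.tex`, f:exact: the frame estimate for exact packets in lattice form implies the frame estimate for arrays of atoms).
`ExA2.lean` (helper273): the exact expansion of an atom and the relabelling of a cell;   `ExBMain.lean`: the reduction.
-/

set_option autoImplicit false

namespace Claimed.Agent.R257.FR1

open Claimed.Agent.R257 Claimed.Agent.R257.Tree

/-- **EXIT of block EX** -/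
theorem fex_main {k : ℕ} (hk : 1 ≤ k) (hX : XFrameStmt k) : FrameStmt k :=
  fxb_main hk (fxa_expStmt k) (fxa_cellStmt k) hX

end Claimed.Agent.R257.FR1
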