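import Claimed.Agent.R257.FR1.HvGeo
import Claimed.Agent.R257.FR1.Ad
import Claimed.Agent.R257.Tree.Root
import Claimed.Agent.R257.Tree.Hier

/-!
# ROW 257, package FR1, block HV, file 2: THE ANALYTIC TOOLS OF `R257/Tree` IN THE PLAIN LANGUAGE `T2`      (architect helper240; prefix `f1h_`)

PAPER-FREE translations: `ti_closure`, `ti_pk_le`, `ti_l2`, `ti_nc_top`, `ti_cauchy` for the tree `t.dat c` (`c.ℓ = c.tr = 1`), rewritten with the bridges `t2_good`, `t2_adm`, `t2_pre`, `t2_amp`, `t2_asm`, `t2_en` of `FR1/T2.lean`.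
GENERAL RECIPE: sums over the subtype `(t.dat c).Cl 1 = {S // S ∈ t.W1}` become sums over `t.W1` by `Finset.sum_coe_sort t.W1 (fun S => …)` (see the proofs of `t2_root`, `t2_top`, `t2_en`);  `(t.dat c).κ 1 = t.κ1`, `(t.dat c).κ 0 = t.κ0`, `(t.dat c).wA A 1 S z = t.w1 A S z`,
`(t.dat c).wA A 0 T z = t.w0 A T z`, `(t.dat c).ctr 1 S = t.ctr1 S` hold by `rfl`.   Where `c.ℓ` occurs in a type, start with `obtain ⟨ℓ, tr, P, Q, M, C0, ρ, χ, ρχ, Cχ, Cc, Cm⟩ := c; dsimp only at hℓ htr; subst hℓ htr` (as in `t2_good`).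
Every `sorry` is a LEAF `L-F1-HA*`; all independent: edit ONLY your block.
-/

set_option autoImplicit false

namespace Claimed.Agent.R257.FR1

open Claimed.Agent.R257 Claimed.Agent.R257.FR2 Claimed.Agent.R257.Tree
open scoped BigOperators Classical BoundedContinuousFunction

noncomputable section

variable {k : ℕ}

/-- the fresh amplitudes are nonnegative -/
theorem f1h_amp_nonneg (t : T2 k) {c : TCls k} (hc : c.Ok) (S : t.Λ1 × Lat k) : 0 ≤ t.amp c S :=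
  mul_nonneg (zero_le_one.trans hc.one_le_Cχ) (Real.iSup_nonneg fun _ => mul_nonneg (norm_nonneg _) (Real.rpow_nonneg (by positivity) _))

/-- **LEAF L-F1-HA1: the localised cap fields are packets of scale `κ1` with the fresh amplitudes.**
PLAN: `ti_closure hc (t.dat c) (t2_good t c hc hℓ htr h) 0 (t.lf c) (fun T => t.s0 T.1) (t2_adm t c h) ⟨S, hS⟩`; rewrite the amplitude with `t2_amp`, the function with `funext`/`t2_asm` (an `IsPk` for a pointwise equal function: unfold `IsPk`, keep `F`). -/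
theorem f1h_pk (t : T2 k) {c : TCls k} (hc : c.Ok) (hℓ : c.ℓ = 1) (htr : c.tr = 1) (h : t.Good c) (S : t.Λ1 × Lat k) (hS : S ∈ t.W1) :
    IsPk (c.ρ 1) c.M t.κ1 (t.fr1 S.1) (lat S.2) (t.amp c S) (fun z => t.loc c S z * t.pre S.1 z) := by
  have h1 := ti_closure hc (t.dat c) (t2_good t c hc hℓ htr h) 0 (t.lf c) (fun T => t.s0 T.1) (t2_adm t c h) ⟨S, hS⟩
  rw [t2_amp] at h1
  obtain ⟨F, hF1, hF2, hF3⟩ := h1
  exact ⟨F, hF1, hF2, fun z => (t2_asm t c ⟨S, hS⟩ z).symm.trans (hF3 z)⟩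

/-- **LEAF L-F1-HA2: pointwise bound of a localised cap field** (ALL masks `S`, retained or not).
PLAN: direct.  `‖loc‖ ≤ Cχ (1 + d)^(-(M + C0))` (`hc.χ_dec`), `Real.rpow_add`/`neg_add`: `= Cχ (1+d)^(-M) (1+d)^(-C0)`;   `‖pre z‖ (1+d)^(-C0) ≤ ⨆ …` (`le_ciSup`; bounded above: `‖pre z‖ ≤ ‖pre‖` (`BoundedContinuousFunction.norm_coe_le_norm`), weight `≤ 1` as `0 ≤ C0` from `hc.C0_ge`, `hc.P_lt`, `hc.P_gt`;
cf. `TDat.amp_bdd`, `TDat.le_amp` in `Tree/Alg.lean`). -/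
theorem f1h_pt_le (t : T2 k) {c : TCls k} (hc : c.Ok) (S : t.Λ1 × Lat k) (z : ST k) : ‖t.loc c S z * t.pre S.1 z‖ ≤ t.amp c S * t.w1 c.M S z := by
  exact t2_pk t c hc S z

/-- **LEAF L-F1-HA3: (f:original-energy)** (H l.175-179).   PLAN: `ti_l2 hc h2` at `D = t.dat c`, `i = 0` (`0 < c.ℓ` from `hℓ`), `g = t.lf c`, `a = fun T => t.s0 T.1` (`t2_adm`); left side: `t2_amp`, `Finset.sum_coe_sort t.W1 (fun S => t.κ1^(k+2) * t.amp c S^2)`, `Finset.mul_sum`;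
right side: `Finset.sum_coe_sort t.W0 …`, `T2.en`, `Finset.mul_sum`. -/
theorem f1h_energy {c : TCls k} (hc : c.Ok) (hℓ : c.ℓ = 1) (htr : c.tr = 1) (h2 : L2At k c.M) : ∃ C : ℝ, 1 ≤ C ∧ ∀ t : T2 k, t.Good c →
    t.κ1 ^ (k + 2) * ∑ S ∈ t.W1, t.amp c S ^ 2 ≤ C * t.en := by
  exact t2_l2 c hc hℓ htr h2

/-- **LEAF L-F1-HA4: `p:near-cauchy` for a subfamily of the masks.**
PLAN: `ti_nc_top hc hN hε` at `D = t.dat c` (after `subst`: `c.ℓ = 1`), `g = D.asm 0 (t.lf c)`, `a = D.amp 0 (t.lf c)` (`ti_closure`), `S = U.subtype (· ∈ t.W1)` (or `Finset.univ.filter fun T => T.1 ∈ U`), `Y' = Y'.subtype (· ∈ t.Yf)`;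
`Finset.sum_subtype_of_mem`/`Finset.sum_subtype`, `Finset.card_subtype`, `t2_amp`, `t2_asm`, `T2.fldM`. -/
theorem f1h_nc {c : TCls k} (hc : c.Ok) (hℓ : c.ℓ = 1) (htr : c.tr = 1) (hN : NcAt k c.Q c.M) {ε : ℝ} (hε : 0 < ε) : ∃ C : ℝ, 1 ≤ C ∧ ∀ t : T2 k, t.Good c →
    ∀ U ⊆ t.W1, ∀ Y' ⊆ t.Yf, ∀ σ R : ℝ, 0 < σ → 1 ≤ R →
    (∀ q ∈ Y', ∑ S ∈ U, t.amp c S ^ 2 * t.w1 c.Q S (t.pt q) ≤ σ ^ 2 ∧ σ * t.κ1 ^ ((k : ℝ) / 2) / R ≤ ‖t.fldM c U (t.pt q)‖) →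
      (Y'.card : ℝ) ≤ C * R ^ (qk k + ε) * (∑ S ∈ U, t.amp c S ^ 2) / σ ^ 2 := by
  obtain ⟨C, hC, H⟩ := t2_nc c hc hℓ htr hN hε
  exact ⟨C, hC, fun t ht U hU Y' hY' σ R hσ hR h => H t ht U Y' σ R hU hY' hσ hR h⟩

/-- **LEAF L-F1-HA5: local Cauchy at a mask** (H l.168-170: `a_T ≲ (h/H)^{k/2} b_T`).
PLAN: `ti_cauchy hc` at `D = t.dat c`, `i = 0`, `g = t.lf c`, `a = s0`, `T = ⟨S, hS⟩`; `t2_amp`; `D.edge c.Q 0 T' S = if t.par T'.1 = S.1 then t.w0 c.Q T' (t.ctr1 S) else 0` by `rfl`; `Finset.sum_coe_sort t.W0 …`; `T2.eb` (`mul_ite`, `mul_zero`). -/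
theorem f1h_cauchy {c : TCls k} (hc : c.Ok) (hℓ : c.ℓ = 1) (htr : c.tr = 1) : ∃ C : ℝ, 1 ≤ C ∧ ∀ t : T2 k, t.Good c → ∀ S ∈ t.W1,
    t.amp c S ^ 2 ≤ C * (t.κ0 / t.κ1) ^ k * t.eb c.Q S.1 (t.ctr1 S) := by
  obtain ⟨C₁, hC₁, hcau⟩ := ti_cauchy hc
  refine ⟨C₁, hC₁, fun t ht S hS => ?_⟩
  have h2 := hcau (t.dat c) (t2_good t c hc hℓ htr ht) 0 (t.lf c) (fun T => t.s0 T.1) (t2_adm t c ht) ⟨S, hS⟩
  rw [t2_amp] at h2
  refine h2.trans (le_of_eq ?_)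
  have e : ∑ T' : (t.dat c).Cl 0, t.s0 T'.1 ^ 2 * (t.dat c).edge c.Q 0 T'.1 S = ∑ T ∈ t.W0, t.s0 T ^ 2 * (t.dat c).edge c.Q 0 T S :=
    Finset.sum_coe_sort t.W0 (fun T => t.s0 T ^ 2 * (t.dat c).edge c.Q 0 T S)
  have e' : (∑ T' : (t.dat c).Cl 0, (fun T : (t.dat c).Cl 0 => t.s0 T.1) T' ^ 2 * (t.dat c).edge c.Q 0 T'.1 (⟨S, hS⟩ : (t.dat c).Cl (0 + 1)).1)
      = ∑ T ∈ t.W0, t.s0 T ^ 2 * (t.dat c).edge c.Q 0 T S := e
  rw [e']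
  have e4 : ∑ T ∈ t.W0, t.s0 T ^ 2 * (t.dat c).edge c.Q 0 T S = t.eb c.Q S.1 (t.ctr1 S) := by
    unfold T2.eb
    refine Finset.sum_congr rfl fun T _ => ?_
    have e3 : (t.dat c).edge c.Q 0 T S = if t.par T.1 = S.1 then t.w0 c.Q T (t.ctr1 S) else 0 := rfl
    rw [e3]
    split_ifs <;> simp
  rw [e4]
  rfl

/-- **LEAF L-F1-HA6: the weighted square sum of the fresh amplitudes at the witnesses** (H l.170-171).
PLAN: `f1h_cauchy`; multiply by `t.w1 c.Q S z ≥ 0`, sum over `S ∈ t.W1`; unfold `T2.eb`, `Finset.sum_mul`/`Finset.mul_sum`, `Finset.sum_comm`: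
`∑_{S ∈ W1} eb Q S.1 (ctr1 S) w1 Q S z = ∑_{T ∈ W0} s0 T² ker0 Q T z` (`T2.ker0`; the conditions `t.par T.1 = S.1` and `S.1 = t.par T.1` agree: `eq_comm`);
`ker0 Q ≤ ker0 P` termwise (`hc.P_lt`, `Real.rpow_le_rpow_of_exponent_le`, bases `≥ 1`);  `h.sq0`. -/
theorem f1h_sq1 {c : TCls k} (hc : c.Ok) (hℓ : c.ℓ = 1) (htr : c.tr = 1) : ∃ C : ℝ, 1 ≤ C ∧ ∀ t : T2 k, t.Good c → ∀ q ∈ t.Yf,
    ∑ S ∈ t.W1, t.amp c S ^ 2 * t.w1 c.Q S (t.pt q) ≤ C * (t.κ0 / t.κ1) ^ k * t.ϖ := by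
  obtain ⟨C, hC, H⟩ := f1h_cauchy hc hℓ htr
  refine ⟨C, hC, fun t ht q hq => ?_⟩
  have hκ1 : 0 < t.κ1 := lt_of_lt_of_le one_pos ht.one_le_κ1
  have hκ0 : 0 < t.κ0 := lt_of_lt_of_le hκ1 ht.κ_le
  have hr : 0 ≤ (t.κ0 / t.κ1) ^ k := by positivity
  have hw1 : ∀ (A : ℝ) S z, 0 ≤ t.w1 A S z := fun A S z => (Real.rpow_pos_of_pos (by positivity) _).le
  have hw0 : ∀ (A : ℝ) T z', 0 ≤ t.w0 A T z' := fun A T z' => (Real.rpow_pos_of_pos (by positivity) _).le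
  have hPQ : c.P ≤ c.Q := hc.P_lt.le
  have a1 : ∀ S z, t.w1 c.Q S z ≤ t.w1 c.P S z := fun S z =>
    Real.rpow_le_rpow_of_exponent_le (by linarith [norm_nonneg (natX t.κ1 (t.fr1 S.1) z - lat S.2)]) (by linarith)
  have a0 : ∀ T z, t.w0 c.Q T z ≤ t.w0 c.P T z := fun T z =>
    Real.rpow_le_rpow_of_exponent_le (by linarith [norm_nonneg (natX t.κ0 (t.fr0 T.1) z - lat T.2)]) (by linarith)
  calc ∑ S ∈ t.W1, t.amp c S ^ 2 * t.w1 c.Q S (t.pt q)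
      ≤ ∑ S ∈ t.W1, (C * (t.κ0 / t.κ1) ^ k * t.eb c.Q S.1 (t.ctr1 S)) * t.w1 c.Q S (t.pt q) :=
        Finset.sum_le_sum fun S hS => mul_le_mul_of_nonneg_right (H t ht S hS) (hw1 _ S _)
    _ = C * (t.κ0 / t.κ1) ^ k * ∑ S ∈ t.W1, t.w1 c.Q S (t.pt q) * t.eb c.Q S.1 (t.ctr1 S) := by
        rw [Finset.mul_sum]
        refine Finset.sum_congr rfl fun S _ => ?_
        ring
    _ = C * (t.κ0 / t.κ1) ^ k * ∑ T ∈ t.W0, t.s0 T ^ 2 * t.ker0 c.Q T (t.pt q) := by rw [t2_sq0_eq]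
    _ ≤ C * (t.κ0 / t.κ1) ^ k * ∑ T ∈ t.W0, t.s0 T ^ 2 * t.ker0 c.P T (t.pt q) := by
        refine mul_le_mul_of_nonneg_left (Finset.sum_le_sum fun T _ => mul_le_mul_of_nonneg_left ?_ (sq_nonneg _)) (mul_nonneg (by linarith) hr)
        unfold T2.ker0
        refine Finset.sum_le_sum fun S _ => ?_
        split_ifs
        · exact mul_le_mul (a1 S _) (a0 T _) (hw0 _ _ _) (hw1 _ _ _)
        · exact le_rfl
    _ ≤ C * (t.κ0 / t.κ1) ^ k * t.ϖ := mul_le_mul_of_nonneg_left (ht.sq0 q hq) (mul_nonneg (by linarith) hr)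

end

end Claimed.Agent.R257.FR1
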