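import Claimed.Agent.R257.FR1.HvAn
import Claimed.Agent.R257.FR1.Abs

/-!
# ROW 257, package FR1, block HV, file 3: (f:Sbalance), HEAVY MASKS, (f:ballcount)      (architect helper240; prefix `f1h_`)        H `frame.tex` l.147-247

ONE FIELD = one two-height tree `t : T2 k` (`t.Good c`, `c.ℓ = c.tr = 1`): leaves of scale `κ0`, masks `W1` of scale `κ1 = H`, witnesses `pt q`, `q ∈ Yf`.     PARAMETERS (free real numbers, the consumer NORM chooses them):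
* `s`   upper bound of the fresh amplitudes of the selected class  (paper: `s = 2 S_i H^{-k/2}`);          * `θ`   threshold of the masked field at the witnesses  (paper: `H^{k/2} (1 + log S_i)^{-C}`);
* `R ≥ 1`  with  `s κ1^k ≤ R θ`   (paper: `R = 2 S_i (1 + log S_i)^C`);           * `r`   native radius of the enlargement;            * `Ω`   occupancy threshold (paper: `S^{C₁}`).
EXITS
* `f1h_class`, `f1h_cls_upper`   selection of a dyadic amplitude class at one witness; the class index is `O(log h)`             (f:original-amplitudes), `log S = O(log h)`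
* `f1h_masks`                    `#W1 · s₀² κ1^{k+2} ≤ C en`  if `s₀ ≤ amp` on `W1`                                              (f:original-energy)
* `f1h_upper`                    `#Y κ1^{k+2} (s² κ1^k) ≤ C R^{q+ε} en`                                                           upper half of (f:Sbalance)
* `f1h_sbal`                     `k + 1` fields + failure of the frame bound  ⟹  all the balances                                (f:Sbalance)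
* `f1h_main`                     heavy masks removed: `Y' ⊆ Yf`, `#(Yf \ Y') Ω ≤ C R^{q+ε} (1+r)^{k+1} #Yf`; on `Y'`: light field `≥ θ/2`, `≥ κ1^k/(4R)` near light masks; occupancy `≤ Ω`
* `f1h_ball`                     (f:ballcount) for every subset of witnesses with many near masks of bounded occupancy, ANY centre, sup metric of `ST k`
Every `sorry` is a LEAF `L-F1-HM*`; all independent: edit ONLY your block.
-/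

set_option autoImplicit false

namespace Claimed.Agent.R257.FR1

open Claimed.Agent.R257 Claimed.Agent.R257.FR2 Claimed.Agent.R257.Tree
open scoped BigOperators Classical BoundedContinuousFunction

noncomputable section

variable {k : ℕ}

/-! ## 1. amplitude classes -/

/-- **LEAF L-F1-HM1: selection of one dyadic amplitude class at a high point** (H l.156-170).
PLAN: `C` from `f1h_sum_w` with `A = c.M` (`k + 1 < c.M` from `hc.M_gt`, `hc.P_lt`, `hc.P_gt`).   `fa_class t.W1 (fun S => t.loc c S z * t.pre S.1 z) (t.amp c) (fun S => t.w1 c.M S z) σ (C * (c.Cm * t.κ1^k)) A`: `hφ` = `f1h_pt_le`, `hw`: `Real.rpow_nonneg`; `T2.root`, `T2.fldM` unfold. -/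
theorem f1h_class {c : TCls k} (hc : c.Ok) : ∃ C : ℝ, 1 ≤ C ∧ ∀ t : T2 k, t.Good c → ∀ (z : ST k) (σ A : ℝ), 0 < σ → 0 < A → σ * (C * (c.Cm * t.κ1 ^ k)) ≤ A / 4 → A ≤ ‖t.root c z‖ →
    ∃ n : ℕ, 3 * A / 4 * pn n ≤ ‖t.fldM c (dcl t.W1 (t.amp c) σ n) z‖ := by
  have hM : (k : ℝ) + 1 < c.M := by linarith [hc.M_gt, hc.P_lt, hc.P_gt, (Nat.cast_nonneg k : (0 : ℝ) ≤ k)]
  obtain ⟨C, hC, H⟩ := f1h_sum_w (k := k) hM
  refine ⟨C, hC, fun t ht z σ A hσ hA hσA hz => ?_⟩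
  exact fa_class t.W1 (fun S => t.loc c S z * t.pre S.1 z) (t.amp c) (fun S => t.w1 c.M S z) σ (C * (c.Cm * t.κ1 ^ k)) A hσ hA
    (fun S _ => Real.rpow_nonneg (by positivity) _) (fun S _ => f1h_pt_le t hc S z) (H c t ht t.W1 z) hσA hz

/-- **LEAF L-F1-HM2: a class which is high at one witness is not too large** (H l.168-173).
PLAN: `C` from `f1h_sq1`.   `fa_class_upper t.W1 φ (t.amp c) (fun S => t.w1 c.Q S (t.pt q)) σ (C (κ0/κ1)^k ϖ) θ n`; `hφ`: `f1h_pt_le` and `w1 M ≤ w1 Q` (`hc.M_gt`: `Q ≤ M`; `Real.rpow_le_rpow_of_exponent_le`), `f1h_amp_nonneg`. -/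
theorem f1h_cls_upper {c : TCls k} (hc : c.Ok) (hℓ : c.ℓ = 1) (htr : c.tr = 1) : ∃ C : ℝ, 1 ≤ C ∧ ∀ t : T2 k, t.Good c → ∀ q ∈ t.Yf, ∀ (σ θ : ℝ) (n : ℕ), 0 < σ →
    θ ≤ ‖t.fldM c (dcl t.W1 (t.amp c) σ n) (t.pt q)‖ → θ * (2 ^ n * σ) ≤ C * (t.κ0 / t.κ1) ^ k * t.ϖ := by
  obtain ⟨C, hC, H⟩ := f1h_sq1 hc hℓ htr
  refine ⟨C, hC, fun t ht q hq σ θ n hσ hθ => ?_⟩
  have hQM : c.Q ≤ c.M := by linarith [hc.M_gt, (Nat.cast_nonneg k : (0 : ℝ) ≤ k)]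
  exact fa_class_upper t.W1 (fun S => t.loc c S (t.pt q) * t.pre S.1 (t.pt q)) (t.amp c) (fun S => t.w1 c.Q S (t.pt q)) σ _ θ n hσ
    (fun S _ => Real.rpow_nonneg (by positivity) _)
    (fun S _ => (f1h_pt_le t hc S (t.pt q)).trans (mul_le_mul_of_nonneg_left
      (Real.rpow_le_rpow_of_exponent_le (by linarith [norm_nonneg (natX t.κ1 (t.fr1 S.1) (t.pt q) - lat S.2)]) (by linarith)) (f1h_amp_nonneg t hc S)))
    (H t ht q hq) hθ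

/-- **LEAF L-F1-HM3: few masks of large amplitude** ((f:original-amplitudes) + (f:original-energy)).   PLAN: `f1h_energy`; `#W1 · s₀² = ∑_{W1} s₀² ≤ ∑ amp²` (`Finset.card_nsmul_le_sum`/`Finset.sum_le_sum`, `pow_le_pow_left₀`). -/
theorem f1h_masks {c : TCls k} (hc : c.Ok) (hℓ : c.ℓ = 1) (htr : c.tr = 1) (h2 : L2At k c.M) : ∃ C : ℝ, 1 ≤ C ∧ ∀ t : T2 k, t.Good c → ∀ s₀ : ℝ, 0 ≤ s₀ → (∀ S ∈ t.W1, s₀ ≤ t.amp c S) →
    (t.W1.card : ℝ) * s₀ ^ 2 * t.κ1 ^ (k + 2) ≤ C * t.en := by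
  obtain ⟨C, hC, H⟩ := f1h_energy hc hℓ htr h2
  refine ⟨C, hC, fun t ht s₀ hs₀ hs => le_trans ?_ (H t ht)⟩
  have hκ : 0 < t.κ1 := lt_of_lt_of_le one_pos ht.one_le_κ1
  have h1 : (t.W1.card : ℝ) * s₀ ^ 2 ≤ ∑ S ∈ t.W1, t.amp c S ^ 2 := by
    have := Finset.card_nsmul_le_sum t.W1 (fun S => t.amp c S ^ 2) (s₀ ^ 2) (fun S hS => pow_le_pow_left₀ hs₀ (hs S hS) 2)
    rwa [nsmul_eq_mul] at this
  calc (t.W1.card : ℝ) * s₀ ^ 2 * t.κ1 ^ (k + 2) = t.κ1 ^ (k + 2) * ((t.W1.card : ℝ) * s₀ ^ 2) := by ring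
    _ ≤ t.κ1 ^ (k + 2) * ∑ S ∈ t.W1, t.amp c S ^ 2 := by gcongr

/-! ## 2. near-Cauchy with the background of bounded counting -/

/-- **LEAF L-F1-HM4: square background of a class of bounded amplitude** (H l.180-181).   PLAN: `C` from `f1h_sum_w` with `A = c.Q`; `amp² ≤ s²` (`f1h_amp_nonneg`, `pow_le_pow_left₀`); `Finset.mul_sum`. -/
theorem f1h_bg {c : TCls k} (hc : c.Ok) : ∃ C : ℝ, 1 ≤ C ∧ ∀ t : T2 k, t.Good c → ∀ (U : Finset (t.Λ1 × Lat k)) (s : ℝ), (∀ S ∈ U, t.amp c S ≤ s) → ∀ z : ST k,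
    ∑ S ∈ U, t.amp c S ^ 2 * t.w1 c.Q S z ≤ C * c.Cm * (s ^ 2 * t.κ1 ^ k) := by
  have hQ : (k : ℝ) + 1 < c.Q := by linarith [hc.P_lt, hc.P_gt]
  obtain ⟨C, hC, H⟩ := f1h_sum_w (k := k) hQ
  refine ⟨C, hC, fun t ht U s hs z => ?_⟩
  calc ∑ S ∈ U, t.amp c S ^ 2 * t.w1 c.Q S z ≤ ∑ S ∈ U, s ^ 2 * t.w1 c.Q S z :=
        Finset.sum_le_sum fun S hS => mul_le_mul_of_nonneg_right (pow_le_pow_left₀ (f1h_amp_nonneg t hc S) (hs S hS) 2) (Real.rpow_nonneg (by positivity) _)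
    _ = s ^ 2 * ∑ S ∈ U, t.w1 c.Q S z := by rw [Finset.mul_sum]
    _ ≤ s ^ 2 * (C * (c.Cm * t.κ1 ^ k)) := mul_le_mul_of_nonneg_left (H c t ht U z) (sq_nonneg _)
    _ = C * c.Cm * (s ^ 2 * t.κ1 ^ k) := by ring

/-- **LEAF L-F1-HM5: the count of the high points of a class of bounded amplitude** (H l.181-186, l.234-236).
PLAN.  `C₁` from `f1h_bg`, `C₂` from `f1h_nc`, `b = C₁ Cm ≥ 1`.   `σ = √b · s · κ1^(k/2)` (`σ² = b s² κ1^k`: `Real.sq_sqrt`, `← Real.rpow_natCast`, `← Real.rpow_mul`), `R' = √b · R ≥ 1`;  `σ κ1^(k/2)/R' = s κ1^k / R ≤ θ`.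
`f1h_nc`: `#Y' ≤ C₂ R'^(q+ε) ∑ amp²/σ²`;  `R'^(q+ε) = b^((q+ε)/2) R^(q+ε)` (`Real.mul_rpow`, `Real.sqrt_eq_rpow`);  `C = C₂ b^((q+ε)/2)` (`1/b ≤ 1`). -/
theorem f1h_count {c : TCls k} (hc : c.Ok) (hℓ : c.ℓ = 1) (htr : c.tr = 1) (hN : NcAt k c.Q c.M) {ε : ℝ} (hε : 0 < ε) : ∃ C : ℝ, 1 ≤ C ∧ ∀ t : T2 k, t.Good c →
    ∀ U ⊆ t.W1, ∀ Y' ⊆ t.Yf, ∀ s θ R : ℝ, 0 < s → 1 ≤ R → (∀ S ∈ U, t.amp c S ≤ s) → s * t.κ1 ^ k ≤ R * θ → (∀ q ∈ Y', θ ≤ ‖t.fldM c U (t.pt q)‖) →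
      (Y'.card : ℝ) * (s ^ 2 * t.κ1 ^ k) ≤ C * R ^ (qk k + ε) * ∑ S ∈ U, t.amp c S ^ 2 := by
  obtain ⟨C₁, hC₁, H₁⟩ := f1h_bg hc
  obtain ⟨C₂, hC₂, H₂⟩ := f1h_nc hc hℓ htr hN hε
  have hCm : 1 ≤ c.Cm := hc.one_le_Cm
  set b : ℝ := C₁ * c.Cm with hb
  have hb1 : 1 ≤ b := by rw [hb]; nlinarith
  have hb0 : 0 < b := by linarith
  have hsb1 : 1 ≤ Real.sqrt b := by rw [Real.one_le_sqrt]; exact hb1
  have hq0 : 0 ≤ qk k + ε := by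
    have : 0 ≤ qk k := by unfold qk; positivity
    linarith
  have hbq : 1 ≤ Real.sqrt b ^ (qk k + ε) := Real.one_le_rpow hsb1 hq0
  refine ⟨C₂ * Real.sqrt b ^ (qk k + ε), by nlinarith, fun t ht U hU Y' hY' s θ R hs hR hamp hsR hθ => ?_⟩
  have hκ : 0 < t.κ1 := lt_of_lt_of_le one_pos ht.one_le_κ1
  have hκk : 0 < t.κ1 ^ k := pow_pos hκ k
  set h2 : ℝ := t.κ1 ^ ((k : ℝ) / 2) with hh2
  have hh2pos : 0 < h2 := Real.rpow_pos_of_pos hκ _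
  have hh2sq : h2 * h2 = t.κ1 ^ k := by
    rw [hh2, ← Real.rpow_add hκ, add_halves, Real.rpow_natCast]
  have hR0 : 0 < R := by linarith
  have hσ : 0 < Real.sqrt b * s * h2 := by positivity
  have hσ2 : (Real.sqrt b * s * h2) ^ 2 = b * (s ^ 2 * t.κ1 ^ k) := by
    calc (Real.sqrt b * s * h2) ^ 2 = (Real.sqrt b) ^ 2 * s ^ 2 * (h2 * h2) := by ring
      _ = b * (s ^ 2 * t.κ1 ^ k) := by rw [Real.sq_sqrt hb0.le, hh2sq]; ring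
  have key := H₂ t ht U hU Y' hY' (Real.sqrt b * s * h2) (Real.sqrt b * R) hσ (by nlinarith) (fun q hq => ⟨by
      rw [hσ2]
      exact H₁ t ht U s hamp (t.pt q), by
      have hsb0 : Real.sqrt b ≠ 0 := by positivity
      have e : Real.sqrt b * s * h2 * h2 / (Real.sqrt b * R) = s * t.κ1 ^ k / R := by
        rw [mul_assoc (Real.sqrt b * s), hh2sq]
        field_simp
      have e2 : s * t.κ1 ^ k / R ≤ θ := by
        rw [div_le_iff₀ hR0]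
        linarith
      rw [e]
      exact e2.trans (hθ q hq)⟩)
  rw [hσ2, le_div_iff₀ (by positivity)] at key
  have hS0 : 0 ≤ ∑ S ∈ U, t.amp c S ^ 2 := Finset.sum_nonneg fun S _ => sq_nonneg _
  have hRq : 0 ≤ R ^ (qk k + ε) := Real.rpow_nonneg hR0.le _
  have hY0 : (0 : ℝ) ≤ (Y'.card : ℝ) * (s ^ 2 * t.κ1 ^ k) := by positivity
  calc (Y'.card : ℝ) * (s ^ 2 * t.κ1 ^ k) ≤ b * ((Y'.card : ℝ) * (s ^ 2 * t.κ1 ^ k)) := by nlinarith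
    _ = (Y'.card : ℝ) * (b * (s ^ 2 * t.κ1 ^ k)) := by ring
    _ ≤ C₂ * (Real.sqrt b * R) ^ (qk k + ε) * ∑ S ∈ U, t.amp c S ^ 2 := key
    _ = C₂ * Real.sqrt b ^ (qk k + ε) * R ^ (qk k + ε) * ∑ S ∈ U, t.amp c S ^ 2 := by
        rw [Real.mul_rpow (Real.sqrt_nonneg _) hR0.le]; ring

/-- **upper half of (f:Sbalance)** -/
theorem f1h_upper {c : TCls k} (hc : c.Ok) (hℓ : c.ℓ = 1) (htr : c.tr = 1) (hN : NcAt k c.Q c.M) (h2 : L2At k c.M) {ε : ℝ} (hε : 0 < ε) : ∃ C : ℝ, 1 ≤ C ∧ ∀ t : T2 k, t.Good c →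
    ∀ s θ R : ℝ, 0 < s → 1 ≤ R → (∀ S ∈ t.W1, t.amp c S ≤ s) → s * t.κ1 ^ k ≤ R * θ → (∀ q ∈ t.Yf, θ ≤ ‖t.root c (t.pt q)‖) →
      (t.Yf.card : ℝ) * t.κ1 ^ (k + 2) * (s ^ 2 * t.κ1 ^ k) ≤ C * R ^ (qk k + ε) * t.en := by
  obtain ⟨C₁, hC₁, H₁⟩ := f1h_count hc hℓ htr hN hε
  obtain ⟨C₂, hC₂, H₂⟩ := f1h_energy hc hℓ htr h2
  refine ⟨C₁ * C₂, by nlinarith, fun t ht s θ R hs hR hamp hsR hθ => ?_⟩
  have h1 := H₁ t ht t.W1 (Finset.Subset.refl _) t.Yf (Finset.Subset.refl _) s θ R hs hR hamp hsR hθ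
  have h2' := H₂ t ht
  have hκ : 0 < t.κ1 := lt_of_lt_of_le one_pos ht.one_le_κ1
  have hRp : 0 ≤ R ^ (qk k + ε) := Real.rpow_nonneg (by linarith) _
  calc (t.Yf.card : ℝ) * t.κ1 ^ (k + 2) * (s ^ 2 * t.κ1 ^ k) = t.κ1 ^ (k + 2) * ((t.Yf.card : ℝ) * (s ^ 2 * t.κ1 ^ k)) := by ring
    _ ≤ t.κ1 ^ (k + 2) * (C₁ * R ^ (qk k + ε) * ∑ S ∈ t.W1, t.amp c S ^ 2) := by gcongr
    _ = C₁ * R ^ (qk k + ε) * (t.κ1 ^ (k + 2) * ∑ S ∈ t.W1, t.amp c S ^ 2) := by ring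
    _ ≤ C₁ * R ^ (qk k + ε) * (C₂ * t.en) := by gcongr
    _ = C₁ * C₂ * R ^ (qk k + ε) * t.en := by ring

/-- **LEAF L-F1-HM7: (f:Sbalance)**: `k + 1` fields over one set of cubes, `G = H_g²`, failure of the frame bound with the constant `μ`.
PLAN: `C` from `f1h_upper`.   `fa_balance (fun i => (t i).κ1) (fun i => (t i).en) k G #Y (C R^(q+ε+1)) μ`:  `hU i`: `f1h_upper` gives `#Y κ1^(k+2) (s² κ1^k) ≤ C R^(q+ε) en`; multiply by `R` and use `1 ≤ R (s² κ1^k)`; `Real.rpow_add_one`.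
`0 ≤ en`: `T2.en`, `positivity` with `(t i).κ0 ≥ 1`. -/
theorem f1h_sbal {c : TCls k} (hc : c.Ok) (hℓ : c.ℓ = 1) (htr : c.tr = 1) (hN : NcAt k c.Q c.M) (h2 : L2At k c.M) {ε : ℝ} (hε : 0 < ε) : ∃ C : ℝ, 1 ≤ C ∧
    ∀ t : Fin (k + 1) → T2 k, (∀ i, (t i).Good c) → ∀ Y : Finset (Lat k), Y.Nonempty → (∀ i, (t i).Yf = Y) → ∀ (s θ : Fin (k + 1) → ℝ) (R G μ : ℝ), (∀ i, 0 < s i) → 1 ≤ R → 0 < G → 0 < μ →
    (∀ i, ∀ S ∈ (t i).W1, (t i).amp c S ≤ s i) → (∀ i, s i * (t i).κ1 ^ k ≤ R * θ i) → (∀ i, 1 ≤ R * (s i ^ 2 * (t i).κ1 ^ k)) → (∀ i, ∀ q ∈ Y, θ i ≤ ‖(t i).root c ((t i).pt q)‖) →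
    G ^ (k + 1) = ∏ i, (t i).κ1 ^ 2 → μ * ∑ i, (t i).en / (t i).κ1 ^ k ≤ Y.card * G →
      μ ≤ C * R ^ (qk k + ε + 1) ∧ (∀ i j, (t i).κ1 ^ 2 ≤ (C * R ^ (qk k + ε + 1) / μ) ^ (k + 1) * (t j).κ1 ^ 2) ∧
        ∀ i, (t i).en ≤ (C * R ^ (qk k + ε + 1) / μ) ^ k / μ * (Y.card * (t i).κ1 ^ (k + 2)) := by
  obtain ⟨C, hC, H⟩ := f1h_upper hc hℓ htr hN h2 hε
  refine ⟨C, hC, fun t ht Y hY hYf s θ R G μ hs hR hG hμ hamp hsR hsl hθ hGm hF => ?_⟩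
  have hR0 : 0 < R := by linarith
  have hκ : ∀ i, 0 < (t i).κ1 := fun i => lt_of_lt_of_le one_pos (ht i).one_le_κ1
  have hκ0 : ∀ i, 0 < (t i).κ0 := fun i => lt_of_lt_of_le (hκ i) (ht i).κ_le
  have hen : ∀ i, 0 ≤ (t i).en := fun i => mul_nonneg (pow_pos (hκ0 i) _).le (Finset.sum_nonneg fun _ _ => sq_nonneg _)
  have hy : (0 : ℝ) < Y.card := by exact_mod_cast Finset.card_pos.2 hY
  refine fa_balance (fun i => (t i).κ1) (fun i => (t i).en) k G Y.card (C * R ^ (qk k + ε + 1)) μ hκ hen hG hGm hy hμ (fun i => ?_) hF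
  have h1 := H (t i) (ht i) (s i) (θ i) R (hs i) hR (hamp i) (hsR i) (by rw [hYf i]; exact hθ i)
  rw [hYf i] at h1
  have h0 : (0 : ℝ) ≤ (Y.card : ℝ) * (t i).κ1 ^ (k + 2) := by have := hκ i; positivity
  calc (Y.card : ℝ) * (t i).κ1 ^ (k + 2) ≤ (Y.card : ℝ) * (t i).κ1 ^ (k + 2) * (R * (s i ^ 2 * (t i).κ1 ^ k)) := le_mul_of_one_le_right h0 (hsl i)
    _ = R * ((Y.card : ℝ) * (t i).κ1 ^ (k + 2) * (s i ^ 2 * (t i).κ1 ^ k)) := by ring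
    _ ≤ R * (C * R ^ (qk k + ε) * (t i).en) := mul_le_mul_of_nonneg_left h1 hR0.le
    _ = C * R ^ (qk k + ε + 1) * (t i).en := by rw [Real.rpow_add_one hR0.ne']; ring

/-! ## 3. heavy masks -/

/-- **LEAF L-F1-HM8: the squared amplitudes of the heavy masks** (H l.231-234).
PLAN: `fa_heavy t.W1 t.Yf (fun S q => t.d1 S (t.pt q)) r Ω (Cm κ1^k (2(1+r))^(k+1)) hΩ` with `hcount` = `f1h_cnt_near` (`T2.nr` unfolds to the filter); `T2.hvy`, `T2.ocw` unfold to the filter of `fa_heavy`;  `∑_{hvy} amp² ≤ #hvy · s²`. -/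
theorem f1h_heavy_sq (t : T2 k) {c : TCls k} (hc : c.Ok) (h : t.Good c) {s r Ω : ℝ} (hr : 0 ≤ r) (hΩ : 0 ≤ Ω) (hs : ∀ S ∈ t.W1, t.amp c S ≤ s) :
    (∑ S ∈ t.hvy r Ω, t.amp c S ^ 2) * Ω ≤ s ^ 2 * (t.Yf.card * (c.Cm * t.κ1 ^ k * (2 * (1 + r)) ^ (k + 1))) := by
  have h1 := fa_heavy t.W1 t.Yf (fun S q => t.d1 S (t.pt q)) r Ω (c.Cm * t.κ1 ^ k * (2 * (1 + r)) ^ (k + 1)) hΩ
    (fun q _ => f1h_cnt_near t c h t.W1 (t.pt q) hr)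
  have h2 : ∑ S ∈ t.hvy r Ω, t.amp c S ^ 2 ≤ ((t.hvy r Ω).card : ℝ) * s ^ 2 := by
    have := Finset.sum_le_card_nsmul (t.hvy r Ω) (fun S => t.amp c S ^ 2) (s ^ 2)
      (fun S hS => pow_le_pow_left₀ (f1h_amp_nonneg t hc S) (hs S (Finset.filter_subset _ _ hS)) 2)
    rwa [nsmul_eq_mul] at this
  calc (∑ S ∈ t.hvy r Ω, t.amp c S ^ 2) * Ω ≤ ((t.hvy r Ω).card : ℝ) * s ^ 2 * Ω := mul_le_mul_of_nonneg_right h2 hΩ
    _ = s ^ 2 * (((t.hvy r Ω).card : ℝ) * Ω) := by ring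
    _ ≤ s ^ 2 * (t.Yf.card * (c.Cm * t.κ1 ^ k * (2 * (1 + r)) ^ (k + 1))) := mul_le_mul_of_nonneg_left h1 (sq_nonneg _)

/-- **LEAF L-F1-HM9: the field of the heavy masks is small outside few witnesses** (H l.234-236).
PLAN: `C₁` from `f1h_count`.   `B` = the filter; `f1h_count` with `U = t.hvy r Ω` (`Finset.filter_subset`), `Y' = B`, threshold `θ/2`, ratio `2R`: `#B (s² κ1^k) ≤ C₁ (2R)^(q+ε) ∑_{hvy} amp²`; multiply by `Ω`, `f1h_heavy_sq`; cancel `s² κ1^k > 0`;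
`C = C₁ 2^(q+ε) Cm 2^(k+1)` (`Real.mul_rpow`, `mul_pow`). -/
theorem f1h_bad {c : TCls k} (hc : c.Ok) (hℓ : c.ℓ = 1) (htr : c.tr = 1) (hN : NcAt k c.Q c.M) {ε : ℝ} (hε : 0 < ε) : ∃ C : ℝ, 1 ≤ C ∧ ∀ t : T2 k, t.Good c →
    ∀ s θ R r Ω : ℝ, 0 < s → 1 ≤ R → 0 ≤ r → 0 ≤ Ω → (∀ S ∈ t.W1, t.amp c S ≤ s) → s * t.κ1 ^ k ≤ R * θ →
      ((t.Yf.filter fun q => θ / 2 < ‖t.fldM c (t.hvy r Ω) (t.pt q)‖).card : ℝ) * Ω ≤ C * R ^ (qk k + ε) * (1 + r) ^ (k + 1) * t.Yf.card := by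
  obtain ⟨C₁, hC₁, H₁⟩ := f1h_count hc hℓ htr hN hε
  have hCm : 1 ≤ c.Cm := hc.one_le_Cm
  have hq0 : 0 ≤ qk k + ε := by
    have : 0 ≤ qk k := by unfold qk; positivity
    linarith
  have h2q : 1 ≤ (2 : ℝ) ^ (qk k + ε) := Real.one_le_rpow (by norm_num) hq0
  have h2k : (1 : ℝ) ≤ 2 ^ (k + 1) := one_le_pow₀ (by norm_num)
  refine ⟨C₁ * 2 ^ (qk k + ε) * c.Cm * 2 ^ (k + 1), ?_, fun t ht s θ R r Ω hs hR hr hΩ hamp hsR => ?_⟩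
  · have h1 : 1 ≤ C₁ * 2 ^ (qk k + ε) := by nlinarith
    have h2 : 1 ≤ C₁ * 2 ^ (qk k + ε) * c.Cm := by nlinarith
    nlinarith
  have hκ : 0 < t.κ1 := lt_of_lt_of_le one_pos ht.one_le_κ1
  have hκk : 0 < t.κ1 ^ k := pow_pos hκ k
  have hR0 : 0 < R := by linarith
  set B := t.Yf.filter fun q => θ / 2 < ‖t.fldM c (t.hvy r Ω) (t.pt q)‖ with hB
  have h1 := H₁ t ht (t.hvy r Ω) (Finset.filter_subset _ _) B (Finset.filter_subset _ _) s (θ / 2) (2 * R) hs (by linarith)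
    (fun S hS => hamp S (Finset.filter_subset _ _ hS)) (by linarith) (fun q hq => (Finset.mem_filter.1 hq).2.le)
  have h2 := f1h_heavy_sq t hc ht hr hΩ hamp
  have hpos : 0 < s ^ 2 * t.κ1 ^ k := by positivity
  have hRq : 0 ≤ R ^ (qk k + ε) := Real.rpow_nonneg hR0.le _
  have h3 : (s ^ 2 * t.κ1 ^ k) * ((B.card : ℝ) * Ω) ≤ (s ^ 2 * t.κ1 ^ k) * (C₁ * 2 ^ (qk k + ε) * c.Cm * 2 ^ (k + 1) * R ^ (qk k + ε) * (1 + r) ^ (k + 1) * t.Yf.card) := by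
    calc (s ^ 2 * t.κ1 ^ k) * ((B.card : ℝ) * Ω) = ((B.card : ℝ) * (s ^ 2 * t.κ1 ^ k)) * Ω := by ring
      _ ≤ (C₁ * (2 * R) ^ (qk k + ε) * ∑ S ∈ t.hvy r Ω, t.amp c S ^ 2) * Ω := mul_le_mul_of_nonneg_right h1 hΩ
      _ = C₁ * (2 * R) ^ (qk k + ε) * ((∑ S ∈ t.hvy r Ω, t.amp c S ^ 2) * Ω) := by ring
      _ ≤ C₁ * (2 * R) ^ (qk k + ε) * (s ^ 2 * (t.Yf.card * (c.Cm * t.κ1 ^ k * (2 * (1 + r)) ^ (k + 1)))) :=
          mul_le_mul_of_nonneg_left h2 (mul_nonneg (by linarith) (Real.rpow_nonneg (by linarith) _))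
      _ = _ := by rw [Real.mul_rpow (by norm_num) hR0.le, mul_pow]; ring
  exact le_of_mul_le_mul_left h3 hpos

/-- the masked field = heavy part + light part -/
theorem f1h_split (t : T2 k) (c : TCls k) (r Ω : ℝ) (z : ST k) : t.root c z = t.fldM c (t.hvy r Ω) z + t.fldM c (t.lgt r Ω) z := by
  unfold T2.root T2.fldM T2.hvy T2.lgt
  rw [← Finset.sum_filter_add_sum_filter_not t.W1 (fun S => Ω < (t.ocw t.Yf r S : ℝ))]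
  simp only [not_lt]

/-- **LEAF L-F1-HM11: a high point has many near masks** (H l.236-239).
PLAN: `C₁` from `f1h_tail` with `A = c.M`, `B = k + 2`; `C = 4 C₁ Cm`.   `fa_near L φ (fun S => t.d1 S z) s c.M r τ θ` with `τ = C₁ Cm κ1^k (1+r)^(-(M-(k+2)))`, `hφ`: `f1h_pt_le` + `amp ≤ s` (`t.w1 c.M S z = (1 + t.d1 S z)^(-c.M)` by `rfl`):
`θ ≤ s (nr + τ)`.   `κ1^k ≤ R θ / s ≤ R (nr + τ)`, and `R τ ≤ κ1^k / 4·…`: from `hr' : C R ≤ (1+r)^(M-k-2)`: `R C₁ Cm (1+r)^(-(M-k-2)) ≤ 1/4` (`Real.rpow_neg`), so `κ1^k ≤ R nr + κ1^k/4`, hence `κ1^k ≤ 2 R nr`. -/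
theorem f1h_near {c : TCls k} (hc : c.Ok) : ∃ C : ℝ, 1 ≤ C ∧ ∀ t : T2 k, t.Good c → ∀ (L : Finset (t.Λ1 × Lat k)) (z : ST k) (s θ R r : ℝ), 0 < s → 1 ≤ R → 0 ≤ r →
    (∀ S ∈ L, t.amp c S ≤ s) → s * t.κ1 ^ k ≤ R * θ → C * R ≤ (1 + r) ^ (c.M - k - 2) → θ ≤ ‖t.fldM c L z‖ → t.κ1 ^ k ≤ 2 * R * t.nr L r z := by
  have hk0 : (0 : ℝ) ≤ k := Nat.cast_nonneg k
  have hMB : (k : ℝ) + 2 ≤ c.M := by linarith [hc.M_gt, hc.P_lt, hc.P_gt]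
  obtain ⟨C₁, hC₁, H₁⟩ := f1h_tail (k := k) (A := c.M) (B := (k : ℝ) + 2) (by linarith) hMB
  have hCm : 1 ≤ c.Cm := hc.one_le_Cm
  refine ⟨4 * C₁ * c.Cm, by nlinarith, fun t ht L z s θ R r hs hR hr hamp hsR hrR hθ => ?_⟩
  have hκ : 0 < t.κ1 := lt_of_lt_of_le one_pos ht.one_le_κ1
  have hκk : 0 < t.κ1 ^ k := pow_pos hκ k
  have hR0 : 0 < R := by linarith
  have hM0 : 0 ≤ c.M := by linarith
  have h1 := fa_near L (fun S => t.loc c S z * t.pre S.1 z) (fun S => t.d1 S z) s c.M r (C₁ * (c.Cm * t.κ1 ^ k) * (1 + r) ^ (-(c.M - ((k : ℝ) + 2)))) θ hs.le hM0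
    (fun S _ => norm_nonneg _)
    (fun S hS => (f1h_pt_le t hc S z).trans (mul_le_mul_of_nonneg_right (hamp S hS) (Real.rpow_nonneg (by positivity) _)))
    (H₁ c t ht L z r hr) hθ
  have hnr : ((L.filter fun S => t.d1 S z ≤ r).card : ℝ) = t.nr L r z := rfl
  rw [hnr] at h1
  set w : ℝ := (1 + r) ^ (c.M - k - 2) with hw
  have hwpos : 0 < w := Real.rpow_pos_of_pos (by linarith) _
  have hwinv : (1 + r) ^ (-(c.M - ((k : ℝ) + 2))) = w⁻¹ := by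
    rw [Real.rpow_neg (by linarith), hw]
    congr 2
    ring
  rw [hwinv] at h1
  -- `κ1^k ≤ R (nr + τ)`
  have h2 : s * t.κ1 ^ k ≤ s * (R * ((t.nr L r z : ℝ) + C₁ * (c.Cm * t.κ1 ^ k) * w⁻¹)) := by
    calc s * t.κ1 ^ k ≤ R * θ := hsR
      _ ≤ R * (s * ((t.nr L r z : ℝ) + C₁ * (c.Cm * t.κ1 ^ k) * w⁻¹)) := mul_le_mul_of_nonneg_left h1 hR0.le
      _ = _ := by ring
  have h3 := le_of_mul_le_mul_left h2 hs
  have h4 : R * (C₁ * c.Cm) * w⁻¹ ≤ 1 / 4 := by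
    rw [← div_eq_mul_inv, div_le_iff₀ hwpos]
    linarith
  have h5 : R * (C₁ * (c.Cm * t.κ1 ^ k) * w⁻¹) ≤ t.κ1 ^ k / 4 := by
    calc R * (C₁ * (c.Cm * t.κ1 ^ k) * w⁻¹) = (R * (C₁ * c.Cm) * w⁻¹) * t.κ1 ^ k := by ring
      _ ≤ 1 / 4 * t.κ1 ^ k := mul_le_mul_of_nonneg_right h4 hκk.le
      _ = t.κ1 ^ k / 4 := by ring
  have h6 : 0 ≤ R * (t.nr L r z : ℝ) := by positivity
  nlinarith

/-! ## 4. the ball count -/

/-- **LEAF L-F1-HM12: (f:ballcount)** (H l.239-247), ANY centre `z`, sup metric of `ST k`.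
PLAN: `Yb = Y.filter (‖pt q - z‖ ≤ ϱ)`.   `fa_ball L Yb (fun S q => t.d1 S (t.pt q)) r Ω n₀ Nb hΩ`: `hocc`: `Yb ⊆ Y` (`Finset.card_le_card`, `Finset.filter_subset_filter`) + `hocc`;  `hnear`: `hnear`;
`hNb`: `{S ∈ L : ∃ q ∈ Yb, d1 S (pt q) ≤ r} ⊆ {S ∈ L : ∃ z', ‖z' - z‖ ≤ ϱ ∧ d1 S z' ≤ r}` + `f1h_cnt_ball`. -/
theorem f1h_ball (t : T2 k) {c : TCls k} (hc : c.Ok) (h : t.Good c) (L : Finset (t.Λ1 × Lat k)) (Y : Finset (Lat k)) {r Ω n₀ : ℝ} (hr : 0 ≤ r) (hΩ : 0 ≤ Ω)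
    (hocc : ∀ S ∈ L, (t.ocw Y r S : ℝ) ≤ Ω) (hnear : ∀ q ∈ Y, n₀ ≤ (t.nr L r (t.pt q) : ℝ)) (z : ST k) {ϱ : ℝ} (hϱ : t.κ1 ≤ ϱ) :
    ((Y.filter fun q => ‖t.pt q - z‖ ≤ ϱ).card : ℝ) * n₀
      ≤ Ω * (c.Cm * t.κ1 ^ k * (2 * (3 + 4 * c.Cc) ^ k * (1 + r) ^ (k + 1) * (ϱ / t.κ1) ^ k * (1 + ϱ / t.κ1 ^ 2))) := by
  refine fa_ball L (Y.filter fun q => ‖t.pt q - z‖ ≤ ϱ) (fun S q => t.d1 S (t.pt q)) r Ω n₀ _ hΩ ?_ ?_ ?_
  · intro S hS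
    refine le_trans ?_ (hocc S hS)
    have hsub : ((Y.filter fun q => ‖t.pt q - z‖ ≤ ϱ).filter fun q => t.d1 S (t.pt q) ≤ r) ⊆ Y.filter fun q => t.d1 S (t.pt q) ≤ r :=
      Finset.filter_subset_filter _ (Finset.filter_subset _ _)
    exact Nat.cast_le.2 (Finset.card_le_card hsub)
  · intro q hq
    exact hnear q (Finset.mem_filter.1 hq).1
  · refine le_trans ?_ (f1h_cnt_ball t c hc h L z hr hϱ)
    refine Nat.cast_le.2 (Finset.card_le_card fun S hS => ?_)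
    obtain ⟨hSL, q, hq, hd⟩ := Finset.mem_filter.1 hS
    exact Finset.mem_filter.2 ⟨hSL, t.pt q, (Finset.mem_filter.1 hq).2, hd⟩

/-! ## 5. the exit -/

/-- **EXIT OF THE BLOCK HV (one field).**   `Y' = ` the witnesses where the field of the heavy masks is `≤ θ/2`. -/
theorem f1h_main {c : TCls k} (hc : c.Ok) (hℓ : c.ℓ = 1) (htr : c.tr = 1) (hN : NcAt k c.Q c.M) {ε : ℝ} (hε : 0 < ε) : ∃ C : ℝ, 1 ≤ C ∧ ∀ t : T2 k, t.Good c →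
    ∀ s θ R r Ω : ℝ, 0 < s → 1 ≤ R → 0 ≤ r → 0 ≤ Ω → (∀ S ∈ t.W1, t.amp c S ≤ s) → s * t.κ1 ^ k ≤ R * θ → C * R ≤ (1 + r) ^ (c.M - k - 2) → (∀ q ∈ t.Yf, θ ≤ ‖t.root c (t.pt q)‖) →
    ∃ Y' ⊆ t.Yf, ((t.Yf \ Y').card : ℝ) * Ω ≤ C * R ^ (qk k + ε) * (1 + r) ^ (k + 1) * t.Yf.card ∧
      (∀ q ∈ Y', θ / 2 ≤ ‖t.fldM c (t.lgt r Ω) (t.pt q)‖) ∧
      (∀ S ∈ t.lgt r Ω, (t.ocw t.Yf r S : ℝ) ≤ Ω) ∧
      (∀ q ∈ Y', t.κ1 ^ k ≤ 4 * R * t.nr (t.lgt r Ω) r (t.pt q)) ∧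
      ∀ Y'' ⊆ Y', ∀ (z : ST k) (ϱ : ℝ), t.κ1 ≤ ϱ →
        ((Y''.filter fun q => ‖t.pt q - z‖ ≤ ϱ).card : ℝ) ≤ C * R * Ω * (1 + r) ^ (k + 1) * (ϱ / t.κ1) ^ k * (1 + ϱ / t.κ1 ^ 2) := by
  obtain ⟨C₁, hC₁, H₁⟩ := f1h_bad hc hℓ htr hN hε
  obtain ⟨C₂, hC₂, H₂⟩ := f1h_near hc
  have hCm : 1 ≤ c.Cm := hc.one_le_Cm
  have hCc : 1 ≤ c.Cc := hc.one_le_Cc
  set C₃ : ℝ := 8 * c.Cm * (3 + 4 * c.Cc) ^ k with hC₃
  have hC₃1 : 1 ≤ C₃ := by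
    have : 1 ≤ (3 + 4 * c.Cc) ^ k := one_le_pow₀ (by linarith)
    rw [hC₃]
    nlinarith
  refine ⟨C₁ + 2 * C₂ + C₃, by linarith, fun t ht s θ R r Ω hs hR hr hΩ hamp hsR hrR hθ => ?_⟩
  have hκ : 0 < t.κ1 := lt_of_lt_of_le one_pos ht.one_le_κ1
  have hκk : 0 < t.κ1 ^ k := pow_pos hκ k
  have hR0 : 0 < R := by linarith
  have hlsub : t.lgt r Ω ⊆ t.W1 := Finset.filter_subset _ _
  have hnear : ∀ q ∈ t.Yf.filter (fun q => ‖t.fldM c (t.hvy r Ω) (t.pt q)‖ ≤ θ / 2), θ / 2 ≤ ‖t.fldM c (t.lgt r Ω) (t.pt q)‖ := by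
    intro q hq
    obtain ⟨hq1, hq2⟩ := Finset.mem_filter.1 hq
    have h1 := hθ q hq1
    rw [f1h_split t c r Ω] at h1
    have h2 := norm_add_le (t.fldM c (t.hvy r Ω) (t.pt q)) (t.fldM c (t.lgt r Ω) (t.pt q))
    linarith
  have hocc : ∀ S ∈ t.lgt r Ω, (t.ocw t.Yf r S : ℝ) ≤ Ω := fun S hS => (Finset.mem_filter.1 hS).2
  have hnr : ∀ q ∈ t.Yf.filter (fun q => ‖t.fldM c (t.hvy r Ω) (t.pt q)‖ ≤ θ / 2), t.κ1 ^ k ≤ 4 * R * t.nr (t.lgt r Ω) r (t.pt q) := by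
    intro q hq
    have := H₂ t ht (t.lgt r Ω) (t.pt q) s (θ / 2) (2 * R) r hs (by linarith) hr (fun S hS => hamp S (hlsub hS)) (by linarith)
      (by nlinarith) (hnear q hq)
    linarith
  refine ⟨t.Yf.filter (fun q => ‖t.fldM c (t.hvy r Ω) (t.pt q)‖ ≤ θ / 2), Finset.filter_subset _ _, ?_, hnear, hocc, hnr, ?_⟩
  · have he : t.Yf \ t.Yf.filter (fun q => ‖t.fldM c (t.hvy r Ω) (t.pt q)‖ ≤ θ / 2) = t.Yf.filter fun q => θ / 2 < ‖t.fldM c (t.hvy r Ω) (t.pt q)‖ := by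
      ext q
      simp only [Finset.mem_sdiff, Finset.mem_filter, not_and, not_le]
      constructor
      · rintro ⟨h1, h2⟩
        exact ⟨h1, h2 h1⟩
      · rintro ⟨h1, h2⟩
        exact ⟨h1, fun _ => h2⟩
    rw [he]
    refine (H₁ t ht s θ R r Ω hs hR hr hΩ hamp hsR).trans ?_
    have hRp : 0 ≤ R ^ (qk k + ε) := Real.rpow_nonneg hR0.le _
    have : 0 ≤ R ^ (qk k + ε) * (1 + r) ^ (k + 1) * t.Yf.card := by positivity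
    nlinarith
  · intro Y'' hY'' z ϱ hϱ
    have hb := f1h_ball t hc ht (t.lgt r Ω) Y'' (n₀ := t.κ1 ^ k / (4 * R)) hr hΩ
      (fun S hS => le_trans (by
        have : t.ocw Y'' r S ≤ t.ocw t.Yf r S :=
          Finset.card_le_card (Finset.filter_subset_filter _ (hY''.trans (Finset.filter_subset _ _)))
        exact_mod_cast this) (hocc S hS))
      (fun q hq => by
        rw [div_le_iff₀ (by positivity)]
        have := hnr q (hY'' hq)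
        linarith) z hϱ
    set n : ℝ := ((Y''.filter fun q => ‖t.pt q - z‖ ≤ ϱ).card : ℝ) with hn
    set Z : ℝ := (1 + r) ^ (k + 1) * (ϱ / t.κ1) ^ k * (1 + ϱ / t.κ1 ^ 2) with hZ
    have hZ0 : 0 ≤ Z := by
      have : 0 ≤ ϱ := hκ.le.trans hϱ
      positivity
    have h1 : n * t.κ1 ^ k ≤ t.κ1 ^ k * (C₃ * R * Ω * Z) := by
      have h2 : n * (t.κ1 ^ k / (4 * R)) * (4 * R) = n * t.κ1 ^ k := by field_simp
      rw [← h2]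
      calc n * (t.κ1 ^ k / (4 * R)) * (4 * R)
          ≤ (Ω * (c.Cm * t.κ1 ^ k * (2 * (3 + 4 * c.Cc) ^ k * (1 + r) ^ (k + 1) * (ϱ / t.κ1) ^ k * (1 + ϱ / t.κ1 ^ 2)))) * (4 * R) := by gcongr
        _ = t.κ1 ^ k * (C₃ * R * Ω * Z) := by rw [hC₃, hZ]; ring
    have h3 : n ≤ C₃ * R * Ω * Z := by
      rw [mul_comm] at h1
      exact le_of_mul_le_mul_left h1 hκk
    calc n ≤ C₃ * R * Ω * Z := h3
      _ ≤ (C₁ + 2 * C₂ + C₃) * R * Ω * Z := by gcongr; linarith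
      _ = (C₁ + 2 * C₂ + C₃) * R * Ω * (1 + r) ^ (k + 1) * (ϱ / t.κ1) ^ k * (1 + ϱ / t.κ1 ^ 2) := by rw [hZ]; ring

end

end Claimed.Agent.R257.FR1
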