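import Claimed.Agent.R257.FR1.NDefs

/-!
# ROW 257, package FR1, block NORM, file 3: BASIC FACTS ON AN EXACT CONFIGURATION      (architect helper249; prefix `fn_`)       H `frame.tex` l.120-146

Leaves `L-F1-N*` (name in the docstring).  All leaves are independent: edit ONLY your block.     Language: `FR1/Defs.lean` (`XCfg`, `XCfg.Ok`), `FR1/Bld.lean` (`tH`, `tK`, `W0`, `lv`, `frU`), `FR1/BdC.lean` (`SepY`, `T2.Geo`, `auxOf`, `fb_*`), `FR1/NDefs.lean` (`Ctx`).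
`X.Cfg 𝔠` abbreviates `𝔠.Ok X.cthr X.K X.T₁ X.P`.
-/

set_option autoImplicit false

namespace Claimed.Agent.R257.FR1

open Claimed.Agent.R257 Claimed.Agent.R257.FR2 Claimed.Agent.R257.Tree
open scoped BigOperators Classical BoundedContinuousFunction

noncomputable section

variable {k : ℕ} {Λ : Type} [Fintype Λ]

/-! ## the witnesses -/

/-- **LEAF L-F1-N1: separated witnesses.**   PLAN: `fa_parity 𝔠.Y` gives `Y' ⊆ Y`, `#Y ≤ 2^(k+1) #Y'`, distinct cubes differ by `≥ 2` in one coordinate.   `h𝔠.wit q hq i` gives `wz i q ∈ cube q` (`cube` in `Infra/Defs`: `q.1 j ≤ z.1 j < q.1 j + 1`, `q.2 ≤ z.2 < q.2 + 1`).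
If `2 ≤ |q.1 j - q'.1 j|` (integers; cast to `ℝ`: `Int.cast_abs`, `Int.cast_sub`, `exact_mod_cast`) then `1 ≤ |z.1 j - z'.1 j| ≤ ‖z.1 - z'.1‖ ≤ ‖z - z'‖` (`PiLp.norm_apply_le` for `EuclideanSpace`, `norm_fst_le`); same for the time coordinate (`norm_snd_le`). -/
theorem fn_sep (X : Ctx k) (𝔠 : XCfg k Λ) (h𝔠 : X.Cfg 𝔠) : ∃ Y0 : Finset (Lat k), SepY 𝔠 Y0 ∧ (𝔠.Y.card : ℝ) ≤ 2 ^ (k + 1) * Y0.card := by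
  obtain ⟨Y', hsub, hcard, hsep⟩ := fa_parity 𝔠.Y
  refine ⟨Y', ⟨hsub, fun i q hq q' hq' hne => ?_⟩, hcard⟩
  have h1 := (h𝔠.wit q (hsub hq) i).1
  have h2 := (h𝔠.wit q' (hsub hq') i).1
  obtain ⟨z, hz⟩ : ∃ z, z = 𝔠.wz i q := ⟨_, rfl⟩
  obtain ⟨z', hz'⟩ : ∃ z, z = 𝔠.wz i q' := ⟨_, rfl⟩
  rw [← hz] at h1 ⊢
  rw [← hz'] at h2 ⊢
  rcases hsep q hq q' hq' hne with ⟨j, hj⟩ | hj
  · have hj' : (2 : ℝ) ≤ |(q.1 j : ℝ) - (q'.1 j : ℝ)| := by exact_mod_cast hj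
    have a1 := h1.1 j
    have a2 := h2.1 j
    have h3 : 1 ≤ |z.1 j - z'.1 j| := by
      rcases le_abs.mp hj' with h | h
      · exact le_abs.mpr (Or.inl (by linarith [a1.1, a1.2, a2.1, a2.2]))
      · exact le_abs.mpr (Or.inr (by linarith [a1.1, a1.2, a2.1, a2.2]))
    have h4 : |z.1 j - z'.1 j| ≤ ‖z.1 - z'.1‖ := by
      have := PiLp.norm_apply_le (z.1 - z'.1) j
      simpa [Real.norm_eq_abs] using this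
    have h5 : ‖z.1 - z'.1‖ ≤ ‖z - z'‖ := norm_fst_le (z - z')
    linarith
  · have hj' : (2 : ℝ) ≤ |(q.2 : ℝ) - (q'.2 : ℝ)| := by exact_mod_cast hj
    have a1 := h1.2
    have a2 := h2.2
    have h3 : 1 ≤ |z.2 - z'.2| := by
      rcases le_abs.mp hj' with h | h
      · exact le_abs.mpr (Or.inl (by linarith [a1.1, a1.2, a2.1, a2.2]))
      · exact le_abs.mpr (Or.inr (by linarith [a1.1, a1.2, a2.1, a2.2]))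
    have h5 : ‖z.2 - z'.2‖ ≤ ‖z - z'‖ := norm_snd_le (z - z')
    rw [Real.norm_eq_abs] at h5
    linarith

/-- **LEAF L-F1-N2: the witnesses of one cube are close.**   PLAN: both points lie in `cube q`: every coordinate of the difference is `< 1` in absolute value; `‖x‖ ≤ √k ≤ k` for `x : E k` with coordinates `≤ 1` (`EuclideanSpace.norm_eq`, `Real.sqrt_le_sqrt`, `Finset.sum_le_card_nsmul`;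
`√k ≤ k` as `1 ≤ k`: `Real.sqrt_le_left`/`Real.sqrt_le_self`), time: `< 1 ≤ k`; `Prod.norm_def`, `max_le`. -/
theorem fn_same (hk : 1 ≤ k) (X : Ctx k) (𝔠 : XCfg k Λ) (h𝔠 : X.Cfg 𝔠) (i j : Fin (k + 1)) (q : Lat k) (hq : q ∈ 𝔠.Y) : ‖𝔠.wz i q - 𝔠.wz j q‖ ≤ k := by
  have h1 := (h𝔠.wit q hq i).1
  have h2 := (h𝔠.wit q hq j).1
  obtain ⟨z, hz⟩ : ∃ z, z = 𝔠.wz i q := ⟨_, rfl⟩
  obtain ⟨z', hz'⟩ : ∃ z, z = 𝔠.wz j q := ⟨_, rfl⟩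
  rw [← hz] at h1 ⊢
  rw [← hz'] at h2 ⊢
  have hk' : (1 : ℝ) ≤ k := by exact_mod_cast hk
  rw [Prod.norm_def]
  refine max_le ?_ ?_
  · show ‖z.1 - z'.1‖ ≤ k
    rw [EuclideanSpace.norm_eq]
    have h3 : ∑ l, ‖(z.1 - z'.1) l‖ ^ 2 ≤ (k : ℝ) := by
      calc ∑ l, ‖(z.1 - z'.1) l‖ ^ 2 ≤ ∑ _l : Fin k, (1 : ℝ) := by
            refine Finset.sum_le_sum fun l _ => ?_
            have a1 := h1.1 l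
            have a2 := h2.1 l
            have : ‖(z.1 - z'.1) l‖ ≤ 1 := by
              rw [Real.norm_eq_abs]
              show |z.1 l - z'.1 l| ≤ 1
              exact abs_le.mpr ⟨by linarith [a1.1, a1.2, a2.1, a2.2], by linarith [a1.1, a1.2, a2.1, a2.2]⟩
            exact pow_le_one₀ (norm_nonneg _) this
        _ = k := by simp
    calc Real.sqrt (∑ l, ‖(z.1 - z'.1) l‖ ^ 2) ≤ Real.sqrt ((k : ℝ) ^ 2) := Real.sqrt_le_sqrt (by nlinarith)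
      _ = k := Real.sqrt_sq (by linarith)
  · show ‖z.2 - z'.2‖ ≤ k
    rw [Real.norm_eq_abs]
    have a1 := h1.2
    have a2 := h2.2
    exact abs_le.mpr ⟨by linarith [a1.1, a1.2, a2.1, a2.2], by linarith [a1.1, a1.2, a2.1, a2.2]⟩

/-- **LEAF L-F1-N3: all the used labels are transversal.**   PLAN: `lb i : 𝔠.UL i` is `⟨v, m, hm⟩`; `h𝔠.trans (fun i => ((lb i).1, (lb i).2.choose)) (fun i => (lb i).2.choose_spec)`; then `Transv` is monotone in the constant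
(`Transv` unfolds to `∀ t, ∑ |t i| ≤ Q * (‖…‖ + |…|)`; `mul_le_mul_of_nonneg_right`). -/
theorem fn_trans (X : Ctx k) (𝔠 : XCfg k Λ) (h𝔠 : X.Cfg 𝔠) (L : ℝ) (hL : 𝔠.Q ≤ L) (lb : ∀ i, 𝔠.UL i) : Transv L (fun i => 𝔠.frU i (lb i)) := by
  have h := h𝔠.trans (fun i => ((lb i).1, (lb i).2.choose)) (fun i => (lb i).2.choose_spec)
  intro t
  refine (h t).trans ?_
  exact mul_le_mul_of_nonneg_right hL (by positivity)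

/-! ## the leaves -/

/-- **LEAF L-F1-N4: the leaf energy.**   PLAN: `mul_pow`, `← Finset.mul_sum`, `fb_leaf_sums 𝔠 i (fun T => 𝔠.a i T ^ 2)`; `XCfg.D`, `XFam.en`, `h𝔠.scale i`. -/
theorem fn_leaf_en (X : Ctx k) (𝔠 : XCfg k Λ) (h𝔠 : X.Cfg 𝔠) (i : Fin (k + 1)) :
    𝔠.h ^ (k + 2) * ∑ T ∈ 𝔠.W0 i, (X.Cx * 𝔠.a i (T.1.1, T.2.1)) ^ 2 = X.Cx ^ 2 * 𝔠.D i := by
  have h1 := fb_leaf_sums 𝔠 i (fun T => 𝔠.a i T ^ 2)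
  simp only [mul_pow]
  rw [← Finset.mul_sum, h1]
  unfold XCfg.D XFam.en
  rw [h𝔠.scale i]
  ring

/-- **LEAF L-F1-N5: the leaf envelope at the witnesses**, any order `A ≥ P`.
PLAN: for `T ∈ 𝔠.W0 i`: `T.2 = (T.2.1, 0)` (unfold `XCfg.W0`, `Finset.mem_image`); so the sum is `∑_{T ∈ W0} F (T.1.1, T.2.1)` with `F T = (Cx a T)² pw A h (fr T.1) (lat (T.2, 0)) z` (`Finset.sum_congr`), `fb_leaf_sums`;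
`pw A ≤ pw P` (`pw` unfolds to `(1 + ‖…‖)^(-A)`; `Real.rpow_le_rpow_of_exponent_le`, base `≥ 1`); `(h𝔠.wit q hq i).2.2.2 : env … ≤ 1`, `XFam.env`, `h𝔠.scale i`. -/
theorem fn_leaf_env (X : Ctx k) (𝔠 : XCfg k Λ) (h𝔠 : X.Cfg 𝔠) (i : Fin (k + 1)) (q : Lat k) (hq : q ∈ 𝔠.Y) (A : ℝ) (hA : (X.P : ℝ) ≤ A) :
    ∑ T ∈ 𝔠.W0 i, (X.Cx * 𝔠.a i (T.1.1, T.2.1)) ^ 2 * pw A 𝔠.h (𝔠.frU i T.1) (lat T.2) (𝔠.wz i q) ≤ X.Cx ^ 2 := by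
  have h0 : ∀ T ∈ 𝔠.W0 i, T.2 = (T.2.1, 0) := by
    intro T hT
    unfold XCfg.W0 at hT
    obtain ⟨S, -, rfl⟩ := Finset.mem_image.mp hT
    rfl
  have h1 := fb_leaf_sums 𝔠 i (fun T => (X.Cx * 𝔠.a i T) ^ 2 * pw A 𝔠.h ((𝔠.A i).fr T.1) (lat (T.2, 0)) (𝔠.wz i q))
  have h2 : ∑ T ∈ 𝔠.W0 i, (X.Cx * 𝔠.a i (T.1.1, T.2.1)) ^ 2 * pw A 𝔠.h (𝔠.frU i T.1) (lat T.2) (𝔠.wz i q)
      = ∑ T ∈ 𝔠.W0 i, (X.Cx * 𝔠.a i (T.1.1, T.2.1)) ^ 2 * pw A 𝔠.h ((𝔠.A i).fr T.1.1) (lat (T.2.1, 0)) (𝔠.wz i q) := by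
    refine Finset.sum_congr rfl fun T hT => ?_
    rw [← h0 T hT]
    rfl
  rw [h2, h1]
  have h3 := (h𝔠.wit q hq i).2.2.2
  unfold XFam.env at h3
  rw [h𝔠.scale i] at h3
  calc ∑ T ∈ 𝔠.s i, (X.Cx * 𝔠.a i T) ^ 2 * pw A 𝔠.h ((𝔠.A i).fr T.1) (lat (T.2, 0)) (𝔠.wz i q)
      ≤ ∑ T ∈ 𝔠.s i, X.Cx ^ 2 * (𝔠.a i T ^ 2 * pw X.P 𝔠.h ((𝔠.A i).fr T.1) (lat (T.2, 0)) (𝔠.wz i q)) := by
        refine Finset.sum_le_sum fun T _ => ?_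
        rw [mul_pow, mul_assoc]
        refine mul_le_mul_of_nonneg_left (mul_le_mul_of_nonneg_left ?_ (sq_nonneg _)) (sq_nonneg _)
        unfold pw
        exact Real.rpow_le_rpow_of_exponent_le (by linarith [norm_nonneg (natX 𝔠.h ((𝔠.A i).fr T.1) (𝔠.wz i q) - lat (T.2, 0))]) (by linarith)
    _ = X.Cx ^ 2 * ∑ T ∈ 𝔠.s i, 𝔠.a i T ^ 2 * pw X.P 𝔠.h ((𝔠.A i).fr T.1) (lat (T.2, 0)) (𝔠.wz i q) := by rw [Finset.mul_sum]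
    _ ≤ X.Cx ^ 2 * 1 := mul_le_mul_of_nonneg_left h3 (sq_nonneg _)
    _ = X.Cx ^ 2 := mul_one _

/-- **LEAF L-F1-N6: the cut leaf field is high at the witnesses.**   PLAN: `(hX.leaf Λ 𝔠 h𝔠 i T hT).2 z : toB (lv T) z = lv T z = χ₁ (z.2/h²) * U (T.1.1, T.2.1) z`; `← Finset.mul_sum`, `fb_leaf_sumsC`; `XFam.fld`; `norm_mul`;
`hX.cut.ge (z.2/h²)` with `|z.2/h²| ≤ T₁` from `(h𝔠.wit q hq i).2.1` (`abs_div`, `div_le_iff₀`); `(h𝔠.wit q hq i).2.2.1`; `hX.cut.c₀_pos`. -/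
theorem fn_leaf_full (X : Ctx k) (hX : X.Ok) (𝔠 : XCfg k Λ) (h𝔠 : X.Cfg 𝔠) (i : Fin (k + 1)) (q : Lat k) (hq : q ∈ 𝔠.Y) :
    X.c₀ * 𝔠.thr i ≤ ‖∑ T ∈ 𝔠.W0 i, toB (𝔠.lv i X.χ₁ T) (𝔠.wz i q)‖ := by
  obtain ⟨z, hz⟩ : ∃ z, z = 𝔠.wz i q := ⟨_, rfl⟩
  have hw := h𝔠.wit q hq i
  rw [← hz] at hw ⊢
  have h1 : ∑ T ∈ 𝔠.W0 i, toB (𝔠.lv i X.χ₁ T) z = ∑ T ∈ 𝔠.W0 i, X.χ₁ (z.2 / 𝔠.h ^ 2) * (𝔠.A i).U (T.1.1, T.2.1) z :=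
    Finset.sum_congr rfl fun T hT => (hX.leaf Λ 𝔠 h𝔠 i T hT).2 z
  have h2 := fb_leaf_sumsC 𝔠 i (fun T => (𝔠.A i).U T z)
  rw [h1, ← Finset.mul_sum, h2, norm_mul]
  have hh : 0 < 𝔠.h ^ 2 := by have := h𝔠.two_le; positivity
  have h3 : |z.2 / 𝔠.h ^ 2| ≤ X.T₁ := by
    rw [abs_div, abs_of_pos hh, div_le_iff₀ hh]
    exact hw.2.1
  have h4 : X.c₀ ≤ ‖X.χ₁ (z.2 / 𝔠.h ^ 2)‖ := by
    rw [hX.c₀_eq]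
    exact hX.cut.lower _ h3
  have h5 : 𝔠.thr i ≤ ‖∑ T ∈ 𝔠.s i, (𝔠.A i).U T z‖ := hw.2.2.1
  have h6 : 0 ≤ 𝔠.thr i := by
    have := h𝔠.thr_ge i
    have h7 : 0 < 𝔠.h ^ X.cthr := Real.rpow_pos_of_pos (by linarith [h𝔠.two_le]) _
    linarith
  exact mul_le_mul h4 h5 h6 (norm_nonneg _)

theorem fn_abs_pw_pos (A N : ℝ) (v : E k) (u z : ST k) : 0 < pw A N v u z :=
  Real.rpow_pos_of_pos (by positivity) _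

theorem fn_abs_pw_mul (A B N : ℝ) (v : E k) (u z : ST k) : pw (A + B) N v u z = pw A N v u z * pw B N v u z := by
  unfold pw
  rw [neg_add, Real.rpow_add (by positivity)]

theorem fn_abs_pw_sq (A N : ℝ) (v : E k) (u z : ST k) : pw A N v u z ^ 2 = pw (2 * A) N v u z := by
  rw [two_mul, fn_abs_pw_mul, sq]

/-- **LEAF L-F1-N7: absolute Cauchy for the unmasked leaf field** (H l.134).
PLAN: `‖g0 T z‖ ≤ s0 T * w0 M T z` (`ti_pk_le (g.leaf T hT) z`).   `w0 M = w0 (Q/2) · w0 (M - Q/2)` (`Real.rpow_add`), Cauchy-Schwarz (`Finset.sum_mul_sq_le_sq_mul_sq` / `Finset.inner_mul_le_norm_mul_norm`):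
`(∑ s0 w0(M))² ≤ (∑ s0² w0(Q)) (∑ w0(2M - Q))`.     `∑_{T ∈ W0} w0 A T z ≤ C₁ #Λ0 ≤ C₁ Cm κ0^k` for `A = 2M - Q > k + 1`: fibre over the labels (`f1h_fib_sum`, `f1h_fib_img` of `HvGeo.lean`), `ti_lat_sum`, `g.nlab0`. -/
theorem fn_abs (c : TCls k) (hc : c.Ok) : ∃ C : ℝ, 1 ≤ C ∧ ∀ t : T2 k, t.Geo c → ∀ z : ST k, ‖t.full z‖ ^ 2 ≤ C * t.κ0 ^ k * ∑ T ∈ t.W0, t.s0 T ^ 2 * t.w0 c.Q T z := by
  have hA : (k : ℝ) + 1 < 2 * (c.M - c.Q / 2) := by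
    have := hc.P_gt
    have := hc.P_lt
    have := hc.M_gt
    have : (0 : ℝ) ≤ k := Nat.cast_nonneg k
    linarith
  obtain ⟨C₁, hC₁, H⟩ := ti_lat_sum (k := k) hA
  refine ⟨C₁ * c.Cm, one_le_mul_of_one_le_of_one_le hC₁ hc.one_le_Cm, fun t g z => ?_⟩
  have h1 : ‖t.full z‖ ≤ ∑ T ∈ t.W0, (t.s0 T * t.w0 (c.Q / 2) T z) * t.w0 (c.M - c.Q / 2) T z := by
    unfold T2.full
    refine (norm_sum_le _ _).trans (Finset.sum_le_sum fun T hT => ?_)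
    have h0 := ti_pk_le (g.leaf T hT) z
    have e : pw c.M t.κ0 (t.fr0 T.1) (lat T.2) z = t.w0 (c.Q / 2) T z * t.w0 (c.M - c.Q / 2) T z := by
      unfold T2.w0
      rw [← fn_abs_pw_mul]
      congr 1
      ring
    rw [e, ← mul_assoc] at h0
    exact h0
  have h2 := Finset.sum_mul_sq_le_sq_mul_sq t.W0 (fun T => t.s0 T * t.w0 (c.Q / 2) T z) (fun T => t.w0 (c.M - c.Q / 2) T z)
  have h3 : ∑ T ∈ t.W0, (t.s0 T * t.w0 (c.Q / 2) T z) ^ 2 = ∑ T ∈ t.W0, t.s0 T ^ 2 * t.w0 c.Q T z := by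
    refine Finset.sum_congr rfl fun T _ => ?_
    unfold T2.w0
    rw [mul_pow, fn_abs_pw_sq]
    congr 2
    ring
  have h4 : ∑ T ∈ t.W0, t.w0 (c.M - c.Q / 2) T z ^ 2 ≤ Fintype.card t.Λ0 * C₁ := by
    refine f1h_fib_sum t.W0 _ C₁ fun v => ?_
    have e : ∑ S ∈ t.W0.filter (fun S => S.1 = v), t.w0 (c.M - c.Q / 2) S z ^ 2
        = ∑ S ∈ t.W0.filter (fun S => S.1 = v),
          (fun m : Lat k => (1 + ‖natX t.κ0 (t.fr0 v) z - lat m‖) ^ (-(2 * (c.M - c.Q / 2)))) S.2 := by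
      refine Finset.sum_congr rfl fun S hS => ?_
      have hv := (Finset.mem_filter.1 hS).2
      unfold T2.w0
      rw [fn_abs_pw_sq, hv]
      rfl
    have e2 := f1h_fib_img t.W0 v (fun m : Lat k => (1 + ‖natX t.κ0 (t.fr0 v) z - lat m‖) ^ (-(2 * (c.M - c.Q / 2))))
    rw [e]
    exact e2.le.trans (H _ _)
  have hS0 : 0 ≤ ∑ T ∈ t.W0, t.s0 T ^ 2 * t.w0 c.Q T z :=
    Finset.sum_nonneg fun T _ => mul_nonneg (sq_nonneg _) (fn_abs_pw_pos _ _ _ _ _).le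
  calc ‖t.full z‖ ^ 2 ≤ (∑ T ∈ t.W0, (t.s0 T * t.w0 (c.Q / 2) T z) * t.w0 (c.M - c.Q / 2) T z) ^ 2 :=
        pow_le_pow_left₀ (norm_nonneg _) h1 2
    _ ≤ (∑ T ∈ t.W0, t.s0 T ^ 2 * t.w0 c.Q T z) * ∑ T ∈ t.W0, t.w0 (c.M - c.Q / 2) T z ^ 2 := by
        rw [← h3]
        exact h2
    _ ≤ (∑ T ∈ t.W0, t.s0 T ^ 2 * t.w0 c.Q T z) * (c.Cm * t.κ0 ^ k * C₁) :=
        mul_le_mul_of_nonneg_left (h4.trans (mul_le_mul_of_nonneg_right g.nlab0 (by linarith))) hS0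
    _ = C₁ * c.Cm * t.κ0 ^ k * ∑ T ∈ t.W0, t.s0 T ^ 2 * t.w0 c.Q T z := by ring

/-! ## the trees with the original leaves are good -/

/-- **LEAF L-F1-N8: the trees `tH` are good.**   PLAN: `C` from `fs_good_pow X.c hX.c_ok`, `ϖ := C * X.Cx ^ 2`.   `fb_geo_H X.c X.K hX.fit … (fun T hT => (hX.leaf Λ 𝔠 h𝔠 i T hT).1) W1 Yf hY x₀` (any `x₀`);
hypothesis of `fs_good_pow` with `B = Cx²` (`1 ≤ Cx²`): `fn_leaf_env` with `A = X.c.P` (`hX.P_le`; `q ∈ 𝔠.Y` by `hY.1`), the sum is the same by `rfl` (`T2.w0`, `XCfg.tH` unfold: use `show`/`exact`).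
The record update of `fs_good_pow` applied to `tH … x₀` IS `tH … (auxOf X.c Mc ϖ)` by `rfl`. -/
theorem fn_goodH (X : Ctx k) (hX : X.Ok) : ∃ ϖ : ℝ, 1 ≤ ϖ ∧ ∀ (Λ : Type) [Fintype Λ] (𝔠 : XCfg k Λ), X.Cfg 𝔠 → ∀ (i : Fin (k + 1)) (H : ℝ), 1 ≤ H → H ≤ 𝔠.h →
    ∀ (W1 : Finset (𝔠.BinT i H × Lat k)) (Yf : Finset (Lat k)), SepY 𝔠 Yf → ∃ Mc : ℝ, (𝔠.tH i X.χ₁ X.Cx H W1 Yf (auxOf X.c Mc ϖ)).Good X.c := by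
  obtain ⟨C, hC1, hC⟩ := fs_good_pow X.c hX.c_ok
  have hCx : 1 ≤ X.Cx ^ 2 := one_le_pow₀ hX.one_le_Cx
  refine ⟨C * X.Cx ^ 2, one_le_mul_of_one_le_of_one_le hC1 hCx, fun Λ _ 𝔠 h𝔠 i H hH hHh W1 Yf hY => ?_⟩
  have g := fb_geo_H X.c X.K hX.fit X.cthr X.T₁ X.P 𝔠 h𝔠 i X.χ₁ X.Cx H hH hHh (fun T hT => (hX.leaf Λ 𝔠 h𝔠 i T hT).1) W1 Yf hY (auxOf X.c 0 0)
  obtain ⟨Mc, hMc⟩ := hC _ g (X.Cx ^ 2) hCx (fun q hq => fn_leaf_env X 𝔠 h𝔠 i q (hY.1 hq) X.c.P hX.P_le)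
  exact ⟨Mc, hMc⟩

/-- **LEAF L-F1-N9: the trees `tK` are good.**   PLAN: as `fn_goodH` with `fb_geo_K`. -/
theorem fn_goodK (X : Ctx k) (hX : X.Ok) : ∃ ϖ : ℝ, 1 ≤ ϖ ∧ ∀ (Λ : Type) [Fintype Λ] (𝔠 : XCfg k Λ), X.Cfg 𝔠 → ∀ (i : Fin (k + 1)) (H Kk : ℝ), 1 ≤ H → H ≤ Kk → Kk ≤ 𝔠.h →
    ∀ (R : ℕ) (Yf : Finset (Lat k)), SepY 𝔠 Yf → ∃ Mc : ℝ, (𝔠.tK i X.χ₁ X.Cx H Kk R Yf (auxOf X.c Mc ϖ)).Good X.c := by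
  obtain ⟨C, hC1, hC⟩ := fs_good_pow X.c hX.c_ok
  have hCx : 1 ≤ X.Cx ^ 2 := one_le_pow₀ hX.one_le_Cx
  refine ⟨C * X.Cx ^ 2, one_le_mul_of_one_le_of_one_le hC1 hCx, fun Λ _ 𝔠 h𝔠 i H Kk hH hHK hKh R Yf hY => ?_⟩
  have g := fb_geo_K X.c X.K hX.fit X.cthr X.T₁ X.P 𝔠 h𝔠 i X.χ₁ X.Cx H Kk hH hHK hKh (fun T hT => (hX.leaf Λ 𝔠 h𝔠 i T hT).1) R Yf hY (auxOf X.c 0 0)
  obtain ⟨Mc, hMc⟩ := hC _ g (X.Cx ^ 2) hCx (fun q hq => fn_leaf_env X 𝔠 h𝔠 i q (hY.1 hq) X.c.P hX.P_le)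
  exact ⟨Mc, hMc⟩

/-! ## the weighted count, `H_i ≲ h`, the right side -/

/-- **LEAF L-F1-N10: `|Y| ≤ h^{o(1)} D_i H_i^{-k-2}`** (H l.135-139; `A_i^q = H_i^{k+2}`).
PLAN: `C₁` from `t2_wt X.c hX.c_ok hX.wt hε`, `ϖ` from `fn_goodH`.   Tree `t = 𝔠.tH i χ₁ Cx 1 ∅ Y' (auxOf c Mc ϖ)` (`H = 1 ≤ h` by `h𝔠.two_le`).   `t2_wt` with `θ = c₀ thr i` (`fn_leaf_full`; `T2.full` unfolds to the sum), `B = Cx²` (`fn_leaf_env` with `A = c.Q ≥ c.P ≥ P`),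
`t.en = Cx² D i` (`fn_leaf_en`), `t.κ0 = 𝔠.h`:  `#Y' ≤ C₁ h^ε (c₀ thr)^(-q) (Cx²)^(q/2-1) Cx² D`.   `Real.mul_rpow`, `Real.rpow_neg`: multiply by `thr^q > 0` (`thr i ≥ h^cthr > 0`).   `C := C₁ c₀^(-q) (Cx²)^(q/2-1) Cx²` (take `max 1`). -/
theorem fn_wt (X : Ctx k) (hX : X.Ok) {ε : ℝ} (hε : 0 < ε) : ∃ C : ℝ, 1 ≤ C ∧ ∀ (Λ : Type) [Fintype Λ] (𝔠 : XCfg k Λ), X.Cfg 𝔠 → ∀ Y' : Finset (Lat k), SepY 𝔠 Y' → ∀ i,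
    (Y'.card : ℝ) * 𝔠.thr i ^ (qk k) ≤ C * 𝔠.h ^ ε * 𝔠.D i := by
  obtain ⟨C₁, hC₁, H₁⟩ := t2_wt X.c hX.c_ok hX.wt hε
  obtain ⟨ϖ, hϖ, Hg⟩ := fn_goodH X hX
  have hc0 : 0 < X.c₀ := by rw [hX.c₀_eq]; norm_num
  have hCx := hX.one_le_Cx
  have hCx0 : 0 < X.Cx := by linarith
  refine ⟨max 1 (C₁ * X.c₀ ^ (-qk k) * (X.Cx ^ 2) ^ (qk k / 2 - 1) * X.Cx ^ 2), le_max_left _ _, fun Λ _ 𝔠 h𝔠 Y' hY' i => ?_⟩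
  have hh : 1 ≤ 𝔠.h := by linarith [h𝔠.two_le]
  have hh0 : 0 < 𝔠.h := by linarith
  have hthr : ∀ i, 0 < 𝔠.thr i := fun i => lt_of_lt_of_le (Real.rpow_pos_of_pos hh0 _) (h𝔠.thr_ge i)
  have hD : ∀ i, 0 ≤ 𝔠.D i := fun i => by
    unfold XCfg.D XFam.en
    rw [h𝔠.scale i]
    exact mul_nonneg (pow_pos hh0 _).le (Finset.sum_nonneg fun T _ => sq_nonneg _)
  obtain ⟨Mc, hgood⟩ := Hg Λ 𝔠 h𝔠 i 1 le_rfl hh ∅ Y' hY'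
  have key := H₁ _ hgood Y' (X.c₀ * 𝔠.thr i) (X.Cx ^ 2) (Finset.Subset.refl _) (mul_pos hc0 (hthr i)) (by positivity)
    (fun q hq => ⟨fn_leaf_full X hX 𝔠 h𝔠 i q (hY'.1 hq), fn_leaf_env X 𝔠 h𝔠 i q (hY'.1 hq) X.c.Q (hX.P_le.trans hX.c_ok.P_lt.le)⟩)
  have hen : (𝔠.tH i X.χ₁ X.Cx 1 ∅ Y' (auxOf X.c Mc ϖ)).en = X.Cx ^ 2 * 𝔠.D i := fn_leaf_en X 𝔠 h𝔠 i
  rw [hen] at key
  have key' : (Y'.card : ℝ) ≤ C₁ * 𝔠.h ^ ε * (X.c₀ * 𝔠.thr i) ^ (-qk k) * (X.Cx ^ 2) ^ (qk k / 2 - 1) * (X.Cx ^ 2 * 𝔠.D i) := key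
  rw [Real.mul_rpow hc0.le (hthr i).le] at key'
  have ht : 0 < 𝔠.thr i ^ (qk k) := Real.rpow_pos_of_pos (hthr i) _
  have e1 : 𝔠.thr i ^ (-qk k) * 𝔠.thr i ^ (qk k) = 1 := by
    rw [← Real.rpow_add (hthr i), neg_add_cancel, Real.rpow_zero]
  have hhe : 0 < 𝔠.h ^ ε := Real.rpow_pos_of_pos hh0 _
  calc (Y'.card : ℝ) * 𝔠.thr i ^ (qk k)
      ≤ (C₁ * 𝔠.h ^ ε * (X.c₀ ^ (-qk k) * 𝔠.thr i ^ (-qk k)) * (X.Cx ^ 2) ^ (qk k / 2 - 1) * (X.Cx ^ 2 * 𝔠.D i)) * 𝔠.thr i ^ (qk k) :=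
        mul_le_mul_of_nonneg_right key' ht.le
    _ = (C₁ * X.c₀ ^ (-qk k) * (X.Cx ^ 2) ^ (qk k / 2 - 1) * X.Cx ^ 2) * 𝔠.h ^ ε * 𝔠.D i * (𝔠.thr i ^ (-qk k) * 𝔠.thr i ^ (qk k)) := by ring
    _ = (C₁ * X.c₀ ^ (-qk k) * (X.Cx ^ 2) ^ (qk k / 2 - 1) * X.Cx ^ 2) * 𝔠.h ^ ε * 𝔠.D i := by rw [e1, mul_one]
    _ ≤ max 1 (C₁ * X.c₀ ^ (-qk k) * (X.Cx ^ 2) ^ (qk k / 2 - 1) * X.Cx ^ 2) * 𝔠.h ^ ε * 𝔠.D i :=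
        mul_le_mul_of_nonneg_right (mul_le_mul_of_nonneg_right (le_max_right _ _) hhe.le) (hD i)

/-- **LEAF L-F1-N11: `H_i ≲ h`** (H l.134).   PLAN: `C₁` from `fn_abs`.  Pick `q ∈ 𝔠.Y`; tree `t = 𝔠.tH i χ₁ Cx 1 ∅ ∅ x₀` (`fb_geo_H`, `SepY 𝔠 ∅` trivial); `(c₀ thr)² ≤ ‖full‖² ≤ C₁ h^k Cx²` (`fn_leaf_full`, `fn_leaf_env` with `A = c.Q`).
`CH := max 1 (C₁ Cx²/c₀²)`; `CH ≤ CH^k` (`1 ≤ k` from `hX.c_ok.k_pos`; `le_self_pow₀`); `mul_pow`. -/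
theorem fn_thr_le (X : Ctx k) (hX : X.Ok) : ∃ CH : ℝ, 1 ≤ CH ∧ ∀ (Λ : Type) [Fintype Λ] (𝔠 : XCfg k Λ), X.Cfg 𝔠 → 𝔠.Y.Nonempty → ∀ i, 𝔠.thr i ^ 2 ≤ (CH * 𝔠.h) ^ k := by
  obtain ⟨C₁, hC1, hC⟩ := fn_abs X.c hX.c_ok
  have hc0 : 0 < X.c₀ := by rw [hX.c₀_eq]; norm_num
  have hCx : 1 ≤ X.Cx ^ 2 := one_le_pow₀ hX.one_le_Cx
  have hk : 1 ≤ k := hX.c_ok.k_pos
  refine ⟨max 1 (C₁ * X.Cx ^ 2 / X.c₀ ^ 2), le_max_left _ _, fun Λ _ 𝔠 h𝔠 hne i => ?_⟩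
  obtain ⟨q, hq⟩ := hne
  have hh : 0 < 𝔠.h := by linarith [h𝔠.two_le]
  have hS : SepY 𝔠 ∅ := ⟨Finset.empty_subset _, fun i q hq => absurd hq (Finset.notMem_empty _)⟩
  have g := fb_geo_H X.c X.K hX.fit X.cthr X.T₁ X.P 𝔠 h𝔠 i X.χ₁ X.Cx 1 le_rfl (by linarith [h𝔠.two_le]) (fun T hT => (hX.leaf Λ 𝔠 h𝔠 i T hT).1) ∅ ∅ hS (auxOf X.c 0 0)
  have h1 := hC _ g (𝔠.wz i q)
  have h2 : X.c₀ * 𝔠.thr i ≤ ‖(𝔠.tH i X.χ₁ X.Cx 1 ∅ ∅ (auxOf X.c 0 0)).full (𝔠.wz i q)‖ := fn_leaf_full X hX 𝔠 h𝔠 i q hq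
  have h3 : ∑ T ∈ (𝔠.tH i X.χ₁ X.Cx 1 ∅ ∅ (auxOf X.c 0 0)).W0, (𝔠.tH i X.χ₁ X.Cx 1 ∅ ∅ (auxOf X.c 0 0)).s0 T ^ 2 * (𝔠.tH i X.χ₁ X.Cx 1 ∅ ∅ (auxOf X.c 0 0)).w0 X.c.Q T (𝔠.wz i q) ≤ X.Cx ^ 2 :=
    fn_leaf_env X 𝔠 h𝔠 i q hq X.c.Q (hX.P_le.trans hX.c_ok.P_lt.le)
  have hκ : (𝔠.tH i X.χ₁ X.Cx 1 ∅ ∅ (auxOf X.c 0 0)).κ0 = 𝔠.h := rfl
  rw [hκ] at h1
  have hthr : 0 < 𝔠.thr i := lt_of_lt_of_le (Real.rpow_pos_of_pos hh _) (h𝔠.thr_ge i)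
  have h4 : (X.c₀ * 𝔠.thr i) ^ 2 ≤ C₁ * 𝔠.h ^ k * X.Cx ^ 2 :=
    (pow_le_pow_left₀ (by positivity) h2 2).trans (h1.trans (mul_le_mul_of_nonneg_left h3 (by positivity)))
  set CH : ℝ := max 1 (C₁ * X.Cx ^ 2 / X.c₀ ^ 2) with hCH
  have h5 : 𝔠.thr i ^ 2 ≤ (C₁ * X.Cx ^ 2 / X.c₀ ^ 2) * 𝔠.h ^ k := by
    rw [div_mul_eq_mul_div, le_div_iff₀ (by positivity)]
    rw [mul_pow] at h4
    linarith
  have h6 : CH ≤ CH ^ k := le_self_pow₀ (le_max_left _ _) (by omega)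
  rw [mul_pow]
  exact h5.trans (mul_le_mul_of_nonneg_right ((le_max_right _ _).trans h6) (by positivity))

/-- **LEAF L-F1-N12: the right side in terms of scales** `Hn i > 0` with `Hn i ^ k = thr i ^ 2`.
PLAN: `G := (∏ thr)^(4/(k(k+1)))`.   `thr i = Hn i^(k/2)` (`Real.rpow_natCast`, `← Real.rpow_mul`, `Real.sqrt`-free: `thr = (thr²)^(1/2) = (Hn^k)^(1/2)`, `Real.pow_rpow_inv_natCast`/`Real.rpow_mul`);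
`∏ thr = (∏ Hn)^(k/2)` (`Real.finset_prod_rpow`), so `G = (∏ Hn)^(2/(k+1))` and `G^(k+1) = (∏ Hn)^2 = ∏ Hn²` (`Finset.prod_pow`).   `rhs = G⁻¹ ∑ D/thr²` (`XCfg.rhs`, `Real.rpow_neg`), `thr² = Hn^k`. -/
theorem fn_rhs (hk : 1 ≤ k) (𝔠 : XCfg k Λ) (hthr : ∀ i, 0 < 𝔠.thr i) (Hn : Fin (k + 1) → ℝ) (hHn : ∀ i, 0 < Hn i) (hpow : ∀ i, Hn i ^ k = 𝔠.thr i ^ 2) :
    ∃ G : ℝ, 0 < G ∧ G ^ (k + 1) = ∏ i, Hn i ^ 2 ∧ 𝔠.rhs = G⁻¹ * ∑ i, 𝔠.D i / Hn i ^ k ∧ ∀ i, 𝔠.thr i ^ (qk k) = Hn i ^ (k + 2) := by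
  have hk0 : (0 : ℝ) < k := by exact_mod_cast hk
  have hkne : k ≠ 0 := by omega
  have hP : 0 < ∏ i, 𝔠.thr i := Finset.prod_pos fun i _ => hthr i
  have hH : ∀ i, Hn i = 𝔠.thr i ^ (2 / (k : ℝ)) := by
    intro i
    have e : (𝔠.thr i ^ (2 / (k : ℝ))) ^ k = 𝔠.thr i ^ 2 := by
      rw [← Real.rpow_natCast, ← Real.rpow_mul (hthr i).le, div_mul_cancel₀ _ hk0.ne']
      exact Real.rpow_ofNat _ 2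
    exact (pow_left_inj₀ (hHn i).le (Real.rpow_nonneg (hthr i).le _) hkne).1 ((hpow i).trans e.symm)
  refine ⟨(∏ i, 𝔠.thr i) ^ (4 / ((k : ℝ) * ((k : ℝ) + 1))), Real.rpow_pos_of_pos hP _, ?_, ?_, fun i => ?_⟩
  · rw [← Real.rpow_natCast, ← Real.rpow_mul hP.le]
    have e1 : 4 / ((k : ℝ) * ((k : ℝ) + 1)) * ((k + 1 : ℕ) : ℝ) = 4 / (k : ℝ) := by
      push_cast
      field_simp
    rw [e1, ← Real.finset_prod_rpow _ _ (fun i _ => (hthr i).le)]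
    refine Finset.prod_congr rfl fun i _ => ?_
    rw [hH i, ← Real.rpow_natCast, ← Real.rpow_mul (hthr i).le]
    congr 1
    push_cast
    ring
  · unfold XCfg.rhs
    rw [Real.rpow_neg hP.le]
    congr 1
    exact Finset.sum_congr rfl fun i _ => by rw [hpow i]
  · rw [hH i, ← Real.rpow_natCast, ← Real.rpow_mul (hthr i).le]
    congr 1
    unfold qk
    push_cast
    ring

/-- **LEAF L-F1-N13**: positivity.   PLAN: `thr i ≥ h^cthr > 0` (`h𝔠.thr_ge`, `Real.rpow_pos_of_pos`, `h𝔠.two_le`); `D i = h^(k+2) ∑ a² ≥ 0` (`XCfg.D`, `XFam.en`, `h𝔠.scale`); `rhs` = product of nonnegative factors (`Real.rpow_nonneg`, `Finset.prod_nonneg`, `Finset.sum_nonneg`, `div_nonneg`). -/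
theorem fn_pos (X : Ctx k) (𝔠 : XCfg k Λ) (h𝔠 : X.Cfg 𝔠) : (∀ i, 0 < 𝔠.thr i) ∧ (∀ i, 0 ≤ 𝔠.D i) ∧ 0 ≤ 𝔠.rhs := by
  have hh : 0 < 𝔠.h := by linarith [h𝔠.two_le]
  have h1 : ∀ i, 0 < 𝔠.thr i := fun i => lt_of_lt_of_le (Real.rpow_pos_of_pos hh _) (h𝔠.thr_ge i)
  have h2 : ∀ i, 0 ≤ 𝔠.D i := by
    intro i
    unfold XCfg.D XFam.en
    rw [h𝔠.scale i]
    exact mul_nonneg (pow_nonneg hh.le _) (Finset.sum_nonneg fun T _ => sq_nonneg _)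
  refine ⟨h1, h2, ?_⟩
  unfold XCfg.rhs
  exact mul_nonneg (Real.rpow_nonneg (Finset.prod_nonneg fun i _ => (h1 i).le) _) (Finset.sum_nonneg fun i _ => div_nonneg (h2 i) (sq_nonneg _))

/-- **LEAF L-F1-N14: a failing configuration has a large scale**: `μ ≤ C h` (H l.131-133 "we obtain `h → ∞`").
PLAN: `C₁` from `fn_wt` (`ε = 1`), `C := 2^(k+1) C₁`.   `Hn i := thr i^(2/k)` (`Hn^k = thr²`: `← Real.rpow_natCast`, `← Real.rpow_mul`), `fn_rhs` gives `G`.   `Y0` from `fn_sep`.   `fa_balance Hn 𝔠.D k G #Y (C h) μ`: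
`hU i`: `#Y Hn^(k+2) ≤ 2^(k+1) #Y0 thr^q ≤ 2^(k+1) C₁ h D i`;  `hF`: `μ rhs < #Y` and `rhs = G⁻¹ ∑ …` (multiply by `G`);  `hy`: `0 ≤ μ rhs < #Y` (`fn_pos`).   First conclusion. -/
theorem fn_mu_h (X : Ctx k) (hX : X.Ok) : ∃ C : ℝ, 1 ≤ C ∧ ∀ (Λ : Type) [Fintype Λ] (𝔠 : XCfg k Λ), X.Cfg 𝔠 → ∀ μ : ℝ, 0 < μ → 𝔠.Fail μ → μ ≤ C * 𝔠.h := by
  obtain ⟨C₁, hC₁, H₁⟩ := fn_wt X hX (ε := 1) one_pos
  have h2 : (1 : ℝ) ≤ 2 ^ (k + 1) := one_le_pow₀ one_le_two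
  refine ⟨2 ^ (k + 1) * C₁, by nlinarith, fun Λ _ 𝔠 h𝔠 μ hμ hf => ?_⟩
  obtain ⟨hthr, hD, hrhs⟩ := fn_pos X 𝔠 h𝔠
  have hk : 1 ≤ k := hX.c_ok.k_pos
  have hk0 : (0 : ℝ) < k := by exact_mod_cast hk
  have hHn : ∀ i, 0 < 𝔠.thr i ^ (2 / (k : ℝ)) := fun i => Real.rpow_pos_of_pos (hthr i) _
  have hpow : ∀ i, (𝔠.thr i ^ (2 / (k : ℝ))) ^ k = 𝔠.thr i ^ 2 := by
    intro i
    rw [← Real.rpow_natCast, ← Real.rpow_mul (hthr i).le, div_mul_cancel₀ _ hk0.ne']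
    exact Real.rpow_ofNat _ 2
  obtain ⟨G, hG, hGm, hr, hq⟩ := fn_rhs hk 𝔠 hthr (fun i => 𝔠.thr i ^ (2 / (k : ℝ))) hHn hpow
  obtain ⟨Y0, hsep, hcard⟩ := fn_sep X 𝔠 h𝔠
  have hf' : μ * 𝔠.rhs < 𝔠.Y.card := hf
  have hy : (0 : ℝ) < 𝔠.Y.card := lt_of_le_of_lt (mul_nonneg hμ.le hrhs) hf'
  have hh : 0 < 𝔠.h := by linarith [h𝔠.two_le]
  refine (fa_balance (fun i => 𝔠.thr i ^ (2 / (k : ℝ))) 𝔠.D k G 𝔠.Y.card (2 ^ (k + 1) * C₁ * 𝔠.h) μ hHn hD hG hGm hy hμ (fun i => ?_) ?_).1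
  · have h1 := H₁ Λ 𝔠 h𝔠 Y0 hsep i
    rw [Real.rpow_one, hq i] at h1
    have h3 : 0 ≤ (𝔠.thr i ^ (2 / (k : ℝ))) ^ (k + 2) := (pow_pos (hHn i) _).le
    calc (𝔠.Y.card : ℝ) * (𝔠.thr i ^ (2 / (k : ℝ))) ^ (k + 2) ≤ (2 ^ (k + 1) * Y0.card) * (𝔠.thr i ^ (2 / (k : ℝ))) ^ (k + 2) :=
          mul_le_mul_of_nonneg_right hcard h3
      _ = 2 ^ (k + 1) * (Y0.card * (𝔠.thr i ^ (2 / (k : ℝ))) ^ (k + 2)) := by ring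
      _ ≤ 2 ^ (k + 1) * (C₁ * 𝔠.h * 𝔠.D i) := mul_le_mul_of_nonneg_left h1 (by positivity)
      _ = 2 ^ (k + 1) * C₁ * 𝔠.h * 𝔠.D i := by ring
  · rw [hr] at hf'
    have h4 : μ * (G⁻¹ * ∑ i, 𝔠.D i / (𝔠.thr i ^ (2 / (k : ℝ))) ^ k) * G = μ * ∑ i, 𝔠.D i / (𝔠.thr i ^ (2 / (k : ℝ))) ^ k := by
      field_simp
    rw [← h4]
    exact (mul_lt_mul_of_pos_right hf' hG).le

end

end Claimed.Agent.R257.FR1
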