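import Claimed.Agent.R257.FR1.NDefs

/-!
# ROW 257, package FR1, block NORM, file 2: FROM FAMILIES OF PLAIN TREES TO `NCfg`      (helper249)
-/

set_option autoImplicit false

namespace Claimed.Agent.R257.FR1

open Claimed.Agent.R257 Claimed.Agent.R257.FR2 Claimed.Agent.R257.Tree
open scoped BigOperators Classical BoundedContinuousFunction

noncomputable section

variable {k : ℕ}

theorem fn_upd_eq (t : T2 k) (Y : Finset (Lat k)) (h : t.Yf = Y) : ({ t with Yf := Y } : T2 k) = t := by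
  subst h
  rfl

theorem fn_ncfg_ok (F : T2Fam k) (c : TCls k) (hc : c.Ok) (hℓ : c.ℓ = 1) (htr : c.tr = 1) (h : F.Ok c) : (F.ncfg c).Ok := by
  have hcard : Fintype.card (F.ncfg c).Y = F.Y.card := Fintype.card_coe F.Y
  have hroot : ∀ i z, (F.ncfg c).root i z = (F.t i).root c z := by
    intro i z
    have := t2_root ({ F.t i with Yf := F.Y } : T2 k) c hℓ htr z
    exact this
  have hen : ∀ i, (F.ncfg c).En i = (F.t i).en := fun i => rfl
  have hH : ∀ i, (F.ncfg c).H i = (F.t i).κ1 := fun i => rfl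
  refine
    { good := fun i => ?_, nonempty := ?_, one_le_K := h.one_le_K, one_le_S := h.one_le_S, same := ?_, high := ?_, bal_le := ?_, le_bal := ?_, H_cmp := ?_, masks := ?_, trans := ?_, ϖ_le := ?_, κ_le := ?_ }
  · have := t2_good ({ F.t i with Yf := F.Y } : T2 k) c hc hℓ htr (by rw [fn_upd_eq _ _ (h.yf i)]; exact h.good i)
    exact this
  · obtain ⟨q, hq⟩ := h.nonempty
    exact ⟨⟨q, hq⟩⟩
  · intro i j y
    exact h.same i j y.1 y.2
  · intro i y
    rw [hroot, hH]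
    exact h.high i y.1 y.2
  · intro i
    rw [hcard, hH, hen]
    exact h.bal_le i
  · intro i
    rw [hcard, hH, hen]
    exact h.le_bal i
  · intro i j
    exact h.H_cmp i j
  · rw [hcard]
    exact h.masks
  · intro lb
    exact h.trans lb
  · intro i
    exact h.ϖ_le i
  · intro i
    exact h.κ_le i

theorem fn_ncfg_pow (F : T2Fam k) (c : TCls k) (hc : c.Ok) (hℓ : c.ℓ = 1) (htr : c.tr = 1) {σ c' C₁ β Λ₀ : ℝ} (h : F.Pow c σ c' C₁ β Λ₀) : (F.ncfg c).Pow σ c' C₁ β Λ₀ :=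
  { fn_ncfg_ok F c hc hℓ htr h.toOk with
    big := h.big, loss := h.loss, S_ge := h.S_ge, S_le := h.S_le, leaf := h.leaf, H_ge := h.H_ge,
    env0 := fun i y => h.env0 i y.1 y.2 }

theorem fn_ncfg_occ (F : T2Fam k) (c : TCls k) (i : Fin (k + 1)) (r : ℝ) (T : (F.t i).Λ1 × Lat k) : (F.ncfg c).occ i r T = (F.t i).ocw F.Y r T := by
  show (Finset.univ.filter fun y : {q : Lat k // q ∈ F.Y} => (F.t i).d1 T ((F.t i).pt y.1) ≤ r).card = (F.Y.filter fun q => (F.t i).d1 T ((F.t i).pt q) ≤ r).card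
  refine Finset.card_bij (fun y _ => y.1) ?_ ?_ ?_
  · intro y hy
    exact Finset.mem_filter.2 ⟨y.2, (Finset.mem_filter.1 hy).2⟩
  · intro y _ y' _ e
    exact Subtype.ext e
  · intro q hq
    exact ⟨⟨q, (Finset.mem_filter.1 hq).1⟩, Finset.mem_filter.2 ⟨Finset.mem_univ _, (Finset.mem_filter.1 hq).2⟩, rfl⟩

theorem fn_ncfg_sub (F : T2Fam k) (c : TCls k) (hc : c.Ok) (hℓ : c.ℓ = 1) (htr : c.tr = 1) {C₁ β E Λ₀ : ℝ} (h : F.Sub c C₁ β E Λ₀) : (F.ncfg c).Sub C₁ β E Λ₀ :=
  { fn_ncfg_ok F c hc hℓ htr h.toOk with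
    big := h.big, loss := h.loss, H_ge := h.H_ge, leaf := h.leaf, leaf_cmp := h.leaf_cmp, Mc_le := h.Mc_le, le_Mc := h.le_Mc,
    occ_le := fun i T hT => by
      have e := fn_ncfg_occ F c i F.S T
      have := h.occ_le i T hT
      rw [← e] at this
      exact this }

end

end Claimed.Agent.R257.FR1
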