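import Claimed.Agent.R257.FR1.NDefs

/-!
# ROW 257, package FR1, block NORM, file 4: THE ALGEBRA OF THE BALANCES, NUMERICAL LEMMAS      (architect helper249; prefix `fn_`)

PAPER-FREE.   Leaves `L-F1-NC*`, independent: edit ONLY your block.
-/

set_option autoImplicit false

namespace Claimed.Agent.R257.FR1

open Claimed.Agent.R257 Claimed.Agent.R257.FR2 Claimed.Agent.R257.Tree
open scoped BigOperators Classical BoundedContinuousFunction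

noncomputable section

variable {k : ℕ}

/-- **LEAF L-F1-NC1: all the balances from ONE loss `ℒ`** ((f:hbalance) / (f:subbalance) + the count of the masks).     `D i` = the ORIGINAL energies, `μ` = the (reduced) failure constant.
PLAN.  `y = #Y > 0`, `H i = (F.t i).κ1 ≥ 1` (`(good i).one_le_κ1`).   `fa_balance H D k G y (ℒ^2) μ`: `hU i`: `y H^(k+2) ≤ ℒ en ≤ ℒ (ℒ D)`.   Put `x = ℒ²/μ ≤ ℒ³` (`1 ≤ ℒ μ`: `div_le_iff₀`), `1/μ ≤ ℒ`.  Conclusions: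
`H i² ≤ x^(k+1) H j² ≤ (ℒ^(3k+3) H j)²` (as `ℒ^(3(k+1)) ≤ (ℒ^(3k+3))²`), so `H i ≤ ℒ^(3k+3) H j` (`abs_le_of_sq_le_sq'`/`pow_le_pow_left₀` contrapositive: `le_of_sq_le_sq`/`pow_le_pow_iff_left₀`);
`D i ≤ x^k/μ · y H^(k+2) ≤ ℒ^(3k+1) y H^(k+2)`;   `le_bal`: `en ≤ ℒ D ≤ ℒ^(3k+2) …`;   `bal_le`: `cnt` and `ℒ ≤ ℒ^(3k+3)`;   `masks`: `#W S² H² ≤ ℒ D ≤ ℒ^(3k+2) y H^k H²`, cancel `H² > 0`;
`high`, `trans` (monotone in the constant: unfold `Transv`), `ϖ_le`: `ℒ ≤ ℒ^(3k+3)` (`le_self_pow₀`). -/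
theorem fn_fam_ok (c : TCls k) (F : T2Fam k) (D : Fin (k + 1) → ℝ) (G μ ℒ : ℝ) (good : ∀ i, (F.t i).Good c) (yf : ∀ i, (F.t i).Yf = F.Y) (ne : F.Y.Nonempty) (hℒ : 1 ≤ ℒ) (hS : 1 ≤ F.S)
    (same : ∀ i j, ∀ q ∈ F.Y, ‖(F.t i).pt q - (F.t j).pt q‖ ≤ k)
    (high : ∀ i, ∀ q ∈ F.Y, (F.t i).κ1 ^ ((k : ℝ) / 2) ≤ ℒ * ‖(F.t i).root c ((F.t i).pt q)‖)
    (cnt : ∀ i, (F.Y.card : ℝ) * (F.t i).κ1 ^ (k + 2) ≤ ℒ * (F.t i).en) (enD : ∀ i, (F.t i).en ≤ ℒ * D i) (hD : ∀ i, 0 ≤ D i)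
    (hG : 0 < G) (hGm : G ^ (k + 1) = ∏ i, (F.t i).κ1 ^ 2) (hμ : 0 < μ) (hμℒ : 1 ≤ ℒ * μ) (fail : μ * ∑ i, D i / (F.t i).κ1 ^ k ≤ F.Y.card * G)
    (masks : ((F.t F.i₀).W1.card : ℝ) * F.S ^ 2 * (F.t F.i₀).κ1 ^ 2 ≤ ℒ * D F.i₀)
    (trans : ∀ lb : ∀ i, (F.t i).Λ0, Transv ℒ (fun i => (F.t i).fr0 (lb i))) (ϖ_le : ∀ i, (F.t i).ϖ ≤ ℒ) (κ_le : ∀ i, (F.t i).κ0 ≤ F.h)
    (hK : F.K = ℒ ^ (3 * k + 3)) : F.Ok c := by
  have hℒ0 : 0 < ℒ := by linarith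
  have hy : (0 : ℝ) < F.Y.card := by exact_mod_cast Finset.card_pos.2 ne
  have hH1 : ∀ i, 1 ≤ (F.t i).κ1 := fun i => (good i).one_le_κ1
  have hH : ∀ i, 0 < (F.t i).κ1 := fun i => lt_of_lt_of_le one_pos (hH1 i)
  have hU : ∀ i, (F.Y.card : ℝ) * (F.t i).κ1 ^ (k + 2) ≤ ℒ ^ 2 * D i := by
    intro i
    calc (F.Y.card : ℝ) * (F.t i).κ1 ^ (k + 2) ≤ ℒ * (F.t i).en := cnt i
      _ ≤ ℒ * (ℒ * D i) := mul_le_mul_of_nonneg_left (enD i) hℒ0.le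
      _ = ℒ ^ 2 * D i := by ring
  obtain ⟨-, hb2, hb3⟩ := fa_balance (fun i => (F.t i).κ1) D k G (F.Y.card : ℝ) (ℒ ^ 2) μ hH hD hG hGm hy hμ hU fail
  have hinv : 1 / μ ≤ ℒ := by
    rw [div_le_iff₀ hμ]; exact hμℒ
  have hinv0 : 0 ≤ 1 / μ := by positivity
  have hx0 : 0 ≤ ℒ ^ 2 / μ := by positivity
  have hx : ℒ ^ 2 / μ ≤ ℒ ^ 3 := by
    calc ℒ ^ 2 / μ = ℒ ^ 2 * (1 / μ) := by ring
      _ ≤ ℒ ^ 2 * ℒ := mul_le_mul_of_nonneg_left hinv (by positivity)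
      _ = ℒ ^ 3 := by ring
  have hK1 : 1 ≤ F.K := by rw [hK]; exact one_le_pow₀ hℒ
  have hK0 : 0 < F.K := by linarith
  have hℒK : ℒ ≤ F.K := by
    rw [hK]; exact le_self_pow₀ hℒ (by omega)
  have hpK : ∀ n : ℕ, n ≤ 3 * k + 3 → ℒ ^ n ≤ F.K := by
    intro n hn; rw [hK]; exact pow_le_pow_right₀ hℒ hn
  have hen0 : ∀ i, 0 ≤ (F.t i).en := by
    intro i
    have h1 : 0 ≤ ℒ * (F.t i).en := le_trans (by have := hH i; positivity) (cnt i)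
    exact nonneg_of_mul_nonneg_right h1 hℒ0
  -- `D i ≤ ℒ^(3k+1) y H^(k+2)`
  have hDb : ∀ i, D i ≤ ℒ ^ (3 * k + 1) * ((F.Y.card : ℝ) * (F.t i).κ1 ^ (k + 2)) := by
    intro i
    refine (hb3 i).trans (mul_le_mul_of_nonneg_right ?_ (by have := hH i; positivity))
    calc (ℒ ^ 2 / μ) ^ k / μ = (ℒ ^ 2 / μ) ^ k * (1 / μ) := by ring
      _ ≤ (ℒ ^ 3) ^ k * ℒ := mul_le_mul (pow_le_pow_left₀ hx0 hx k) hinv hinv0 (by positivity)
      _ = ℒ ^ (3 * k + 1) := by rw [← pow_mul, pow_succ]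
  have hDb2 : ∀ i, ℒ * D i ≤ F.K * ((F.Y.card : ℝ) * (F.t i).κ1 ^ (k + 2)) := by
    intro i
    calc ℒ * D i ≤ ℒ * (ℒ ^ (3 * k + 1) * ((F.Y.card : ℝ) * (F.t i).κ1 ^ (k + 2))) :=
          mul_le_mul_of_nonneg_left (hDb i) hℒ0.le
      _ = ℒ ^ (3 * k + 2) * ((F.Y.card : ℝ) * (F.t i).κ1 ^ (k + 2)) := by ring
      _ ≤ F.K * ((F.Y.card : ℝ) * (F.t i).κ1 ^ (k + 2)) :=
          mul_le_mul_of_nonneg_right (hpK _ (by omega)) (by have := hH i; positivity)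
  refine
    { good := good
      yf := yf
      nonempty := ne
      one_le_K := hK1
      one_le_S := hS
      same := same
      high := fun i q hq => (high i q hq).trans (mul_le_mul_of_nonneg_right hℒK (norm_nonneg _))
      bal_le := fun i => (cnt i).trans (mul_le_mul_of_nonneg_right hℒK (hen0 i))
      le_bal := fun i => (enD i).trans (hDb2 i)
      H_cmp := ?_
      masks := ?_
      trans := ?_
      ϖ_le := fun i => (ϖ_le i).trans hℒK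
      κ_le := κ_le }
  · intro i j
    have h1 : (F.t i).κ1 ^ 2 ≤ (F.K * (F.t j).κ1) ^ 2 := by
      refine (hb2 i j).trans ?_
      rw [mul_pow]
      refine mul_le_mul_of_nonneg_right ?_ (by positivity)
      calc (ℒ ^ 2 / μ) ^ (k + 1) ≤ (ℒ ^ 3) ^ (k + 1) := pow_le_pow_left₀ hx0 hx _
        _ = F.K := by rw [hK, ← pow_mul]; congr 1
        _ ≤ F.K ^ 2 := le_self_pow₀ hK1 (by norm_num)
    exact (pow_le_pow_iff_left₀ (hH i).le (mul_nonneg hK0.le (hH j).le) (by norm_num)).1 h1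
  · have hH2 : 0 < (F.t F.i₀).κ1 ^ 2 := by have := hH F.i₀; positivity
    refine le_of_mul_le_mul_right ?_ hH2
    refine masks.trans ((hDb2 F.i₀).trans (le_of_eq ?_))
    ring
  · intro lb t
    refine (trans lb t).trans (mul_le_mul_of_nonneg_right hℒK ?_)
    positivity

/-- `pn` is antitone -/
theorem fn_pn_anti {n m : ℕ} (h : n ≤ m) : pn m ≤ pn n := by
  unfold pn
  have h' : (n : ℝ) ≤ m := by exact_mod_cast h
  apply one_div_le_one_div_of_le (by positivity)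
  have : (0 : ℝ) ≤ n := by positivity
  nlinarith

/-- **LEAF L-F1-NC2**: `1/pn n ≤ 4·2^n`.   PLAN: `1/pn n = (n+1)(n+2)`; induction: `(n+1)(n+2) ≤ 4·2^n` (`n = 0`: `2 ≤ 4`; step: `(n+2)(n+3) ≤ 2 (n+1)(n+2)` iff `n + 3 ≤ 2n + 2` for `n ≥ 1`; treat `n = 0, 1` by `norm_num`). -/
theorem fn_pn_crude (n : ℕ) : 1 / pn n ≤ 4 * 2 ^ n := by
  have key : ∀ n : ℕ, ((n : ℝ) + 1) * ((n : ℝ) + 2) ≤ 4 * 2 ^ n := by
    intro n
    induction n with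
    | zero => norm_num
    | succ n ih =>
      rcases Nat.eq_zero_or_pos n with h0 | h0
      · subst h0; norm_num
      · have h1 : (1 : ℝ) ≤ n := by exact_mod_cast h0
        push_cast
        rw [pow_succ]
        nlinarith
  have e : 1 / pn n = ((n : ℝ) + 1) * ((n : ℝ) + 2) := by
    unfold pn
    rw [one_div_one_div]
  rw [e]
  exact key n

theorem fn_pn_le_one (n : ℕ) : pn n ≤ 1 := by
  have := fn_pn_anti (Nat.zero_le n)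
  have h0 : pn 0 = 1 / 2 := by unfold pn; norm_num
  linarith

/-- constants times small powers are subpower (used by `fn_pn_pow`, `fn_const_pow`) -/
theorem fn_const_pow_aux (C : ℝ) {ε β : ℝ} (hε : ε < β) : ∃ B₀ : ℝ, 1 ≤ B₀ ∧ ∀ B : ℝ, B₀ ≤ B → C * B ^ ε ≤ B ^ β := by
  have hd : 0 < β - ε := by linarith
  refine ⟨max 1 (|C| ^ (1 / (β - ε))), le_max_left _ _, ?_⟩
  intro B hB
  have hB1 : 1 ≤ B := (le_max_left _ _).trans hB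
  have hB0 : 0 < B := by linarith
  have h2 : |C| ^ (1 / (β - ε)) ≤ B := (le_max_right _ _).trans hB
  have h3 : (|C| ^ (1 / (β - ε))) ^ (β - ε) ≤ B ^ (β - ε) :=
    Real.rpow_le_rpow (Real.rpow_nonneg (abs_nonneg C) _) h2 hd.le
  have h4 : (|C| ^ (1 / (β - ε))) ^ (β - ε) = |C| := by
    rw [← Real.rpow_mul (abs_nonneg C), one_div, inv_mul_cancel₀ hd.ne', Real.rpow_one]
  rw [h4] at h3
  have h5 : 0 ≤ B ^ ε := Real.rpow_nonneg hB0.le _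
  calc C * B ^ ε ≤ |C| * B ^ ε := mul_le_mul_of_nonneg_right (le_abs_self C) h5
    _ ≤ B ^ (β - ε) * B ^ ε := mul_le_mul_of_nonneg_right h3 h5
    _ = B ^ β := by rw [← Real.rpow_add hB0]; congr 1; ring

/-- **LEAF L-F1-NC3: logarithmic losses are subpower.**   PLAN: `C'` from `fa_pn_sub` with the exponent `β/(2m+2)`: `1/pn N ≤ C' (2^N)^(β/(2m+2)) ≤ C' B^(β/(2m+2))` (`Real.rpow_le_rpow`), so `C/pn N^m ≤ |C| C'^m B^(β/2)` (`div_eq_mul_inv`, `← inv_pow`, `← Real.rpow_natCast`, `← Real.rpow_mul`,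
exponent `m β/(2m+2) ≤ β/2`, `B ≥ 1`).   `B₀ := max 1 ((|C| C'^m)^(2/β))`: then `|C| C'^m ≤ B^(β/2)` (`Real.rpow_le_rpow`, `← Real.rpow_mul`), `B^(β/2) B^(β/2) = B^β` (`← Real.rpow_add`). -/
theorem fn_pn_pow (C : ℝ) (m : ℕ) {β : ℝ} (hβ : 0 < β) : ∃ B₀ : ℝ, 1 ≤ B₀ ∧ ∀ (N : ℕ) (B : ℝ), B₀ ≤ B → (2 : ℝ) ^ N ≤ B → C / pn N ^ m ≤ B ^ β := by
  have hm : (0 : ℝ) < 2 * (m : ℝ) + 2 := by positivity
  have hγ : 0 < β / (2 * (m : ℝ) + 2) := by positivity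
  obtain ⟨C', hC', hsub⟩ := fa_pn_sub hγ
  obtain ⟨B₀, hB₀, hB⟩ := fn_const_pow_aux (|C| * C' ^ m) (show β / 2 < β by linarith)
  refine ⟨B₀, hB₀, ?_⟩
  intro N B hBB hN
  have hB1 : 1 ≤ B := hB₀.trans hBB
  have hB0 : 0 < B := by linarith
  have h1 : 1 / pn N ≤ C' * B ^ (β / (2 * (m : ℝ) + 2)) := by
    refine (hsub N).trans (mul_le_mul_of_nonneg_left ?_ (by linarith))
    exact Real.rpow_le_rpow (by positivity) hN hγ.le
  have hpn : 0 < pn N := by unfold pn; positivity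
  have h0 : 0 ≤ 1 / pn N := by positivity
  have h2 : (1 / pn N) ^ m ≤ (C' * B ^ (β / (2 * (m : ℝ) + 2))) ^ m := pow_le_pow_left₀ h0 h1 m
  have h3 : (B ^ (β / (2 * (m : ℝ) + 2))) ^ m ≤ B ^ (β / 2) := by
    rw [← Real.rpow_natCast, ← Real.rpow_mul hB0.le]
    apply Real.rpow_le_rpow_of_exponent_le hB1
    rw [div_mul_eq_mul_div, div_le_div_iff₀ hm (by norm_num)]
    have : (0 : ℝ) ≤ m := by positivity
    nlinarith
  have hC'm : 0 ≤ C' ^ m := by positivity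
  have e : C / pn N ^ m = C * (1 / pn N) ^ m := by
    rw [one_div, inv_pow, div_eq_mul_inv]
  rw [e]
  calc C * (1 / pn N) ^ m ≤ |C| * (1 / pn N) ^ m := mul_le_mul_of_nonneg_right (le_abs_self C) (by positivity)
    _ ≤ |C| * (C' * B ^ (β / (2 * (m : ℝ) + 2))) ^ m := mul_le_mul_of_nonneg_left h2 (abs_nonneg C)
    _ = |C| * C' ^ m * (B ^ (β / (2 * (m : ℝ) + 2))) ^ m := by rw [mul_pow]; ring
    _ ≤ |C| * C' ^ m * B ^ (β / 2) := mul_le_mul_of_nonneg_left h3 (by positivity)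
    _ ≤ B ^ β := hB B hBB

/-- **LEAF L-F1-NC4: constants times small powers are subpower.**   PLAN: `B₀ := max 1 (|C|^(1/(β - ε)))`; `C B^ε ≤ B^(β-ε) B^ε = B^β` (`← Real.rpow_add`). -/
theorem fn_const_pow (C : ℝ) {ε β : ℝ} (hε : ε < β) : ∃ B₀ : ℝ, 1 ≤ B₀ ∧ ∀ B : ℝ, B₀ ≤ B → C * B ^ ε ≤ B ^ β := by
  exact fn_const_pow_aux C hε

end

end Claimed.Agent.R257.FR1
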