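import Claimed.Agent.R257.FR1.NDefs
import Claimed.Agent.R257.Tree.Svc
import Claimed.Agent.R257.PK1.WTree
import Claimed.Agent.R257.PK2.NcOut

/-!
# ROW 257, package FR1, block NORM: EXISTENCE OF THE CONTEXT      (helper30, on request of helper249; prefix `fn_ctx`)

`fn_ctx` : for all parameters `cthr > 0`, `ρ, Cc, Cm, T₁` (of any sign), every order `P` and all lower bounds `Pw0`, `C00` there is a context `X : Ctx k` with `X.Ok`, the given `cthr, T₁, P`,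
the exact class `X.K = ⟨J, ρ, Cc, Cm⟩` (`J` chosen), `Pw0 ≤ X.c.P`, `C00 ≤ X.c.C0`, `Room X.c`:   `fn_ctx hk : CtxExit k` (`FR1/NMain.lean`).          NOTHING is sorried.
-/

set_option autoImplicit false

namespace Claimed.Agent.R257.FR1

open Claimed.Agent.R257 Claimed.Agent.R257.FR2 Claimed.Agent.R257.Tree
open scoped BigOperators Classical BoundedContinuousFunction

noncomputable section

variable {k : ℕ}

/-- `p:weighted` at the orders of a class (PK1) -/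
theorem fn_ctx_wt (hk : 1 ≤ k) (c : TCls k) (hc : c.Ok) : WtAt k (qk k) c.Q c.M := by
  have hk0 : (0 : ℝ) < k := by exact_mod_cast hk
  have h1 := hc.P_gt
  have h2 := hc.P_lt
  have h3 := hc.M_gt
  refine pkw_wtAt ?_ ?_ (by linarith) (by linarith) (by linarith)
  · unfold qk
    rw [le_div_iff₀ hk0]
    linarith
  · unfold qk
    rw [div_mul_cancel₀ _ hk0.ne']

/-- the lossless `L²` form at the order of a class (PK1) -/
theorem fn_ctx_l2 (c : TCls k) (hc : c.Ok) : L2At k c.M := by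
  have h1 := hc.P_gt
  have h2 := hc.P_lt
  have h3 := hc.M_gt
  have hk0 : (0 : ℝ) ≤ k := Nat.cast_nonneg _
  exact pkw_l2At (by linarith)

/-- `p:near-cauchy` at the orders of a class (PK2) -/
theorem fn_ctx_nc (hk : 1 ≤ k) (c : TCls k) (hc : c.Ok) : NcAt k c.Q c.M := by
  have h1 := hc.P_gt
  have h2 := hc.P_lt
  have h3 := hc.M_gt
  have hk0 : (0 : ℝ) ≤ k := Nat.cast_nonneg _
  exact nc_ncAt hk (by linarith) (by linarith)

/-- **existence of the context** -/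
theorem fn_ctx (hk : 1 ≤ k) (cthr ρ Cc Cm T₁ : ℝ) (hcthr : 0 < cthr) (P : ℕ) (Pw0 C00 : ℝ) :
    ∃ (X : Ctx k) (J : ℕ), X.Ok ∧ X.cthr = cthr ∧ X.T₁ = T₁ ∧ X.P = P ∧ X.K = ⟨J, ρ, Cc, Cm⟩ ∧ Pw0 ≤ X.c.P ∧ C00 ≤ X.c.C0 ∧ Room X.c := by
  have hkk : (0 : ℝ) ≤ ((k : ℝ) + 2) * k / 2 := by positivity
  obtain ⟨Pc, hPc⟩ : ∃ Pc : ℝ, Pc = max (max (P : ℝ) Pw0) ((k : ℝ) + 3) := ⟨_, rfl⟩
  have hP1 : (P : ℝ) ≤ Pc := hPc ▸ (le_max_left _ _).trans (le_max_left _ _)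
  have hP2 : Pw0 ≤ Pc := hPc ▸ (le_max_right _ _).trans (le_max_left _ _)
  have hP3 : (k : ℝ) + 3 ≤ Pc := hPc ▸ le_max_right _ _
  have hk0 : (0 : ℝ) ≤ k := Nat.cast_nonneg _
  obtain ⟨c, hℓ, htr, hcP, hcQ, hcM, hcC0, hcCc, hcCm, hcρ, -, hc⟩ := ti_cls_exists hk 1 1 le_rfl Pc (Pc + 1) (Pc + 1 + 2 * ((k : ℝ) + 2) ^ 2)
    (max C00 (Pc + 1 + 2 * ((k : ℝ) + 2) ^ 2))
    (max (Cc + 2) 1) (max ((Cm + 1) * (20 * (Cc + 2)) ^ (2 * k)) 1) (max ρ 0 + 1 + max ρ 0 ^ 2) (by linarith) (by linarith) (by nlinarith) (le_trans (by nlinarith) (le_max_right _ _))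
    (le_max_right _ _) (le_max_right _ _) (by positivity) le_rfl (le_max_right _ _)
  obtain ⟨J, hJ⟩ : ∃ J : ℕ, c.M + c.C0 + k + 3 ≤ J := ⟨⌈c.M + c.C0 + k + 3⌉₊, Nat.le_ceil _⟩
  have hF : Fit c ⟨J, ρ, Cc, Cm⟩ :=
    { ρ := by rw [hcρ]; exact le_rfl
      Cc := by rw [hcCc]; exact le_max_left _ _
      Cm := by rw [hcCm]; exact le_max_left _ _
      J := hJ }
  obtain ⟨χ₁, χh, hχ⟩ := fxp_cutoff T₁
  obtain ⟨Cx, hCx, hleaf⟩ := fb_leaf c hc ⟨J, ρ, Cc, Cm⟩ hF cthr T₁ P χ₁ χh hχ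
  refine ⟨⟨c, ⟨J, ρ, Cc, Cm⟩, cthr, T₁, 1 / 2, P, χ₁, χh, Cx⟩, J, ?_, rfl, rfl, rfl, rfl, by rw [hcP]; exact hP2, by rw [hcC0]; exact le_max_left _ _,
    by show c.Q + ((k : ℝ) + 2) * k / 2 + k + 2 ≤ c.C0; have := hc.room_C0; nlinarith,
    by show c.Q + ((k : ℝ) + 2) * k / 2 ≤ c.M; have := hc.room_M; nlinarith⟩
  exact
    { c_ok := hc
      hℓ := hℓ
      htr := htr
      fit := hF
      P_le := by rw [hcP]; exact hP1
      cthr_pos := hcthr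
      cut := hχ
      c₀_eq := rfl
      one_le_Cx := hCx
      leaf := hleaf
      wt := fn_ctx_wt hk c hc
      l2 := fn_ctx_l2 c hc
      nc := fn_ctx_nc hk c hc }

end

end Claimed.Agent.R257.FR1
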