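import Claimed.Agent.R257.FR1.Stage

/-!
# ROW 257, package FR1, block NORM, file 1: DEFINITIONS      (captain helper249; prefix `fn_`)

NOTHING is sorried in this file.
* `Ctx k`, `Ctx.Ok`       everything which is FIXED BEFORE the configuration: class `c` of trees, exact class `K`, threshold exponent, slab, order `P`, time cutoff `χ₁`, leaf constant `Cx`, the three analytic contracts.
* `T2Fam k`               `k + 1` plain two-height trees over ONE finite set of witness cubes; `T2Fam.Ok/Pow/Sub` = `NCfg.Ok/Pow/Sub` in plain form; `T2Fam.ncfg` the `NCfg`.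
* `Sel 𝔠`                 the outcome of the selection of the amplitude classes (H l.147-173): mask scales `H i`, dyadic indices `n i`, masks `U i`, witnesses `Y1`.
-/

set_option autoImplicit false

namespace Claimed.Agent.R257.FR1

open Claimed.Agent.R257 Claimed.Agent.R257.FR2 Claimed.Agent.R257.Tree
open scoped BigOperators Classical BoundedContinuousFunction

noncomputable section

variable {k : ℕ} {Λ : Type}

/-! ## 1. the context -/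

/-- everything which is fixed before the configuration -/
structure Ctx (k : ℕ) where
  c : TCls k
  K : XCls
  cthr : ℝ
  T₁ : ℝ
  c₀ : ℝ
  P : ℕ
  χ₁ : ℝ → ℂ
  /-- the Fourier density of the time cutoff (`XCut` of `FR1/Xp.lean`) -/
  χh : ℝ → ℂ
  Cx : ℝ

/-- the configuration `𝔠` satisfies the hypotheses of the exact frame statement for the parameters of `X` -/
abbrev Ctx.Cfg (X : Ctx k) [Fintype Λ] (𝔠 : XCfg k Λ) : Prop := 𝔠.Ok X.cthr X.K X.T₁ X.P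

structure Ctx.Ok (X : Ctx k) : Prop where
  c_ok : X.c.Ok
  hℓ : X.c.ℓ = 1
  htr : X.c.tr = 1
  fit : Fit X.c X.K
  P_le : (X.P : ℝ) ≤ X.c.P
  cthr_pos : 0 < X.cthr
  cut : XCut X.T₁ X.χ₁ X.χh
  /-- the lower bound of `XCut.lower` -/
  c₀_eq : X.c₀ = 1 / 2
  one_le_Cx : 1 ≤ X.Cx
  leaf : ∀ (Λ : Type) [Fintype Λ] (𝔠 : XCfg k Λ), X.Cfg 𝔠 → ∀ i, ∀ T ∈ 𝔠.W0 i,
    IsPk (X.c.ρ 0) X.c.M 𝔠.h (𝔠.frU i T.1) (lat T.2) (X.Cx * 𝔠.a i (T.1.1, T.2.1)) (toB (𝔠.lv i X.χ₁ T)) ∧ ∀ z, toB (𝔠.lv i X.χ₁ T) z = 𝔠.lv i X.χ₁ T z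
  wt : WtAt k (qk k) X.c.Q X.c.M
  l2 : L2At k X.c.M
  nc : NcAt k X.c.Q X.c.M

/-! ## 2. families of plain trees -/

/-- `k + 1` plain two-height trees over one set of witness cubes -/
structure T2Fam (k : ℕ) where
  t : Fin (k + 1) → T2 k
  Y : Finset (Lat k)
  h : ℝ
  S : ℝ
  i₀ : Fin (k + 1)
  K : ℝ

namespace T2Fam

variable (F : T2Fam k)

/-- `NCfg.Ok` in plain form -/
structure Ok (c : TCls k) : Prop where
  good : ∀ i, (F.t i).Good c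
  yf : ∀ i, (F.t i).Yf = F.Y
  nonempty : F.Y.Nonempty
  one_le_K : 1 ≤ F.K
  one_le_S : 1 ≤ F.S
  same : ∀ i j, ∀ q ∈ F.Y, ‖(F.t i).pt q - (F.t j).pt q‖ ≤ k
  high : ∀ i, ∀ q ∈ F.Y, (F.t i).κ1 ^ ((k : ℝ) / 2) ≤ F.K * ‖(F.t i).root c ((F.t i).pt q)‖
  bal_le : ∀ i, (F.Y.card : ℝ) * (F.t i).κ1 ^ (k + 2) ≤ F.K * (F.t i).en
  le_bal : ∀ i, (F.t i).en ≤ F.K * ((F.Y.card : ℝ) * (F.t i).κ1 ^ (k + 2))
  H_cmp : ∀ i j, (F.t i).κ1 ≤ F.K * (F.t j).κ1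
  masks : ((F.t F.i₀).W1.card : ℝ) * F.S ^ 2 ≤ F.K * ((F.Y.card : ℝ) * (F.t F.i₀).κ1 ^ k)
  trans : ∀ lb : ∀ i, (F.t i).Λ0, Transv F.K (fun i => (F.t i).fr0 (lb i))
  ϖ_le : ∀ i, (F.t i).ϖ ≤ F.K
  κ_le : ∀ i, (F.t i).κ0 ≤ F.h

/-- `NCfg.Pow` in plain form -/
structure Pow (c : TCls k) (σ c' C₁ β Λ₀ : ℝ) : Prop extends F.Ok c where
  big : Λ₀ ≤ F.h
  loss : F.K ≤ F.h ^ β
  S_ge : F.h ^ σ ≤ F.S
  S_le : F.S ≤ F.h ^ C₁
  leaf : ∀ i, (F.t i).κ0 = F.h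
  H_ge : ∀ i, F.h ^ c' ≤ (F.t i).κ1
  env0 : ∀ i, ∀ q ∈ F.Y, ∑ T ∈ (F.t i).W0, (F.t i).s0 T ^ 2 * (F.t i).w0 c.P T ((F.t i).pt q) ≤ F.K

/-- `NCfg.Sub` in plain form -/
structure Sub (c : TCls k) (C₁ β E Λ₀ : ℝ) : Prop extends F.Ok c where
  big : Λ₀ ≤ F.S
  loss : F.K ≤ F.S ^ β
  H_ge : ∀ i, F.S ^ E ≤ (F.t i).κ1
  leaf : ∀ i, (F.t i).κ0 ≤ (F.t i).κ1 * F.S ^ C₁
  leaf_cmp : ∀ i j, (F.t i).κ0 ≤ F.K * (F.t j).κ0
  Mc_le : ∀ i, (F.t i).Mc ≤ (F.t i).κ1 ^ (-(k : ℝ)) * F.S ^ C₁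
  le_Mc : ∀ i, (F.t i).κ1 ^ (-(k : ℝ)) ≤ (F.t i).Mc
  occ_le : ∀ i, ∀ T ∈ (F.t i).W1, ((F.t i).ocw F.Y F.S T : ℝ) ≤ F.S ^ C₁

/-- the normalised counter-configuration of a family of plain trees -/
def ncfg (c : TCls k) : NCfg k c where
  D := fun i => T2.dat { F.t i with Yf := F.Y } c
  Y := {q : Lat k // q ∈ F.Y}
  fY := inferInstance
  wy := fun _ => Equiv.refl _
  h := F.h
  S := F.S
  i₀ := F.i₀
  K := F.K

end T2Fam

/-! ## 3. the selection -/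

/-- the outcome of the selection of the amplitude classes -/
structure Sel [Fintype Λ] (𝔠 : XCfg k Λ) where
  /-- the scales of the transition masks -/
  H : Fin (k + 1) → ℝ
  /-- the dyadic indices of the amplitude classes: `S_i = 2^(n i)` -/
  n : Fin (k + 1) → ℕ
  /-- the original transition masks -/
  U : ∀ i, Finset (𝔠.BinT i (H i) × Lat k)
  /-- the witness cubes -/
  Y1 : Finset (Lat k)
  /-- auxiliary: bounds of the bin envelopes at the centres of the masks -/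
  Mc : Fin (k + 1) → ℝ

namespace Sel

variable [Fintype Λ] {𝔠 : XCfg k Λ} (s : Sel 𝔠)

/-- the largest index -/
def N : ℕ := Finset.univ.sup s.n

/-- the excess amplitude `S = max S_i = 2^N` -/
def S : ℝ := 2 ^ s.N

/-- the tree `h → H i` with the selected masks -/
def t (X : Ctx k) (ϖ : ℝ) (i : Fin (k + 1)) : T2 k := 𝔠.tH i X.χ₁ X.Cx (s.H i) (s.U i) s.Y1 (auxOf X.c (s.Mc i) ϖ)

/-- the unit of amplitude of the field `i`: `σ_i = A_i / (Cσ H_i^k) ≍ H_i^{-k/2}` -/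
def σ (Cσ : ℝ) (i : Fin (k + 1)) : ℝ := 𝔠.thr i / (Cσ * s.H i ^ k)

/-- the threshold of the selected field: `θ_i = (3 c₀/8) A_i p_{n_i}` -/
def θ (X : Ctx k) (i : Fin (k + 1)) : ℝ := 3 * X.c₀ / 8 * 𝔠.thr i * pn (s.n i)

/-- **the properties of the selection**; `CH, Cσ, ϖ, Cu ≥ 1` are constants of the context -/
structure Ok (X : Ctx k) (CH Cσ ϖ Cu : ℝ) : Prop where
  sep : SepY 𝔠 s.Y1
  ne : s.Y1.Nonempty
  card : (𝔠.Y.card : ℝ) * ∏ i, pn (s.n i) ≤ 2 ^ (k + 1) * s.Y1.card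
  H_thr : ∀ i, (CH * s.H i) ^ k = 𝔠.thr i ^ 2
  one_le_H : ∀ i, 1 ≤ s.H i
  H_le : ∀ i, s.H i ≤ 𝔠.h
  good : ∀ i, (s.t X ϖ i).Good X.c
  amp_ge : ∀ i, ∀ T ∈ s.U i, 2 ^ s.n i * s.σ Cσ i ≤ (s.t X ϖ i).amp X.c T
  amp_le : ∀ i, ∀ T ∈ s.U i, (s.t X ϖ i).amp X.c T ≤ 2 ^ (s.n i + 1) * s.σ Cσ i
  high : ∀ i, ∀ q ∈ s.Y1, s.θ X i ≤ ‖(s.t X ϖ i).root X.c (𝔠.wz i q)‖
  up : ∀ i, 2 ^ s.n i * pn (s.n i) ≤ Cu * (𝔠.h / s.H i) ^ k

end Sel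

/-- the exact frame bound fails with the constant `μ` -/
def XCfg.Fail (𝔠 : XCfg k Λ) (μ : ℝ) : Prop := μ * 𝔠.rhs < 𝔠.Y.card

end

end Claimed.Agent.R257.FR1
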