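import Claimed.Agent.R257.FR1.NPow
import Claimed.Agent.R257.FR1.NBr

/-!
# ROW 257, package FR1, block NORM, file 8: ORDER OF THE CONSTANTS, THE FINAL CONTRADICTION      (helper83; prefix `fn_`)       H `frame.tex` l.131-133, 207-211

`fn_norm_of : CtxExit k → SubAll k → CoreStmt k → XFrameStmt k`.      NOTHING is sorried here.
* `CtxExit k`   existence of the context (helper30, `fn_ctx`): class by `ti_cls_exists`, `Fit`, cutoff, `fb_leaf`, the three analytic contracts.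
* `SubExit X CH Cσ ϖ Cu`   the exit of the subpower case (helper13/249/16, `fn_sub`);   `SubAll k` = `SubExit` for all contexts whose orders are large.
ORDER:  `P₀, Pw₀, C0₀` (`SubAll`)  →  `X` (`CtxExit`)  →  `CH, Cσ, ϖ, Cu, h₀` (`fn_sel`)  →  `C₁, E₁` (`SubExit`)  →  `β_s, E, Λ_s` (`CoreSub (shiftC c) C₁`)  →  `S₁` (`SubExit`)  →  `σ₀ = min (1/max E₁ 1) (cthr/(k max E 1))`
→  `β_p, Λ_p` (`CorePow c σ₀ (cthr/k) (2k+1)`)  →  `M_p` (`fn_pow`)  →  the failure constant `C`.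
-/

set_option autoImplicit false

namespace Claimed.Agent.R257.FR1

open Claimed.Agent.R257 Claimed.Agent.R257.FR2 Claimed.Agent.R257.Tree
open scoped BigOperators Classical BoundedContinuousFunction

noncomputable section

variable {k : ℕ}

/-- existence of the context -/
def CtxExit (k : ℕ) : Prop :=
  ∀ (cthr ρ Cc Cm T₁ : ℝ), 0 < cthr → ∀ (P : ℕ) (Pw₀ C0₀ : ℝ), ∃ (X : Ctx k) (J : ℕ), X.Ok ∧ X.cthr = cthr ∧ X.T₁ = T₁ ∧ X.P = P ∧ X.K = ⟨J, ρ, Cc, Cm⟩ ∧ Pw₀ ≤ X.c.P ∧ C0₀ ≤ X.c.C0 ∧ Room X.c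

/-- **the exit of the subpower case** -/
def SubExit (X : Ctx k) (CH Cσ ϖ Cu : ℝ) : Prop :=
  ∃ C₁ E₁ : ℝ, ∀ β E Λ₀ : ℝ, 0 < β → ∃ S₁ : ℝ, ∀ (Λ : Type) [Fintype Λ] (𝔠 : XCfg k Λ), X.Cfg 𝔠 → ∀ s : Sel 𝔠, s.Ok X CH Cσ ϖ Cu → ∀ μ : ℝ, 1 ≤ μ → 𝔠.Fail μ →
    S₁ ≤ s.S → s.S ^ E₁ ≤ 𝔠.h → (∀ i, s.S ^ E ≤ s.H i) → 𝔠.Q ≤ s.S ^ (β / (3 * k + 3 : ℕ)) → ∃ F : T2Fam k, F.Sub (shiftC X.c) C₁ β E Λ₀

/-- the subpower exit for all contexts with large orders -/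
def SubAll (k : ℕ) : Prop :=
  ∀ ρ : ℝ, ∃ P₀ : ℕ, ∀ P : ℕ, P₀ ≤ P → ∃ Pw₀ C0₀ : ℝ, ∀ X : Ctx k, X.Ok → X.K.ρ = ρ → X.P = P → Pw₀ ≤ X.c.P → C0₀ ≤ X.c.C0 →
    ∀ CH Cσ ϖ Cu : ℝ, 1 ≤ CH → 1 ≤ Cσ → 1 ≤ ϖ → 1 ≤ Cu → SubExit X CH Cσ ϖ Cu

/-- numerical: `M Q^M ≤ Cb B^e` with `M` large forces `B` large and `Q` subpower in `B` -/
theorem fn_root (Cb : ℝ) (hCb : 1 ≤ Cb) (e : ℕ) (he : 1 ≤ e) (x₁ β' : ℝ) (hβ' : 0 < β') : ∃ M₀ : ℝ, 1 ≤ M₀ ∧ ∀ M Q B : ℝ, M₀ ≤ M → 1 ≤ Q → 1 ≤ B → M * Q ^ M ≤ Cb * B ^ e →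
    x₁ ≤ B ∧ Q ≤ B ^ β' := by
  have hCb0 : 0 < Cb := by linarith
  refine ⟨max (max 1 ((e : ℝ) / β')) (Cb * max x₁ 1 ^ e), (le_max_left _ _).trans (le_max_left _ _), fun M Q B hM hQ hB h => ?_⟩
  have hM1 : 1 ≤ M := ((le_max_left _ _).trans (le_max_left _ _)).trans hM
  have hMβ : (e : ℝ) / β' ≤ M := ((le_max_right _ _).trans (le_max_left _ _)).trans hM
  have hMC : Cb * max x₁ 1 ^ e ≤ M := (le_max_right _ _).trans hM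
  have hM0 : 0 < M := by linarith
  have hQM : 1 ≤ Q ^ M := Real.one_le_rpow hQ hM0.le
  have hμM : M ≤ M * Q ^ M := le_mul_of_one_le_right hM0.le hQM
  have hx1 : (1 : ℝ) ≤ max x₁ 1 := le_max_right _ _
  constructor
  · by_contra hlt
    push_neg at hlt
    have h2 : B ^ e < max x₁ 1 ^ e := pow_lt_pow_left₀ (lt_of_lt_of_le hlt (le_max_left _ _)) (by linarith) (by omega)
    have h3 : Cb * B ^ e < Cb * max x₁ 1 ^ e := mul_lt_mul_of_pos_left h2 hCb0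
    linarith
  · have hCM : Cb ≤ M := le_trans (le_mul_of_one_le_right hCb0.le (one_le_pow₀ hx1)) hMC
    have h1 : Q ^ M ≤ B ^ e := by
      have h2 : Cb * Q ^ M ≤ Cb * B ^ e := le_trans (mul_le_mul_of_nonneg_right hCM (by positivity)) h
      exact le_of_mul_le_mul_left h2 hCb0
    have hQ0 : 0 ≤ Q := by linarith
    have hB0 : 0 ≤ B := by linarith
    calc Q = (Q ^ M) ^ (1 / M) := by rw [← Real.rpow_mul hQ0, mul_one_div_cancel hM0.ne', Real.rpow_one]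
      _ ≤ (B ^ e) ^ (1 / M) := Real.rpow_le_rpow (by positivity) h1 (by positivity)
      _ = B ^ ((e : ℝ) / M) := by rw [← Real.rpow_natCast, ← Real.rpow_mul hB0, mul_one_div]
      _ ≤ B ^ β' := by
          refine Real.rpow_le_rpow_of_exponent_le hB ?_
          rw [div_le_iff₀ hM0]
          rw [div_le_iff₀ hβ'] at hMβ
          linarith

/-- powers of `S ≤ h^σ₀` -/
theorem fn_S_pow {S h σ₀ E a : ℝ} (hS : 1 ≤ S) (hh : 1 ≤ h) (hSh : S ≤ h ^ σ₀) (hσE : σ₀ * max E 1 ≤ a) : S ^ E ≤ h ^ a := by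
  have hS0 : 0 ≤ S := by linarith
  have hh0 : 0 ≤ h := by linarith
  have hm : 0 ≤ max E 1 := le_trans zero_le_one (le_max_right _ _)
  calc S ^ E ≤ S ^ max E 1 := Real.rpow_le_rpow_of_exponent_le hS (le_max_left _ _)
    _ ≤ (h ^ σ₀) ^ max E 1 := Real.rpow_le_rpow hS0 hSh hm
    _ = h ^ (σ₀ * max E 1) := (Real.rpow_mul hh0 _ _).symm
    _ ≤ h ^ a := Real.rpow_le_rpow_of_exponent_le hh hσE

/-- **ORDER OF THE CONSTANTS AND THE FINAL CONTRADICTION.** -/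
theorem fn_norm_of (hctx : CtxExit k) (hsub : SubAll k) (hcore : CoreStmt k) : XFrameStmt k := by
  intro cthr ρ Cc Cm T₁ hc
  obtain ⟨P₀, hP₀⟩ := hsub ρ
  refine ⟨P₀, fun P hP => ?_⟩
  obtain ⟨Pw₀, C0₀, hsubX⟩ := hP₀ P hP
  obtain ⟨X, J, hX, e1, e2, e3, e4, hPw, hC0, hRoom⟩ := hctx cthr ρ Cc Cm T₁ hc P Pw₀ C0₀
  have hk : 1 ≤ k := hX.c_ok.k_pos
  have hk0 : (0 : ℝ) < k := by exact_mod_cast hk
  obtain ⟨CH, Cσ, ϖ, Cu, h₀, hCH, hCσ, hϖ, hCu, hsel⟩ := fn_sel X hX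
  obtain ⟨C₁, E₁, hS⟩ := hsubX X hX (by rw [e4]) e3 hPw hC0 CH Cσ ϖ Cu hCH hCσ hϖ hCu
  have hcs := shiftC_ok hX.c_ok
  obtain ⟨hCoreSub, -⟩ := hcore (shiftC X.c) hcs hRoom hX.hℓ hX.htr
  obtain ⟨βs, E, Λs, hβs, hnoSub⟩ := hCoreSub C₁
  obtain ⟨S₁, hS₁⟩ := hS βs E Λs hβs
  have hE1 : 0 < max E₁ 1 := lt_of_lt_of_le one_pos (le_max_right _ _)
  have hE : 0 < max E 1 := lt_of_lt_of_le one_pos (le_max_right _ _)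
  have hcX : 0 < X.cthr := hX.cthr_pos
  obtain ⟨σ₀, hσ₀def⟩ : ∃ σ₀ : ℝ, σ₀ = min (1 / max E₁ 1) (X.cthr / (k * max E 1)) := ⟨_, rfl⟩
  have hσ₀ : 0 < σ₀ := by rw [hσ₀def]; exact lt_min (by positivity) (by positivity)
  have hσa : σ₀ * max E₁ 1 ≤ 1 := by
    have : σ₀ ≤ 1 / max E₁ 1 := by rw [hσ₀def]; exact min_le_left _ _
    rwa [le_div_iff₀ hE1] at this
  have hσb : σ₀ * max E 1 ≤ X.cthr / k := by
    have : σ₀ ≤ X.cthr / (k * max E 1) := by rw [hσ₀def]; exact min_le_right _ _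
    rw [← div_div, le_div_iff₀ hE] at this
    exact this
  obtain ⟨-, hCorePow⟩ := hcore X.c hX.c_ok hRoom hX.hℓ hX.htr
  obtain ⟨βp, Λp, hβp, hnoPow⟩ := hCorePow σ₀ (X.cthr / k) hσ₀ (by positivity) (2 * k + 1)
  obtain ⟨Mp, hMp1, hpow⟩ := fn_pow (ϖ := ϖ) X hX hCH hCσ hCu σ₀ βp Λp hβp
  obtain ⟨hH1, -, hHge⟩ := fn_H_ge (Cσ := Cσ) (ϖ := ϖ) (Cu := Cu) hX hCH
  obtain ⟨Mh, hMh1, hMh⟩ := fn_pow_hQ X hX (max h₀ hH1) 1 one_pos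
  obtain ⟨Cb, hCb1, hsbal⟩ := fn_sbal (ϖ := ϖ) (Cu := Cu) hX hCH hCσ
  obtain ⟨Ms, hMs1, hMs⟩ := fn_root Cb hCb1 (k + 17) (by omega) S₁ (βs / (3 * k + 3 : ℕ)) (by positivity)
  refine ⟨J, max Mp (max Mh Ms), ?_⟩
  intro Λ _ 𝔠 h𝔠
  have h𝔠' : X.Cfg 𝔠 := by
    show 𝔠.Ok X.cthr X.K X.T₁ X.P
    rw [e1, e2, e3, e4]
    exact h𝔠
  by_contra hnot
  obtain ⟨M, hMdef⟩ : ∃ M : ℝ, M = max Mp (max Mh Ms) := ⟨_, rfl⟩
  rw [← hMdef] at hnot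
  have hfail : 𝔠.Fail (M * 𝔠.Q ^ M) := not_le.1 hnot
  have hM1 : Mp ≤ M := by rw [hMdef]; exact le_max_left _ _
  have hM2 : Mh ≤ M := by rw [hMdef]; exact (le_max_left _ _).trans (le_max_right _ _)
  have hM3 : Ms ≤ M := by rw [hMdef]; exact (le_max_right _ _).trans (le_max_right _ _)
  obtain ⟨hh, -, hμ1⟩ := hMh Λ 𝔠 h𝔠' M hM2 hfail
  have hh1 : 1 ≤ 𝔠.h := by have := h𝔠.two_le; linarith
  have hYne : 𝔠.Y.Nonempty := by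
    have h0 : 0 ≤ 𝔠.rhs := (fn_pos X 𝔠 h𝔠').2.2
    have h1 : (0 : ℝ) < 𝔠.Y.card := lt_of_le_of_lt (mul_nonneg (by linarith) h0) hfail
    exact Finset.card_pos.1 (by exact_mod_cast h1)
  obtain ⟨s, hs⟩ := hsel Λ 𝔠 h𝔠' ((le_max_left _ _).trans hh) hYne
  rcases le_total (𝔠.h ^ σ₀) s.S with hc1 | hc2
  · obtain ⟨F, hF⟩ := hpow Λ 𝔠 h𝔠' s hs M hM1 hfail hc1
    exact hnoPow (F.ncfg X.c) (fn_ncfg_pow F X.c hX.c_ok hX.hℓ hX.htr hF)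
  · have hb := (hsbal Λ 𝔠 h𝔠' s hs _ hμ1 hfail).1
    obtain ⟨hS1, hQS⟩ := hMs M 𝔠.Q s.S hM3 h𝔠.one_le_Q (fn_one_le_S s) hb
    have hSE1 : s.S ^ E₁ ≤ 𝔠.h := by
      have := fn_S_pow (E := E₁) (a := 1) (fn_one_le_S s) hh1 hc2 hσa
      rwa [Real.rpow_one] at this
    have hSE : ∀ i, s.S ^ E ≤ s.H i := fun i =>
      (fn_S_pow (fn_one_le_S s) hh1 hc2 hσb).trans (hHge Λ 𝔠 h𝔠' s hs ((le_max_right _ _).trans hh) i)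
    obtain ⟨F, hF⟩ := hS₁ Λ 𝔠 h𝔠' s hs _ hμ1 hfail hS1 hSE1 hSE hQS
    exact hnoSub (F.ncfg (shiftC X.c)) (fn_ncfg_sub F (shiftC X.c) hcs hX.hℓ hX.htr hF)

end

end Claimed.Agent.R257.FR1
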