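import Claimed.Agent.R257.FR1.NSel

/-!
# ROW 257, package FR1, block NORM, file 6: THE POWER CASE      (helper83; prefix `fn_`)       H `frame.tex` l.131-146, 207-211

`fn_pow` : a selection `s` of a configuration which fails with the constant `M Q^M`, `M ≥ M₀(β, Λ₀)`, and `h^σ ≤ S`, gives a family of plain trees with `T2Fam.Pow X.c σ (cthr/k) (2k+1) β Λ₀`:
the trees `s.t X ϖ i = tH` (leaves = the original packets), ONE loss `ℒ = h^{β/(3k+3)}` in `fn_fam_ok`.       NOTHING is sorried here: glue of the leaves of `NA`, `NCore`, `NSel`.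
-/

set_option autoImplicit false

namespace Claimed.Agent.R257.FR1

open Claimed.Agent.R257 Claimed.Agent.R257.FR2 Claimed.Agent.R257.Tree
open scoped BigOperators Classical BoundedContinuousFunction

noncomputable section

variable {k : ℕ}

/-- a failing configuration: `h` is large and `Q` is subpower -/
theorem fn_pow_hQ (X : Ctx k) (hX : X.Ok) (hs β' : ℝ) (hβ' : 0 < β') : ∃ M₀ : ℝ, 1 ≤ M₀ ∧ ∀ (Λ : Type) [Fintype Λ] (𝔠 : XCfg k Λ), X.Cfg 𝔠 → ∀ M : ℝ, M₀ ≤ M → 𝔠.Fail (M * 𝔠.Q ^ M) →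
    hs ≤ 𝔠.h ∧ 𝔠.Q ≤ 𝔠.h ^ β' ∧ 1 ≤ M * 𝔠.Q ^ M := by
  obtain ⟨Cmu, hCmu1, hmu⟩ := fn_mu_h X hX
  refine ⟨max (max 1 (1 / β')) (Cmu * max hs 1), (le_max_left _ _).trans (le_max_left _ _), fun Λ _ 𝔠 h𝔠 M hM hfail => ?_⟩
  have hM1 : 1 ≤ M := ((le_max_left _ _).trans (le_max_left _ _)).trans hM
  have hMβ : 1 / β' ≤ M := ((le_max_right _ _).trans (le_max_left _ _)).trans hM
  have hMC : Cmu * max hs 1 ≤ M := (le_max_right _ _).trans hM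
  have hQ1 := h𝔠.one_le_Q
  have hQM : 1 ≤ 𝔠.Q ^ M := Real.one_le_rpow hQ1 (by linarith)
  have hμM : M ≤ M * 𝔠.Q ^ M := le_mul_of_one_le_right (by linarith) hQM
  have hμ0 : 0 < M * 𝔠.Q ^ M := by positivity
  have hμh : M * 𝔠.Q ^ M ≤ Cmu * 𝔠.h := hmu Λ 𝔠 h𝔠 _ hμ0 hfail
  have hCmu0 : 0 < Cmu := by linarith
  have hh : max hs 1 ≤ 𝔠.h := le_of_mul_le_mul_left (hMC.trans (hμM.trans hμh)) hCmu0
  have hh1 : 1 ≤ 𝔠.h := (le_max_right _ _).trans hh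
  refine ⟨(le_max_left _ _).trans hh, ?_, hM1.trans hμM⟩
  have hCM : Cmu ≤ M := le_trans (le_mul_of_one_le_right hCmu0.le (le_max_right _ _)) hMC
  have h1 : 𝔠.Q ^ M ≤ 𝔠.h := by
    have h2 : Cmu * 𝔠.Q ^ M ≤ Cmu * 𝔠.h := le_trans (mul_le_mul_of_nonneg_right hCM (by positivity)) hμh
    exact le_of_mul_le_mul_left h2 hCmu0
  have hM0 : 0 < M := by linarith
  have hQ0 : 0 ≤ 𝔠.Q := by linarith
  calc 𝔠.Q = (𝔠.Q ^ M) ^ (1 / M) := by rw [← Real.rpow_mul hQ0, mul_one_div_cancel hM0.ne', Real.rpow_one]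
    _ ≤ 𝔠.h ^ (1 / M) := Real.rpow_le_rpow (by positivity) h1 (by positivity)
    _ ≤ 𝔠.h ^ β' := by
        refine Real.rpow_le_rpow_of_exponent_le hh1 ?_
        rw [div_le_iff₀ hM0]
        rw [div_le_iff₀ hβ'] at hMβ
        linarith

/-- the family of the trees `tH` of a selection is `Ok` with the loss `ℒ^(3k+3)` as soon as `ℒ` dominates the constants, the logarithmic losses, `Q` and the loss of the weighted count -/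
theorem fn_pow_ok (X : Ctx k) (hX : X.Ok) {CH Cσ ϖ Cu : ℝ} (hCH : 1 ≤ CH) {Λ : Type} [Fintype Λ] (𝔠 : XCfg k Λ) (h𝔠 : X.Cfg 𝔠) (s : Sel 𝔠) (hs : s.Ok X CH Cσ ϖ Cu)
    (μ ℒ : ℝ) (i₀ : Fin (k + 1)) (hi₀ : s.n i₀ = s.N) (hμ1 : 1 ≤ μ) (hfail : 𝔠.Fail μ) (hℒ1 : 1 ≤ ℒ)
    (hwt : ∀ i, (s.Y1.card : ℝ) * 𝔠.thr i ^ (qk k) ≤ ℒ * 𝔠.D i)
    (hmasks : ((s.U i₀).card : ℝ) * (2 ^ s.n i₀) ^ 2 * s.H i₀ ^ 2 ≤ ℒ * 𝔠.D i₀)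
    (n2 : 8 / (3 * X.c₀) / pn s.N ≤ ℒ) (n3 : 2 ^ (k + 2) * CH ^ (k + 2) / pn s.N ^ (k + 1) ≤ ℒ) (n4a : X.Cx ^ 2 ≤ ℒ) (n4c : ϖ ≤ ℒ) (hQ : 𝔠.Q ≤ ℒ) :
    T2Fam.Ok ⟨s.t X ϖ, s.Y1, 𝔠.h, s.S, i₀, ℒ ^ (3 * k + 3)⟩ X.c := by
  have hk : 1 ≤ k := hX.c_ok.k_pos
  have hℒ0 : 0 < ℒ := by linarith
  have hμ0 : 0 < μ := by linarith
  obtain ⟨hthr, hD, -⟩ := fn_pos X 𝔠 h𝔠
  obtain ⟨G, hG0, hGm, hGf⟩ := fn_fail hX hCH h𝔠 hs hμ0 hfail s.Y1 (by have : (0 : ℝ) ≤ s.Y1.card := Nat.cast_nonneg _; linarith)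
  have hH0 : ∀ i, 0 < s.H i := fun i => lt_of_lt_of_le one_pos (hs.one_le_H i)
  have hCH0 : 0 < CH := by linarith
  obtain ⟨-, -, -, -, hthrq⟩ := fn_rhs hk 𝔠 hthr (fun i => CH * s.H i) (fun i => mul_pos hCH0 (hH0 i)) hs.H_thr
  have hen : ∀ i, (s.t X ϖ i).en = X.Cx ^ 2 * 𝔠.D i := fun i => fn_leaf_en X 𝔠 h𝔠 i
  have hCx2 : 1 ≤ X.Cx ^ 2 := one_le_pow₀ hX.one_le_Cx
  have hpn0 : 0 < pn s.N := fa_pn_pos _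
  have hprod0 : 0 < ∏ i, pn (s.n i) := Finset.prod_pos fun i _ => fa_pn_pos _
  have hc0 : 0 < (2 : ℝ) ^ (k + 2) * CH ^ (k + 2) := mul_pos (pow_pos two_pos _) (pow_pos hCH0 _)
  have hμ'0 : 0 < μ * (∏ i, pn (s.n i)) / (2 ^ (k + 2) * CH ^ (k + 2)) := div_pos (mul_pos hμ0 hprod0) hc0
  have same : ∀ i j, ∀ q ∈ s.Y1, ‖𝔠.wz i q - 𝔠.wz j q‖ ≤ k := fun i j q hq => fn_same hk X 𝔠 h𝔠 i j q (hs.sep.1 hq)
  have high : ∀ i, ∀ q ∈ s.Y1, s.H i ^ ((k : ℝ) / 2) ≤ ℒ * ‖(s.t X ϖ i).root X.c (𝔠.wz i q)‖ := by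
    intro i q hq
    have h1 := fn_high hX hCH h𝔠 hs i
    have h2 : s.θ X i ≤ ‖(s.t X ϖ i).root X.c (𝔠.wz i q)‖ := hs.high i q hq
    have h3 : 0 ≤ 8 / (3 * X.c₀) / pn s.N := div_nonneg (by rw [hX.c₀_eq]; norm_num) hpn0.le
    calc s.H i ^ ((k : ℝ) / 2) ≤ 8 / (3 * X.c₀) / pn s.N * s.θ X i := h1
      _ ≤ 8 / (3 * X.c₀) / pn s.N * ‖(s.t X ϖ i).root X.c (𝔠.wz i q)‖ := mul_le_mul_of_nonneg_left h2 h3
      _ ≤ ℒ * ‖(s.t X ϖ i).root X.c (𝔠.wz i q)‖ := mul_le_mul_of_nonneg_right n2 (norm_nonneg _)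
  have cnt : ∀ i, (s.Y1.card : ℝ) * s.H i ^ (k + 2) ≤ ℒ * (s.t X ϖ i).en := by
    intro i
    have h1 := hwt i
    rw [hthrq i] at h1
    have h2 : s.H i ^ (k + 2) ≤ (CH * s.H i) ^ (k + 2) := pow_le_pow_left₀ (hH0 i).le (le_mul_of_one_le_left (hH0 i).le hCH) _
    have h3 : 𝔠.D i ≤ (s.t X ϖ i).en := by rw [hen i]; exact le_mul_of_one_le_left (hD i) hCx2
    calc (s.Y1.card : ℝ) * s.H i ^ (k + 2) ≤ (s.Y1.card : ℝ) * (CH * s.H i) ^ (k + 2) := mul_le_mul_of_nonneg_left h2 (Nat.cast_nonneg _)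
      _ ≤ ℒ * 𝔠.D i := h1
      _ ≤ ℒ * (s.t X ϖ i).en := mul_le_mul_of_nonneg_left h3 hℒ0.le
  have enD : ∀ i, (s.t X ϖ i).en ≤ ℒ * 𝔠.D i := by
    intro i
    rw [hen i]
    exact mul_le_mul_of_nonneg_right n4a (hD i)
  have hμℒ : 1 ≤ ℒ * (μ * (∏ i, pn (s.n i)) / (2 ^ (k + 2) * CH ^ (k + 2))) := by
    have h1 : pn s.N ^ (k + 1) ≤ ∏ i, pn (s.n i) := fn_prod_pn s
    have hp0 : 0 < pn s.N ^ (k + 1) := pow_pos hpn0 _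
    have h2 : 1 ≤ ℒ * (pn s.N ^ (k + 1) / (2 ^ (k + 2) * CH ^ (k + 2))) := by
      rw [div_le_iff₀ hp0] at n3
      rw [mul_div_assoc', le_div_iff₀ hc0]
      linarith
    refine h2.trans (mul_le_mul_of_nonneg_left ?_ hℒ0.le)
    refine div_le_div_of_nonneg_right ?_ hc0.le
    calc pn s.N ^ (k + 1) ≤ ∏ i, pn (s.n i) := h1
      _ ≤ μ * ∏ i, pn (s.n i) := le_mul_of_one_le_left hprod0.le hμ1
  have masks : ((s.U i₀).card : ℝ) * s.S ^ 2 * s.H i₀ ^ 2 ≤ ℒ * 𝔠.D i₀ := by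
    rw [hi₀] at hmasks
    exact hmasks
  exact fn_fam_ok X.c ⟨s.t X ϖ, s.Y1, 𝔠.h, s.S, i₀, ℒ ^ (3 * k + 3)⟩ 𝔠.D G (μ * (∏ i, pn (s.n i)) / (2 ^ (k + 2) * CH ^ (k + 2))) ℒ hs.good (fun i => rfl) hs.ne hℒ1 (fn_one_le_S s)
      same high cnt enD hD hG0 hGm hμ'0 hμℒ hGf masks (fun lb => fn_trans X 𝔠 h𝔠 ℒ hQ lb) (fun i => n4c) (fun i => le_rfl) rfl

/-- **THE POWER CASE.** -/
theorem fn_pow (X : Ctx k) (hX : X.Ok) {CH Cσ ϖ Cu : ℝ} (hCH : 1 ≤ CH) (hCσ : 1 ≤ Cσ) (hCu : 1 ≤ Cu) (σ β Λ₀ : ℝ) (hβ : 0 < β) :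
    ∃ M₀ : ℝ, 1 ≤ M₀ ∧ ∀ (Λ : Type) [Fintype Λ] (𝔠 : XCfg k Λ), X.Cfg 𝔠 → ∀ s : Sel 𝔠, s.Ok X CH Cσ ϖ Cu → ∀ M : ℝ, M₀ ≤ M → 𝔠.Fail (M * 𝔠.Q ^ M) → 𝔠.h ^ σ ≤ s.S →
      ∃ F : T2Fam k, F.Pow X.c σ (X.cthr / k) (2 * k + 1) β Λ₀ := by
  obtain ⟨β', hβ'def⟩ : ∃ β' : ℝ, β' = β / (3 * k + 3 : ℕ) := ⟨_, rfl⟩
  have hβ' : 0 < β' := by rw [hβ'def]; positivity
  obtain ⟨β'', hβ''def⟩ : ∃ β'' : ℝ, β'' = β' / (2 * k + 1 : ℕ) := ⟨_, rfl⟩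
  have hβ'' : 0 < β'' := by rw [hβ''def]; positivity
  obtain ⟨Cw, hCw1, hwt⟩ := fn_wt X hX (ε := β' / 2) (by positivity)
  obtain ⟨hS1, hhS1, hSle⟩ := fn_S_le (k := k) (X := X) (CH := CH) (Cσ := Cσ) (ϖ := ϖ) hCu
  obtain ⟨hH1, hhH1, hHge⟩ := fn_H_ge (Cσ := Cσ) (ϖ := ϖ) (Cu := Cu) hX hCH
  obtain ⟨Cmk, hCmk1, hmasks⟩ := fn_masks (ϖ := ϖ) (Cu := Cu) hX hCH hCσ
  obtain ⟨B1, hB1, hn1⟩ := fn_const_pow Cw (ε := β' / 2) (β := β') (by linarith)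
  obtain ⟨B2, hB2, hn2⟩ := fn_pn_pow (8 / (3 * X.c₀)) 1 hβ''
  obtain ⟨B3, hB3, hn3⟩ := fn_pn_pow (2 ^ (k + 2) * CH ^ (k + 2)) (k + 1) hβ''
  obtain ⟨B4, hB4, hn4⟩ := fn_const_pow (max (X.Cx ^ 2) (max Cmk ϖ)) (ε := 0) (β := β') hβ'
  obtain ⟨M₀, hM₀1, hM₀⟩ := fn_pow_hQ X hX (max Λ₀ (max hS1 (max hH1 (max B1 (max B2 (max B3 B4)))))) β' hβ'
  refine ⟨M₀, hM₀1, fun Λ _ 𝔠 h𝔠 s hs M hM hfail hSge => ?_⟩
  obtain ⟨hhs, hQℒ, hμ1⟩ := hM₀ Λ 𝔠 h𝔠 M hM hfail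
  have hhΛ : Λ₀ ≤ 𝔠.h := (le_max_left _ _).trans hhs
  have hh1 : hS1 ≤ 𝔠.h := ((le_max_left _ _).trans (le_max_right _ _)).trans hhs
  have hh2 : hH1 ≤ 𝔠.h := ((le_max_left _ _).trans ((le_max_right _ _).trans (le_max_right _ _))).trans hhs
  have hh3 : B1 ≤ 𝔠.h := ((le_max_left _ _).trans ((le_max_right _ _).trans ((le_max_right _ _).trans (le_max_right _ _)))).trans hhs
  have hh4 : B2 ≤ 𝔠.h := ((le_max_left _ _).trans ((le_max_right _ _).trans ((le_max_right _ _).trans ((le_max_right _ _).trans (le_max_right _ _))))).trans hhs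
  have hh5 : B3 ≤ 𝔠.h :=
    ((le_max_left _ _).trans ((le_max_right _ _).trans ((le_max_right _ _).trans ((le_max_right _ _).trans ((le_max_right _ _).trans (le_max_right _ _)))))).trans hhs
  have hh6 : B4 ≤ 𝔠.h :=
    ((le_max_right _ _).trans ((le_max_right _ _).trans ((le_max_right _ _).trans ((le_max_right _ _).trans ((le_max_right _ _).trans (le_max_right _ _)))))).trans hhs
  have hh : 1 ≤ 𝔠.h := by have := h𝔠.two_le; linarith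
  have hh0 : 0 < 𝔠.h := by linarith
  obtain ⟨ℒ, hℒdef⟩ : ∃ ℒ : ℝ, ℒ = 𝔠.h ^ β' := ⟨_, rfl⟩
  have hℒ1 : 1 ≤ ℒ := by rw [hℒdef]; exact Real.one_le_rpow hh hβ'.le
  have hSh : s.S ≤ 𝔠.h ^ (2 * k + 1) := hSle Λ 𝔠 s hs hh1
  have hBh : 𝔠.h ≤ 𝔠.h ^ (2 * k + 1) := le_self_pow₀ hh (by omega)
  have hBβ : (𝔠.h ^ (2 * k + 1)) ^ β'' = ℒ := by
    rw [hℒdef, ← Real.rpow_natCast, ← Real.rpow_mul hh0.le, hβ''def]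
    congr 1
    have : ((2 * k + 1 : ℕ) : ℝ) ≠ 0 := by positivity
    field_simp
  have n1 : Cw * 𝔠.h ^ (β' / 2) ≤ ℒ := by rw [hℒdef]; exact hn1 _ hh3
  have n2 : 8 / (3 * X.c₀) / pn s.N ≤ ℒ := by
    have := hn2 s.N (𝔠.h ^ (2 * k + 1)) (hh4.trans hBh) hSh
    rwa [pow_one, hBβ] at this
  have n3 : 2 ^ (k + 2) * CH ^ (k + 2) / pn s.N ^ (k + 1) ≤ ℒ := by
    have := hn3 s.N (𝔠.h ^ (2 * k + 1)) (hh5.trans hBh) hSh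
    rwa [hBβ] at this
  have n4 : max (X.Cx ^ 2) (max Cmk ϖ) ≤ ℒ := by
    have := hn4 _ hh6
    rwa [Real.rpow_zero, mul_one, ← hℒdef] at this
  have n4a : X.Cx ^ 2 ≤ ℒ := (le_max_left _ _).trans n4
  have n4b : Cmk ≤ ℒ := ((le_max_left _ _).trans (le_max_right _ _)).trans n4
  have n4c : ϖ ≤ ℒ := ((le_max_right _ _).trans (le_max_right _ _)).trans n4
  obtain ⟨-, hD, -⟩ := fn_pos X 𝔠 h𝔠
  obtain ⟨i₀, hi₀⟩ := fn_exists_i₀ s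
  have hOk := fn_pow_ok X hX hCH 𝔠 h𝔠 s hs (M * 𝔠.Q ^ M) ℒ i₀ hi₀ hμ1 hfail hℒ1
    (fun i => (hwt Λ 𝔠 h𝔠 s.Y1 hs.sep i).trans (mul_le_mul_of_nonneg_right n1 (hD i)))
    ((hmasks Λ 𝔠 h𝔠 s hs i₀ (s.U i₀) (Finset.Subset.refl _)).trans (mul_le_mul_of_nonneg_right n4b (hD i₀)))
    n2 n3 n4a n4c (by rw [hℒdef]; exact hQℒ)
  refine ⟨⟨s.t X ϖ, s.Y1, 𝔠.h, s.S, i₀, ℒ ^ (3 * k + 3)⟩, { hOk with big := hhΛ, loss := ?_, S_ge := hSge, S_le := ?_, leaf := fun i => rfl, H_ge := hHge Λ 𝔠 h𝔠 s hs hh2, env0 := ?_ }⟩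
  · show ℒ ^ (3 * k + 3) ≤ 𝔠.h ^ β
    rw [hℒdef, ← Real.rpow_natCast, ← Real.rpow_mul hh0.le, hβ'def]
    refine le_of_eq ?_
    congr 1
    have : ((3 * k + 3 : ℕ) : ℝ) ≠ 0 := by positivity
    field_simp
  · show s.S ≤ 𝔠.h ^ (2 * (k : ℝ) + 1)
    have e : (2 * (k : ℝ) + 1) = ((2 * k + 1 : ℕ) : ℝ) := by push_cast; ring
    rw [e, Real.rpow_natCast]
    exact hSh
  · intro i q hq
    have h1 := fn_leaf_env X 𝔠 h𝔠 i q (hs.sep.1 hq) X.c.P hX.P_le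
    exact h1.trans (n4a.trans (le_self_pow₀ hℒ1 (by omega)))

end

end Claimed.Agent.R257.FR1
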