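import Claimed.Agent.R257.FR1.NA
import Claimed.Agent.R257.FR1.NCore

/-!
# ROW 257, package FR1, block NORM, file 5: THE SELECTION OF THE AMPLITUDE CLASSES AND ITS CONSEQUENCES      (architect helper249; prefix `fn_`)       H `frame.tex` l.147-196

`Sel 𝔠`, `Sel.Ok X CH Cσ ϖ Cu` are defined in `FR1/NDefs.lean`.    Leaves `L-F1-NS*`, independent: edit ONLY your block.
Recall: `s.S = 2^(s.N)`, `s.N = sup n`, `s.σ Cσ i = thr i/(Cσ H_i^k)`, `s.θ X i = (3 c₀/8) thr i pn (n i)`, `(CH H_i)^k = thr i²`, `s.t X ϖ i = tH` with the masks `s.U i` and the witnesses `s.Y1`.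
-/

set_option autoImplicit false

namespace Claimed.Agent.R257.FR1

open Claimed.Agent.R257 Claimed.Agent.R257.FR2 Claimed.Agent.R257.Tree
open scoped BigOperators Classical BoundedContinuousFunction

noncomputable section

variable {k : ℕ} {Λ : Type} [Fintype Λ]

/-! ## the selection -/

/-- **LEAF L-F1-NS1: one field: window, classes at every witness** (H l.152-173).
PLAN.  `ϖ` is the constant of `fn_goodH` (given as a hypothesis `hgood`, so that the constants can be shared).   `C₁` from `f1h_class X.c_ok`, `C₂` from `f1h_cls_upper`.   `Cσ := 8 C₁ Cm / c₀`, `Cu := 8 C₂ ϖ Cσ/(3 c₀)`.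
`R` from `fb_window_H` with `η = c₀ thr/2`; `W := univ ×ˢ latBox k R`; `Mc` from `hgood`; tree `t = tH i H W Y0 (auxOf c Mc ϖ)`.     For `q ∈ Y0`: `‖root‖ ≥ ‖full‖ - η ≥ c₀ thr/2 =: A` (`fn_leaf_full`; `norm_sub_rev`, `norm_sub_norm_le`).
`f1h_class` with `σ = thr/(Cσ H^k)`: `σ (C₁ (Cm H^k)) = c₀ thr/8 = A/4`; it gives `n` with `3A/4 · pn n = (3c₀/8) thr pn n ≤ ‖fldM (dcl W amp σ n)‖`: `ν q :=` this `n` (`Classical.choose`, `dite` on `q ∈ Y0`).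
Upper bound: `f1h_cls_upper` with `θ = (3c₀/8) thr pn n`: `θ 2^n σ ≤ C₂ (h/H)^k ϖ`, and `θ σ = (3c₀/8) pn n thr²/(Cσ H^k) = (3c₀/8) pn n CH^k/Cσ ≥ (3c₀/8) pn n/Cσ` (`hHthr`, `mul_pow`, `1 ≤ CH^k`). -/
theorem fn_sel_field (X : Ctx k) (hX : X.Ok) (ϖ : ℝ) (hϖ : 1 ≤ ϖ)
    (hgood : ∀ (Λ : Type) [Fintype Λ] (𝔠 : XCfg k Λ), X.Cfg 𝔠 → ∀ (i : Fin (k + 1)) (H : ℝ), 1 ≤ H → H ≤ 𝔠.h →
      ∀ (W1 : Finset (𝔠.BinT i H × Lat k)) (Yf : Finset (Lat k)), SepY 𝔠 Yf → ∃ Mc : ℝ, (𝔠.tH i X.χ₁ X.Cx H W1 Yf (auxOf X.c Mc ϖ)).Good X.c) :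
    ∃ Cσ Cu : ℝ, 1 ≤ Cσ ∧ 1 ≤ Cu ∧ ∀ (Λ : Type) [Fintype Λ] (𝔠 : XCfg k Λ), X.Cfg 𝔠 → ∀ (i : Fin (k + 1)) (H CH : ℝ), 1 ≤ H → H ≤ 𝔠.h → 1 ≤ CH → (CH * H) ^ k = 𝔠.thr i ^ 2 →
    ∀ Y0 : Finset (Lat k), SepY 𝔠 Y0 → ∃ (W : Finset (𝔠.BinT i H × Lat k)) (Mc : ℝ) (ν : Lat k → ℕ), (𝔠.tH i X.χ₁ X.Cx H W Y0 (auxOf X.c Mc ϖ)).Good X.c ∧
      ∀ q ∈ Y0, 3 * X.c₀ / 8 * 𝔠.thr i * pn (ν q)
          ≤ ‖(𝔠.tH i X.χ₁ X.Cx H W Y0 (auxOf X.c Mc ϖ)).fldM X.c (dcl W ((𝔠.tH i X.χ₁ X.Cx H W Y0 (auxOf X.c Mc ϖ)).amp X.c) (𝔠.thr i / (Cσ * H ^ k)) (ν q)) (𝔠.wz i q)‖ ∧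
        2 ^ ν q * pn (ν q) ≤ Cu * (𝔠.h / H) ^ k := by
  obtain ⟨C₁, hC₁, hcl⟩ := f1h_class hX.c_ok
  obtain ⟨C₂, hC₂, hup⟩ := f1h_cls_upper hX.c_ok hX.hℓ hX.htr
  have hc₀ : 0 < X.c₀ := by rw [hX.c₀_eq]; norm_num
  have hCm : 1 ≤ X.c.Cm := hX.c_ok.one_le_Cm
  set Cσ : ℝ := max 1 (8 * C₁ * X.c.Cm / X.c₀) with hCσ
  have hCσ1 : 1 ≤ Cσ := le_max_left _ _
  have hCσ0 : 0 < Cσ := by linarith
  refine ⟨Cσ, max 1 (8 * C₂ * ϖ * Cσ / (3 * X.c₀)), hCσ1, le_max_left _ _, ?_⟩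
  intro Λ _ 𝔠 h𝔠 i H CH hH hHh hCH hHthr Y0 hY0
  have hthr : 0 < 𝔠.thr i := (fn_pos X 𝔠 h𝔠).1 i
  have hH0 : 0 < H := by linarith
  have hη : 0 < X.c₀ * 𝔠.thr i / 2 := by positivity
  obtain ⟨R₀, hR₀⟩ := fb_window_H X.c hX.c_ok 𝔠 i X.χ₁ X.Cx H Y0 (auxOf X.c 0 ϖ) hη
  obtain ⟨Mc, hMc⟩ := hgood Λ 𝔠 h𝔠 i H hH hHh (Finset.univ ×ˢ latBox k R₀) Y0 hY0
  set t : T2 k := 𝔠.tH i X.χ₁ X.Cx H (Finset.univ ×ˢ latBox k R₀) Y0 (auxOf X.c Mc ϖ) with ht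
  set σ : ℝ := 𝔠.thr i / (Cσ * H ^ k) with hσ
  have hσ0 : 0 < σ := by positivity
  have hex : ∀ q ∈ Y0, ∃ n : ℕ, 3 * X.c₀ / 8 * 𝔠.thr i * pn n ≤ ‖t.fldM X.c (dcl (Finset.univ ×ˢ latBox k R₀) (t.amp X.c) σ n) (𝔠.wz i q)‖ ∧
      2 ^ n * pn n ≤ max 1 (8 * C₂ * ϖ * Cσ / (3 * X.c₀)) * (𝔠.h / H) ^ k := by
    intro q hq
    have h1 : X.c₀ * 𝔠.thr i ≤ ‖t.full (𝔠.wz i q)‖ := fn_leaf_full X hX 𝔠 h𝔠 i q (hY0.1 hq)
    have h2 : ‖t.root X.c (𝔠.wz i q) - t.full (𝔠.wz i q)‖ ≤ X.c₀ * 𝔠.thr i / 2 := hR₀ R₀ le_rfl q hq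
    have h3 : X.c₀ * 𝔠.thr i / 2 ≤ ‖t.root X.c (𝔠.wz i q)‖ := by
      have h4 := norm_sub_norm_le (t.full (𝔠.wz i q)) (t.root X.c (𝔠.wz i q))
      rw [norm_sub_rev] at h4
      linarith
    have h5 : σ * (C₁ * (X.c.Cm * t.κ1 ^ k)) ≤ X.c₀ * 𝔠.thr i / 2 / 4 := by
      show σ * (C₁ * (X.c.Cm * H ^ k)) ≤ _
      have h6 : 8 * C₁ * X.c.Cm / X.c₀ ≤ Cσ := le_max_right _ _
      rw [div_le_iff₀ hc₀] at h6
      rw [hσ, div_mul_eq_mul_div, div_le_iff₀ (by positivity)]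
      have hHk : 0 < H ^ k := by positivity
      nlinarith [mul_pos hthr hHk]
    obtain ⟨n, hn⟩ := hcl t hMc (𝔠.wz i q) σ (X.c₀ * 𝔠.thr i / 2) hσ0 hη h5 h3
    have hn' : 3 * X.c₀ / 8 * 𝔠.thr i * pn n ≤ ‖t.fldM X.c (dcl (Finset.univ ×ˢ latBox k R₀) (t.amp X.c) σ n) (𝔠.wz i q)‖ := by
      refine le_trans (le_of_eq ?_) hn
      ring
    refine ⟨n, hn', ?_⟩
    have h7 : 3 * X.c₀ / 8 * 𝔠.thr i * pn n * (2 ^ n * σ) ≤ C₂ * (𝔠.h / H) ^ k * ϖ := hup t hMc q hq σ _ n hσ0 hn'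
    have hpn := fa_pn_pos n
    have h8 : 𝔠.thr i * σ = CH ^ k / Cσ := by
      rw [hσ, ← mul_div_assoc, ← sq, ← hHthr, mul_pow]
      field_simp
    have h9 : 1 ≤ CH ^ k := one_le_pow₀ hCH
    have h10 : 3 * X.c₀ / 8 * pn n * 2 ^ n * (1 / Cσ) ≤ C₂ * (𝔠.h / H) ^ k * ϖ := by
      refine le_trans ?_ h7
      have e : 3 * X.c₀ / 8 * 𝔠.thr i * pn n * (2 ^ n * σ) = 3 * X.c₀ / 8 * pn n * 2 ^ n * (𝔠.thr i * σ) := by ring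
      rw [e, h8]
      refine mul_le_mul_of_nonneg_left ?_ (by positivity)
      exact div_le_div_of_nonneg_right h9 hCσ0.le
    have hhH : 0 ≤ (𝔠.h / H) ^ k := by
      have : 0 ≤ 𝔠.h := by linarith
      positivity
    calc 2 ^ n * pn n = (8 * Cσ / (3 * X.c₀)) * (3 * X.c₀ / 8 * pn n * 2 ^ n * (1 / Cσ)) := by field_simp
      _ ≤ (8 * Cσ / (3 * X.c₀)) * (C₂ * (𝔠.h / H) ^ k * ϖ) := by gcongr
      _ = (8 * C₂ * ϖ * Cσ / (3 * X.c₀)) * (𝔠.h / H) ^ k := by ring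
      _ ≤ _ := mul_le_mul_of_nonneg_right (le_max_right _ _) hhH
  choose! ν hν using hex
  exact ⟨Finset.univ ×ˢ latBox k R₀, Mc, ν, hMc, hν⟩

/-- **LEAF L-F1-NS2: the selection** (H l.152-173).
PLAN.  `CH` from `fn_thr_le`, `ϖ` from `fn_goodH`, `Cσ, Cu` from `fn_sel_field`; `h₀ := max 2 (CH^(k/(2 cthr)))`.    `H i := thr i^(2/k)/CH`: `(CH H i)^k = (thr^(2/k))^k = thr²` (`mul_div_cancel₀`, `← Real.rpow_natCast`, `← Real.rpow_mul`);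
`H i ≤ h`: `(CH H i)^k = thr² ≤ (CH h)^k` (`fn_thr_le`; `pow_le_pow_iff_left₀`);   `1 ≤ H i`: `thr^(2/k) ≥ (h^cthr)^(2/k) ≥ h₀^(2cthr/k) ≥ CH`.
`Y0` from `fn_sep` (nonempty since `#Y ≤ 2^(k+1) #Y0`).   `W i, Mc i, ν i` from `fn_sel_field` (`choose`).   `fa_tuple Y0 (fun q i => ν i q)` gives `n`, `Y1 := Y0.filter (fun q => (fun i => ν i q) = n)`, `#Y0 ∏ pn (n i) ≤ #Y1` (so `Y1` is nonempty: `fa_pn_pos`, `Finset.prod_pos`).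
`U i := dcl (W i) amp σ_i (n i)`.    `good`: `T2.Good.mono` (`dcl ⊆ W`: `Finset.filter_subset`; `Y1 ⊆ Y0`); the record update of `T2.Good.mono` is `tH … (U i) Y1 …` by `rfl`; `amp`, `fldM` do not depend on `W1`, `Yf` (`rfl`).
`amp_ge`, `amp_le`: membership in `dcl` (`Finset.mem_filter`).   `high`, `up`: `fn_sel_field` at `q ∈ Y1` where `ν i q = n i` (`congrFun`); for `up` pick any `q ∈ Y1`.   `SepY 𝔠 Y1` from `SepY 𝔠 Y0`. -/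
theorem fn_sel (X : Ctx k) (hX : X.Ok) : ∃ CH Cσ ϖ Cu h₀ : ℝ, 1 ≤ CH ∧ 1 ≤ Cσ ∧ 1 ≤ ϖ ∧ 1 ≤ Cu ∧ ∀ (Λ : Type) [Fintype Λ] (𝔠 : XCfg k Λ), X.Cfg 𝔠 → h₀ ≤ 𝔠.h → 𝔠.Y.Nonempty →
    ∃ s : Sel 𝔠, s.Ok X CH Cσ ϖ Cu := by
  obtain ⟨CH, hCH, hthrle⟩ := fn_thr_le X hX
  obtain ⟨ϖ, hϖ, hgood⟩ := fn_goodH X hX
  obtain ⟨Cσ, Cu, hCσ, hCu, hsel⟩ := fn_sel_field X hX ϖ hϖ hgood
  have hk : 1 ≤ k := hX.c_ok.k_pos
  have hk0 : (0 : ℝ) < k := by exact_mod_cast hk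
  have hkne : k ≠ 0 := by omega
  have hcthr : 0 < X.cthr := hX.cthr_pos
  have hCH0 : 0 < CH := by linarith
  refine ⟨CH, Cσ, ϖ, Cu, max 2 (CH ^ ((k : ℝ) / (2 * X.cthr))), hCH, hCσ, hϖ, hCu, ?_⟩
  intro Λ _ 𝔠 h𝔠 hh hYne
  have hh2 : (2 : ℝ) ≤ 𝔠.h := (le_max_left _ _).trans hh
  have hh0 : 0 < 𝔠.h := by linarith
  have hthr : ∀ i, 0 < 𝔠.thr i := (fn_pos X 𝔠 h𝔠).1
  set H : Fin (k + 1) → ℝ := fun i => 𝔠.thr i ^ ((2 : ℝ) / k) / CH with hH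
  have hHpos : ∀ i, 0 < H i := fun i => by
    have := hthr i
    positivity
  have hHthr : ∀ i, (CH * H i) ^ k = 𝔠.thr i ^ 2 := by
    intro i
    rw [hH]
    simp only
    rw [mul_div_cancel₀ _ hCH0.ne', ← Real.rpow_natCast, ← Real.rpow_mul (hthr i).le, div_mul_cancel₀ _ hk0.ne']
    norm_cast
  have hHle : ∀ i, H i ≤ 𝔠.h := by
    intro i
    have h1 : (CH * H i) ^ k ≤ (CH * 𝔠.h) ^ k := by
      rw [hHthr i]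
      exact hthrle Λ 𝔠 h𝔠 hYne i
    have h2 := (pow_le_pow_iff_left₀ (mul_pos hCH0 (hHpos i)).le (mul_pos hCH0 hh0).le hkne).1 h1
    exact le_of_mul_le_mul_left h2 hCH0
  have hH1 : ∀ i, 1 ≤ H i := by
    intro i
    rw [hH]
    simp only
    rw [le_div_iff₀ hCH0, one_mul]
    have h1 : 𝔠.h ^ X.cthr ≤ 𝔠.thr i := h𝔠.thr_ge i
    have h2 : CH ^ ((k : ℝ) / (2 * X.cthr)) ≤ 𝔠.h := (le_max_right _ _).trans hh
    calc CH = (CH ^ ((k : ℝ) / (2 * X.cthr))) ^ (X.cthr * ((2 : ℝ) / k)) := by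
          rw [← Real.rpow_mul hCH0.le]
          have : (k : ℝ) / (2 * X.cthr) * (X.cthr * ((2 : ℝ) / k)) = 1 := by field_simp
          rw [this, Real.rpow_one]
      _ ≤ 𝔠.h ^ (X.cthr * ((2 : ℝ) / k)) := Real.rpow_le_rpow (by positivity) h2 (by positivity)
      _ = (𝔠.h ^ X.cthr) ^ ((2 : ℝ) / k) := Real.rpow_mul hh0.le _ _
      _ ≤ 𝔠.thr i ^ ((2 : ℝ) / k) := Real.rpow_le_rpow (by positivity) h1 (by positivity)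
  obtain ⟨Y0, hY0, hY0c⟩ := fn_sep X 𝔠 h𝔠
  have hYc : (0 : ℝ) < 𝔠.Y.card := by exact_mod_cast hYne.card_pos
  have hY0ne : Y0.Nonempty := by
    rw [← Finset.card_pos]
    have : (0 : ℝ) < Y0.card := by
      by_contra hcon
      push Not at hcon
      have h0 : (Y0.card : ℝ) = 0 := le_antisymm hcon (Nat.cast_nonneg _)
      rw [h0, mul_zero] at hY0c
      linarith
    exact_mod_cast this
  choose W Mc ν hW hν using fun i => hsel Λ 𝔠 h𝔠 i (H i) CH (hH1 i) (hHle i) hCH (hHthr i) Y0 hY0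
  obtain ⟨n, hn⟩ := fa_tuple Y0 (fun q i => ν i q) hY0ne
  set Y1 : Finset (Lat k) := Y0.filter fun q => (fun i => ν i q) = n with hY1
  have hY10 : Y1 ⊆ Y0 := Finset.filter_subset _ _
  have hprod : 0 < ∏ i, pn (n i) := Finset.prod_pos fun i _ => fa_pn_pos _
  have hY0c0 : (0 : ℝ) < Y0.card := by exact_mod_cast hY0ne.card_pos
  have hY1ne : Y1.Nonempty := by
    rw [← Finset.card_pos]
    have : (0 : ℝ) < Y1.card := lt_of_lt_of_le (mul_pos hY0c0 hprod) hn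
    exact_mod_cast this
  have hνn : ∀ q ∈ Y1, ∀ i, ν i q = n i := fun q hq i => congrFun (Finset.mem_filter.1 hq).2 i
  refine ⟨⟨H, n, fun i => dcl (W i) ((𝔠.tH i X.χ₁ X.Cx (H i) (W i) Y0 (auxOf X.c (Mc i) ϖ)).amp X.c) (𝔠.thr i / (Cσ * H i ^ k)) (n i), Y1, Mc⟩, ?_⟩
  refine
    { sep := ⟨hY10.trans hY0.1, fun i q hq q' hq' => hY0.2 i q (hY10 hq) q' (hY10 hq')⟩
      ne := hY1ne
      card := ?_
      H_thr := hHthr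
      one_le_H := hH1
      H_le := hHle
      good := fun i => T2.Good.mono (hW i) (Finset.filter_subset _ _) hY10
      amp_ge := fun i T hT => (Finset.mem_filter.1 hT).2.1
      amp_le := fun i T hT => (Finset.mem_filter.1 hT).2.2.le
      high := ?_
      up := ?_ }
  · calc (𝔠.Y.card : ℝ) * ∏ i, pn (n i) ≤ (2 ^ (k + 1) * Y0.card) * ∏ i, pn (n i) := by gcongr
      _ = 2 ^ (k + 1) * ((Y0.card : ℝ) * ∏ i, pn (n i)) := by ring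
      _ ≤ 2 ^ (k + 1) * (Y1.card : ℝ) := by gcongr
  · intro i q hq
    have h1 := (hν i q (hY10 hq)).1
    rw [hνn q hq i] at h1
    exact h1
  · intro i
    obtain ⟨q, hq⟩ := hY1ne
    have h1 := (hν i q (hY10 hq)).2
    rw [hνn q hq i] at h1
    exact h1

/-! ## arithmetic of a selection -/

section arith

variable {X : Ctx k} {𝔠 : XCfg k Λ} {s : Sel 𝔠} {CH Cσ ϖ Cu : ℝ}

theorem fn_n_le_N (s : Sel 𝔠) (i : Fin (k + 1)) : s.n i ≤ s.N := Finset.le_sup (f := s.n) (Finset.mem_univ i)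

theorem fn_one_le_S (s : Sel 𝔠) : 1 ≤ s.S := one_le_pow₀ one_le_two

/-- a field with the largest index -/
theorem fn_exists_i₀ (s : Sel 𝔠) : ∃ i₀, s.n i₀ = s.N := by
  obtain ⟨i, -, hi⟩ := Finset.exists_mem_eq_sup Finset.univ ⟨0, Finset.mem_univ _⟩ s.n
  exact ⟨i, hi.symm⟩

/-- **LEAF L-F1-NS3: the hypotheses of the block HV** for the trees `s.t X ϖ i`, with `s_i = 2^(n i + 1) σ_i`, `θ_i = s.θ X i`, `R = CR · S / pn N`.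
PLAN: `CR := max 1 (max (16/(3 c₀ Cσ)) (Cσ²))`.   `σ_i H^k = thr/Cσ` (`Sel.σ`, `field_simp`; `H ≥ 1`).   (b): `s_i H^k = 2^(n+1) thr/Cσ`, `R θ_i = CR (S/pn N)(3c₀/8) thr pn (n i) ≥ CR 2^(n i) (3c₀/8) thr` (`2^(n i) ≤ S`: `pow_le_pow_right₀`, `fn_n_le_N`; `pn N ≤ pn (n i)`: `fn_pn_anti`).
(c): `s_i² H^k = 4^(n+1) thr²/(Cσ² H^k) = 4^(n+1) CH^k/Cσ² ≥ 1/Cσ²` (`h.H_thr`, `mul_pow`), `R ≥ CR ≥ Cσ²` (`S/pn N ≥ 1`: `fn_pn_le_one`).   (d): `fn_pn_crude`. -/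
theorem fn_hv_hyp (hX : X.Ok) (hCH : 1 ≤ CH) (hCσ : 1 ≤ Cσ) : ∃ CR : ℝ, 1 ≤ CR ∧ ∀ (Λ : Type) [Fintype Λ] (𝔠 : XCfg k Λ), X.Cfg 𝔠 → ∀ s : Sel 𝔠, s.Ok X CH Cσ ϖ Cu →
    1 ≤ CR * s.S / pn s.N ∧ (∀ i, 0 < 2 ^ (s.n i + 1) * s.σ Cσ i) ∧ (∀ i, 2 ^ (s.n i + 1) * s.σ Cσ i * s.H i ^ k ≤ CR * s.S / pn s.N * s.θ X i) ∧
      (∀ i, 1 ≤ CR * s.S / pn s.N * ((2 ^ (s.n i + 1) * s.σ Cσ i) ^ 2 * s.H i ^ k)) ∧ CR * s.S / pn s.N ≤ 4 * CR * s.S ^ 2 := by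
  have hc0 : 0 < X.c₀ := by rw [hX.c₀_eq]; norm_num
  have hCσ0 : 0 < Cσ := by linarith
  obtain ⟨CR, hCRd⟩ : ∃ CR, CR = max 1 (max (16 / (3 * X.c₀ * Cσ)) (Cσ ^ 2)) := ⟨_, rfl⟩
  have hCR1 : 1 ≤ CR := hCRd ▸ le_max_left _ _
  have hCR2 : 16 / (3 * X.c₀ * Cσ) ≤ CR := hCRd ▸ le_trans (le_max_left _ _) (le_max_right _ _)
  have hCR3 : Cσ ^ 2 ≤ CR := hCRd ▸ le_trans (le_max_right _ _) (le_max_right _ _)
  refine ⟨CR, hCR1, fun Λ _ 𝔠 h𝔠 s h => ?_⟩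
  obtain ⟨hthr, -, -⟩ := fn_pos X 𝔠 h𝔠
  have hS := fn_one_le_S s
  have hp0 := fa_pn_pos s.N
  have hp1 := fn_pn_le_one s.N
  have hH0 : ∀ i, 0 < s.H i := fun i => lt_of_lt_of_le one_pos (h.one_le_H i)
  have hSp : 1 ≤ s.S / pn s.N := by
    rw [le_div_iff₀ hp0]
    linarith
  have hR : CR ≤ CR * s.S / pn s.N := by
    rw [mul_div_assoc]
    exact le_mul_of_one_le_right (by linarith) hSp
  have hσ : ∀ i, 0 < s.σ Cσ i := fun i => by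
    unfold Sel.σ
    have := hH0 i
    have := hthr i
    positivity
  refine ⟨hCR1.trans hR, fun i => by have := hσ i; positivity, fun i => ?_, fun i => ?_, ?_⟩
  · have hHi := hH0 i
    have hti := hthr i
    have e1 : 2 ^ (s.n i + 1) * s.σ Cσ i * s.H i ^ k = 2 * 2 ^ s.n i * 𝔠.thr i / Cσ := by
      unfold Sel.σ
      field_simp
      ring
    have h2S : (2 : ℝ) ^ s.n i ≤ s.S := pow_le_pow_right₀ one_le_two (fn_n_le_N s i)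
    have hpp : pn s.N ≤ pn (s.n i) := fn_pn_anti (fn_n_le_N s i)
    have h3 : (2 : ℝ) ^ s.n i ≤ s.S / pn s.N * pn (s.n i) := by
      rw [div_mul_eq_mul_div, le_div_iff₀ hp0]
      exact mul_le_mul h2S hpp hp0.le (by linarith)
    have e2 : CR * s.S / pn s.N * s.θ X i = CR * (3 * X.c₀ / 8 * 𝔠.thr i) * (s.S / pn s.N * pn (s.n i)) := by
      unfold Sel.θ
      ring
    rw [e1, e2]
    have h4 : 16 / (3 * X.c₀ * Cσ) * (3 * X.c₀ / 8 * 𝔠.thr i) * 2 ^ s.n i = 2 * 2 ^ s.n i * 𝔠.thr i / Cσ := by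
      field_simp
      ring
    rw [← h4]
    exact mul_le_mul (mul_le_mul_of_nonneg_right hCR2 (by positivity)) h3 (by positivity) (by positivity)
  · have hHi := hH0 i
    have hti := hthr i
    have hHt := h.H_thr i
    rw [mul_pow] at hHt
    have e1 : (2 ^ (s.n i + 1) * s.σ Cσ i) ^ 2 * s.H i ^ k = (2 ^ (s.n i + 1)) ^ 2 * CH ^ k / Cσ ^ 2 := by
      unfold Sel.σ
      rw [mul_pow, div_pow, ← hHt]
      field_simp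
    rw [e1]
    have h5 : (1 : ℝ) ≤ (2 ^ (s.n i + 1)) ^ 2 * CH ^ k :=
      one_le_mul_of_one_le_of_one_le (one_le_pow₀ (one_le_pow₀ one_le_two)) (one_le_pow₀ hCH)
    have h6 : 1 / Cσ ^ 2 ≤ (2 ^ (s.n i + 1)) ^ 2 * CH ^ k / Cσ ^ 2 := div_le_div_of_nonneg_right h5 (by positivity)
    calc (1 : ℝ) = Cσ ^ 2 * (1 / Cσ ^ 2) := by field_simp
      _ ≤ CR * s.S / pn s.N * ((2 ^ (s.n i + 1)) ^ 2 * CH ^ k / Cσ ^ 2) :=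
          mul_le_mul (hCR3.trans hR) h6 (by positivity) (by linarith [hCR1.trans hR])
  · have h7 := fn_pn_crude s.N
    have e : CR * s.S / pn s.N = CR * s.S * (1 / pn s.N) := by ring
    rw [e]
    calc CR * s.S * (1 / pn s.N) ≤ CR * s.S * (4 * 2 ^ s.N) := mul_le_mul_of_nonneg_left h7 (by positivity)
      _ = 4 * CR * s.S ^ 2 := by
          unfold Sel.S
          ring

/-- **LEAF L-F1-NS4: the failure in terms of the mask scales**, on a subset `Y'` of at least half of the selected witnesses.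
PLAN: `fn_rhs` with `Hn i = CH * s.H i` gives `G₀`; `G := G₀/CH²`: `G^(k+1) = ∏ (CH H)²/CH^(2(k+1)) = ∏ H²` (`div_pow`, `Finset.prod_mul_distrib`/`mul_pow`, `Finset.prod_const`, `Finset.card_univ`, `Fintype.card_fin`).
`rhs = G₀⁻¹ ∑ D/(CH H)^k = (G CH^(k+2))⁻¹ ∑ D/H^k`.    `μ rhs < #Y`, `#Y ∏ pn ≤ 2^(k+1) #Y1 ≤ 2^(k+2) #Y'`; multiply by `∏ pn > 0`. -/
theorem fn_fail (hX : X.Ok) (hCH : 1 ≤ CH) (h𝔠 : X.Cfg 𝔠) (h : s.Ok X CH Cσ ϖ Cu) {μ : ℝ} (hμ : 0 < μ) (hf : 𝔠.Fail μ) (Y' : Finset (Lat k)) (hY' : (s.Y1.card : ℝ) ≤ 2 * Y'.card) :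
    ∃ G : ℝ, 0 < G ∧ G ^ (k + 1) = ∏ i, s.H i ^ 2 ∧ μ * (∏ i, pn (s.n i)) / (2 ^ (k + 2) * CH ^ (k + 2)) * ∑ i, 𝔠.D i / s.H i ^ k ≤ Y'.card * G := by
  obtain ⟨hthr, hD, hrhs⟩ := fn_pos X 𝔠 h𝔠
  have hk : 1 ≤ k := hX.c_ok.k_pos
  have hCH0 : 0 < CH := by linarith
  have hH0 : ∀ i, 0 < s.H i := fun i => lt_of_lt_of_le one_pos (h.one_le_H i)
  obtain ⟨G₀, hG₀, hGm, hr, -⟩ := fn_rhs hk 𝔠 hthr (fun i => CH * s.H i) (fun i => mul_pos hCH0 (hH0 i)) h.H_thr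
  refine ⟨G₀ / CH ^ 2, by positivity, ?_, ?_⟩
  · rw [div_pow, hGm]
    have e : ∏ i, (CH * s.H i) ^ 2 = (CH ^ 2) ^ (k + 1) * ∏ i, s.H i ^ 2 := by
      rw [Finset.prod_congr rfl fun i _ => mul_pow CH (s.H i) 2, Finset.prod_mul_distrib, Finset.prod_const, Finset.card_univ, Fintype.card_fin]
    rw [e]
    field_simp
  · obtain ⟨Sg, hSg⟩ : ∃ Sg : ℝ, Sg = ∑ i, 𝔠.D i / s.H i ^ k := ⟨_, rfl⟩
    obtain ⟨Pg, hPg⟩ : ∃ Pg : ℝ, Pg = ∏ i, pn (s.n i) := ⟨_, rfl⟩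
    have hPg0 : 0 < Pg := hPg ▸ Finset.prod_pos fun i _ => fa_pn_pos _
    have e2 : ∑ i, 𝔠.D i / (CH * s.H i) ^ k = Sg / CH ^ k := by
      rw [hSg, Finset.sum_div]
      refine Finset.sum_congr rfl fun i _ => ?_
      rw [mul_pow]
      have := hH0 i
      field_simp
    have hf' : μ * 𝔠.rhs < 𝔠.Y.card := hf
    rw [hr, e2] at hf'
    have hcard := h.card
    rw [← hPg] at hcard
    rw [← hSg, ← hPg]
    have h1 : μ * Sg < 𝔠.Y.card * (G₀ * CH ^ k) := by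
      have e3 : μ * (G₀⁻¹ * (Sg / CH ^ k)) * (G₀ * CH ^ k) = μ * Sg := by field_simp
      rw [← e3]
      exact mul_lt_mul_of_pos_right hf' (by positivity)
    have h2 : (𝔠.Y.card : ℝ) * Pg ≤ 2 ^ (k + 2) * Y'.card := by
      calc (𝔠.Y.card : ℝ) * Pg ≤ 2 ^ (k + 1) * s.Y1.card := hcard
        _ ≤ 2 ^ (k + 1) * (2 * Y'.card) := mul_le_mul_of_nonneg_left hY' (by positivity)
        _ = 2 ^ (k + 2) * Y'.card := by ring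
    have h3 : μ * Sg * Pg ≤ 2 ^ (k + 2) * Y'.card * (G₀ * CH ^ k) := by
      calc μ * Sg * Pg ≤ 𝔠.Y.card * (G₀ * CH ^ k) * Pg := mul_le_mul_of_nonneg_right h1.le hPg0.le
        _ = (𝔠.Y.card * Pg) * (G₀ * CH ^ k) := by ring
        _ ≤ _ := mul_le_mul_of_nonneg_right h2 (by positivity)
    have e4 : μ * Pg / (2 ^ (k + 2) * CH ^ (k + 2)) * Sg = μ * Sg * Pg / (2 ^ (k + 2) * CH ^ (k + 2)) := by ring
    rw [e4, div_le_iff₀ (by positivity)]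
    calc μ * Sg * Pg ≤ 2 ^ (k + 2) * Y'.card * (G₀ * CH ^ k) := h3
      _ = Y'.card * (G₀ / CH ^ 2) * (2 ^ (k + 2) * CH ^ (k + 2)) := by
          field_simp
          ring

/-- **LEAF L-F1-NS5**: `∏ pn (n i) ≥ pn N^(k+1)`.   PLAN: `Finset.prod_le_prod` with `fn_pn_anti (fn_n_le_N s i)`, `Finset.prod_const`, `Finset.card_univ`, `Fintype.card_fin`. -/
theorem fn_prod_pn (s : Sel 𝔠) : pn s.N ^ (k + 1) ≤ ∏ i, pn (s.n i) := by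
  calc pn s.N ^ (k + 1) = ∏ _i : Fin (k + 1), pn s.N := by
        rw [Finset.prod_const, Finset.card_univ, Fintype.card_fin]
    _ ≤ ∏ i, pn (s.n i) :=
        Finset.prod_le_prod (fun i _ => (fa_pn_pos _).le) (fun i _ => fn_pn_anti (fn_n_le_N s i))

/-- the real-number core of `fn_S_le` -/
theorem fn_S_le_aux (k : ℕ) {Cu : ℝ} (hCu : 1 ≤ Cu) : ∃ h₁ : ℝ, 1 ≤ h₁ ∧ ∀ (N : ℕ) (h H : ℝ), 1 ≤ H → h₁ ≤ h →
    (2 : ℝ) ^ N * pn N ≤ Cu * (h / H) ^ k → (2 : ℝ) ^ N ≤ h ^ (2 * k + 1) := by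
  obtain ⟨C', hC1, hC'⟩ := fa_pn_sub (β := 1 / 2) (by norm_num)
  have hCC : 1 ≤ C' * Cu := by nlinarith
  refine ⟨(C' * Cu) ^ 2, one_le_pow₀ hCC, ?_⟩
  intro N h H hH hh hup
  have hh1 : 1 ≤ h := (one_le_pow₀ hCC).trans hh
  have hh0 : 0 < h := by linarith
  have hS : (0 : ℝ) < 2 ^ N := by positivity
  have hp := fa_pn_pos N
  set r : ℝ := ((2 : ℝ) ^ N) ^ (1 / 2 : ℝ) with hr
  have hr0 : 0 < r := Real.rpow_pos_of_pos hS _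
  have hrr : r * r = 2 ^ N := by
    rw [hr, ← Real.rpow_add hS]
    norm_num
  have h1 : (h / H) ^ k ≤ h ^ k := pow_le_pow_left₀ (by positivity) (div_le_self hh0.le hH) k
  have h2 : (2 : ℝ) ^ N * pn N ≤ Cu * h ^ k := hup.trans (mul_le_mul_of_nonneg_left h1 (by linarith))
  have h3 : (2 : ℝ) ^ N = ((2 : ℝ) ^ N * pn N) * (1 / pn N) := by
    field_simp
  have h4 : r * r ≤ (Cu * h ^ k) * (C' * r) := by
    rw [hrr, h3]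
    exact mul_le_mul h2 (hC' N) (by positivity) (by positivity)
  have h5 : r ≤ C' * Cu * h ^ k := by
    have : r * r ≤ (C' * Cu * h ^ k) * r := by
      calc r * r ≤ (Cu * h ^ k) * (C' * r) := h4
        _ = (C' * Cu * h ^ k) * r := by ring
    exact le_of_mul_le_mul_right this hr0
  calc (2 : ℝ) ^ N = r ^ 2 := by rw [sq, hrr]
    _ ≤ (C' * Cu * h ^ k) ^ 2 := pow_le_pow_left₀ hr0.le h5 2
    _ = (C' * Cu) ^ 2 * h ^ (2 * k) := by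
      rw [mul_pow, ← pow_mul, mul_comm k 2]
    _ ≤ h * h ^ (2 * k) := mul_le_mul_of_nonneg_right hh (by positivity)
    _ = h ^ (2 * k + 1) := by rw [pow_succ]; ring

/-- **LEAF L-F1-NS6: `log S = O(log h)`** (H l.168-173).   PLAN: `i₀` from `fn_exists_i₀`; `h.up i₀ : S pn N ≤ Cu (h/H)^k ≤ Cu h^k` (`H ≥ 1`).   `C'` from `fa_pn_sub` (`β = 1/2`): `1/pn N ≤ C' S^(1/2)`, so `S^(1/2) ≤ C' Cu h^k` (`S = S^(1/2) S^(1/2)`), `S ≤ (C' Cu)² h^(2k)`.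
`h₁ := (C' Cu)²`: `S ≤ h · h^(2k) = h^(2k+1)`. -/
theorem fn_S_le (hCu : 1 ≤ Cu) : ∃ h₁ : ℝ, 1 ≤ h₁ ∧ ∀ (Λ : Type) [Fintype Λ] (𝔠 : XCfg k Λ) (s : Sel 𝔠), s.Ok X CH Cσ ϖ Cu → h₁ ≤ 𝔠.h → s.S ≤ 𝔠.h ^ (2 * k + 1) := by
  obtain ⟨h₁, h1, hh⟩ := fn_S_le_aux k hCu
  refine ⟨h₁, h1, ?_⟩
  intro Λ _ 𝔠 s hs hle
  obtain ⟨i₀, hi₀⟩ := fn_exists_i₀ s
  have hup := hs.up i₀
  rw [hi₀] at hup
  exact hh s.N 𝔠.h (s.H i₀) (hs.one_le_H i₀) hle hup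

/-- the real-number core of `fn_H_ge` -/
theorem fn_H_ge_aux (k : ℕ) {c CH : ℝ} (hc : 0 < c) (hCH : 1 ≤ CH) : ∃ h₁ : ℝ, 1 ≤ h₁ ∧ ∀ (h H thr : ℝ), 1 ≤ H → h₁ ≤ h →
    h ^ c ≤ thr → (CH * H) ^ k = thr ^ 2 → h ^ (c / k) ≤ H := by
  rcases Nat.eq_zero_or_pos k with rfl | hk
  · refine ⟨1, le_rfl, ?_⟩
    intro h H thr hH _ _ _
    simpa using hH
  have hk' : (0 : ℝ) < k := by exact_mod_cast hk
  have hCH0 : 0 < CH := by linarith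
  refine ⟨max 1 (CH ^ ((k : ℝ) / c)), le_max_left _ _, ?_⟩
  intro h H thr hH hh hthr e
  have hh1 : 1 ≤ h := (le_max_left _ _).trans hh
  have hh0 : 0 < h := by linarith
  have h1 : CH ≤ h ^ (c / k) := by
    have : (CH ^ ((k : ℝ) / c)) ^ (c / k) ≤ h ^ (c / k) :=
      Real.rpow_le_rpow (by positivity) ((le_max_right _ _).trans hh) (by positivity)
    rw [← Real.rpow_mul hCH0.le] at this
    have e1 : (k : ℝ) / c * (c / k) = 1 := by field_simp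
    rwa [e1, Real.rpow_one] at this
  have hx0 : 0 < h ^ (c / k) := Real.rpow_pos_of_pos hh0 _
  have h2 : (h ^ (c / k) * h ^ (c / k)) ^ k ≤ (CH * H) ^ k := by
    rw [e, ← Real.rpow_add hh0, ← Real.rpow_natCast, ← Real.rpow_mul hh0.le]
    have e2 : (c / k + c / k) * (k : ℝ) = c * 2 := by field_simp; ring
    rw [e2, Real.rpow_mul hh0.le]
    have : (h ^ c) ^ (2 : ℝ) = (h ^ c) ^ 2 := by
      rw [← Real.rpow_natCast]; norm_num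
    rw [this]
    exact pow_le_pow_left₀ (by positivity) hthr 2
  have h3 : h ^ (c / k) * h ^ (c / k) ≤ CH * H :=
    (pow_le_pow_iff_left₀ (by positivity) (by positivity) hk.ne').1 h2
  have h4 : CH * h ^ (c / k) ≤ CH * H := (mul_le_mul_of_nonneg_right h1 hx0.le).trans h3
  exact le_of_mul_le_mul_left h4 hCH0

/-- **LEAF L-F1-NS7: `H_i ≥ h^{c/k}`.**   PLAN: `(CH H)^k = thr² ≥ (h^cthr)²`; take `k`-th roots: `CH H ≥ h^(2cthr/k)` (`Real.rpow_natCast`, `Real.rpow_le_rpow_iff`/`Real.le_rpow_inv_iff_of_pos`; or compare `(h^(2cthr/k))^k = h^(2 cthr)` with `pow_le_pow_iff_left₀`).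
`h₁ := max 1 (CH^(k/cthr))`: `h^(cthr/k) ≥ CH`, so `h^(2cthr/k) = h^(cthr/k) h^(cthr/k) ≥ CH h^(cthr/k)`. -/
theorem fn_H_ge (hX : X.Ok) (hCH : 1 ≤ CH) : ∃ h₁ : ℝ, 1 ≤ h₁ ∧ ∀ (Λ : Type) [Fintype Λ] (𝔠 : XCfg k Λ), X.Cfg 𝔠 → ∀ s : Sel 𝔠, s.Ok X CH Cσ ϖ Cu → h₁ ≤ 𝔠.h → ∀ i, 𝔠.h ^ (X.cthr / k) ≤ s.H i := by
  obtain ⟨h₁, h1, hh⟩ := fn_H_ge_aux k hX.cthr_pos hCH
  refine ⟨h₁, h1, ?_⟩
  intro Λ _ 𝔠 h𝔠 s hs hle i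
  exact hh 𝔠.h (s.H i) (𝔠.thr i) (hs.one_le_H i) hle (h𝔠.thr_ge i) (hs.H_thr i)

/-- **LEAF L-F1-NS8: few masks of the largest class** ((f:original-amplitudes) + (f:original-energy)), for every subfamily `W` of the selected masks.
PLAN: `C₁` from `f1h_masks X.c_ok hℓ htr l2`.   Tree `t' = (s.t X ϖ i).rs W s.Y1` (`f1h_good_rs`), `s₀ = 2^(n i) σ_i ≥ 0` (`h.amp_ge`, `amp` does not depend on the masks: `rfl`): `#W s₀² H^(k+2) ≤ C₁ en = C₁ Cx² D i` (`fn_leaf_en`; `T2.en` unfolds).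
`s₀² H^(k+2) = 4^n thr²/(Cσ² H^(2k)) H^(k+2) = 4^n CH^k H²/Cσ² ≥ (2^n)² H²/Cσ²`.     `C := C₁ Cx² Cσ²`. -/
theorem fn_masks (hX : X.Ok) (hCH : 1 ≤ CH) (hCσ : 1 ≤ Cσ) : ∃ C : ℝ, 1 ≤ C ∧ ∀ (Λ : Type) [Fintype Λ] (𝔠 : XCfg k Λ), X.Cfg 𝔠 → ∀ s : Sel 𝔠, s.Ok X CH Cσ ϖ Cu → ∀ i, ∀ W ⊆ s.U i,
    (W.card : ℝ) * (2 ^ s.n i) ^ 2 * s.H i ^ 2 ≤ C * 𝔠.D i := by
  obtain ⟨C₁, hC₁, H₁⟩ := f1h_masks hX.c_ok hX.hℓ hX.htr hX.l2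
  have hCx := hX.one_le_Cx
  have hCσ0 : 0 < Cσ := by linarith
  have hx2 : 1 ≤ X.Cx ^ 2 := one_le_pow₀ hCx
  have hs2 : 1 ≤ Cσ ^ 2 := one_le_pow₀ hCσ
  refine ⟨C₁ * X.Cx ^ 2 * Cσ ^ 2, one_le_mul_of_one_le_of_one_le (one_le_mul_of_one_le_of_one_le hC₁ hx2) hs2, fun Λ _ 𝔠 h𝔠 s h i W hW => ?_⟩
  obtain ⟨hthr, hD, -⟩ := fn_pos X 𝔠 h𝔠
  have hHi : 0 < s.H i := lt_of_lt_of_le one_pos (h.one_le_H i)
  have hti := hthr i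
  have hσ : 0 < s.σ Cσ i := by
    unfold Sel.σ
    positivity
  have hgood : ((s.t X ϖ i).rs W s.Y1).Good X.c := f1h_good_rs (s.t X ϖ i) X.c (h.good i) hW (Finset.Subset.refl _)
  have key := H₁ _ hgood (2 ^ s.n i * s.σ Cσ i) (by positivity) (fun S hS => h.amp_ge i S (hW hS))
  have hen : ((s.t X ϖ i).rs W s.Y1).en = X.Cx ^ 2 * 𝔠.D i := fn_leaf_en X 𝔠 h𝔠 i
  rw [hen] at key
  have key' : (W.card : ℝ) * (2 ^ s.n i * s.σ Cσ i) ^ 2 * s.H i ^ (k + 2) ≤ C₁ * (X.Cx ^ 2 * 𝔠.D i) := key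
  have hHt := h.H_thr i
  rw [mul_pow] at hHt
  have e1 : (2 ^ s.n i * s.σ Cσ i) ^ 2 * s.H i ^ (k + 2) = (2 ^ s.n i) ^ 2 * CH ^ k * s.H i ^ 2 / Cσ ^ 2 := by
    unfold Sel.σ
    rw [mul_pow, div_pow, ← hHt]
    field_simp
    ring
  have hCk : 1 ≤ CH ^ k := one_le_pow₀ hCH
  calc (W.card : ℝ) * (2 ^ s.n i) ^ 2 * s.H i ^ 2 ≤ (W.card : ℝ) * (2 ^ s.n i) ^ 2 * s.H i ^ 2 * CH ^ k :=
        le_mul_of_one_le_right (by positivity) hCk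
    _ = Cσ ^ 2 * ((W.card : ℝ) * ((2 ^ s.n i) ^ 2 * CH ^ k * s.H i ^ 2 / Cσ ^ 2)) := by
        field_simp
    _ = Cσ ^ 2 * ((W.card : ℝ) * (2 ^ s.n i * s.σ Cσ i) ^ 2 * s.H i ^ (k + 2)) := by
        rw [← e1]
        ring
    _ ≤ Cσ ^ 2 * (C₁ * (X.Cx ^ 2 * 𝔠.D i)) := mul_le_mul_of_nonneg_left key' (by positivity)
    _ = C₁ * X.Cx ^ 2 * Cσ ^ 2 * 𝔠.D i := by ring

/-- the real-number core of `fn_high` -/
theorem fn_high_aux (k : ℕ) {CH H thr : ℝ} (hCH : 1 ≤ CH) (hH : 1 ≤ H) (hthr : 0 ≤ thr) (e : (CH * H) ^ k = thr ^ 2) :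
    H ^ ((k : ℝ) / 2) ≤ thr := by
  have hH0 : 0 < H := by linarith
  have h1 : (H ^ ((k : ℝ) / 2)) ^ 2 ≤ thr ^ 2 := by
    rw [← e, ← Real.rpow_natCast, ← Real.rpow_mul hH0.le]
    have e1 : (k : ℝ) / 2 * ((2 : ℕ) : ℝ) = k := by push_cast; ring
    rw [e1, Real.rpow_natCast]
    exact pow_le_pow_left₀ hH0.le (by nlinarith) k
  exact (pow_le_pow_iff_left₀ (by positivity) hthr two_ne_zero).1 h1

/-- **LEAF L-F1-NS9: `H^{k/2} ≲ θ_i / pn`.**   PLAN: `thr² = (CH H)^k ≥ H^k`, so `H^(k/2) ≤ thr` (`Real.rpow_natCast`, `Real.sqrt`: `H^(k/2) = √(H^k)`: `Real.sqrt_eq_rpow`, `← Real.rpow_natCast`, `← Real.rpow_mul`; `Real.sqrt_le_left`/`Real.sqrt_le_sqrt`, `Real.sqrt_sq`).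
`thr = θ_i · 8/(3 c₀ pn (n i))`, `pn N ≤ pn (n i)`. -/
theorem fn_high (hX : X.Ok) (hCH : 1 ≤ CH) (h𝔠 : X.Cfg 𝔠) (h : s.Ok X CH Cσ ϖ Cu) (i : Fin (k + 1)) : s.H i ^ ((k : ℝ) / 2) ≤ 8 / (3 * X.c₀) / pn s.N * s.θ X i := by
  have hh0 : 0 < 𝔠.h := by linarith [h𝔠.two_le]
  have hthr : 0 ≤ 𝔠.thr i := (Real.rpow_pos_of_pos hh0 _).le.trans (h𝔠.thr_ge i)
  have h1 := fn_high_aux k hCH (h.one_le_H i) hthr (h.H_thr i)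
  have hp := fa_pn_pos s.N
  have hp' := fn_pn_anti (fn_n_le_N s i)
  have e : 8 / (3 * X.c₀) / pn s.N * s.θ X i = 𝔠.thr i * (pn (s.n i) / pn s.N) := by
    unfold Sel.θ
    rw [hX.c₀_eq]
    field_simp
  rw [e]
  have h2 : 1 ≤ pn (s.n i) / pn s.N := (one_le_div hp).2 hp'
  calc s.H i ^ ((k : ℝ) / 2) ≤ 𝔠.thr i * 1 := by linarith
    _ ≤ 𝔠.thr i * (pn (s.n i) / pn s.N) := mul_le_mul_of_nonneg_left h2 hthr

/-- **LEAF L-F1-NS10: (f:Sbalance), crude form**: `μ ≲ S^C` ("`S → ∞`") and `D_i ≲ S^C |Y| H_i^{k+2}`.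
PLAN.  `C₁` from `f1h_sbal` (`ε = 1`), `CR` from `fn_hv_hyp`.   Trees `s.t X ϖ`, `Y = s.Y1`, `s_i = 2^(n i+1) σ_i`, `θ_i`, `R = CR S/pn N ≤ 4 CR S²`, `G` from `fn_fail` (`Y' = Y1`), failure constant `μ' = μ ∏ pn/(2^(k+2) CH^(k+2) Cx²)` (as `en i = Cx² D i`: `fn_leaf_en`).
`qk k + 1 + 1 ≤ 8` (`qk k = 2 + 4/k ≤ 6`), so `R^(q+2) ≤ R^8 ≤ (4 CR)^8 S^16` (`Real.rpow_le_rpow_of_exponent_le`, `Real.rpow_natCast`).    `1/∏ pn ≤ (1/pn N)^(k+1) ≤ (4 S)^(k+1)` (`fn_prod_pn`, `fn_pn_crude`).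
First conclusion: `μ' ≤ C₁ R^(q+2)` gives `μ ≤ C S^(16+k+1)`.    Third conclusion: `en i ≤ (C₁ R^(q+2)/μ')^k/μ' (#Y1 H^(k+2))` with `1/μ' ≤ C' S^(k+1)` (`μ ≥ 1`): `≤ C'' S^((16+k+1)k + k+1)`; `D i ≤ en i` (`Cx ≥ 1`). -/
theorem fn_sbal (hX : X.Ok) (hCH : 1 ≤ CH) (hCσ : 1 ≤ Cσ) : ∃ C : ℝ, 1 ≤ C ∧ ∀ (Λ : Type) [Fintype Λ] (𝔠 : XCfg k Λ), X.Cfg 𝔠 → ∀ s : Sel 𝔠, s.Ok X CH Cσ ϖ Cu → ∀ μ : ℝ, 1 ≤ μ → 𝔠.Fail μ →
    μ ≤ C * s.S ^ (k + 17) ∧ ∀ i, 𝔠.D i ≤ C * s.S ^ ((k + 17) * (k + 1)) * (s.Y1.card * s.H i ^ (k + 2)) := by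
  obtain ⟨C₁, hC₁, H₁⟩ := f1h_sbal hX.c_ok hX.hℓ hX.htr hX.nc hX.l2 (ε := 1) one_pos
  obtain ⟨CR, hCR, HR⟩ := fn_hv_hyp (ϖ := ϖ) (Cu := Cu) hX hCH hCσ
  have hCx := hX.one_le_Cx
  have hCx0 : 0 < X.Cx := by linarith
  have hCH0 : 0 < CH := by linarith
  have hk : 1 ≤ k := hX.c_ok.k_pos
  have hk1 : (1 : ℝ) ≤ k := by exact_mod_cast hk
  obtain ⟨A, hA⟩ : ∃ A, A = C₁ * (4 * CR) ^ 8 := ⟨_, rfl⟩
  obtain ⟨B, hB⟩ : ∃ B, B = 2 ^ (k + 2) * CH ^ (k + 2) * X.Cx ^ 2 * 4 ^ (k + 1) := ⟨_, rfl⟩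
  have hA1 : 1 ≤ A := by
    rw [hA]
    exact one_le_mul_of_one_le_of_one_le hC₁ (one_le_pow₀ (by linarith))
  have hB1 : 1 ≤ B := by
    rw [hB]
    exact one_le_mul_of_one_le_of_one_le (one_le_mul_of_one_le_of_one_le (one_le_mul_of_one_le_of_one_le (one_le_pow₀ one_le_two) (one_le_pow₀ hCH))
      (one_le_pow₀ hCx)) (one_le_pow₀ (by norm_num))
  have hAB : 1 ≤ A * B := one_le_mul_of_one_le_of_one_le hA1 hB1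
  refine ⟨(A * B) ^ (k + 1), one_le_pow₀ hAB, fun Λ _ 𝔠 h𝔠 s h μ hμ hf => ?_⟩
  obtain ⟨hthr, hD, -⟩ := fn_pos X 𝔠 h𝔠
  obtain ⟨r1, r2, r3, r4, r5⟩ := HR Λ 𝔠 h𝔠 s h
  have hμ0 : 0 < μ := by linarith
  obtain ⟨G, hG, hGm, hF⟩ := fn_fail hX hCH h𝔠 h hμ0 hf s.Y1 (by
    have : (0 : ℝ) ≤ s.Y1.card := Nat.cast_nonneg _
    linarith)
  obtain ⟨R, hR⟩ : ∃ R, R = CR * s.S / pn s.N := ⟨_, rfl⟩
  rw [← hR] at r1 r3 r4 r5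
  obtain ⟨Pg, hPg⟩ : ∃ Pg : ℝ, Pg = ∏ i, pn (s.n i) := ⟨_, rfl⟩
  have hPg0 : 0 < Pg := hPg ▸ Finset.prod_pos fun i _ => fa_pn_pos _
  rw [← hPg] at hF
  have hS := fn_one_le_S s
  have hS0 : 0 < s.S := by linarith
  have hH0 : ∀ i, 0 < s.H i := fun i => lt_of_lt_of_le one_pos (h.one_le_H i)
  obtain ⟨μ', hμ'⟩ : ∃ μ', μ' = μ * Pg / (2 ^ (k + 2) * CH ^ (k + 2) * X.Cx ^ 2) := ⟨_, rfl⟩
  have hμ'0 : 0 < μ' := by rw [hμ']; positivity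
  have hen : ∀ i, (s.t X ϖ i).en = X.Cx ^ 2 * 𝔠.D i := fun i => fn_leaf_en X 𝔠 h𝔠 i
  have hF' : μ' * ∑ i, (s.t X ϖ i).en / (s.t X ϖ i).κ1 ^ k ≤ s.Y1.card * G := by
    refine le_trans (le_of_eq ?_) hF
    have e : ∑ i, (s.t X ϖ i).en / (s.t X ϖ i).κ1 ^ k = X.Cx ^ 2 * ∑ i, 𝔠.D i / s.H i ^ k := by
      rw [Finset.mul_sum]
      refine Finset.sum_congr rfl fun i _ => ?_
      rw [hen i]
      show X.Cx ^ 2 * 𝔠.D i / s.H i ^ k = X.Cx ^ 2 * (𝔠.D i / s.H i ^ k)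
      ring
    rw [e, hμ']
    field_simp
  obtain ⟨c1, -, c3⟩ := H₁ (s.t X ϖ) h.good s.Y1 h.ne (fun _ => rfl) (fun i => 2 ^ (s.n i + 1) * s.σ Cσ i) (s.θ X) R G μ' r2 r1 hG hμ'0
    h.amp_le r3 r4 h.high hGm hF'
  -- the size of `R`
  have hq : qk k + 1 + 1 ≤ 8 := by
    unfold qk
    have : 2 * ((k : ℝ) + 2) / k ≤ 6 := by
      rw [div_le_iff₀ (by linarith)]
      linarith
    linarith
  obtain ⟨x, hx⟩ : ∃ x, x = C₁ * R ^ (qk k + 1 + 1) := ⟨_, rfl⟩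
  rw [← hx] at c1 c3
  have hR0 : 0 < R := by linarith
  have hx0 : 0 < x := by rw [hx]; positivity
  have hxA : x ≤ A * s.S ^ 16 := by
    rw [hx, hA]
    have h1 : R ^ (qk k + 1 + 1) ≤ R ^ (8 : ℝ) := Real.rpow_le_rpow_of_exponent_le r1 hq
    have h2 : R ^ (8 : ℝ) = R ^ 8 := Real.rpow_ofNat _ 8
    have h3 : R ^ 8 ≤ (4 * CR * s.S ^ 2) ^ 8 := pow_le_pow_left₀ hR0.le r5 8
    calc C₁ * R ^ (qk k + 1 + 1) ≤ C₁ * (4 * CR * s.S ^ 2) ^ 8 := mul_le_mul_of_nonneg_left (h1.trans (h2.le.trans h3)) (by linarith)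
      _ = C₁ * (4 * CR) ^ 8 * s.S ^ 16 := by ring
  -- the size of `1/μ'`
  have hPinv : 1 / Pg ≤ (4 * s.S) ^ (k + 1) := by
    have h1 : pn s.N ^ (k + 1) ≤ Pg := hPg ▸ fn_prod_pn s
    have h2 := fn_pn_crude s.N
    have hp0 := fa_pn_pos s.N
    calc 1 / Pg ≤ 1 / pn s.N ^ (k + 1) := one_div_le_one_div_of_le (by positivity) h1
      _ = (1 / pn s.N) ^ (k + 1) := by rw [div_pow, one_pow]
      _ ≤ (4 * s.S) ^ (k + 1) := pow_le_pow_left₀ (by positivity) h2 _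
  obtain ⟨u, hu⟩ : ∃ u, u = 2 ^ (k + 2) * CH ^ (k + 2) * X.Cx ^ 2 * (1 / Pg) := ⟨_, rfl⟩
  have hu0 : 0 < u := by rw [hu]; positivity
  have huB : u ≤ B * s.S ^ (k + 1) := by
    rw [hu, hB]
    calc 2 ^ (k + 2) * CH ^ (k + 2) * X.Cx ^ 2 * (1 / Pg) ≤ 2 ^ (k + 2) * CH ^ (k + 2) * X.Cx ^ 2 * (4 * s.S) ^ (k + 1) :=
          mul_le_mul_of_nonneg_left hPinv (by positivity)
      _ = 2 ^ (k + 2) * CH ^ (k + 2) * X.Cx ^ 2 * 4 ^ (k + 1) * s.S ^ (k + 1) := by rw [mul_pow]; ring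
  have hμu : μ = μ' * u := by
    rw [hμ', hu]
    field_simp
  have hinv : 1 / μ' ≤ u := by
    rw [div_le_iff₀ hμ'0, mul_comm, ← hμu]
    exact hμ
  have hxu : x * u ≤ A * B * s.S ^ (k + 17) := by
    calc x * u ≤ (A * s.S ^ 16) * (B * s.S ^ (k + 1)) := mul_le_mul hxA huB hu0.le (by positivity)
      _ = A * B * s.S ^ (k + 17) := by ring
  constructor
  · calc μ = μ' * u := hμu
      _ ≤ x * u := mul_le_mul_of_nonneg_right c1 hu0.le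
      _ ≤ A * B * s.S ^ (k + 17) := hxu
      _ ≤ (A * B) ^ (k + 1) * s.S ^ (k + 17) :=
          mul_le_mul_of_nonneg_right (le_self_pow₀ hAB (by omega)) (by positivity)
  · intro i
    have hYH : 0 ≤ (s.Y1.card : ℝ) * s.H i ^ (k + 2) := mul_nonneg (Nat.cast_nonneg _) (pow_pos (hH0 i) _).le
    have h1 : (x / μ') ^ k / μ' ≤ (A * B) ^ (k + 1) * s.S ^ ((k + 17) * (k + 1)) := by
      have e1 : (x / μ') ^ k / μ' = (x * (1 / μ')) ^ k * (1 / μ') := by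
        field_simp
      rw [e1]
      have h2 : x * (1 / μ') ≤ A * B * s.S ^ (k + 17) := (mul_le_mul_of_nonneg_left hinv hx0.le).trans hxu
      have h3 : 1 / μ' ≤ A * B * s.S ^ (k + 17) := by
        calc 1 / μ' ≤ u := hinv
          _ ≤ B * s.S ^ (k + 1) := huB
          _ ≤ (A * B) * s.S ^ (k + 17) :=
              mul_le_mul (le_mul_of_one_le_left (by linarith) hA1) (pow_le_pow_right₀ hS (by omega)) (by positivity) (by positivity)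
      calc (x * (1 / μ')) ^ k * (1 / μ') ≤ (A * B * s.S ^ (k + 17)) ^ k * (A * B * s.S ^ (k + 17)) :=
            mul_le_mul (pow_le_pow_left₀ (by positivity) h2 k) h3 (by positivity) (by positivity)
        _ = (A * B) ^ (k + 1) * s.S ^ ((k + 17) * (k + 1)) := by
            rw [← pow_succ, mul_pow, ← pow_mul]
    have h4 := c3 i
    rw [hen i] at h4
    have h5 : 𝔠.D i ≤ X.Cx ^ 2 * 𝔠.D i := le_mul_of_one_le_left (hD i) (one_le_pow₀ hCx)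
    calc 𝔠.D i ≤ X.Cx ^ 2 * 𝔠.D i := h5
      _ ≤ (x / μ') ^ k / μ' * (s.Y1.card * s.H i ^ (k + 2)) := h4
      _ ≤ _ := mul_le_mul_of_nonneg_right h1 hYH

end arith

end

end Claimed.Agent.R257.FR1
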