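import Claimed.Agent.R257.FR1.Stage
import Claimed.Agent.R257.FR1.Cl

/-!
# ROW 257, package FR1, block SB: THE SUBPOWER STAGE FOR ONE FIELD      (architect helper16; captain FR1 helper249)

H `frame.tex` l.540-577.    Fix an exact configuration `𝔠`, a field `i`, scales `H ≤ Kk ≤ 𝔠.h`, selected (light) masks `L` of the tree `tH` with amplitudes `≤ s`, witnesses `Y'` where the field of `L` is `≥ θ`.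
* `fsb_stage`    for all large windows `R` and all `Y'' ⊆ Y'` on which the clipped sum of the tree `tF` is `≤ ϖ`: the tree `tF` with the RETAINED masks `𝔠.ret … = {S ∈ L : e_b²(z_S) ≤ M_c}` and the witnesses `Y''` is `Good (shiftC c)` and its masked
                 leaf field is `≥ θ/2` on `Y''`.
* `fsb_markov`   the clipped sum is `≤ tm ϖ₀` outside a fraction `1/tm` of the witnesses.
* `fsb_upper`    (f:subbalance), upper half:  `#Y'' ≤ C (Kk/H)^ε Rm^ε θ^{-q} ϖ^{q/2-1} D_i`.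
-/

set_option autoImplicit false

namespace Claimed.Agent.R257.FR1

open Claimed.Agent.R257 Claimed.Agent.R257.FR2 Claimed.Agent.R257.Tree MeasureTheory
open scoped BigOperators Classical BoundedContinuousFunction

noncomputable section

variable {k : ℕ} {Λ : Type} [Fintype Λ]

/-- the clipped sum of the tree `tF` at the witness `q` -/
def XCfg.clp (𝔠 : XCfg k Λ) (i : Fin (k + 1)) (c : TCls k) (χ₁ : ℝ → ℂ) (Cx H Kk : ℝ) (R : ℕ) (Mc : ℝ) (q : Lat k) : ℝ :=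
  ∑ b : 𝔠.BinT i H, min ((𝔠.tF i c χ₁ Cx H Kk R ∅ ∅ ⟨0, 0, 0, 0, 0⟩).eb c.P b (𝔠.wz i q)) Mc

/-- the retained masks -/
def XCfg.ret (𝔠 : XCfg k Λ) (i : Fin (k + 1)) (c : TCls k) (χ₁ : ℝ → ℂ) (Cx H Kk : ℝ) (R : ℕ) (Mc : ℝ) (L : Finset (𝔠.BinT i H × Lat k)) : Finset (𝔠.BinT i H × Lat k) :=
  L.filter fun S => (𝔠.tF i c χ₁ Cx H Kk R ∅ ∅ ⟨0, 0, 0, 0, 0⟩).eb c.P S.1 ((𝔠.tF i c χ₁ Cx H Kk R ∅ ∅ ⟨0, 0, 0, 0, 0⟩).ctr1 S) ≤ Mc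

/-- the envelopes of `tF` do not depend on the masks, the witnesses and the auxiliary parameters -/
theorem fsb_eb_indep (𝔠 : XCfg k Λ) (i : Fin (k + 1)) (c : TCls k) (χ₁ : ℝ → ℂ) (Cx H Kk : ℝ) (R : ℕ) (W1 W1' : Finset (𝔠.BinT i H × Lat k)) (Yf Yf' : Finset (Lat k)) (x x' : XCfg.Aux) (A : ℝ)
    (b : 𝔠.BinT i H) (z : ST k) : (𝔠.tF i c χ₁ Cx H Kk R W1 Yf x).eb A b z = (𝔠.tF i c χ₁ Cx H Kk R W1' Yf' x').eb A b z := rfl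

theorem fsb_stage (c : TCls k) (hc : c.Ok) (hℓ : c.ℓ = 1) (htr : c.tr = 1) (K : XCls) (hF : Fit c K) : ∃ C : ℝ, 1 ≤ C ∧
    ∀ (Λ : Type) [Fintype Λ] (𝔠 : XCfg k Λ) (cthr T₁ : ℝ) (P : ℕ), 𝔠.Ok cthr K T₁ P → ∀ (i : Fin (k + 1)) (χ₁ : ℝ → ℂ) (Cx H Kk : ℝ), 1 ≤ H → H ≤ Kk → Kk ≤ 𝔠.h →
      (∀ T ∈ 𝔠.W0 i, IsPk (c.ρ 0) c.M 𝔠.h (𝔠.frU i T.1) (lat T.2) (Cx * 𝔠.a i (T.1.1, T.2.1)) (toB (𝔠.lv i χ₁ T))) →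
      ∀ (L : Finset (𝔠.BinT i H × Lat k)) (Y' : Finset (Lat k)) (x : XCfg.Aux) (s θ r Mc ϖ : ℝ), SepY 𝔠 Y' → 0 ≤ s → 0 < θ → 0 ≤ r → 0 < Mc → 1 ≤ ϖ →
      (∀ S ∈ L, (𝔠.tH i χ₁ Cx H L Y' x).amp c S ≤ s) → (∀ q ∈ Y', θ ≤ ‖(𝔠.tH i χ₁ Cx H L Y' x).root c (𝔠.wz i q)‖) →
      s * C * (ϖ * (1 + r) ^ c.P / Mc + H ^ k * (1 + r) ^ (-(c.M - k - 2))) ≤ θ / 4 →
      ∃ R₀ : ℕ, ∀ R, R₀ ≤ R → ∀ Y'' ⊆ Y', (∀ q ∈ Y'', 𝔠.clp i c χ₁ Cx H Kk R Mc q ≤ ϖ) →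
        (𝔠.tF i c χ₁ Cx H Kk R (𝔠.ret i c χ₁ Cx H Kk R Mc L) Y'' (auxOf (shiftC c) Mc (C * ϖ))).Good (shiftC c) ∧
        ∀ q ∈ Y'', θ / 2 ≤ ‖(𝔠.tF i c χ₁ Cx H Kk R (𝔠.ret i c χ₁ Cx H Kk R Mc L) Y'' (auxOf (shiftC c) Mc (C * ϖ))).root (shiftC c) (𝔠.wz i q)‖ := by
  have hcs : (shiftC c).Ok := shiftC_ok hc
  obtain ⟨C1, hC1, hrem⟩ := fs_removed (shiftC c) hcs
  obtain ⟨C2, hC2, hsq⟩ := fs_sq0 (shiftC c) hcs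
  refine ⟨max C1 C2, le_max_of_le_left hC1, ?_⟩
  intro Λ _ 𝔠 cthr T₁ P h𝔠 i χ₁ Cx H Kk hH hHK hKh hleaf L Y' x s θ r Mc ϖ hY hs hθ hr hMc hϖ hamp hhigh hsmall
  obtain ⟨R₀, hR₀⟩ := fb_window_F c hc 𝔠 i χ₁ Cx H Kk L Y' x (η := θ / 4) (by positivity)
  refine ⟨R₀, fun R hR Y'' hY'' hclip => ?_⟩
  set W1 := 𝔠.ret i c χ₁ Cx H Kk R Mc L with hW1
  set t := 𝔠.tF i c χ₁ Cx H Kk R W1 Y'' (auxOf (shiftC c) Mc (max C1 C2 * ϖ)) with ht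
  have hY2 : SepY 𝔠 Y'' := ⟨hY''.trans hY.1, fun j q hq q' hq' => hY.2 j q (hY'' hq) q' (hY'' hq')⟩
  have geo : t.Geo (shiftC c) := fb_geo_F c hc hℓ htr K hF cthr T₁ P 𝔠 h𝔠 i χ₁ Cx H Kk hH hHK hKh hleaf R W1 Y'' hY2 _
  have hret : ∀ S ∈ t.W1, t.eb (shiftC c).P S.1 (t.ctr1 S) ≤ t.Mc := fun S hS => (Finset.mem_filter.1 hS).2
  have hclip' : ∀ q ∈ t.Yf, ∑ b : t.Λ1, min (t.eb (shiftC c).P b (t.pt q)) t.Mc ≤ ϖ := fun q hq => hclip q hq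
  have hmax1 : 1 ≤ max C1 C2 := le_max_of_le_left hC1
  have hϖ' : ϖ ≤ max C1 C2 * ϖ := le_mul_of_one_le_left (by linarith) hmax1
  have good : t.Good (shiftC c) := by
    refine T2.Geo.good geo le_rfl le_rfl ?_ ?_ hMc ?_ hret ?_
    · show 2 * (1 + 2 * (shiftC c).Cc) * 1 ≤ 2 * (1 + 2 * (shiftC c).Cc)
      rw [mul_one]
    · show 1 ≤ max C1 C2 * ϖ
      linarith
    · intro q hq
      refine (hsq t geo hMc hret (t.pt q)).trans ?_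
      show C2 * _ ≤ max C1 C2 * ϖ
      exact mul_le_mul (le_max_right _ _) (hclip' q hq) (Finset.sum_nonneg fun b _ => le_min (fs_eb_nonneg t _ b _) hMc.le) (by linarith)
    · intro q hq
      exact (hclip' q hq).trans hϖ'
  refine ⟨good, fun q hq => ?_⟩
  set z := 𝔠.wz i q with hz
  set tHL := 𝔠.tH i χ₁ Cx H L Y' x with htHL
  set φ : 𝔠.BinT i H × Lat k → ℂ := fun S => tHL.loc c S z * tHL.pre S.1 z with hφdef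
  have hφ : ∀ S ∈ L, ‖φ S‖ ≤ s * (1 + t.d1 S z) ^ (-(shiftC c).M) := by
    intro S hS
    refine (t2_pk tHL c hc S z).trans ?_
    exact mul_le_mul_of_nonneg_right (hamp S hS) (Real.rpow_nonneg (by positivity) _)
  have h1 := hrem t good L z s r Mc ϖ φ hs hr hMc hφ (hclip q hq)
  have h2 : ‖∑ S ∈ L.filter (fun S => Mc < t.eb (shiftC c).P S.1 (t.ctr1 S)), φ S‖ ≤ θ / 4 := by
    refine h1.trans (le_trans ?_ hsmall)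
    have hb : 0 ≤ ϖ * (1 + r) ^ c.P / Mc + H ^ k * (1 + r) ^ (-(c.M - k - 2)) := by positivity
    show s * C1 * (ϖ * (1 + r) ^ c.P / Mc + H ^ k * (1 + r) ^ (-(c.M - k - 2))) ≤ s * max C1 C2 * (ϖ * (1 + r) ^ c.P / Mc + H ^ k * (1 + r) ^ (-(c.M - k - 2)))
    exact mul_le_mul_of_nonneg_right (mul_le_mul_of_nonneg_left (le_max_left _ _) hs) hb
  have h3 : tHL.root c z = ∑ S ∈ W1, φ S + ∑ S ∈ L.filter (fun S => Mc < t.eb (shiftC c).P S.1 (t.ctr1 S)), φ S := by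
    show ∑ S ∈ L, φ S = _
    rw [← Finset.sum_filter_add_sum_filter_not L (fun S => t.eb (shiftC c).P S.1 (t.ctr1 S) ≤ Mc)]
    simp only [not_le]
    rfl
  have h4 := hR₀ R hR W1 (Finset.filter_subset _ _) q (hY'' hq)
  have h5 : (𝔠.tH i χ₁ Cx H W1 Y' x).root c (𝔠.wz i q) = ∑ S ∈ W1, φ S := rfl
  have h6 : t.root (shiftC c) z = (𝔠.tF i c χ₁ Cx H Kk R W1 Y' x).root c (𝔠.wz i q) := rfl
  have h7 := hhigh q (hY'' hq)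
  rw [h3] at h7
  rw [h5] at h4
  rw [h6]
  have h8 := norm_add_le (∑ S ∈ W1, φ S) (∑ S ∈ L.filter (fun S => Mc < t.eb (shiftC c).P S.1 (t.ctr1 S)), φ S)
  have h9 : ‖∑ S ∈ W1, φ S‖ ≤ ‖(𝔠.tF i c χ₁ Cx H Kk R W1 Y' x).root c (𝔠.wz i q)‖ + ‖(𝔠.tF i c χ₁ Cx H Kk R W1 Y' x).root c (𝔠.wz i q) - ∑ S ∈ W1, φ S‖ := by
    have := norm_sub_le ((𝔠.tF i c χ₁ Cx H Kk R W1 Y' x).root c (𝔠.wz i q)) ((𝔠.tF i c χ₁ Cx H Kk R W1 Y' x).root c (𝔠.wz i q) - ∑ S ∈ W1, φ S)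
    rwa [sub_sub_cancel] at this
  linarith

/-- **(f:clipped) in terms of `clp`, in the language `Ctx`** (= `fcl_mainT`) -/
theorem fsb_clp (k : ℕ) (ρ : ℝ) (P : ℕ) (hP : k + 3 ≤ P) : ∃ Pw₀ : ℝ, ∀ X : Ctx k, X.Ok → X.K.ρ = ρ → X.P = P → Pw₀ ≤ X.c.P → ∃ C : ℝ, 1 ≤ C ∧
    ∀ (Λ : Type) [Fintype Λ] (𝔠 : XCfg k Λ), X.Cfg 𝔠 → ∀ (i : Fin (k + 1)) (H Kk Mc N0 N1 : ℝ) (Y' : Finset (Lat k)), 1 ≤ H → H ≤ Kk → Kk ≤ 𝔠.h → 0 < Mc → 1 ≤ N0 → 1 ≤ N1 → SepY 𝔠 Y' →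
    BallY 𝔠 i Y' H N0 → 𝔠.D i ≤ N1 * (H ^ (k + 2) * Y'.card) → ∀ R : ℕ,
      ∑ q ∈ Y', 𝔠.clp i X.c X.χ₁ X.Cx H Kk R Mc q
        ≤ C * (1 + (Mc * H ^ k + Real.sqrt (N0 * N1 * (Mc * H ^ k))) * ((Kk / H) ^ (-(1 / 4 : ℝ)) + H ^ (-(1 / 4 : ℝ)) * (1 + Real.log (𝔠.h / Kk)))) * Y'.card := by
  by_cases hk : 1 ≤ k
  swap
  · exact ⟨0, fun X hX => absurd hX.c_ok.k_pos hk⟩
  obtain ⟨Pw₀, h⟩ := fcl_mainT k P (max ρ 0) hk (by omega) (le_max_right _ _)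
  refine ⟨Pw₀, fun X hX hρ hPX hPw => ?_⟩
  have hc := hX.c_ok
  have hk0 : (0 : ℝ) ≤ k := Nat.cast_nonneg k
  have hJ := hX.fit.J
  have hJ1 : P ≤ X.K.J := by
    have h1 : (P : ℝ) ≤ X.K.J := by
      have := hX.P_le
      rw [hPX] at this
      linarith [hc.P_lt, hc.M_gt, hc.C0_ge, hc.P_gt]
    exact_mod_cast h1
  have hJ2 : 2 * k + 1 ≤ X.K.J := by
    have h1 : ((2 * k + 1 : ℕ) : ℝ) ≤ X.K.J := by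
      push_cast
      linarith [hc.P_lt, hc.M_gt, hc.C0_ge, hc.P_gt]
    exact_mod_cast h1
  obtain ⟨C, hC, h'⟩ := h X.c hc hPw { X.K with ρ := max X.K.ρ 0 } X.T₁ (by rw [← hρ]) hJ1 hJ2
  refine ⟨C, hC, fun Λ _ 𝔠 h𝔠 i H Kk Mc N0 N1 Y' hH hHK hKh hMc hN0 hN1 hY hball hD R => ?_⟩
  have h𝔠' : 𝔠.Ok X.cthr X.K X.T₁ P := by rw [← hPX]; exact h𝔠
  exact h' Λ 𝔠 X.cthr (fcl_ok_mono h𝔠') i X.χ₁ X.Cx H Kk R ∅ Y' ⟨0, 0, 0, 0, 0⟩ Mc N0 N1 hX.cut.le_one (fun T hT => (hX.leaf Λ 𝔠 h𝔠 i T hT).2) hH hHK hKh hMc (by linarith) (by linarith) hY hball hD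

theorem fsb_clp_nonneg (𝔠 : XCfg k Λ) (i : Fin (k + 1)) (c : TCls k) (χ₁ : ℝ → ℂ) (Cx H Kk : ℝ) (R : ℕ) {Mc : ℝ} (hMc : 0 ≤ Mc) (q : Lat k) : 0 ≤ 𝔠.clp i c χ₁ Cx H Kk R Mc q :=
  Finset.sum_nonneg fun b _ => le_min (fs_eb_nonneg (𝔠.tF i c χ₁ Cx H Kk R ∅ ∅ ⟨0, 0, 0, 0, 0⟩) c.P b (𝔠.wz i q)) hMc

/-- **Markov for the clipped sums**: outside a fraction `1/tm` of the witnesses the clipped sum is `≤ tm B`. -/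
theorem fsb_markov (𝔠 : XCfg k Λ) (i : Fin (k + 1)) (c : TCls k) (χ₁ : ℝ → ℂ) (Cx H Kk : ℝ) (R : ℕ) {Mc B tm : ℝ} (hMc : 0 ≤ Mc) (hB : 0 < B) (htm : 0 < tm) (Yf : Finset (Lat k))
    (h : ∑ q ∈ Yf, 𝔠.clp i c χ₁ Cx H Kk R Mc q ≤ B * Yf.card) : ((Yf.filter fun q => tm * B < 𝔠.clp i c χ₁ Cx H Kk R Mc q).card : ℝ) * tm ≤ Yf.card := by
  have h1 := fa_markov Yf (fun q => 𝔠.clp i c χ₁ Cx H Kk R Mc q) B tm (fun q _ => fsb_clp_nonneg 𝔠 i c χ₁ Cx H Kk R hMc q) htm h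
  have h2 : B * (((Yf.filter fun q => tm * B < 𝔠.clp i c χ₁ Cx H Kk R Mc q).card : ℝ) * tm) ≤ B * Yf.card := by linarith
  exact le_of_mul_le_mul_left h2 hB

/-- **(f:subbalance), upper half, for a good tree `tF`**:   `t2_upper` + `fcl_en`. -/
theorem fsb_upper (k : ℕ) (ρ : ℝ) : ∃ C0₀ : ℝ, ∀ X : Ctx k, X.Ok → X.K.ρ = ρ → C0₀ ≤ X.c.C0 → ∀ ε : ℝ, 0 < ε → ∃ C : ℝ, 1 ≤ C ∧
    ∀ (Λ : Type) [Fintype Λ] (𝔠 : XCfg k Λ), X.Cfg 𝔠 → ∀ (i : Fin (k + 1)) (H Kk : ℝ) (R : ℕ) (W1 : Finset (𝔠.BinT i H × Lat k)) (Yf : Finset (Lat k)) (x : XCfg.Aux),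
      1 ≤ H → H ≤ Kk → Kk ≤ 𝔠.h → (𝔠.tF i X.c X.χ₁ X.Cx H Kk R W1 Yf x).Good (shiftC X.c) →
      ∀ θ Rm : ℝ, 0 < θ → 1 ≤ Rm → C * Kk ^ k * x.ϖ ≤ (Rm * θ) ^ 2 → (∀ q ∈ Yf, θ ≤ ‖(𝔠.tF i X.c X.χ₁ X.Cx H Kk R W1 Yf x).root (shiftC X.c) (𝔠.wz i q)‖) →
      (Yf.card : ℝ) ≤ C * (Kk / H) ^ ε * Rm ^ ε * θ ^ (-qk k) * x.ϖ ^ (qk k / 2 - 1) * 𝔠.D i := by
  obtain ⟨C0₀, hen⟩ := fcl_en k (max ρ 0) (le_max_right _ _)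
  refine ⟨C0₀, fun X hX hρ hC0 ε hε => ?_⟩
  have hc := hX.c_ok
  have hk0 : (0 : ℝ) ≤ k := Nat.cast_nonneg k
  have hJ2 : 2 * k + 1 ≤ X.K.J := by
    have h1 : ((2 * k + 1 : ℕ) : ℝ) ≤ X.K.J := by
      push_cast
      linarith [hc.P_lt, hc.M_gt, hc.C0_ge, hc.P_gt, hX.fit.J]
    exact_mod_cast h1
  obtain ⟨C1, hC1, hen'⟩ := hen X.c hc hC0 { X.K with ρ := max X.K.ρ 0 } X.T₁ X.χ₁ X.χh (by rw [← hρ]) hJ2 hX.cut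
  obtain ⟨C2, hC2, hup⟩ := t2_upper (shiftC X.c) (shiftC_ok hc) hX.hℓ hX.htr hX.wt hX.l2 hX.nc hε
  refine ⟨C2 * C1, by nlinarith, fun Λ _ 𝔠 h𝔠 i H Kk R W1 Yf x hH hHK hKh good θ Rm hθ hRm hR hhigh => ?_⟩
  have hK0 : 0 < Kk := by linarith
  have hH0 : 0 < H := by linarith
  have hϖ : 1 ≤ x.ϖ := good.one_le_ϖ
  have h1 := hup _ good Yf θ Rm (Finset.Subset.refl _) hθ hRm (by
    refine le_trans ?_ hR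
    show C2 * Kk ^ k * x.ϖ ≤ C2 * C1 * Kk ^ k * x.ϖ
    have : 0 ≤ C2 * Kk ^ k * x.ϖ := by positivity
    nlinarith) hhigh
  have h2' := hen' Λ 𝔠 X.cthr X.P (fcl_ok_mono h𝔠) i X.Cx H Kk R W1 Yf x (fun T hT => (hX.leaf Λ 𝔠 h𝔠 i T hT).2) hH hHK hKh
  have hpos : 0 ≤ C2 * (Kk / H) ^ ε * Rm ^ ε * θ ^ (-qk k) * x.ϖ ^ (qk k / 2 - 1) := by positivity
  calc (Yf.card : ℝ) ≤ C2 * (Kk / H) ^ ε * Rm ^ ε * θ ^ (-qk k) * x.ϖ ^ (qk k / 2 - 1) * (𝔠.tF i X.c X.χ₁ X.Cx H Kk R W1 Yf x).en := h1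
    _ ≤ C2 * (Kk / H) ^ ε * Rm ^ ε * θ ^ (-qk k) * x.ϖ ^ (qk k / 2 - 1) * (C1 * 𝔠.D i) := mul_le_mul_of_nonneg_left h2' hpos
    _ = _ := by ring

end

end Claimed.Agent.R257.FR1
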