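import Claimed.Agent.R257.FR1.NSel
import Claimed.Agent.R257.FR1.Sub

/-!
# ROW 257, package FR1, block NORM (C) SUBPOWER, file A: THE MULTI-FIELD STAGES WITH FREE REAL PARAMETERS      (architect helper16; captain FR1 helper249)

H `frame.tex` l.228-265, 540-577.    Language: `FR1/NDefs.lean` (`Ctx`, `Sel`), `FR1/Sub.lean` (`XCfg.clp`, `XCfg.ret`, `fsb_*`), `FR1/HvMain.lean` (`f1h_main`).     NO exponent arithmetic in this file: `R, r, Ω, SL, Mc, B` are free real numbers.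
* `fns_hv`      heavy masks removed in ALL fields: `Y' ⊆ Y1`, `3 #Y1 ≤ 4 #Y'`, light fields `≥ θ_i/2`, occupancy `≤ Ω`, ball count
* `fns_clip`    `∑_{q ∈ Y'} clp ≤ C #Y'` for the leaf scale `Kk = min (H SL) h`     (`fsb_clp` if `H SL ≤ h`, `fcl_top` otherwise)
* `fns_trees`   common window `R`, common witnesses `Y'' ⊆ Y'`, `3 #Y' ≤ 4 #Y''`: the trees `tF` with the retained masks are `Good (shiftC c)` and high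
-/

set_option autoImplicit false

namespace Claimed.Agent.R257.FR1

open Claimed.Agent.R257 Claimed.Agent.R257.FR2 Claimed.Agent.R257.Tree
open scoped BigOperators Classical BoundedContinuousFunction

noncomputable section

variable {k : ℕ}

/-- a finite intersection of large subsets is large -/
theorem fns_inter {α ι : Type} [Fintype ι] [DecidableEq α] (Y : Finset α) (Z : ι → Finset α) (p : α → Prop) [DecidablePred p] (hp : ∀ q, p q ↔ ∀ i, q ∈ Z i) (m : ℝ) (hm : 0 < m)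
    (hcard : (Fintype.card ι : ℝ) ≤ m) (h : ∀ i, ((Y \ Z i).card : ℝ) * (4 * m) ≤ Y.card) : 3 * (Y.card : ℝ) ≤ 4 * ((Y.filter p).card : ℝ) := by
  have h1 : Y \ (Y.filter p) ⊆ Finset.univ.biUnion fun i => Y \ Z i := by
    intro q hq
    rw [Finset.mem_sdiff, Finset.mem_filter] at hq
    obtain ⟨hqY, hq2⟩ := hq
    have : ¬ ∀ i, q ∈ Z i := fun h' => hq2 ⟨hqY, (hp q).2 h'⟩
    push Not at this
    obtain ⟨i, hi⟩ := this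
    exact Finset.mem_biUnion.2 ⟨i, Finset.mem_univ _, Finset.mem_sdiff.2 ⟨hqY, hi⟩⟩
  have h2 : ((Y \ (Y.filter p)).card : ℝ) ≤ ∑ i, ((Y \ Z i).card : ℝ) := by
    have := (Finset.card_le_card h1).trans Finset.card_biUnion_le
    exact_mod_cast this
  have h3 : ∑ i, ((Y \ Z i).card : ℝ) ≤ ∑ _i : ι, (Y.card : ℝ) / (4 * m) :=
    Finset.sum_le_sum fun i _ => by rw [le_div_iff₀ (by positivity)]; exact h i
  have h4 : ∑ _i : ι, (Y.card : ℝ) / (4 * m) ≤ (Y.card : ℝ) / 4 := by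
    rw [Finset.sum_const, nsmul_eq_mul, Finset.card_univ]
    have hY : (0 : ℝ) ≤ Y.card := Nat.cast_nonneg _
    calc (Fintype.card ι : ℝ) * ((Y.card : ℝ) / (4 * m)) ≤ m * ((Y.card : ℝ) / (4 * m)) := mul_le_mul_of_nonneg_right hcard (by positivity)
      _ = (Y.card : ℝ) / 4 := by field_simp
  have h5 : ((Y \ (Y.filter p)).card : ℝ) = (Y.card : ℝ) - ((Y.filter p).card : ℝ) := by
    rw [Finset.card_sdiff_of_subset (Finset.filter_subset _ _), Nat.cast_sub (Finset.card_le_card (Finset.filter_subset _ _))]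
  linarith

/-- **heavy masks removed in all fields** (H l.228-265) -/
theorem fns_hv (X : Ctx k) (hX : X.Ok) (CH Cσ ϖ Cu : ℝ) : ∃ C : ℝ, 1 ≤ C ∧ ∀ (Λ : Type) [Fintype Λ] (𝔠 : XCfg k Λ) (s : Sel 𝔠), s.Ok X CH Cσ ϖ Cu → ∀ R r Ω : ℝ, 1 ≤ R → 0 ≤ r → 0 < Ω →
    (∀ i, 0 < 2 ^ (s.n i + 1) * s.σ Cσ i) → (∀ i, 2 ^ (s.n i + 1) * s.σ Cσ i * s.H i ^ k ≤ R * s.θ X i) → C * R ≤ (1 + r) ^ (X.c.M - k - 2) →
    4 * ((k : ℝ) + 1) * (C * R ^ (qk k + 1) * (1 + r) ^ (k + 1)) ≤ Ω →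
    ∃ Y' ⊆ s.Y1, 3 * (s.Y1.card : ℝ) ≤ 4 * Y'.card ∧ ∀ i,
      (∀ q ∈ Y', s.θ X i / 2 ≤ ‖(s.t X ϖ i).fldM X.c ((s.t X ϖ i).lgt r Ω) (𝔠.wz i q)‖) ∧
      (∀ S ∈ (s.t X ϖ i).lgt r Ω, ((s.t X ϖ i).ocw s.Y1 r S : ℝ) ≤ Ω) ∧
      ∀ Y'' ⊆ Y', BallY 𝔠 i Y'' (s.H i) (C * R * Ω * (1 + r) ^ (k + 1)) := by
  obtain ⟨C, hC, H⟩ := f1h_main hX.c_ok hX.hℓ hX.htr hX.nc (ε := 1) one_pos
  refine ⟨C, hC, fun Λ _ 𝔠 s hs R r Ω hR hr hΩ hpos hsR hrR hΩ' => ?_⟩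
  have key := fun i => H (s.t X ϖ i) (hs.good i) (2 ^ (s.n i + 1) * s.σ Cσ i) (s.θ X i) R r Ω (hpos i) hR hr hΩ.le (hs.amp_le i) (hsR i) hrR (hs.high i)
  choose Z hZsub hZcard hZhigh hZocc _ hZball using key
  have hfrac : ∀ i, ((s.Y1 \ Z i).card : ℝ) * (4 * ((k : ℝ) + 1)) ≤ s.Y1.card := by
    intro i
    have h1 : ((s.Y1 \ Z i).card : ℝ) * Ω ≤ C * R ^ (qk k + 1) * (1 + r) ^ (k + 1) * s.Y1.card := hZcard i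
    have hY : (0 : ℝ) ≤ s.Y1.card := Nat.cast_nonneg _
    have hn : (0 : ℝ) ≤ ((s.Y1 \ Z i).card : ℝ) := Nat.cast_nonneg _
    have h2 : Ω * (((s.Y1 \ Z i).card : ℝ) * (4 * ((k : ℝ) + 1))) ≤ Ω * s.Y1.card := by
      calc Ω * (((s.Y1 \ Z i).card : ℝ) * (4 * ((k : ℝ) + 1))) = 4 * ((k : ℝ) + 1) * (((s.Y1 \ Z i).card : ℝ) * Ω) := by ring
        _ ≤ 4 * ((k : ℝ) + 1) * (C * R ^ (qk k + 1) * (1 + r) ^ (k + 1) * s.Y1.card) := mul_le_mul_of_nonneg_left h1 (by positivity)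
        _ = 4 * ((k : ℝ) + 1) * (C * R ^ (qk k + 1) * (1 + r) ^ (k + 1)) * s.Y1.card := by ring
        _ ≤ Ω * s.Y1.card := mul_le_mul_of_nonneg_right hΩ' hY
    exact le_of_mul_le_mul_left h2 hΩ
  refine ⟨s.Y1.filter fun q => ∀ i, q ∈ Z i, Finset.filter_subset _ _, ?_, fun i => ⟨?_, hZocc i, ?_⟩⟩
  · exact fns_inter s.Y1 Z _ (fun _ => Iff.rfl) ((k : ℝ) + 1) (by positivity) (by simp) hfrac
  · intro q hq
    exact hZhigh i q ((Finset.mem_filter.1 hq).2 i)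
  · intro Y'' hY'' z ϱ hϱ
    exact hZball i Y'' (fun q hq => (Finset.mem_filter.1 (hY'' hq)).2 i) z ϱ hϱ

/-- **the clipped sums for the leaf scale `Kk = min (H SL) h`** (H f:smoothing; l.527-532 if `H SL > h`) -/
theorem fns_clip (k : ℕ) (ρ : ℝ) (P : ℕ) (hP : k + 3 ≤ P) : ∃ Pw₀ : ℝ, ∀ X : Ctx k, X.Ok → X.K.ρ = ρ → X.P = P → Pw₀ ≤ X.c.P → ∃ C : ℝ, 1 ≤ C ∧
    ∀ (Λ : Type) [Fintype Λ] (𝔠 : XCfg k Λ), X.Cfg 𝔠 → ∀ (i : Fin (k + 1)) (H SL Mc N0 N1 : ℝ) (Y' : Finset (Lat k)), 1 ≤ H → H ≤ 𝔠.h → 1 ≤ SL → 0 < Mc → 1 ≤ N0 → 1 ≤ N1 → SepY 𝔠 Y' →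
    BallY 𝔠 i Y' H N0 → 𝔠.D i ≤ N1 * (H ^ (k + 2) * Y'.card) →
    (Mc * H ^ k + Real.sqrt (N0 * N1 * (Mc * H ^ k))) * (SL ^ (-(1 / 4 : ℝ)) + H ^ (-(1 / 4 : ℝ)) * (1 + Real.log 𝔠.h)) ≤ 1 →
    ∀ R : ℕ, ∑ q ∈ Y', 𝔠.clp i X.c X.χ₁ X.Cx H (min (H * SL) 𝔠.h) R Mc q ≤ C * Y'.card := by
  obtain ⟨Pw₀, h⟩ := fsb_clp k ρ P hP
  refine ⟨Pw₀, fun X hX hρ hPX hPw => ?_⟩
  obtain ⟨C1, hC1, h1⟩ := h X hX hρ hPX hPw
  obtain ⟨C2, hC2, h2⟩ := fcl_top X hX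
  refine ⟨2 * C1 + C2, by linarith, fun Λ _ 𝔠 h𝔠 i H SL Mc N0 N1 Y' hH hHh hSL hMc hN0 hN1 hY hball hD hsmall R => ?_⟩
  have hH0 : 0 < H := by linarith
  have hh0 : 0 < 𝔠.h := by linarith
  have hcard : (0 : ℝ) ≤ Y'.card := Nat.cast_nonneg _
  by_cases hc : H * SL ≤ 𝔠.h
  · rw [min_eq_left hc]
    have hHK : H ≤ H * SL := le_mul_of_one_le_right hH0.le hSL
    have hK1 : 1 ≤ H * SL := hH.trans hHK
    have h3 := h1 Λ 𝔠 h𝔠 i H (H * SL) Mc N0 N1 Y' hH hHK hc hMc hN0 hN1 hY hball hD R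
    have e1 : H * SL / H = SL := by field_simp
    rw [e1] at h3
    have hlog : Real.log (𝔠.h / (H * SL)) ≤ Real.log 𝔠.h :=
      Real.log_le_log (by positivity) (div_le_self hh0.le hK1)
    have hA : 0 ≤ Mc * H ^ k + Real.sqrt (N0 * N1 * (Mc * H ^ k)) := by positivity
    have hHq : 0 ≤ H ^ (-(1 / 4 : ℝ)) := Real.rpow_nonneg hH0.le _
    have h4 : (Mc * H ^ k + Real.sqrt (N0 * N1 * (Mc * H ^ k))) * (SL ^ (-(1 / 4 : ℝ)) + H ^ (-(1 / 4 : ℝ)) * (1 + Real.log (𝔠.h / (H * SL)))) ≤ 1 := by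
      refine le_trans (mul_le_mul_of_nonneg_left ?_ hA) hsmall
      have := mul_le_mul_of_nonneg_left (add_le_add_right hlog 1) hHq
      linarith
    calc _ ≤ C1 * (1 + (Mc * H ^ k + Real.sqrt (N0 * N1 * (Mc * H ^ k))) * (SL ^ (-(1 / 4 : ℝ)) + H ^ (-(1 / 4 : ℝ)) * (1 + Real.log (𝔠.h / (H * SL))))) * Y'.card := h3
      _ ≤ C1 * (1 + 1) * Y'.card := by gcongr
      _ ≤ (2 * C1 + C2) * Y'.card := by nlinarith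
  · rw [min_eq_right (not_le.1 hc).le]
    have h3 : ∀ q ∈ Y', 𝔠.clp i X.c X.χ₁ X.Cx H 𝔠.h R Mc q ≤ C2 := by
      intro q hq
      have h4 := h2 Λ 𝔠 h𝔠 i H 𝔠.h hH hHh le_rfl R ∅ ∅ ⟨0, 0, 0, 0, 0⟩ q (hY.1 hq)
      rw [div_self hh0.ne', one_pow, mul_one] at h4
      exact (Finset.sum_le_sum fun b _ => min_le_left _ _).trans h4
    calc _ ≤ ∑ _q ∈ Y', C2 := Finset.sum_le_sum h3
      _ = C2 * Y'.card := by rw [Finset.sum_const, nsmul_eq_mul, mul_comm]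
      _ ≤ (2 * C1 + C2) * Y'.card := by nlinarith

/-- **common window, common witnesses: the trees `tF` of all the fields** (H l.540-558) -/
theorem fns_trees (X : Ctx k) (hX : X.Ok) : ∃ C : ℝ, 1 ≤ C ∧ ∀ (Λ : Type) [Fintype Λ] (𝔠 : XCfg k Λ), X.Cfg 𝔠 → ∀ (H Kk : Fin (k + 1) → ℝ), (∀ i, 1 ≤ H i) → (∀ i, H i ≤ Kk i) → (∀ i, Kk i ≤ 𝔠.h) →
    ∀ (L : ∀ i, Finset (𝔠.BinT i (H i) × Lat k)) (Y' : Finset (Lat k)) (x : Fin (k + 1) → XCfg.Aux) (sA θ Mc : Fin (k + 1) → ℝ) (r B : ℝ), SepY 𝔠 Y' → (∀ i, 0 ≤ sA i) → (∀ i, 0 < θ i) → 0 ≤ r →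
    (∀ i, 0 < Mc i) → 1 ≤ B → (∀ i, ∀ S ∈ L i, (𝔠.tH i X.χ₁ X.Cx (H i) (L i) Y' (x i)).amp X.c S ≤ sA i) →
    (∀ i, ∀ q ∈ Y', θ i ≤ ‖(𝔠.tH i X.χ₁ X.Cx (H i) (L i) Y' (x i)).root X.c (𝔠.wz i q)‖) →
    (∀ i (R : ℕ), ∑ q ∈ Y', 𝔠.clp i X.c X.χ₁ X.Cx (H i) (Kk i) R (Mc i) q ≤ B * Y'.card) →
    (∀ i, sA i * C * (4 * ((k : ℝ) + 1) * B * (1 + r) ^ X.c.P / Mc i + H i ^ k * (1 + r) ^ (-(X.c.M - k - 2))) ≤ θ i / 4) →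
    ∃ (R : ℕ) (Y'' : Finset (Lat k)), Y'' ⊆ Y' ∧ 3 * (Y'.card : ℝ) ≤ 4 * Y''.card ∧ ∀ i,
      (𝔠.tF i X.c X.χ₁ X.Cx (H i) (Kk i) R (𝔠.ret i X.c X.χ₁ X.Cx (H i) (Kk i) R (Mc i) (L i)) Y'' (auxOf (shiftC X.c) (Mc i) (C * (4 * ((k : ℝ) + 1) * B)))).Good (shiftC X.c) ∧
      ∀ q ∈ Y'', θ i / 2 ≤ ‖(𝔠.tF i X.c X.χ₁ X.Cx (H i) (Kk i) R (𝔠.ret i X.c X.χ₁ X.Cx (H i) (Kk i) R (Mc i) (L i)) Y'' (auxOf (shiftC X.c) (Mc i) (C * (4 * ((k : ℝ) + 1) * B)))).root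
        (shiftC X.c) (𝔠.wz i q)‖ := by
  obtain ⟨C, hC, hst⟩ := fsb_stage X.c hX.c_ok hX.hℓ hX.htr X.K hX.fit
  refine ⟨C, hC, fun Λ _ 𝔠 h𝔠 H Kk hH hHK hKh L Y' x sA θ Mc r B hY hsA hθ hr hMc hB hamp hhigh hclp hsmall => ?_⟩
  have hk0 : (0 : ℝ) ≤ k := Nat.cast_nonneg k
  have hϖ : 1 ≤ 4 * ((k : ℝ) + 1) * B := by nlinarith
  have key := fun i => hst Λ 𝔠 X.cthr X.T₁ X.P h𝔠 i X.χ₁ X.Cx (H i) (Kk i) (hH i) (hHK i) (hKh i) (fun T hT => (hX.leaf Λ 𝔠 h𝔠 i T hT).1) (L i) Y' (x i) (sA i) (θ i) r (Mc i)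
    (4 * ((k : ℝ) + 1) * B) hY (hsA i) (hθ i) hr (hMc i) hϖ (hamp i) (hhigh i) (hsmall i)
  choose R₀ hR₀ using key
  set R : ℕ := Finset.univ.sup R₀ with hR
  have hRi : ∀ i, R₀ i ≤ R := fun i => Finset.le_sup (f := R₀) (Finset.mem_univ i)
  set Z : Fin (k + 1) → Finset (Lat k) := fun i => Y'.filter fun q => 𝔠.clp i X.c X.χ₁ X.Cx (H i) (Kk i) R (Mc i) q ≤ 4 * ((k : ℝ) + 1) * B with hZ
  have hfrac : ∀ i, ((Y' \ Z i).card : ℝ) * (4 * ((k : ℝ) + 1)) ≤ Y'.card := by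
    intro i
    have h1 := fsb_markov 𝔠 i X.c X.χ₁ X.Cx (H i) (Kk i) R (hMc i).le (by linarith : 0 < B) (by positivity : 0 < 4 * ((k : ℝ) + 1)) Y' (hclp i R)
    have e : Y' \ Z i = Y'.filter fun q => 4 * ((k : ℝ) + 1) * B < 𝔠.clp i X.c X.χ₁ X.Cx (H i) (Kk i) R (Mc i) q := by
      ext q
      simp only [hZ, Finset.mem_sdiff, Finset.mem_filter, not_and, not_le]
      constructor
      · rintro ⟨h1, h2⟩
        exact ⟨h1, h2 h1⟩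
      · rintro ⟨h1, h2⟩
        exact ⟨h1, fun _ => h2⟩
    rw [e]
    exact h1
  refine ⟨R, Y'.filter fun q => ∀ i, q ∈ Z i, Finset.filter_subset _ _, ?_, fun i => ?_⟩
  · exact fns_inter Y' Z _ (fun _ => Iff.rfl) ((k : ℝ) + 1) (by positivity) (by simp) hfrac
  · exact hR₀ i R (hRi i) _ (Finset.filter_subset _ _) fun q hq => (Finset.mem_filter.1 ((Finset.mem_filter.1 hq).2 i)).2

end

end Claimed.Agent.R257.FR1
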