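import Claimed.Agent.R257.FR1.NSubA

/-!
# ROW 257, package FR1, block NORM (C) SUBPOWER, file B: THE ASSEMBLY      (architect helper16; captain FR1 helper249)

`SubNum` = the list of the NUMERICAL inequalities (plain real numbers).      `fns_sub`: a selected configuration `s : Sel 𝔠` of a failing exact configuration + `SubNum` for free real parameters `Ω` (occupancy), `Sc` (`M_c = H^{-k} Sc`),
`SL` (leaf scale `min (H SL) h`), `Rm` (range of amplitudes), `ℒ` (loss) give `F : T2Fam k` with `F.Sub (shiftC X.c) C₁ β E Λ₀`.        NO exponent arithmetic here: the choice of the exponents is `FR1/NSubNum.lean`, `FR1/NSubX.lean` (helper13).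
Radius of the enlargements: `r = S`.     `R = CR S / pn N`.
-/

set_option autoImplicit false

namespace Claimed.Agent.R257.FR1

open Claimed.Agent.R257 Claimed.Agent.R257.FR2 Claimed.Agent.R257.Tree
open scoped BigOperators Classical BoundedContinuousFunction

noncomputable section

variable {k : ℕ}

/-- (f:actual-packet-energy) in the language `Ctx` -/
theorem fsb_en (k : ℕ) (ρ : ℝ) : ∃ C0₀ : ℝ, ∀ X : Ctx k, X.Ok → X.K.ρ = ρ → C0₀ ≤ X.c.C0 → ∃ C : ℝ, 1 ≤ C ∧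
    ∀ (Λ : Type) [Fintype Λ] (𝔠 : XCfg k Λ), X.Cfg 𝔠 → ∀ (i : Fin (k + 1)) (H Kk : ℝ) (R : ℕ) (W1 : Finset (𝔠.BinT i H × Lat k)) (Yf : Finset (Lat k)) (x : XCfg.Aux),
      1 ≤ H → H ≤ Kk → Kk ≤ 𝔠.h → (𝔠.tF i X.c X.χ₁ X.Cx H Kk R W1 Yf x).en ≤ C * 𝔠.D i := by
  obtain ⟨C0₀, hen⟩ := fcl_en k (max ρ 0) (le_max_right _ _)
  refine ⟨C0₀, fun X hX hρ hC0 => ?_⟩
  have hc := hX.c_ok
  have hk0 : (0 : ℝ) ≤ k := Nat.cast_nonneg k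
  have hJ2 : 2 * k + 1 ≤ X.K.J := by
    have h1 : ((2 * k + 1 : ℕ) : ℝ) ≤ X.K.J := by
      push_cast
      linarith [hc.P_lt, hc.M_gt, hc.C0_ge, hc.P_gt, hX.fit.J]
    exact_mod_cast h1
  obtain ⟨C1, hC1, hen'⟩ := hen X.c hc hC0 { X.K with ρ := max X.K.ρ 0 } X.T₁ X.χ₁ X.χh (by rw [← hρ]) hJ2 hX.cut
  exact ⟨C1, hC1, fun Λ _ 𝔠 h𝔠 i H Kk R W1 Yf x hH hHK hKh =>
    hen' Λ 𝔠 X.cthr X.P (fcl_ok_mono h𝔠) i X.Cx H Kk R W1 Yf x (fun T hT => (hX.leaf Λ 𝔠 h𝔠 i T hT).2) hH hHK hKh⟩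

/-- the ball count is monotone in the constant -/
theorem BallY.mono {Λ : Type} {𝔠 : XCfg k Λ} {i : Fin (k + 1)} {Yf : Finset (Lat k)} {H N0 N0' : ℝ} (h : BallY 𝔠 i Yf H N0) (hH : 0 < H) (hN : N0 ≤ N0') : BallY 𝔠 i Yf H N0' := by
  intro z ϱ hϱ
  refine (h z ϱ hϱ).trans ?_
  have h0 : 0 ≤ ϱ := hH.le.trans hϱ
  have : 0 ≤ (ϱ / H) ^ k * (1 + ϱ / H ^ 2) := by positivity
  calc N0 * (ϱ / H) ^ k * (1 + ϱ / H ^ 2) = N0 * ((ϱ / H) ^ k * (1 + ϱ / H ^ 2)) := by ring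
    _ ≤ N0' * ((ϱ / H) ^ k * (1 + ϱ / H ^ 2)) := mul_le_mul_of_nonneg_right hN this
    _ = _ := by ring

/-- `H^{k+2} = (H^{k/2})^q` -/
theorem fns_pow_q (hk : 1 ≤ k) {H : ℝ} (hH : 0 < H) : H ^ (k + 2) = (H ^ ((k : ℝ) / 2)) ^ (qk k) := by
  have hk0 : (k : ℝ) ≠ 0 := by
    have : (1 : ℝ) ≤ k := by exact_mod_cast hk
    linarith
  rw [← Real.rpow_mul hH.le, ← Real.rpow_natCast]
  congr 1
  unfold qk
  push_cast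
  field_simp

/-- `H^k = (H^{k/2})²` -/
theorem fns_pow_2 {H : ℝ} (hH : 0 < H) : H ^ k = (H ^ ((k : ℝ) / 2)) ^ 2 := by
  rw [← Real.rpow_natCast (H ^ ((k : ℝ) / 2)) 2, ← Real.rpow_mul hH.le, ← Real.rpow_natCast]
  congr 1
  push_cast
  ring

/-- **the count through the masks for ONE good tree** (upper half of (f:subbalance) in the form `cnt` of `fn_fam_ok`) -/
theorem fns_cnt (c : TCls k) (hc : c.Ok) (hℓ : c.ℓ = 1) (htr : c.tr = 1) (hW : WtAt k (qk k) c.Q c.M) (h2 : L2At k c.M) (hN : NcAt k c.Q c.M) {ε : ℝ} (hε : 0 < ε) : ∃ C : ℝ, 1 ≤ C ∧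
    ∀ t : T2 k, t.Good c → ∀ θ a SL Rm : ℝ, 0 < θ → 0 < a → 1 ≤ Rm → t.κ0 ≤ t.κ1 * SL → t.κ1 ^ ((k : ℝ) / 2) ≤ a * θ → C * t.ϖ * SL ^ k * a ^ 2 ≤ Rm ^ 2 →
    (∀ q ∈ t.Yf, θ ≤ ‖t.root c (t.pt q)‖) → (t.Yf.card : ℝ) * t.κ1 ^ (k + 2) ≤ C * SL ^ ε * Rm ^ ε * a ^ (qk k) * t.ϖ ^ (qk k / 2 - 1) * t.en := by
  obtain ⟨C, hC, hup⟩ := t2_upper c hc hℓ htr hW h2 hN hε
  refine ⟨C, hC, fun t ht θ a SL Rm hθ ha hRm hκ hHa hR hhigh => ?_⟩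
  have hκ1 : 0 < t.κ1 := lt_of_lt_of_le one_pos ht.one_le_κ1
  have hκ0 : 0 < t.κ0 := lt_of_lt_of_le hκ1 ht.κ_le
  have hϖ : 1 ≤ t.ϖ := ht.one_le_ϖ
  have hSL : 0 < SL := by
    by_contra hcon
    have : t.κ1 * SL ≤ 0 := mul_nonpos_of_nonneg_of_nonpos hκ1.le (not_lt.1 hcon)
    linarith
  have hq0 : 0 ≤ qk k := by unfold qk; positivity
  have hen : 0 ≤ t.en := mul_nonneg (pow_pos hκ0 _).le (Finset.sum_nonneg fun _ _ => sq_nonneg _)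
  have hrange : C * t.κ0 ^ k * t.ϖ ≤ (Rm * θ) ^ 2 := by
    have h1 : t.κ0 ^ k ≤ t.κ1 ^ k * SL ^ k := by
      rw [← mul_pow]
      exact pow_le_pow_left₀ hκ0.le hκ k
    have h3 : t.κ1 ^ k ≤ (a * θ) ^ 2 := by
      rw [fns_pow_2 hκ1]
      exact pow_le_pow_left₀ (by positivity) hHa 2
    calc C * t.κ0 ^ k * t.ϖ ≤ C * ((a * θ) ^ 2 * SL ^ k) * t.ϖ := by gcongr; exact h1.trans (mul_le_mul_of_nonneg_right h3 (by positivity))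
      _ = (C * t.ϖ * SL ^ k * a ^ 2) * θ ^ 2 := by ring
      _ ≤ Rm ^ 2 * θ ^ 2 := mul_le_mul_of_nonneg_right hR (sq_nonneg _)
      _ = (Rm * θ) ^ 2 := by ring
  have h1 := hup t ht t.Yf θ Rm (Finset.Subset.refl _) hθ hRm hrange hhigh
  have h3 : t.κ1 ^ (k + 2) ≤ a ^ (qk k) * θ ^ (qk k) := by
    rw [fns_pow_q hc.k_pos hκ1, ← Real.mul_rpow ha.le hθ.le]
    exact Real.rpow_le_rpow (by positivity) hHa hq0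
  have h4 : (t.κ0 / t.κ1) ^ ε ≤ SL ^ ε := by
    refine Real.rpow_le_rpow (by positivity) ?_ hε.le
    rw [div_le_iff₀ hκ1]
    linarith
  have h5 : θ ^ (-qk k) * θ ^ (qk k) = 1 := by rw [← Real.rpow_add hθ]; simp
  have hRmε : 0 ≤ Rm ^ ε := Real.rpow_nonneg (by linarith) _
  have hθq : 0 ≤ θ ^ (-qk k) := Real.rpow_nonneg hθ.le _
  have hϖq : 0 ≤ t.ϖ ^ (qk k / 2 - 1) := Real.rpow_nonneg (by linarith) _
  have haq : 0 ≤ a ^ (qk k) := Real.rpow_nonneg ha.le _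
  have hθq' : 0 ≤ θ ^ (qk k) := Real.rpow_nonneg hθ.le _
  calc (t.Yf.card : ℝ) * t.κ1 ^ (k + 2)
      ≤ (C * (t.κ0 / t.κ1) ^ ε * Rm ^ ε * θ ^ (-qk k) * t.ϖ ^ (qk k / 2 - 1) * t.en) * (a ^ (qk k) * θ ^ (qk k)) :=
        mul_le_mul h1 h3 (by positivity) (by positivity)
    _ ≤ (C * SL ^ ε * Rm ^ ε * θ ^ (-qk k) * t.ϖ ^ (qk k / 2 - 1) * t.en) * (a ^ (qk k) * θ ^ (qk k)) := by gcongr
    _ = C * SL ^ ε * Rm ^ ε * a ^ (qk k) * t.ϖ ^ (qk k / 2 - 1) * t.en * (θ ^ (-qk k) * θ ^ (qk k)) := by ring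
    _ = _ := by rw [h5, mul_one]

/-- **THE NUMERICAL INEQUALITIES OF THE SUBPOWER CASE.**     `Mw = c.M - k - 2`, `Pw = c.P` (orders of the class);   `Ca ≥ 1` constant of the context, `Cε ≥ 1` constant of the context and of `ε > 0`;
`S = 2^N`, `p = pn N`, `h`, `Q`, `H i`: of the configuration and of the selection;     FREE: `Ω` (occupancy), `Sc` (`M_c = H^{-k} Sc`), `SL` (leaf scale `min (H SL) h`), `Rm` (range of the amplitudes), `ℒ` (loss: `K = ℒ^(3k+3)`);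
`C₁ β E Λ₀`: the parameters of `T2Fam.Sub`. -/
structure SubNum (k : ℕ) (Mw Pw Ca Cε ε S p h Q : ℝ) (H : Fin (k + 1) → ℝ) (Ω Sc SL Rm ℒ C₁ β E Λ₀ : ℝ) : Prop where
  one_le_Ω : 1 ≤ Ω
  one_le_Sc : 1 ≤ Sc
  one_le_SL : 1 ≤ SL
  one_le_Rm : 1 ≤ Rm
  /-- tails of the heavy masks -/
  n1 : Ca * (S / p) ≤ (1 + S) ^ Mw
  /-- the heavy masks lose a fraction `1/(4(k+1))` of the witnesses -/
  n2 : Ca * (S / p) ^ (qk k + 1) * (1 + S) ^ (k + 1) ≤ Ω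
  /-- the removed masks (`e_b² > M_c`) and the far masks cost `≤ θ/8` -/
  n3 : Ca * (S / p) * ((1 + S) ^ Pw / Sc + (1 + S) ^ (-Mw)) ≤ 1
  /-- (f:smoothing): the error terms of the clipped sum are `≤ 1` -/
  n4 : ∀ i, (Sc + Real.sqrt (Ca * (S / p) * Ω * (1 + S) ^ (k + 1) * S ^ ((k + 17) * (k + 1)) * Sc)) * (SL ^ (-(1 / 4 : ℝ)) + H i ^ (-(1 / 4 : ℝ)) * (1 + Real.log h)) ≤ 1
  /-- constants and logarithmic losses -/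
  n5 : Ca / p ^ (k + 1) ≤ ℒ
  /-- range of the amplitudes in the weighted estimate -/
  n6 : Cε * SL ^ k / p ^ 2 ≤ Rm ^ 2
  /-- the loss of the weighted estimate -/
  n7 : Cε * SL ^ ε * Rm ^ ε * (1 / p) ^ (qk k) ≤ ℒ
  nQ : Q ≤ ℒ
  big : Λ₀ ≤ S
  loss : ℒ ^ (3 * k + 3) ≤ S ^ β
  H_ge : ∀ i, S ^ E ≤ H i
  SL_le : SL ≤ S ^ C₁
  Sc_le : Sc ≤ S ^ C₁
  Ω_le : Ω ≤ S ^ C₁

/-- bridging: the hypotheses of `fns_hv` -/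
theorem fns_br_hv {Chv CR Ca S p Mw Ω : ℝ} (k : ℕ) (hCR : 1 ≤ CR) (hS : 1 ≤ S) (hp : 0 < p) (h1 : Chv * CR ≤ Ca) (h2 : 4 * ((k : ℝ) + 1) * Chv * CR ^ (qk k + 1) ≤ Ca)
    (n1 : Ca * (S / p) ≤ (1 + S) ^ Mw) (n2 : Ca * (S / p) ^ (qk k + 1) * (1 + S) ^ (k + 1) ≤ Ω) :
    Chv * (CR * S / p) ≤ (1 + S) ^ Mw ∧ 4 * ((k : ℝ) + 1) * (Chv * (CR * S / p) ^ (qk k + 1) * (1 + S) ^ (k + 1)) ≤ Ω := by
  have hS0 : 0 < S := by linarith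
  have hSp : 0 ≤ S / p := by positivity
  constructor
  · calc Chv * (CR * S / p) = Chv * CR * (S / p) := by ring
      _ ≤ Ca * (S / p) := mul_le_mul_of_nonneg_right h1 hSp
      _ ≤ _ := n1
  · have e : (CR * S / p) ^ (qk k + 1) = CR ^ (qk k + 1) * (S / p) ^ (qk k + 1) := by
      rw [mul_div_assoc, Real.mul_rpow (by linarith) hSp]
    rw [e]
    calc 4 * ((k : ℝ) + 1) * (Chv * (CR ^ (qk k + 1) * (S / p) ^ (qk k + 1)) * (1 + S) ^ (k + 1))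
        = 4 * ((k : ℝ) + 1) * Chv * CR ^ (qk k + 1) * ((S / p) ^ (qk k + 1) * (1 + S) ^ (k + 1)) := by ring
      _ ≤ Ca * ((S / p) ^ (qk k + 1) * (1 + S) ^ (k + 1)) := mul_le_mul_of_nonneg_right h2 (by positivity)
      _ = Ca * (S / p) ^ (qk k + 1) * (1 + S) ^ (k + 1) := by ring
      _ ≤ Ω := n2

/-- bridging: the smallness hypothesis of `fns_trees` -/
theorem fns_br_tr {sA Ctr B4 S Pw Mw Sc H θ Ca CR p : ℝ} (k : ℕ) (hH : 1 ≤ H) (hCtr : 1 ≤ Ctr) (hB4 : 1 ≤ B4) (hS : 1 ≤ S) (hSc : 1 ≤ Sc) (hθ : 0 < θ) (hp : 0 < p) (hCR : 1 ≤ CR)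
    (hsR : sA * H ^ k ≤ CR * S / p * θ) (hCa : 8 * CR * Ctr * B4 ≤ Ca) (n3 : Ca * (S / p) * ((1 + S) ^ Pw / Sc + (1 + S) ^ (-Mw)) ≤ 1) :
    sA * Ctr * (B4 * (1 + S) ^ Pw / (H ^ (-(k : ℝ)) * Sc) + H ^ k * (1 + S) ^ (-Mw)) ≤ θ / 2 / 4 := by
  have hH0 : 0 < H := by linarith
  have hS0 : 0 < S := by linarith
  have hSc0 : 0 < Sc := by linarith
  have hCtr0 : 0 < Ctr := by linarith
  have hB40 : 0 < B4 := by linarith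
  have hCR0 : 0 < CR := by linarith
  have e : H ^ (-(k : ℝ)) = (H ^ k)⁻¹ := by rw [Real.rpow_neg hH0.le, Real.rpow_natCast]
  have hA : 0 ≤ (1 + S) ^ Pw / Sc := by positivity
  have hB : 0 ≤ (1 + S) ^ (-Mw) := by positivity
  have hSp : 0 ≤ S / p := by positivity
  calc sA * Ctr * (B4 * (1 + S) ^ Pw / (H ^ (-(k : ℝ)) * Sc) + H ^ k * (1 + S) ^ (-Mw))
      = sA * H ^ k * (Ctr * (B4 * ((1 + S) ^ Pw / Sc) + (1 + S) ^ (-Mw))) := by rw [e]; field_simp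
    _ ≤ CR * S / p * θ * (Ctr * (B4 * ((1 + S) ^ Pw / Sc) + (1 + S) ^ (-Mw))) := mul_le_mul_of_nonneg_right hsR (by positivity)
    _ ≤ CR * S / p * θ * (Ctr * (B4 * ((1 + S) ^ Pw / Sc) + B4 * (1 + S) ^ (-Mw))) := by
        gcongr
        exact le_mul_of_one_le_left hB hB4
    _ = θ / 8 * (8 * CR * Ctr * B4 * ((S / p) * ((1 + S) ^ Pw / Sc + (1 + S) ^ (-Mw)))) := by ring
    _ ≤ θ / 8 * (Ca * ((S / p) * ((1 + S) ^ Pw / Sc + (1 + S) ^ (-Mw)))) := by gcongr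
    _ = θ / 8 * (Ca * (S / p) * ((1 + S) ^ Pw / Sc + (1 + S) ^ (-Mw))) := by ring
    _ ≤ θ / 8 * 1 := by gcongr
    _ = θ / 2 / 4 := by ring

/-- bridging: the smallness hypothesis of `fns_clip` -/
theorem fns_br_cl {Chv CR Cb Ca S p Ω Sc SL H h : ℝ} (k : ℕ) (hS : 1 ≤ S) (hp : 0 < p) (hΩ : 1 ≤ Ω) (hSc : 1 ≤ Sc) (hSL : 1 ≤ SL) (hH : 1 ≤ H) (hh : 1 ≤ h)
    (hCa : 2 * Chv * CR * Cb ≤ Ca)
    (n4 : (Sc + Real.sqrt (Ca * (S / p) * Ω * (1 + S) ^ (k + 1) * S ^ ((k + 17) * (k + 1)) * Sc)) * (SL ^ (-(1 / 4 : ℝ)) + H ^ (-(1 / 4 : ℝ)) * (1 + Real.log h)) ≤ 1) :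
    (H ^ (-(k : ℝ)) * Sc * H ^ k + Real.sqrt (Chv * (CR * S / p) * Ω * (1 + S) ^ (k + 1) * (2 * Cb * S ^ ((k + 17) * (k + 1))) * (H ^ (-(k : ℝ)) * Sc * H ^ k)))
      * (SL ^ (-(1 / 4 : ℝ)) + H ^ (-(1 / 4 : ℝ)) * (1 + Real.log h)) ≤ 1 := by
  have hH0 : 0 < H := by linarith
  have hS0 : 0 < S := by linarith
  have hSc0 : 0 < Sc := by linarith
  have hΩ0 : 0 < Ω := by linarith
  have hSL0 : 0 < SL := by linarith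
  have e : H ^ (-(k : ℝ)) * Sc * H ^ k = Sc := by
    rw [Real.rpow_neg hH0.le, Real.rpow_natCast]
    field_simp
  rw [e]
  have hlog : 0 ≤ Real.log h := Real.log_nonneg hh
  have h2 : 0 ≤ SL ^ (-(1 / 4 : ℝ)) + H ^ (-(1 / 4 : ℝ)) * (1 + Real.log h) := by positivity
  refine le_trans (mul_le_mul_of_nonneg_right ?_ h2) n4
  refine add_le_add le_rfl (Real.sqrt_le_sqrt ?_)
  have hSp : 0 ≤ S / p := by positivity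
  calc Chv * (CR * S / p) * Ω * (1 + S) ^ (k + 1) * (2 * Cb * S ^ ((k + 17) * (k + 1))) * Sc
      = 2 * Chv * CR * Cb * ((S / p) * Ω * (1 + S) ^ (k + 1) * S ^ ((k + 17) * (k + 1)) * Sc) := by ring
    _ ≤ Ca * ((S / p) * Ω * (1 + S) ^ (k + 1) * S ^ ((k + 17) * (k + 1)) * Sc) := mul_le_mul_of_nonneg_right hCa (by positivity)
    _ = _ := by ring

/-- bridging: constants and logarithmic losses are `≤ ℒ` -/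
theorem fns_br_L {Ca p ℒ x : ℝ} (k : ℕ) (hp : 0 < p) (hp1 : p ≤ 1) (hx : 0 ≤ x) (hxCa : x ≤ Ca) (n5 : Ca / p ^ (k + 1) ≤ ℒ) : x ≤ ℒ ∧ x / p ≤ ℒ ∧ x / p ^ (k + 1) ≤ ℒ := by
  have hpk : 0 < p ^ (k + 1) := by positivity
  have h3 : x / p ^ (k + 1) ≤ ℒ := le_trans (div_le_div_of_nonneg_right hxCa hpk.le) n5
  have hpp : p ^ (k + 1) ≤ p := pow_le_of_le_one hp.le hp1 (by omega)
  have h2 : x / p ≤ x / p ^ (k + 1) := div_le_div_of_nonneg_left hx hpk hpp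
  have h1 : x ≤ x / p := by
    rw [le_div_iff₀ hp]
    nlinarith
  exact ⟨h1.trans (h2.trans h3), h2.trans h3, h3⟩

/-- the tree `min (H SL) h → H` of the field `i` in the subpower case: masks = the light masks which are retained -/
def Sel.tS {Λ : Type} [Fintype Λ] {𝔠 : XCfg k Λ} (s : Sel 𝔠) (X : Ctx k) (ϖ Ω Sc SL ϖF : ℝ) (Rw : ℕ) (Y'' : Finset (Lat k)) (i : Fin (k + 1)) : T2 k :=
  𝔠.tF i X.c X.χ₁ X.Cx (s.H i) (min (s.H i * SL) 𝔠.h) Rw (𝔠.ret i X.c X.χ₁ X.Cx (s.H i) (min (s.H i * SL) 𝔠.h) Rw (s.H i ^ (-(k : ℝ)) * Sc) ((s.t X ϖ i).lgt s.S Ω)) Y''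
    (auxOf (shiftC X.c) (s.H i ^ (-(k : ℝ)) * Sc) ϖF)

/-- **the assembly, part 1: the trees** (heavy masks, clipped sums, retained masks, common window and witnesses) -/
theorem fns_asm1 (k : ℕ) (ρ : ℝ) (P : ℕ) (hP : k + 3 ≤ P) : ∃ Pw₀ : ℝ, ∀ X : Ctx k, X.Ok → X.K.ρ = ρ → X.P = P → Pw₀ ≤ X.c.P → ∀ CH Cσ ϖ Cu : ℝ, 1 ≤ CH → 1 ≤ Cσ → 1 ≤ ϖ → 1 ≤ Cu →
    ∃ Ca₁ ϖF : ℝ, 1 ≤ Ca₁ ∧ 1 ≤ ϖF ∧ ∀ (Λ : Type) [Fintype Λ] (𝔠 : XCfg k Λ), X.Cfg 𝔠 → ∀ s : Sel 𝔠, s.Ok X CH Cσ ϖ Cu → ∀ μ : ℝ, 1 ≤ μ → 𝔠.Fail μ →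
    ∀ Ca Cε ε Ω Sc SL Rm ℒ C₁ β E Λ₀ : ℝ, Ca₁ ≤ Ca → SubNum k (X.c.M - k - 2) X.c.P Ca Cε ε s.S (pn s.N) 𝔠.h 𝔠.Q s.H Ω Sc SL Rm ℒ C₁ β E Λ₀ →
    ∃ (Rw : ℕ) (Y'' : Finset (Lat k)), Y'' ⊆ s.Y1 ∧ (s.Y1.card : ℝ) ≤ 2 * Y''.card ∧ ∀ i, (s.tS X ϖ Ω Sc SL ϖF Rw Y'' i).Good (shiftC X.c) ∧
      (∀ q ∈ Y'', s.θ X i / 4 ≤ ‖(s.tS X ϖ Ω Sc SL ϖF Rw Y'' i).root (shiftC X.c) (𝔠.wz i q)‖) ∧ ∀ S ∈ (s.t X ϖ i).lgt s.S Ω, ((s.t X ϖ i).ocw s.Y1 s.S S : ℝ) ≤ Ω := by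
  obtain ⟨Pw₀, hclipA⟩ := fns_clip k ρ P hP
  refine ⟨Pw₀, fun X hX hρ hPX hPw CH Cσ ϖ Cu hCH hCσ hϖ hCu => ?_⟩
  obtain ⟨Ccl, hCcl, hclip⟩ := hclipA X hX hρ hPX hPw
  obtain ⟨CR, hCR, hhyp⟩ := fn_hv_hyp (X := X) (CH := CH) (Cσ := Cσ) (ϖ := ϖ) (Cu := Cu) hX hCH hCσ
  obtain ⟨Chv, hChv, hhv⟩ := fns_hv X hX CH Cσ ϖ Cu
  obtain ⟨Ctr, hCtr, htrees⟩ := fns_trees X hX
  obtain ⟨Cb, hCb, hsbal⟩ := fn_sbal (X := X) (CH := CH) (Cσ := Cσ) (ϖ := ϖ) (Cu := Cu) hX hCH hCσ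
  have hk0 : (0 : ℝ) ≤ k := Nat.cast_nonneg k
  have hCcl0 : 0 < Ccl := by linarith
  have hCR0 : 0 < CR := by linarith
  have hChv0 : 0 < Chv := by linarith
  have hCtr0 : 0 < Ctr := by linarith
  have hCb0 : 0 < Cb := by linarith
  obtain ⟨B4, hB4⟩ : ∃ B4 : ℝ, B4 = 4 * ((k : ℝ) + 1) * Ccl := ⟨_, rfl⟩
  have hB41 : 1 ≤ B4 := by rw [hB4]; nlinarith
  have hB40 : 0 < B4 := by linarith
  obtain ⟨Ca₁, hCa1, hCa2', hCa3', hCa4', hCa5'⟩ : ∃ Ca : ℝ, 1 ≤ Ca ∧ Chv * CR ≤ Ca ∧ 4 * ((k : ℝ) + 1) * Chv * CR ^ (qk k + 1) ≤ Ca ∧ 8 * CR * Ctr * B4 ≤ Ca ∧ 2 * Chv * CR * Cb ≤ Ca := by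
    have p1 : 0 ≤ Chv * CR := by positivity
    have p2 : 0 ≤ 4 * ((k : ℝ) + 1) * Chv * CR ^ (qk k + 1) := by positivity
    have p3 : 0 ≤ 8 * CR * Ctr * B4 := by positivity
    have p4 : 0 ≤ 2 * Chv * CR * Cb := by positivity
    refine ⟨1 + Chv * CR + 4 * ((k : ℝ) + 1) * Chv * CR ^ (qk k + 1) + 8 * CR * Ctr * B4 + 2 * Chv * CR * Cb, ?_, ?_, ?_, ?_, ?_⟩ <;> linarith
  refine ⟨Ca₁, Ctr * B4, hCa1, one_le_mul_of_one_le_of_one_le hCtr hB41, fun Λ _ 𝔠 h𝔠 s hs μ hμ hfail Ca Cε ε Ω Sc SL Rm ℒ C₁ β E Λ₀ hCa hn => ?_⟩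
  have hCa2 := hCa2'.trans hCa
  have hCa3 := hCa3'.trans hCa
  have hCa4 := hCa4'.trans hCa
  have hCa5 := hCa5'.trans hCa
  have hS1 : 1 ≤ s.S := fn_one_le_S s
  have hS0 : 0 < s.S := by linarith
  have hp : 0 < pn s.N := fa_pn_pos _
  obtain ⟨hR1, hsApos, hsAR, -, -⟩ := hhyp Λ 𝔠 h𝔠 s hs
  obtain ⟨hthr, -, -⟩ := fn_pos X 𝔠 h𝔠
  have hh1 : 1 ≤ 𝔠.h := by have := h𝔠.two_le; linarith
  have hΩ0 : 0 < Ω := by linarith [hn.one_le_Ω]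
  have hSc0 : 0 < Sc := by linarith [hn.one_le_Sc]
  have hH0 : ∀ i, 0 < s.H i := fun i => by linarith [hs.one_le_H i]
  obtain ⟨b1, b2⟩ := fns_br_hv k hCR hS1 hp hCa2 hCa3 hn.n1 hn.n2
  obtain ⟨Y', hY'sub, hY'card, hY'⟩ := hhv Λ 𝔠 s hs (CR * s.S / pn s.N) s.S Ω hR1 hS0.le hΩ0 hsApos hsAR b1 b2
  have hsep' : SepY 𝔠 Y' := ⟨hY'sub.trans hs.sep.1, fun j q hq q' hq' => hs.sep.2 j q (hY'sub hq) q' (hY'sub hq')⟩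
  have hθ : ∀ i, 0 < s.θ X i := fun i => by
    have h1 := hthr i
    have h2 := fa_pn_pos (s.n i)
    unfold Sel.θ
    rw [hX.c₀_eq]
    positivity
  -- the clipped sums
  have hMcpos : ∀ i, 0 < s.H i ^ (-(k : ℝ)) * Sc := fun i => mul_pos (Real.rpow_pos_of_pos (hH0 i) _) hSc0
  have hcl : ∀ i (R : ℕ), ∑ q ∈ Y', 𝔠.clp i X.c X.χ₁ X.Cx (s.H i) (min (s.H i * SL) 𝔠.h) R (s.H i ^ (-(k : ℝ)) * Sc) q ≤ Ccl * Y'.card := by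
    intro i R
    refine hclip Λ 𝔠 h𝔠 i (s.H i) SL (s.H i ^ (-(k : ℝ)) * Sc) (Chv * (CR * s.S / pn s.N) * Ω * (1 + s.S) ^ (k + 1)) (2 * Cb * s.S ^ ((k + 17) * (k + 1))) Y' (hs.one_le_H i) (hs.H_le i) hn.one_le_SL
      (hMcpos i) ?_ ?_ hsep' ((hY' i).2.2 Y' (Finset.Subset.refl _)) ?_ ?_ R
    · have h1 : 1 ≤ (1 + s.S) ^ (k + 1) := one_le_pow₀ (by linarith)
      have h2 : 1 ≤ Chv * (CR * s.S / pn s.N) := one_le_mul_of_one_le_of_one_le hChv hR1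
      exact one_le_mul_of_one_le_of_one_le (one_le_mul_of_one_le_of_one_le h2 hn.one_le_Ω) h1
    · have h1 : 1 ≤ s.S ^ ((k + 17) * (k + 1)) := one_le_pow₀ hS1
      nlinarith
    · have h1 := (hsbal Λ 𝔠 h𝔠 s hs μ hμ hfail).2 i
      refine h1.trans ?_
      have h2 : 0 ≤ Cb * s.S ^ ((k + 17) * (k + 1)) * s.H i ^ (k + 2) := by have := hH0 i; positivity
      calc Cb * s.S ^ ((k + 17) * (k + 1)) * (s.Y1.card * s.H i ^ (k + 2)) = Cb * s.S ^ ((k + 17) * (k + 1)) * s.H i ^ (k + 2) * s.Y1.card := by ring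
        _ ≤ Cb * s.S ^ ((k + 17) * (k + 1)) * s.H i ^ (k + 2) * (2 * Y'.card) := mul_le_mul_of_nonneg_left (by linarith) h2
        _ = _ := by ring
    · exact fns_br_cl k hS1 hp hn.one_le_Ω hn.one_le_Sc hn.one_le_SL (hs.one_le_H i) hh1 hCa5 (hn.n4 i)
  -- the trees
  have hHK : ∀ i, s.H i ≤ min (s.H i * SL) 𝔠.h := fun i => le_min (le_mul_of_one_le_right (hH0 i).le hn.one_le_SL) (hs.H_le i)
  obtain ⟨Rw, Y'', hY''sub, hY''card, hT⟩ := htrees Λ 𝔠 h𝔠 s.H (fun i => min (s.H i * SL) 𝔠.h) hs.one_le_H hHK (fun i => min_le_right _ _) (fun i => (s.t X ϖ i).lgt s.S Ω) Y'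
    (fun i => auxOf X.c (s.Mc i) ϖ) (fun i => 2 ^ (s.n i + 1) * s.σ Cσ i) (fun i => s.θ X i / 2) (fun i => s.H i ^ (-(k : ℝ)) * Sc) s.S Ccl hsep' (fun i => (hsApos i).le) (fun i => by have := hθ i; positivity) hS0.le
    hMcpos hCcl (fun i S hS => hs.amp_le i S (Finset.mem_filter.1 hS).1) (fun i q hq => (hY' i).1 q hq) hcl
    (fun i => by
      have := fns_br_tr (sA := 2 ^ (s.n i + 1) * s.σ Cσ i) (Pw := X.c.P) (Mw := X.c.M - k - 2) k (hs.one_le_H i) hCtr hB41 hS1 hn.one_le_Sc (hθ i) hp hCR (hsAR i) hCa4 hn.n3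
      rw [hB4] at this
      exact this)
  rw [← hB4] at hT
  refine ⟨Rw, Y'', hY''sub.trans hY'sub, by linarith, fun i => ⟨(hT i).1, fun q hq => ?_, (hY' i).2.1⟩⟩
  have := (hT i).2 q hq
  unfold Sel.tS
  linarith

/-- **THE ASSEMBLY OF THE SUBPOWER CASE.** -/
theorem fns_sub (k : ℕ) (ρ : ℝ) (P : ℕ) (hP : k + 3 ≤ P) : ∃ Pw₀ C0₀ : ℝ, ∀ X : Ctx k, X.Ok → X.K.ρ = ρ → X.P = P → Pw₀ ≤ X.c.P → C0₀ ≤ X.c.C0 → ∀ CH Cσ ϖ Cu : ℝ, 1 ≤ CH → 1 ≤ Cσ → 1 ≤ ϖ → 1 ≤ Cu →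
    ∃ Ca : ℝ, 1 ≤ Ca ∧ ∀ ε : ℝ, 0 < ε → ∃ Cε : ℝ, 1 ≤ Cε ∧ ∀ (Λ : Type) [Fintype Λ] (𝔠 : XCfg k Λ), X.Cfg 𝔠 → ∀ s : Sel 𝔠, s.Ok X CH Cσ ϖ Cu → ∀ μ : ℝ, 1 ≤ μ → 𝔠.Fail μ →
    ∀ Ω Sc SL Rm ℒ C₁ β E Λ₀ : ℝ, SubNum k (X.c.M - k - 2) X.c.P Ca Cε ε s.S (pn s.N) 𝔠.h 𝔠.Q s.H Ω Sc SL Rm ℒ C₁ β E Λ₀ → ∃ F : T2Fam k, F.Sub (shiftC X.c) C₁ β E Λ₀ := by
  obtain ⟨Pw₀, hA1⟩ := fns_asm1 k ρ P hP
  obtain ⟨C0₀, henA⟩ := fsb_en k ρ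
  refine ⟨Pw₀, C0₀, fun X hX hρ hPX hPw hC0 CH Cσ ϖ Cu hCH hCσ hϖ hCu => ?_⟩
  obtain ⟨Ca₁, ϖF, hCa₁, hϖF1, hasm⟩ := hA1 X hX hρ hPX hPw CH Cσ ϖ Cu hCH hCσ hϖ hCu
  obtain ⟨Cen, hCen, hen⟩ := henA X hX hρ hC0
  obtain ⟨Cmk, hCmk, hmasks⟩ := fn_masks (X := X) (CH := CH) (Cσ := Cσ) (ϖ := ϖ) (Cu := Cu) hX hCH hCσ
  have hk : 1 ≤ k := hX.c_ok.k_pos
  have hk0 : (0 : ℝ) ≤ k := Nat.cast_nonneg k
  have hCen0 : 0 < Cen := by linarith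
  have hCmk0 : 0 < Cmk := by linarith
  have hCH0 : 0 < CH := by linarith
  have hϖF0 : 0 < ϖF := by linarith
  have hq0 : 0 ≤ qk k := by unfold qk; positivity
  obtain ⟨Ca, hCa1, hCa2, hCa6, hCa7, hCa8, hCa9, hCa10⟩ : ∃ Ca : ℝ, 1 ≤ Ca ∧ Ca₁ ≤ Ca ∧ Cen ≤ Ca ∧ Cmk ≤ Ca ∧ ϖF ≤ Ca ∧ 22 ≤ Ca ∧ 2 ^ (k + 2) * CH ^ (k + 2) ≤ Ca := by
    have p5 : 0 ≤ 2 ^ (k + 2) * CH ^ (k + 2) := by positivity
    refine ⟨Ca₁ + Cen + Cmk + ϖF + 22 + 2 ^ (k + 2) * CH ^ (k + 2), ?_, ?_, ?_, ?_, ?_, ?_, ?_⟩ <;> linarith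
  refine ⟨Ca, hCa1, fun ε hε => ?_⟩
  obtain ⟨Cc, hCc, hcnt⟩ := fns_cnt (shiftC X.c) (shiftC_ok hX.c_ok) hX.hℓ hX.htr hX.wt hX.l2 hX.nc hε
  have hCc0 : 0 < Cc := by linarith
  obtain ⟨Cε, hCε1, hCε2, hCε3⟩ : ∃ Cε : ℝ, 1 ≤ Cε ∧ Cc * ϖF * 22 ^ 2 ≤ Cε ∧ Cc * (22 : ℝ) ^ (qk k) * ϖF ^ (qk k / 2 - 1) ≤ Cε := by
    have p1 : 0 ≤ Cc * ϖF * 22 ^ 2 := by positivity
    have p2 : 0 ≤ Cc * (22 : ℝ) ^ (qk k) * ϖF ^ (qk k / 2 - 1) := by positivity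
    refine ⟨1 + Cc * ϖF * 22 ^ 2 + Cc * (22 : ℝ) ^ (qk k) * ϖF ^ (qk k / 2 - 1), ?_, ?_, ?_⟩ <;> linarith
  refine ⟨Cε, hCε1, fun Λ _ 𝔠 h𝔠 s hs μ hμ hfail Ω Sc SL Rm ℒ C₁ β E Λ₀ hn => ?_⟩
  obtain ⟨Rw, Y'', hY''Y1, hc2, hT⟩ := hasm Λ 𝔠 h𝔠 s hs μ hμ hfail Ca Cε ε Ω Sc SL Rm ℒ C₁ β E Λ₀ hCa2 hn
  have hS1 : 1 ≤ s.S := fn_one_le_S s
  have hS0 : 0 < s.S := by linarith
  have hp : 0 < pn s.N := fa_pn_pos _
  have hp1 : pn s.N ≤ 1 := fn_pn_le_one _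
  obtain ⟨hthr, hD0, -⟩ := fn_pos X 𝔠 h𝔠
  have hSc0 : 0 < Sc := by linarith [hn.one_le_Sc]
  have hSL0 : 0 < SL := by linarith [hn.one_le_SL]
  have hH0 : ∀ i, 0 < s.H i := fun i => by linarith [hs.one_le_H i]
  have hθ : ∀ i, 0 < s.θ X i := fun i => by
    have h1 := hthr i
    have h2 := fa_pn_pos (s.n i)
    unfold Sel.θ
    rw [hX.c₀_eq]
    positivity
  have hY1c : (0 : ℝ) < s.Y1.card := by exact_mod_cast Finset.card_pos.2 hs.ne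
  have hne : Y''.Nonempty := by
    have : (0 : ℝ) < Y''.card := by linarith
    exact Finset.card_pos.1 (by exact_mod_cast this)
  obtain ⟨i₀, hi₀⟩ := fn_exists_i₀ s
  obtain ⟨G, hG, hGm, hGf⟩ := fn_fail hX hCH h𝔠 hs (by linarith : 0 < μ) hfail Y'' hc2
  have hℒ1 : 1 ≤ ℒ := (fns_br_L k hp hp1 zero_le_one hCa1 hn.n5).1
  have hℒ0 : 0 < ℒ := by linarith
  have hprod : 0 < ∏ i, pn (s.n i) := Finset.prod_pos fun i _ => fa_pn_pos _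
  have hHa : ∀ i, s.H i ^ ((k : ℝ) / 2) ≤ 22 / pn s.N * (s.θ X i / 4) := by
    intro i
    refine (fn_high hX hCH h𝔠 hs i).trans ?_
    rw [hX.c₀_eq]
    have h1 : 0 ≤ s.θ X i / pn s.N := by have := hθ i; positivity
    calc 8 / (3 * (1 / 2 : ℝ)) / pn s.N * s.θ X i = 16 / 3 * (s.θ X i / pn s.N) := by ring
      _ ≤ 22 / 4 * (s.θ X i / pn s.N) := mul_le_mul_of_nonneg_right (by norm_num) h1
      _ = _ := by ring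
  have hOk : T2Fam.Ok ⟨s.tS X ϖ Ω Sc SL ϖF Rw Y'', Y'', 𝔠.h, s.S, i₀, ℒ ^ (3 * k + 3)⟩ (shiftC X.c) := by
    refine fn_fam_ok (shiftC X.c) _ 𝔠.D G (μ * (∏ i, pn (s.n i)) / (2 ^ (k + 2) * CH ^ (k + 2))) ℒ (fun i => (hT i).1) (fun i => rfl) hne hℒ1 hS1 ?same ?high ?cnt ?enD hD0 hG hGm ?hμ ?hμℒ hGf ?masks ?trans ?ϖ_le
      (fun i => min_le_right _ _) rfl
    case same =>
      intro i j q hq
      exact fn_same hk X 𝔠 h𝔠 i j q (hs.sep.1 (hY''Y1 hq))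
    case high =>
      intro i q hq
      have h1 : s.θ X i / 4 ≤ ‖(s.tS X ϖ Ω Sc SL ϖF Rw Y'' i).root (shiftC X.c) (𝔠.wz i q)‖ := (hT i).2.1 q hq
      have h2 : 22 / pn s.N ≤ ℒ := (fns_br_L k hp hp1 (by norm_num) hCa9 hn.n5).2.1
      have h3 : 0 ≤ s.θ X i / 4 := by have := hθ i; linarith
      calc s.H i ^ ((k : ℝ) / 2) ≤ 22 / pn s.N * (s.θ X i / 4) := hHa i
        _ ≤ ℒ * (s.θ X i / 4) := mul_le_mul_of_nonneg_right h2 h3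
        _ ≤ ℒ * _ := mul_le_mul_of_nonneg_left h1 hℒ0.le
    case cnt =>
      intro i
      have hR : Cc * ϖF * SL ^ k * (22 / pn s.N) ^ 2 ≤ Rm ^ 2 := by
        refine le_trans ?_ hn.n6
        have h1 : 0 ≤ SL ^ k / pn s.N ^ 2 := by positivity
        calc Cc * ϖF * SL ^ k * (22 / pn s.N) ^ 2 = Cc * ϖF * 22 ^ 2 * (SL ^ k / pn s.N ^ 2) := by ring
          _ ≤ Cε * (SL ^ k / pn s.N ^ 2) := mul_le_mul_of_nonneg_right hCε2 h1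
          _ = _ := by ring
      have h1 := hcnt (s.tS X ϖ Ω Sc SL ϖF Rw Y'' i) (hT i).1 (s.θ X i / 4) (22 / pn s.N) SL Rm (by have := hθ i; linarith) (by positivity) hn.one_le_Rm (min_le_left _ _) (hHa i) hR (hT i).2.1
      refine h1.trans (mul_le_mul_of_nonneg_right ?_ ?_)
      · refine le_trans ?_ hn.n7
        have hRm0 : 0 < Rm := by linarith [hn.one_le_Rm]
        have e : (22 / pn s.N) ^ (qk k) = (22 : ℝ) ^ (qk k) * (1 / pn s.N) ^ (qk k) := by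
          rw [← Real.mul_rpow (by norm_num) (by positivity)]
          congr 1
          ring
        have h2 : 0 ≤ SL ^ ε * Rm ^ ε * (1 / pn s.N) ^ (qk k) := by positivity
        calc Cc * SL ^ ε * Rm ^ ε * (22 / pn s.N) ^ (qk k) * ϖF ^ (qk k / 2 - 1) = Cc * (22 : ℝ) ^ (qk k) * ϖF ^ (qk k / 2 - 1) * (SL ^ ε * Rm ^ ε * (1 / pn s.N) ^ (qk k)) := by rw [e]; ring
          _ ≤ Cε * (SL ^ ε * Rm ^ ε * (1 / pn s.N) ^ (qk k)) := mul_le_mul_of_nonneg_right hCε3 h2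
          _ = _ := by ring
      · exact mul_nonneg (pow_nonneg (le_min (mul_pos (hH0 i) hSL0).le (by linarith [h𝔠.two_le])) _) (Finset.sum_nonneg fun _ _ => sq_nonneg _)
    case enD =>
      intro i
      refine (hen Λ 𝔠 h𝔠 i (s.H i) (min (s.H i * SL) 𝔠.h) Rw _ Y'' _ (hs.one_le_H i) (le_min (le_mul_of_one_le_right (hH0 i).le hn.one_le_SL) (hs.H_le i)) (min_le_right _ _)).trans ?_
      exact mul_le_mul_of_nonneg_right (fns_br_L k hp hp1 hCen0.le hCa6 hn.n5).1 (hD0 i)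
    case hμ => exact div_pos (mul_pos (by linarith) hprod) (mul_pos (pow_pos two_pos _) (pow_pos hCH0 _))
    case hμℒ =>
      have hc0 : 0 < 2 ^ (k + 2) * CH ^ (k + 2) := mul_pos (pow_pos two_pos _) (pow_pos hCH0 _)
      have h1 : 2 ^ (k + 2) * CH ^ (k + 2) / pn s.N ^ (k + 1) ≤ ℒ := (fns_br_L k hp hp1 hc0.le hCa10 hn.n5).2.2
      have h2 : pn s.N ^ (k + 1) ≤ ∏ i, pn (s.n i) := fn_prod_pn s
      have hpk : 0 < pn s.N ^ (k + 1) := pow_pos hp _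
      rw [div_le_iff₀ hpk] at h1
      rw [mul_div_assoc', le_div_iff₀ hc0, one_mul]
      calc 2 ^ (k + 2) * CH ^ (k + 2) ≤ ℒ * pn s.N ^ (k + 1) := h1
        _ ≤ ℒ * (1 * ∏ i, pn (s.n i)) := by rw [one_mul]; exact mul_le_mul_of_nonneg_left h2 hℒ0.le
        _ ≤ ℒ * (μ * ∏ i, pn (s.n i)) := mul_le_mul_of_nonneg_left (mul_le_mul_of_nonneg_right hμ hprod.le) hℒ0.le
    case masks =>
      have hsub : 𝔠.ret i₀ X.c X.χ₁ X.Cx (s.H i₀) (min (s.H i₀ * SL) 𝔠.h) Rw (s.H i₀ ^ (-(k : ℝ)) * Sc) ((s.t X ϖ i₀).lgt s.S Ω) ⊆ s.U i₀ :=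
        (Finset.filter_subset _ _).trans (Finset.filter_subset _ _)
      have h1 := hmasks Λ 𝔠 h𝔠 s hs i₀ _ hsub
      rw [hi₀] at h1
      exact h1.trans (mul_le_mul_of_nonneg_right (fns_br_L k hp hp1 hCmk0.le hCa7 hn.n5).1 (hD0 i₀))
    case trans => exact fun lb => fn_trans X 𝔠 h𝔠 ℒ hn.nQ (fun i => (lb i).1.2)
    case ϖ_le => exact fun i => (fns_br_L k hp hp1 hϖF0.le hCa8 hn.n5).1
  refine ⟨_, { toOk := hOk, big := hn.big, loss := hn.loss, H_ge := hn.H_ge, leaf := ?_, leaf_cmp := ?_, Mc_le := ?_, le_Mc := ?_, occ_le := ?_ }⟩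
  · intro i
    exact (min_le_left _ _).trans (mul_le_mul_of_nonneg_left hn.SL_le (hH0 i).le)
  · intro i j
    have hK1 : 1 ≤ ℒ ^ (3 * k + 3) := one_le_pow₀ hℒ1
    have hc : s.H i ≤ ℒ ^ (3 * k + 3) * s.H j := hOk.H_cmp i j
    have hh0 : 0 ≤ 𝔠.h := by linarith [h𝔠.two_le]
    show min (s.H i * SL) 𝔠.h ≤ ℒ ^ (3 * k + 3) * min (s.H j * SL) 𝔠.h
    rw [mul_min_of_nonneg _ _ (by linarith : 0 ≤ ℒ ^ (3 * k + 3))]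
    refine min_le_min ?_ (le_mul_of_one_le_left hh0 hK1)
    calc s.H i * SL ≤ ℒ ^ (3 * k + 3) * s.H j * SL := mul_le_mul_of_nonneg_right hc hSL0.le
      _ = _ := by ring
  · intro i
    exact mul_le_mul_of_nonneg_left hn.Sc_le (Real.rpow_nonneg (hH0 i).le _)
  · intro i
    exact le_mul_of_one_le_right (Real.rpow_nonneg (hH0 i).le _) hn.one_le_Sc
  · intro i T hT'
    have hTl : T ∈ (s.t X ϖ i).lgt s.S Ω := (Finset.mem_filter.1 hT').1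
    have h1 : ((s.t X ϖ i).ocw s.Y1 s.S T : ℝ) ≤ Ω := (hT i).2.2 T hTl
    have h2 : (s.tS X ϖ Ω Sc SL ϖF Rw Y'' i).ocw Y'' s.S T ≤ (s.t X ϖ i).ocw s.Y1 s.S T := Finset.card_le_card (Finset.filter_subset_filter _ hY''Y1)
    have h3 : ((s.tS X ϖ Ω Sc SL ϖF Rw Y'' i).ocw Y'' s.S T : ℝ) ≤ ((s.t X ϖ i).ocw s.Y1 s.S T : ℝ) := by exact_mod_cast h2
    exact h3.trans (h1.trans hn.Ω_le)

end

end Claimed.Agent.R257.FR1
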