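import Claimed.Agent.R257.FR1.NCore

/-!
# ROW 257, package FR1, block NORM, SUBPOWER CASE: NUMERICAL TOOLBOX      (helper13; prefix `fnn_`)

PAPER-FREE, nothing is sorried.    Powers of the base `S`: constants are absorbed by a small power of a large `S`.
-/

set_option autoImplicit false

namespace Claimed.Agent.R257.FR1

open scoped BigOperators

noncomputable section

/-- a constant is absorbed by a positive power of a large base -/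
theorem fnn_abs (C a b : ℝ) (hab : a < b) : ∃ S₀ : ℝ, 1 ≤ S₀ ∧ ∀ S : ℝ, S₀ ≤ S → C * S ^ a ≤ S ^ b := by
  have hd : 0 < b - a := by linarith
  refine ⟨max 1 ((max C 1) ^ (1 / (b - a))), le_max_left _ _, fun S hS => ?_⟩
  have hS1 : 1 ≤ S := (le_max_left _ _).trans hS
  have hS0 : 0 < S := by linarith
  have hC1 : (1 : ℝ) ≤ max C 1 := le_max_right _ _
  have h1 : (max C 1) ^ (1 / (b - a)) ≤ S := (le_max_right _ _).trans hS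
  have h2 : max C 1 ≤ S ^ (b - a) := by
    calc max C 1 = ((max C 1) ^ (1 / (b - a))) ^ (b - a) := by
          rw [← Real.rpow_mul (by linarith), one_div, inv_mul_cancel₀ hd.ne', Real.rpow_one]
      _ ≤ S ^ (b - a) := Real.rpow_le_rpow (by positivity) h1 hd.le
  calc C * S ^ a ≤ S ^ (b - a) * S ^ a := mul_le_mul_of_nonneg_right ((le_max_left _ _).trans h2) (by positivity)
    _ = S ^ b := by rw [← Real.rpow_add hS0]; congr 1; ring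

/-- `1 + log h ≤ (1 + 1/a) h^a` -/
theorem fnn_log {a h : ℝ} (ha : 0 < a) (hh : 1 ≤ h) : 1 + Real.log h ≤ (1 + 1 / a) * h ^ a := by
  have h1 : Real.log h ≤ h ^ a / a := Real.log_le_rpow_div (by linarith) ha
  have h2 : 1 ≤ h ^ a := Real.one_le_rpow hh ha.le
  calc 1 + Real.log h ≤ h ^ a + h ^ a / a := by linarith
    _ = (1 + 1 / a) * h ^ a := by ring

/-- the second error of the smoothing: `H^{-1/4} (1 + log h) ≤ (1 + 8/c₁) S^{-E₁ c₁/8}` -/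
theorem fnn_Hlog {c₁ E₁ S H h : ℝ} (hc : 0 < c₁) (hS : 1 ≤ S) (hh : 1 ≤ h) (hH : h ^ c₁ ≤ H) (hSh : S ^ E₁ ≤ h) :
    H ^ (-(1 / 4 : ℝ)) * (1 + Real.log h) ≤ (1 + 8 / c₁) * S ^ (-(E₁ * c₁ / 8)) := by
  have hh0 : 0 < h := by linarith
  have hS0 : 0 < S := by linarith
  have h1 : H ^ (-(1 / 4 : ℝ)) ≤ (h ^ c₁) ^ (-(1 / 4 : ℝ)) := Real.rpow_le_rpow_of_nonpos (by positivity) hH (by norm_num)
  have h2 : 1 + Real.log h ≤ (1 + 1 / (c₁ / 8)) * h ^ (c₁ / 8) := fnn_log (by positivity) hh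
  have h3 : (h ^ c₁) ^ (-(1 / 4 : ℝ)) * h ^ (c₁ / 8) = h ^ (-(c₁ / 8)) := by
    rw [← Real.rpow_mul hh0.le, ← Real.rpow_add hh0]
    congr 1
    ring
  have h4 : h ^ (-(c₁ / 8)) ≤ (S ^ E₁) ^ (-(c₁ / 8)) := Real.rpow_le_rpow_of_nonpos (by positivity) hSh (by linarith)
  have h5 : (S ^ E₁) ^ (-(c₁ / 8)) = S ^ (-(E₁ * c₁ / 8)) := by
    rw [← Real.rpow_mul hS0.le]
    congr 1
    ring
  have h6 : (1 : ℝ) + 1 / (c₁ / 8) = 1 + 8 / c₁ := by field_simp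
  have hlog : 0 ≤ 1 + Real.log h := by linarith [Real.log_nonneg hh]
  calc H ^ (-(1 / 4 : ℝ)) * (1 + Real.log h) ≤ (h ^ c₁) ^ (-(1 / 4 : ℝ)) * ((1 + 1 / (c₁ / 8)) * h ^ (c₁ / 8)) :=
        mul_le_mul h1 h2 hlog (by positivity)
    _ = (1 + 8 / c₁) * ((h ^ c₁) ^ (-(1 / 4 : ℝ)) * h ^ (c₁ / 8)) := by rw [h6]; ring
    _ = (1 + 8 / c₁) * h ^ (-(c₁ / 8)) := by rw [h3]
    _ ≤ (1 + 8 / c₁) * S ^ (-(E₁ * c₁ / 8)) := by
        rw [← h5]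
        exact mul_le_mul_of_nonneg_left h4 (by positivity)

/-- monotonicity of the powers of a base `≥ 1` -/
theorem fnn_mono {S a b : ℝ} (hS : 1 ≤ S) (hab : a ≤ b) : S ^ a ≤ S ^ b := Real.rpow_le_rpow_of_exponent_le hS hab

/-- `(1 + S)^a ≤ 2^a S^a` for `a ≥ 0` -/
theorem fnn_one_add {S a : ℝ} (hS : 1 ≤ S) (ha : 0 ≤ a) : (1 + S) ^ a ≤ 2 ^ a * S ^ a := by
  rw [← Real.mul_rpow (by norm_num) (by linarith)]
  exact Real.rpow_le_rpow (by linarith) (by linarith) ha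

/-- `(1 + S)^{-a} ≤ S^{-a}` for `a ≥ 0` -/
theorem fnn_one_add_neg {S a : ℝ} (hS : 1 ≤ S) (ha : 0 ≤ a) : (1 + S) ^ (-a) ≤ S ^ (-a) :=
  Real.rpow_le_rpow_of_nonpos (by linarith) (by linarith) (by linarith)

/-! ## the exponents of the subpower case -/

/-- occupancy `Ω = S^{aΩ}` -/
def fnnΩ (k : ℕ) : ℝ := (k : ℝ) + 16

/-- ball count `N0 ≤ S^{b0}` -/
def fnnB0 (k : ℕ) : ℝ := 2 * (k : ℝ) + 20

/-- energy ratio `N1 ≤ S^{b1}` -/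
def fnnB1 (k : ℕ) : ℝ := ((k : ℝ) + 17) * ((k : ℝ) + 1) + 1

/-- clipping threshold `M_c = H^{-k} S^{P+3}` -/
def fnnC3 (P : ℝ) : ℝ := P + 3

/-- the exponent of the first factor of the smoothing error -/
def fnnA2 (k : ℕ) (P : ℝ) : ℝ := fnnB0 k + fnnB1 k + fnnC3 P

/-- leaf scale `K₀ = min (H S^L) h` -/
def fnnL (k : ℕ) (P : ℝ) : ℝ := 4 * (fnnA2 k P + 1)

/-- `S^{E₁} ≤ h` -/
def fnnE1 (k : ℕ) (P c₁ : ℝ) : ℝ := 8 * (fnnA2 k P + 1) / c₁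

/-- **NL1**: `C R ≤ (1 + S)^m` -/
theorem fnn_hv3 (C CR m : ℝ) (hC : 0 ≤ C) (hm : 3 ≤ m) : ∃ S₀ : ℝ, 1 ≤ S₀ ∧ ∀ S R : ℝ, S₀ ≤ S → R ≤ 4 * CR * S ^ 2 → C * R ≤ (1 + S) ^ m := by
  obtain ⟨S₀, h1, h⟩ := fnn_abs (C * (4 * CR)) 2 3 (by norm_num)
  refine ⟨S₀, h1, fun S R hS hR => ?_⟩
  have hS1 : 1 ≤ S := h1.trans hS
  have h2 := h S hS
  rw [Real.rpow_two] at h2
  calc C * R ≤ C * (4 * CR * S ^ 2) := mul_le_mul_of_nonneg_left hR hC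
    _ = C * (4 * CR) * S ^ 2 := by ring
    _ ≤ S ^ (3 : ℝ) := h2
    _ ≤ S ^ m := fnn_mono hS1 hm
    _ ≤ (1 + S) ^ m := Real.rpow_le_rpow (by linarith) (by linarith) (by linarith)

/-- `q_k + 1 ≤ 7` -/
theorem fnn_qk_le {k : ℕ} (hk : 1 ≤ k) : Claimed.Agent.R257.qk k + 1 ≤ 7 := by
  have hk' : (1 : ℝ) ≤ k := by exact_mod_cast hk
  unfold Claimed.Agent.R257.qk
  rw [← le_sub_iff_add_le, div_le_iff₀ (by linarith)]
  linarith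

/-- **NL2**: `C R^{q+1} (1+S)^{k+1} ≤ S^{k+16}` -/
theorem fnn_hv4 {k : ℕ} (hk : 1 ≤ k) (C CR : ℝ) (hC : 0 ≤ C) (hCR : 1 ≤ CR) : ∃ S₀ : ℝ, 1 ≤ S₀ ∧ ∀ S R : ℝ, S₀ ≤ S → 1 ≤ R → R ≤ 4 * CR * S ^ 2 →
    C * R ^ (Claimed.Agent.R257.qk k + 1) * (1 + S) ^ (k + 1) ≤ S ^ fnnΩ k := by
  obtain ⟨S₀, h1, h⟩ := fnn_abs (C * (4 * CR) ^ 7 * 2 ^ (k + 1)) ((k : ℝ) + 15) (fnnΩ k) (by unfold fnnΩ; linarith)
  refine ⟨S₀, h1, fun S R hS hR1 hR => ?_⟩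
  have hS1 : 1 ≤ S := h1.trans hS
  have hS0 : 0 < S := by linarith
  have hR7 : R ^ (Claimed.Agent.R257.qk k + 1) ≤ (4 * CR) ^ 7 * S ^ 14 := by
    calc R ^ (Claimed.Agent.R257.qk k + 1) ≤ R ^ (7 : ℝ) := Real.rpow_le_rpow_of_exponent_le hR1 (fnn_qk_le hk)
      _ = R ^ 7 := by rw [← Real.rpow_natCast]; norm_num
      _ ≤ (4 * CR * S ^ 2) ^ 7 := pow_le_pow_left₀ (by linarith) hR 7
      _ = (4 * CR) ^ 7 * S ^ 14 := by ring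
  have hS2 : (1 + S) ^ (k + 1) ≤ 2 ^ (k + 1) * S ^ (k + 1) := by
    rw [← mul_pow]
    exact pow_le_pow_left₀ (by linarith) (by linarith) _
  have e : S ^ 14 * S ^ (k + 1) = S ^ ((k : ℝ) + 15) := by
    rw [← pow_add, ← Real.rpow_natCast]
    congr 1
    push_cast
    ring
  calc C * R ^ (Claimed.Agent.R257.qk k + 1) * (1 + S) ^ (k + 1) ≤ C * ((4 * CR) ^ 7 * S ^ 14) * (2 ^ (k + 1) * S ^ (k + 1)) := by gcongr
    _ = C * (4 * CR) ^ 7 * 2 ^ (k + 1) * (S ^ 14 * S ^ (k + 1)) := by ring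
    _ = C * (4 * CR) ^ 7 * 2 ^ (k + 1) * S ^ ((k : ℝ) + 15) := by rw [e]
    _ ≤ S ^ fnnΩ k := h S hS

/-- **NL3**: `C R Ω (1+S)^{k+1} ≤ S^{2k+20}` -/
theorem fnn_N0 (k : ℕ) (C CR : ℝ) (hC : 0 ≤ C) (hCR : 0 ≤ CR) : ∃ S₀ : ℝ, 1 ≤ S₀ ∧ ∀ S R : ℝ, S₀ ≤ S → R ≤ 4 * CR * S ^ 2 →
    C * R * S ^ fnnΩ k * (1 + S) ^ (k + 1) ≤ S ^ fnnB0 k := by
  obtain ⟨S₀, h1, h⟩ := fnn_abs (C * (4 * CR) * 2 ^ (k + 1)) (2 * (k : ℝ) + 19) (fnnB0 k) (by unfold fnnB0; linarith)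
  refine ⟨S₀, h1, fun S R hS hR => ?_⟩
  have hS1 : 1 ≤ S := h1.trans hS
  have hS0 : 0 < S := by linarith
  have hS2 : (1 + S) ^ (k + 1) ≤ 2 ^ (k + 1) * S ^ (k + 1) := by
    rw [← mul_pow]
    exact pow_le_pow_left₀ (by linarith) (by linarith) _
  have e : S ^ 2 * S ^ fnnΩ k * S ^ (k + 1) = S ^ (2 * (k : ℝ) + 19) := by
    rw [← Real.rpow_natCast S 2, ← Real.rpow_natCast S (k + 1), ← Real.rpow_add hS0, ← Real.rpow_add hS0]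
    congr 1
    unfold fnnΩ
    push_cast
    ring
  have hΩ : 0 ≤ S ^ fnnΩ k := by positivity
  calc C * R * S ^ fnnΩ k * (1 + S) ^ (k + 1) ≤ C * (4 * CR * S ^ 2) * S ^ fnnΩ k * (2 ^ (k + 1) * S ^ (k + 1)) := by gcongr
    _ = C * (4 * CR) * 2 ^ (k + 1) * (S ^ 2 * S ^ fnnΩ k * S ^ (k + 1)) := by ring
    _ = C * (4 * CR) * 2 ^ (k + 1) * S ^ (2 * (k : ℝ) + 19) := by rw [e]
    _ ≤ S ^ fnnB0 k := h S hS

/-- **NL4**: the error of the clipped smoothing is `≤ 1` -/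
theorem fnn_clip (k : ℕ) (P c₁ : ℝ) (hP : 0 ≤ P) (hc₁ : 0 < c₁) : ∃ S₀ : ℝ, 1 ≤ S₀ ∧ ∀ S H h A N0 N1 : ℝ, S₀ ≤ S → 1 ≤ h → h ^ c₁ ≤ H → S ^ fnnE1 k P c₁ ≤ h →
    A = S ^ fnnC3 P → 0 ≤ N0 → N0 ≤ S ^ fnnB0 k → 0 ≤ N1 → N1 ≤ S ^ fnnB1 k →
    (A + Real.sqrt (N0 * N1 * A)) * ((S ^ fnnL k P) ^ (-(1 / 4 : ℝ)) + H ^ (-(1 / 4 : ℝ)) * (1 + Real.log h)) ≤ 1 := by
  have hk0 : (0 : ℝ) ≤ k := Nat.cast_nonneg k
  have hb0 : 0 ≤ fnnB0 k := by unfold fnnB0; linarith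
  have hb1 : 0 ≤ fnnB1 k := by unfold fnnB1; positivity
  have hc3 : 0 ≤ fnnC3 P := by unfold fnnC3; linarith
  refine ⟨max 1 (2 * (2 + 8 / c₁)), le_max_left _ _, fun S H h A N0 N1 hS hh hH hSh hA hN0 hN0' hN1 hN1' => ?_⟩
  have hS1 : 1 ≤ S := (le_max_left _ _).trans hS
  have hS2 : 2 * (2 + 8 / c₁) ≤ S := (le_max_right _ _).trans hS
  have hS0 : 0 < S := by linarith
  have hA2 : A ≤ S ^ fnnA2 k P := by
    rw [hA]
    exact fnn_mono hS1 (by unfold fnnA2; linarith)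
  have hA0 : 0 ≤ A := by rw [hA]; positivity
  have hprod : N0 * N1 * A ≤ S ^ fnnA2 k P := by
    calc N0 * N1 * A ≤ S ^ fnnB0 k * S ^ fnnB1 k * S ^ fnnC3 P := by rw [hA]; gcongr
      _ = S ^ fnnA2 k P := by rw [← Real.rpow_add hS0, ← Real.rpow_add hS0]; rfl
  have hone : 1 ≤ S ^ fnnA2 k P := Real.one_le_rpow hS1 (by unfold fnnA2; linarith)
  have hsq : Real.sqrt (N0 * N1 * A) ≤ S ^ fnnA2 k P := by
    refine (Real.sqrt_le_sqrt hprod).trans ?_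
    rw [Real.sqrt_le_left (by positivity)]
    nlinarith
  have h1 : (S ^ fnnL k P) ^ (-(1 / 4 : ℝ)) = S ^ (-(fnnA2 k P + 1)) := by
    rw [← Real.rpow_mul hS0.le]
    congr 1
    unfold fnnL
    ring
  have h2 : H ^ (-(1 / 4 : ℝ)) * (1 + Real.log h) ≤ (1 + 8 / c₁) * S ^ (-(fnnA2 k P + 1)) := by
    have := fnn_Hlog hc₁ hS1 hh hH hSh
    have e : fnnE1 k P c₁ * c₁ / 8 = fnnA2 k P + 1 := by
      unfold fnnE1
      field_simp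
    rwa [e] at this
  have hneg : 0 ≤ S ^ (-(fnnA2 k P + 1)) := by positivity
  have hEr0 : 0 ≤ (S ^ fnnL k P) ^ (-(1 / 4 : ℝ)) + H ^ (-(1 / 4 : ℝ)) * (1 + Real.log h) := by
    have hH0 : 0 ≤ H := le_trans (by positivity) hH
    have : 0 ≤ Real.log h := Real.log_nonneg hh
    positivity
  have e2 : S ^ fnnA2 k P * S ^ (-(fnnA2 k P + 1)) = S⁻¹ := by
    rw [← Real.rpow_add hS0, ← Real.rpow_neg_one]
    congr 1
    ring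
  calc (A + Real.sqrt (N0 * N1 * A)) * ((S ^ fnnL k P) ^ (-(1 / 4 : ℝ)) + H ^ (-(1 / 4 : ℝ)) * (1 + Real.log h))
      ≤ (S ^ fnnA2 k P + S ^ fnnA2 k P) * (S ^ (-(fnnA2 k P + 1)) + (1 + 8 / c₁) * S ^ (-(fnnA2 k P + 1))) := by
        refine mul_le_mul (add_le_add hA2 hsq) ?_ hEr0 (by positivity)
        rw [h1]
        linarith
    _ = 2 * (2 + 8 / c₁) * (S ^ fnnA2 k P * S ^ (-(fnnA2 k P + 1))) := by ring
    _ = 2 * (2 + 8 / c₁) * S⁻¹ := by rw [e2]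
    _ ≤ 1 := by
        rw [← div_eq_mul_inv, div_le_one hS0]
        exact hS2

/-- **NL5**: the removed masks are negligible -/
theorem fnn_trees (k : ℕ) (C CR B P m : ℝ) (hC : 0 ≤ C) (hCR : 0 ≤ CR) (hB : 0 ≤ B) (hP : 0 ≤ P) (hm : 3 ≤ m) : ∃ S₀ : ℝ, 1 ≤ S₀ ∧ ∀ S H R sA θ Mc : ℝ, S₀ ≤ S → 0 < H → 0 ≤ sA → 0 ≤ θ →
    R ≤ 4 * CR * S ^ 2 → sA * H ^ k ≤ R * θ → Mc * H ^ k = S ^ fnnC3 P → sA * C * (B * (1 + S) ^ P / Mc + H ^ k * (1 + S) ^ (-m)) ≤ θ := by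
  refine ⟨max 1 (4 * CR * C * (B * 2 ^ P + 1)), le_max_left _ _, fun S H R sA θ Mc hS hH hsA hθ hR hsR hMc => ?_⟩
  have hS1 : 1 ≤ S := (le_max_left _ _).trans hS
  have hS2 : 4 * CR * C * (B * 2 ^ P + 1) ≤ S := (le_max_right _ _).trans hS
  have hS0 : 0 < S := by linarith
  have hHk : 0 < H ^ k := pow_pos hH k
  have hMc0 : 0 < Mc := by
    have : 0 < Mc * H ^ k := by rw [hMc]; positivity
    exact (pos_iff_pos_of_mul_pos this).2 hHk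
  have e1 : B * (1 + S) ^ P / Mc = H ^ k * (B * (1 + S) ^ P / S ^ fnnC3 P) := by
    rw [← hMc]
    field_simp
  have h1 : B * (1 + S) ^ P / S ^ fnnC3 P ≤ B * 2 ^ P * S ^ (-(3 : ℝ)) := by
    rw [div_le_iff₀ (by positivity)]
    have e : S ^ (-(3 : ℝ)) * S ^ fnnC3 P = S ^ P := by
      rw [← Real.rpow_add hS0]
      congr 1
      unfold fnnC3
      ring
    calc B * (1 + S) ^ P ≤ B * (2 ^ P * S ^ P) := mul_le_mul_of_nonneg_left (fnn_one_add hS1 hP) hB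
      _ = B * 2 ^ P * S ^ (-(3 : ℝ)) * S ^ fnnC3 P := by rw [mul_assoc (B * 2 ^ P), e]; ring
  have h2 : (1 + S) ^ (-m) ≤ S ^ (-(3 : ℝ)) := (fnn_one_add_neg hS1 (by linarith)).trans (fnn_mono hS1 (by linarith))
  have h3 : 0 ≤ S ^ (-(3 : ℝ)) := by positivity
  have e3 : S ^ 2 * S ^ (-(3 : ℝ)) = S⁻¹ := by
    rw [← Real.rpow_natCast S 2, ← Real.rpow_add hS0, ← Real.rpow_neg_one]
    congr 1
    norm_num
  have h2P : 0 ≤ (2 : ℝ) ^ P := by positivity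
  calc sA * C * (B * (1 + S) ^ P / Mc + H ^ k * (1 + S) ^ (-m)) = (sA * H ^ k) * (C * (B * (1 + S) ^ P / S ^ fnnC3 P + (1 + S) ^ (-m))) := by rw [e1]; ring
    _ ≤ (R * θ) * (C * (B * 2 ^ P * S ^ (-(3 : ℝ)) + S ^ (-(3 : ℝ)))) := by
        refine mul_le_mul hsR (mul_le_mul_of_nonneg_left (add_le_add h1 h2) hC) ?_ (le_trans (by positivity) hsR)
        have : 0 ≤ B * (1 + S) ^ P / S ^ fnnC3 P := by positivity
        have : 0 ≤ (1 + S) ^ (-m) := by positivity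
        positivity
    _ ≤ (4 * CR * S ^ 2 * θ) * (C * (B * 2 ^ P * S ^ (-(3 : ℝ)) + S ^ (-(3 : ℝ)))) := by gcongr
    _ = θ * (4 * CR * C * (B * 2 ^ P + 1) * (S ^ 2 * S ^ (-(3 : ℝ)))) := by ring
    _ = θ * (4 * CR * C * (B * 2 ^ P + 1) * S⁻¹) := by rw [e3]
    _ ≤ θ * 1 := by
        refine mul_le_mul_of_nonneg_left ?_ hθ
        rw [← div_eq_mul_inv, div_le_one hS0]
        exact hS2
    _ = θ := mul_one θ

end

end Claimed.Agent.R257.FR1
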