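import Claimed.Agent.R257.FR1.NSubNum
import Claimed.Agent.R257.FR1.NSubB
import Claimed.Agent.R257.FR1.NMain

/-!
# ROW 257, package FR1, block NORM, SUBPOWER CASE: THE CHOICE OF THE EXPONENTS, THE EXIT      (helper13; prefix `fnn_`)

* `fnn_subnum`    the numerical inequalities `SubNum` (helper16, `FR1/NSubB.lean`) hold for `Ω = S^{k+16}`, `Sc = S^{P+3}`, `SL = S^L`, `Rm = Cε SL^k / p²`, `ℒ = S^{β/(3k+3)}`, `ε = fnnEps`, if `S` is large and `S^{E₁} ≤ h`, `h^{c₁} ≤ H_i`.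
* `fn_sub_all : SubAll k`     the exit of the subpower case (from `fns_sub`).
-/

set_option autoImplicit false

namespace Claimed.Agent.R257.FR1

open Claimed.Agent.R257 Claimed.Agent.R257.FR2 Claimed.Agent.R257.Tree
open scoped BigOperators Classical BoundedContinuousFunction

noncomputable section

variable {k : ℕ}

/-- the small exponent -/
def fnnEps (k : ℕ) (L β' : ℝ) : ℝ := min 1 (β' / (2 * (L * ((k : ℝ) + 1) + 8)))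

theorem fnn_eps_pos (k : ℕ) {L β' : ℝ} (hL : 0 ≤ L) (hβ : 0 < β') : 0 < fnnEps k L β' := by
  have hk0 : (0 : ℝ) ≤ k := Nat.cast_nonneg k
  exact lt_min one_pos (by positivity)

theorem fnn_eps_le (k : ℕ) {L β' : ℝ} (hL : 0 ≤ L) : fnnEps k L β' * (L * ((k : ℝ) + 1) + 8) ≤ β' / 2 := by
  have hk0 : (0 : ℝ) ≤ k := Nat.cast_nonneg k
  have h0 : 0 < 2 * (L * ((k : ℝ) + 1) + 8) := by positivity
  have h1 : fnnEps k L β' ≤ β' / (2 * (L * ((k : ℝ) + 1) + 8)) := min_le_right _ _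
  rw [le_div_iff₀ h0] at h1
  linarith

/-- **NL7: the loss of the weighted estimate** (field `n7` of `SubNum`) -/
theorem fnn_n7 (hk : 1 ≤ k) (Cε L β' : ℝ) (hCε : 1 ≤ Cε) (hL : 0 ≤ L) (hβ : 0 < β') : ∃ S₀ : ℝ, 1 ≤ S₀ ∧ ∀ N : ℕ, S₀ ≤ (2 : ℝ) ^ N →
    Cε * (((2 : ℝ) ^ N) ^ L) ^ fnnEps k L β' * (Cε * (((2 : ℝ) ^ N) ^ L) ^ k / pn N ^ 2) ^ fnnEps k L β' * (1 / pn N) ^ (qk k) ≤ ((2 : ℝ) ^ N) ^ β' := by
  have hk0 : (0 : ℝ) ≤ k := Nat.cast_nonneg k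
  obtain ⟨ε, hεdef⟩ : ∃ ε, ε = fnnEps k L β' := ⟨_, rfl⟩
  have hε : 0 < ε := hεdef ▸ fnn_eps_pos k hL hβ
  have hε1 : ε ≤ 1 := hεdef ▸ min_le_left _ _
  have hεL : ε * (L * ((k : ℝ) + 1) + 8) ≤ β' / 2 := hεdef ▸ fnn_eps_le k hL
  have hq6 : qk k ≤ 6 := by have := fnn_qk_le hk; linarith
  have hq0 : 0 < qk k := by
    have : (0 : ℝ) < k := by exact_mod_cast hk
    unfold qk; positivity
  obtain ⟨Cδ, hCδ, hpn⟩ := fa_pn_sub hε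
  obtain ⟨S₀, h1, h⟩ := fnn_abs (Cε * (Cε * Cδ ^ 2) ^ ε * Cδ ^ qk k) (β' / 2) β' (by linarith)
  refine ⟨S₀, h1, fun N hS => ?_⟩
  rw [← hεdef]
  obtain ⟨S, hSdef⟩ : ∃ S : ℝ, S = 2 ^ N := ⟨_, rfl⟩
  obtain ⟨x, hxdef⟩ : ∃ x : ℝ, x = 1 / pn N := ⟨_, rfl⟩
  have hx := hpn N
  rw [← hSdef] at hS hx ⊢
  rw [← hxdef] at hx ⊢
  have hS1 : 1 ≤ S := h1.trans hS
  have hS0 : 0 < S := by linarith
  have hx0 : 0 < x := by rw [hxdef]; exact one_div_pos.2 (fa_pn_pos N)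
  have e1 : Cε * (S ^ L) ^ k / pn N ^ 2 = Cε * S ^ (L * k) * x ^ 2 := by
    rw [hxdef, ← Real.rpow_natCast (S ^ L) k, ← Real.rpow_mul hS0.le, one_div, inv_pow, div_eq_mul_inv]
  have ha : (S ^ L) ^ ε = S ^ (L * ε) := by rw [← Real.rpow_mul hS0.le]
  have hb : (Cε * S ^ (L * k) * x ^ 2) ^ ε ≤ (Cε * Cδ ^ 2) ^ ε * S ^ ((L * k + 2 * ε) * ε) := by
    have h2 : Cε * S ^ (L * k) * x ^ 2 ≤ (Cε * Cδ ^ 2) * S ^ (L * k + 2 * ε) := by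
      have h3 : x ^ 2 ≤ Cδ ^ 2 * S ^ (2 * ε) := by
        calc x ^ 2 ≤ (Cδ * S ^ ε) ^ 2 := pow_le_pow_left₀ hx0.le hx 2
          _ = Cδ ^ 2 * S ^ (2 * ε) := by
              rw [mul_pow, ← Real.rpow_natCast (S ^ ε) 2, ← Real.rpow_mul hS0.le]
              congr 2
              push_cast
              ring
      rw [Real.rpow_add hS0]
      calc Cε * S ^ (L * k) * x ^ 2 ≤ Cε * S ^ (L * k) * (Cδ ^ 2 * S ^ (2 * ε)) := by gcongr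
        _ = _ := by ring
    calc (Cε * S ^ (L * k) * x ^ 2) ^ ε ≤ ((Cε * Cδ ^ 2) * S ^ (L * k + 2 * ε)) ^ ε := Real.rpow_le_rpow (by positivity) h2 hε.le
      _ = _ := by rw [Real.mul_rpow (by positivity) (by positivity), ← Real.rpow_mul hS0.le]
  have hc : x ^ qk k ≤ Cδ ^ qk k * S ^ (ε * qk k) := by
    calc x ^ qk k ≤ (Cδ * S ^ ε) ^ qk k := Real.rpow_le_rpow hx0.le hx hq0.le
      _ = _ := by rw [Real.mul_rpow (by positivity) (by positivity), ← Real.rpow_mul hS0.le]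
  have hexp : L * ε + (L * k + 2 * ε) * ε + ε * qk k ≤ β' / 2 := by
    have h2 : ε * ε ≤ ε * 1 := mul_le_mul_of_nonneg_left hε1 hε.le
    have h3 : ε * qk k ≤ ε * 6 := mul_le_mul_of_nonneg_left hq6 hε.le
    nlinarith
  rw [e1, ha]
  calc Cε * S ^ (L * ε) * (Cε * S ^ (L * k) * x ^ 2) ^ ε * x ^ qk k
      ≤ Cε * S ^ (L * ε) * ((Cε * Cδ ^ 2) ^ ε * S ^ ((L * k + 2 * ε) * ε)) * (Cδ ^ qk k * S ^ (ε * qk k)) := by gcongr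
    _ = Cε * (Cε * Cδ ^ 2) ^ ε * Cδ ^ qk k * (S ^ (L * ε) * S ^ ((L * k + 2 * ε) * ε) * S ^ (ε * qk k)) := by ring
    _ = Cε * (Cε * Cδ ^ 2) ^ ε * Cδ ^ qk k * S ^ (L * ε + (L * k + 2 * ε) * ε + ε * qk k) := by rw [← Real.rpow_add hS0, ← Real.rpow_add hS0]
    _ ≤ Cε * (Cε * Cδ ^ 2) ^ ε * Cδ ^ qk k * S ^ (β' / 2) := mul_le_mul_of_nonneg_left (fnn_mono hS1 hexp) (by positivity)
    _ ≤ S ^ β' := h S hS

/-- the exponent `C₁` of the subpower case -/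
def fnnC1 (k : ℕ) (P : ℝ) : ℝ := max (fnnL k P) (max (fnnC3 P) (fnnΩ k))

/-- **THE CHOICE OF THE EXPONENTS**: the numerical inequalities of the subpower case -/
theorem fnn_subnum (hk : 1 ≤ k) (Mw Pw Ca c₁ : ℝ) (hMw : 3 ≤ Mw) (hPw : 0 ≤ Pw) (hCa : 1 ≤ Ca) (hc₁ : 0 < c₁) (β E Λ₀ : ℝ) (hβ : 0 < β) (Cε : ℝ) (hCε : 1 ≤ Cε) :
    ∃ S₁ : ℝ, 1 ≤ S₁ ∧ ∀ (N : ℕ) (h Q : ℝ) (H : Fin (k + 1) → ℝ), S₁ ≤ (2 : ℝ) ^ N → 1 ≤ h → ((2 : ℝ) ^ N) ^ fnnE1 k Pw c₁ ≤ h → (∀ i, h ^ c₁ ≤ H i) → (∀ i, ((2 : ℝ) ^ N) ^ E ≤ H i) →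
      Q ≤ ((2 : ℝ) ^ N) ^ (β / (3 * k + 3 : ℕ)) →
      SubNum k Mw Pw Ca Cε (fnnEps k (fnnL k Pw) (β / (3 * k + 3 : ℕ))) ((2 : ℝ) ^ N) (pn N) h Q H (((2 : ℝ) ^ N) ^ fnnΩ k) (((2 : ℝ) ^ N) ^ fnnC3 Pw) (((2 : ℝ) ^ N) ^ fnnL k Pw)
        (Cε * (((2 : ℝ) ^ N) ^ fnnL k Pw) ^ k / pn N ^ 2) (((2 : ℝ) ^ N) ^ (β / (3 * k + 3 : ℕ))) (fnnC1 k Pw) β E Λ₀ := by
  have hk0 : (0 : ℝ) ≤ k := Nat.cast_nonneg k
  have hn0 : (0 : ℝ) < ((3 * k + 3 : ℕ) : ℝ) := by positivity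
  obtain ⟨β', hβ'def⟩ : ∃ β' : ℝ, β' = β / (3 * k + 3 : ℕ) := ⟨_, rfl⟩
  have hβ' : 0 < β' := by rw [hβ'def]; positivity
  have hΩ0 : 0 ≤ fnnΩ k := by unfold fnnΩ; linarith
  have hC30 : 0 ≤ fnnC3 Pw := by unfold fnnC3; linarith
  have hA20 : 0 ≤ fnnA2 k Pw := by
    have h1 : 0 ≤ fnnB0 k := by unfold fnnB0; linarith
    have h2 : 0 ≤ fnnB1 k := by unfold fnnB1; positivity
    unfold fnnA2; linarith
  have hL0 : 0 ≤ fnnL k Pw := by unfold fnnL; linarith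
  obtain ⟨A1, hA1, H1⟩ := fnn_hv3 Ca 1 Mw (by linarith) hMw
  obtain ⟨A2, hA2, H2⟩ := fnn_hv4 hk Ca 1 (by linarith) le_rfl
  obtain ⟨A3, hA3, H3⟩ := fnn_trees k Ca 1 1 Pw Mw (by linarith) zero_le_one zero_le_one hPw hMw
  obtain ⟨A4, hA4, H4⟩ := fnn_N0 k Ca 1 (by linarith) zero_le_one
  obtain ⟨A5, hA5, H5⟩ := fnn_clip k Pw c₁ hPw hc₁
  obtain ⟨A6, hA6, H6⟩ := fn_pn_pow Ca (k + 1) hβ'
  obtain ⟨A7, hA7, H7⟩ := fnn_n7 hk Cε (fnnL k Pw) β' hCε hL0 hβ'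
  refine ⟨max (max (max A1 A2) (max A3 A4)) (max (max A5 A6) (max A7 Λ₀)), (hA1.trans (le_max_left _ _)).trans ((le_max_left _ _).trans (le_max_left _ _)), ?_⟩
  intro N h Q H hS hh hSh hHh hHE hQ
  rw [← hβ'def] at hQ ⊢
  have h7 := H7 N (((le_max_left _ _).trans (le_max_right _ _)).trans ((le_max_right _ _).trans hS))
  have h6 := H6 N ((2 : ℝ) ^ N) (((le_max_right _ _).trans (le_max_left _ _)).trans ((le_max_right _ _).trans hS)) le_rfl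
  have hpc := fn_pn_crude N
  have hp0 := fa_pn_pos N
  have hp1 := fn_pn_le_one N
  obtain ⟨S, hSdef⟩ : ∃ S : ℝ, S = 2 ^ N := ⟨_, rfl⟩
  obtain ⟨p, hpdef⟩ : ∃ p : ℝ, p = pn N := ⟨_, rfl⟩
  rw [← hSdef] at hS hSh hHE hQ h7 h6 hpc ⊢
  rw [← hpdef] at h7 h6 hpc hp0 hp1 ⊢
  have hS_1 : A1 ≤ S := ((le_max_left _ _).trans (le_max_left _ _)).trans ((le_max_left _ _).trans hS)
  have hS_2 : A2 ≤ S := ((le_max_right _ _).trans (le_max_left _ _)).trans ((le_max_left _ _).trans hS)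
  have hS_3 : A3 ≤ S := ((le_max_left _ _).trans (le_max_right _ _)).trans ((le_max_left _ _).trans hS)
  have hS_4 : A4 ≤ S := ((le_max_right _ _).trans (le_max_right _ _)).trans ((le_max_left _ _).trans hS)
  have hS_5 : A5 ≤ S := ((le_max_left _ _).trans (le_max_left _ _)).trans ((le_max_right _ _).trans hS)
  have hS_Λ : Λ₀ ≤ S := ((le_max_right _ _).trans (le_max_right _ _)).trans ((le_max_right _ _).trans hS)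
  have hS1 : 1 ≤ S := hA1.trans hS_1
  have hS0 : 0 < S := by linarith
  have hR1 : 1 ≤ S / p := by
    rw [le_div_iff₀ hp0]
    linarith
  have hR : S / p ≤ 4 * 1 * S ^ 2 := by
    calc S / p = S * (1 / p) := by ring
      _ ≤ S * (4 * S) := mul_le_mul_of_nonneg_left hpc hS0.le
      _ = 4 * 1 * S ^ 2 := by ring
  have hSL1 : 1 ≤ S ^ fnnL k Pw := Real.one_le_rpow hS1 hL0
  have hRm1 : 1 ≤ Cε * (S ^ fnnL k Pw) ^ k / p ^ 2 := by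
    rw [le_div_iff₀ (by positivity), one_mul]
    have h1 : p ^ 2 ≤ 1 := pow_le_one₀ hp0.le hp1
    have h2 : 1 ≤ (S ^ fnnL k Pw) ^ k := one_le_pow₀ hSL1
    have h3 : 1 ≤ Cε * (S ^ fnnL k Pw) ^ k := one_le_mul_of_one_le_of_one_le hCε h2
    linarith
  refine
    { one_le_Ω := Real.one_le_rpow hS1 hΩ0
      one_le_Sc := Real.one_le_rpow hS1 hC30
      one_le_SL := hSL1
      one_le_Rm := hRm1
      n1 := H1 S (S / p) hS_1 hR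
      n2 := H2 S (S / p) hS_2 hR1 hR
      n3 := ?_
      n4 := fun i => ?_
      n5 := h6
      n6 := by nlinarith
      n7 := h7
      nQ := hQ
      big := hS_Λ
      loss := ?_
      H_ge := hHE
      SL_le := fnn_mono hS1 (le_max_left _ _)
      Sc_le := fnn_mono hS1 ((le_max_left _ _).trans (le_max_right _ _))
      Ω_le := fnn_mono hS1 ((le_max_right _ _).trans (le_max_right _ _)) }
  · have := H3 S 1 (S / p) (S / p) 1 (S ^ fnnC3 Pw) hS_3 one_pos (by linarith) zero_le_one hR (by simp) (by simp)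
    simp only [one_pow, one_mul] at this
    calc Ca * (S / p) * ((1 + S) ^ Pw / S ^ fnnC3 Pw + (1 + S) ^ (-Mw)) = S / p * Ca * ((1 + S) ^ Pw / S ^ fnnC3 Pw + (1 + S) ^ (-Mw)) := by ring
      _ ≤ 1 := this
  · refine H5 S (H i) h (S ^ fnnC3 Pw) (Ca * (S / p) * S ^ fnnΩ k * (1 + S) ^ (k + 1)) (S ^ ((k + 17) * (k + 1))) hS_5 hh (hHh i) hSh rfl (by positivity) (H4 S (S / p) hS_4 hR) (by positivity) ?_
    rw [← Real.rpow_natCast]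
    refine fnn_mono hS1 ?_
    unfold fnnB1
    push_cast
    linarith
  · rw [← Real.rpow_natCast, ← Real.rpow_mul hS0.le, hβ'def, div_mul_cancel₀ _ hn0.ne']

/-- **THE EXIT OF THE SUBPOWER CASE** -/
theorem fn_sub_all (k : ℕ) : SubAll k := by
  intro ρ
  refine ⟨k + 3, fun P hP => ?_⟩
  obtain ⟨Pw₀, C0₀, h⟩ := fns_sub k ρ P hP
  refine ⟨Pw₀, C0₀, fun X hX hρ hPX hPw hC0 CH Cσ ϖ Cu hCH hCσ hϖ hCu => ?_⟩
  obtain ⟨Ca, hCa, hA⟩ := h X hX hρ hPX hPw hC0 CH Cσ ϖ Cu hCH hCσ hϖ hCu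
  have hc := hX.c_ok
  have hk : 1 ≤ k := hc.k_pos
  have hk1 : (1 : ℝ) ≤ k := by exact_mod_cast hk
  have hc₁ : 0 < X.cthr / k := div_pos hX.cthr_pos (by linarith)
  have hMw : 3 ≤ X.c.M - k - 2 := by linarith [hc.M_gt, hc.P_lt, hc.P_gt]
  have hPw : 0 ≤ X.c.P := by linarith [hc.P_gt]
  obtain ⟨h₁, hh₁, hHge⟩ := fn_H_ge (Cσ := Cσ) (ϖ := ϖ) (Cu := Cu) hX hCH
  refine ⟨fnnC1 k X.c.P, max (fnnE1 k X.c.P (X.cthr / k)) 1, fun β E Λ₀ hβ => ?_⟩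
  have hL0 : 0 ≤ fnnL k X.c.P := by
    have h1 : 0 ≤ fnnB0 k := by unfold fnnB0; linarith
    have h2 : 0 ≤ fnnB1 k := by unfold fnnB1; positivity
    have h3 : 0 ≤ fnnC3 X.c.P := by unfold fnnC3; linarith
    unfold fnnL fnnA2; linarith
  have hβ' : 0 < β / (3 * k + 3 : ℕ) := by positivity
  obtain ⟨Cε, hCε, hB⟩ := hA (fnnEps k (fnnL k X.c.P) (β / (3 * k + 3 : ℕ))) (fnn_eps_pos k hL0 hβ')
  obtain ⟨S₁, hS₁, hnum⟩ := fnn_subnum hk (X.c.M - k - 2) X.c.P Ca (X.cthr / k) hMw hPw hCa hc₁ β E Λ₀ hβ Cε hCε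
  refine ⟨max S₁ h₁, fun Λ _ 𝔠 h𝔠 s hs μ hμ hfail hS hSE₁ hSE hQ => ?_⟩
  have hS1 : 1 ≤ s.S := fn_one_le_S s
  have hSh : s.S ≤ 𝔠.h := by
    calc s.S = s.S ^ (1 : ℝ) := (Real.rpow_one _).symm
      _ ≤ s.S ^ max (fnnE1 k X.c.P (X.cthr / k)) 1 := fnn_mono hS1 (le_max_right _ _)
      _ ≤ 𝔠.h := hSE₁
  have hE1 : s.S ^ fnnE1 k X.c.P (X.cthr / k) ≤ 𝔠.h := (fnn_mono hS1 (le_max_left _ _)).trans hSE₁
  have hh1 : h₁ ≤ 𝔠.h := ((le_max_right _ _).trans hS).trans hSh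
  exact hB Λ 𝔠 h𝔠 s hs μ hμ hfail _ _ _ _ _ _ β E Λ₀
    (hnum s.N 𝔠.h 𝔠.Q s.H ((le_max_left _ _).trans hS) (hS1.trans hSh) hE1 (hHge Λ 𝔠 h𝔠 s hs hh1) hSE hQ)

end

end Claimed.Agent.R257.FR1
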