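import Claimed.Agent.R257.FR1.NMain
import Claimed.Agent.R257.FR1.NCtx

/-!
# ROW 257, package FR1, block NORM, file 9: THE EXIT OF NORM MODULO THE SUBPOWER CASE      (helper83; prefix `fn_`)

`fn_norm_sub (hk : 1 ≤ k) : SubAll k → CoreStmt k → XFrameStmt k`.      NOTHING is sorried here.     The field `norm` of `RestF k` (`Frame/Top.lean`) is `fn_norm_sub hk (…: SubAll k)`.
-/

set_option autoImplicit false

namespace Claimed.Agent.R257.FR1

variable {k : ℕ}

/-- the context exists -/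
theorem fn_ctx_exit (hk : 1 ≤ k) : CtxExit k := fun cthr ρ Cc Cm T₁ hc P Pw₀ C0₀ => fn_ctx hk cthr ρ Cc Cm T₁ hc P Pw₀ C0₀

/-- **NORM modulo the subpower case** -/
theorem fn_norm_sub (hk : 1 ≤ k) (hsub : SubAll k) : CoreStmt k → XFrameStmt k := fn_norm_of (fn_ctx_exit hk) hsub

end Claimed.Agent.R257.FR1
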