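import Claimed.Agent.R257.FR1.SmDefs

/-!
# R257 / FR1 / SmAbs : THE ABSTRACT SMOOTHING THEOREM `fsm_abs`      (architect helper94)

No Schroedinger equation here: positive bounded continuous integrable densities `F b` with the Harnack inequality `Sm.Ok.har` and the bound `Sm.Top` at the top scale.
`I 0 ≤ I N + ∑ (Et n + Ex n)` (discrete Jensen), `Et`, `Ex` small, `I N ≤ C G0 ‖ρ‖₁`, `I 0 ≥ c ∑∑ min(f0, Mc)`.
The five second level statements are proved in `SmStep`, `SmTime`, `SmSpace`, `SmTop`, `SmBot` (here: hypotheses of the glue theorem `fsm_abs_of`).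
-/

set_option autoImplicit false

namespace Claimed.Agent.R257

open MeasureTheory ProbabilityTheory Metric Set
open scoped ENNReal NNReal InnerProductSpace

/-- discrete Jensen step -/
def FsmStep (k : ℕ) : Prop := ∀ {β : Type} (P : Sm k β) (N : ℕ) (Rc Cs N0 N1 cH : ℝ), P.Ok N Rc Cs N0 N1 cH → ∀ n < N, P.I n ≤ P.I (n + 1) + P.Et n + P.Ex n

/-- time error -/
def FsmTime (k : ℕ) (Rc C : ℝ) : Prop := ∀ {β : Type} (P : Sm k β) (N : ℕ) (Cs N0 N1 cH : ℝ), P.Ok N Rc Cs N0 N1 cH → ∀ n < N,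
  P.Et n ≤ C * cH * Cs * (P.Mc * P.H ^ k) * (P.H ^ (k + 2) * P.Y.card) * P.mu n ^ (-(1 / 4 : ℝ))

/-- spatial error -/
def FsmSpace (k Q : ℕ) (Rc C : ℝ) : Prop := ∀ {β : Type} (P : Sm k β) (N : ℕ) (Cs N0 N1 cH : ℝ), P.Q = Q → P.Ok N Rc Cs N0 N1 cH → ∀ n < N,
  P.Ex n ≤ C * Real.sqrt (Cs * N0 * N1 * (P.Mc * P.H ^ k)) * (P.H ^ (k + 2) * P.Y.card) * P.mu n ^ (-(1 / 4 : ℝ))

/-- top end -/
def FsmTop (k Q M1 M2 : ℕ) (C : ℝ) : Prop := ∀ {β : Type} (P : Sm k β) (N : ℕ) (Rc Cs N0 N1 cH G0 : ℝ), P.Q = Q → P.Ok N Rc Cs N0 N1 cH → 0 ≤ G0 →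
  P.Top N G0 M1 M2 → P.I N ≤ C * G0 * (P.H ^ (k + 2) * P.Y.card)

/-- bottom end -/
def FsmBot (k Q : ℕ) (cH c : ℝ) : Prop := ∀ {β : Type} (P : Sm k β) (N : ℕ) (Rc Cs N0 N1 : ℝ), P.Q = Q → P.Ok N Rc Cs N0 N1 cH →
  c * (P.H ^ (k + 2) * ∑ z ∈ P.Y, ∑ b ∈ P.caps, min (P.f0 b z) P.Mc) ≤ P.I 0

theorem fsm_abs_tele {k : ℕ} (hS : FsmStep k) {β : Type} (P : Sm k β) (N : ℕ) (Rc Cs N0 N1 cH : ℝ) (h : P.Ok N Rc Cs N0 N1 cH) :
    ∀ m ≤ N, P.I 0 ≤ P.I m + ∑ n ∈ Finset.range m, (P.Et n + P.Ex n) := by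
  intro m
  induction m with
  | zero => intro _; simp
  | succ m ih =>
    intro hm
    have h1 := ih (by omega)
    have h2 := hS P N Rc Cs N0 N1 cH h m (by omega)
    rw [Finset.sum_range_succ]
    linarith

/-- **glue** -/
theorem fsm_abs_of {k Q M1 M2 : ℕ} {Rc cH C1 C2 C3 c : ℝ} (hc : 0 < c) (hC1 : 0 ≤ C1) (hC2 : 0 ≤ C2) (hC3 : 0 ≤ C3) (hcH : 0 ≤ cH)
    (hS : FsmStep k) (hT : FsmTime k Rc C1) (hX : FsmSpace k Q Rc C2) (hTop : FsmTop k Q M1 M2 C3) (hB : FsmBot k Q cH c)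
    {β : Type} (P : Sm k β) (N : ℕ) (Cs N0 N1 G0 : ℝ) (hQ : P.Q = Q) (h : P.Ok N Rc Cs N0 N1 cH) (hG : 0 ≤ G0) (ht : P.Top N G0 M1 M2) :
    ∑ z ∈ P.Y, ∑ b ∈ P.caps, min (P.f0 b z) P.Mc
      ≤ c⁻¹ * (C3 + C1 * cH + C2) * (G0 + (Cs * (P.Mc * P.H ^ k) + Real.sqrt (Cs * N0 * N1 * (P.Mc * P.H ^ k))) * ∑ n ∈ Finset.range N, P.mu n ^ (-(1 / 4 : ℝ)))
        * P.Y.card := by
  have hH : 0 < P.H ^ (k + 2) := pow_pos (by linarith [h.hH]) _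
  set X := ∑ z ∈ P.Y, ∑ b ∈ P.caps, min (P.f0 b z) P.Mc with hXdef
  set R := P.H ^ (k + 2) * (P.Y.card : ℝ) with hR
  set A := Cs * (P.Mc * P.H ^ k) with hA
  set B := Real.sqrt (Cs * N0 * N1 * (P.Mc * P.H ^ k)) with hBdef
  set Sg := ∑ n ∈ Finset.range N, P.mu n ^ (-(1 / 4 : ℝ)) with hSg
  have hR0 : 0 ≤ R := by positivity
  have hA0 : 0 ≤ A := by
    have := h.hCs; have := h.hMc; have := h.hH
    positivity
  have hB0 : 0 ≤ B := Real.sqrt_nonneg _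
  have hmu : ∀ n, 0 ≤ P.mu n ^ (-(1 / 4 : ℝ)) := by
    intro n
    apply Real.rpow_nonneg
    have h1 := h.hH
    have h2 := h.hK
    have h3 : 0 ≤ P.K n := by unfold Sm.K; have : 0 ≤ P.K0 := by linarith
                              positivity
    exact le_min (by linarith) (div_nonneg h3 (by linarith))
  have hSg0 : 0 ≤ Sg := Finset.sum_nonneg fun n _ => hmu n
  have e1 := hB P N Rc Cs N0 N1 hQ h
  have e2 := fsm_abs_tele hS P N Rc Cs N0 N1 cH h N le_rfl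
  have e3 := hTop P N Rc Cs N0 N1 cH G0 hQ h hG ht
  have e4 : ∑ n ∈ Finset.range N, (P.Et n + P.Ex n) ≤ (C1 * cH * A + C2 * B) * R * Sg := by
    rw [hSg, Finset.mul_sum]
    refine Finset.sum_le_sum fun n hn => ?_
    have hn' := Finset.mem_range.1 hn
    have a1 := hT P N Cs N0 N1 cH h n hn'
    have a2 := hX P N Cs N0 N1 cH hQ h n hn'
    calc P.Et n + P.Ex n ≤ C1 * cH * Cs * (P.Mc * P.H ^ k) * (P.H ^ (k + 2) * P.Y.card) * P.mu n ^ (-(1 / 4 : ℝ))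
          + C2 * Real.sqrt (Cs * N0 * N1 * (P.Mc * P.H ^ k)) * (P.H ^ (k + 2) * P.Y.card) * P.mu n ^ (-(1 / 4 : ℝ)) := add_le_add a1 a2
      _ = (C1 * cH * A + C2 * B) * R * P.mu n ^ (-(1 / 4 : ℝ)) := by rw [hA, hBdef, hR]; ring
  have e5 : c * (P.H ^ (k + 2) * X) ≤ C3 * G0 * R + (C1 * cH * A + C2 * B) * R * Sg := by linarith
  have e6 : C3 * G0 * R + (C1 * cH * A + C2 * B) * R * Sg ≤ (C3 + C1 * cH + C2) * (G0 + (A + B) * Sg) * R := by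
    have t1 : 0 ≤ C1 * cH := by positivity
    have : (C3 + C1 * cH + C2) * (G0 + (A + B) * Sg) * R - (C3 * G0 * R + (C1 * cH * A + C2 * B) * R * Sg)
        = ((C1 * cH + C2) * G0 + (C3 * (A + B) + C1 * cH * B + C2 * A) * Sg) * R := by ring
    have : 0 ≤ ((C1 * cH + C2) * G0 + (C3 * (A + B) + C1 * cH * B + C2 * A) * Sg) * R := by positivity
    linarith
  have e7 : c * (P.H ^ (k + 2) * X) ≤ P.H ^ (k + 2) * ((C3 + C1 * cH + C2) * (G0 + (A + B) * Sg) * P.Y.card) := by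
    calc c * (P.H ^ (k + 2) * X) ≤ (C3 + C1 * cH + C2) * (G0 + (A + B) * Sg) * R := e5.trans e6
      _ = _ := by rw [hR]; ring
  have e8 : c * X ≤ (C3 + C1 * cH + C2) * (G0 + (A + B) * Sg) * P.Y.card := by
    have : P.H ^ (k + 2) * (c * X) ≤ P.H ^ (k + 2) * ((C3 + C1 * cH + C2) * (G0 + (A + B) * Sg) * P.Y.card) := by
      calc P.H ^ (k + 2) * (c * X) = c * (P.H ^ (k + 2) * X) := by ring
        _ ≤ _ := e7
    exact le_of_mul_le_mul_left this hH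
  calc X = c⁻¹ * (c * X) := by field_simp
    _ ≤ c⁻¹ * ((C3 + C1 * cH + C2) * (G0 + (A + B) * Sg) * P.Y.card) := by
        apply mul_le_mul_of_nonneg_left e8 (by positivity)
    _ = _ := by ring

end Claimed.Agent.R257
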