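import Claimed.Agent.R257.FR1.SmSpace

/-!
# R257 / FR1 / SmEnds : the two ends of the propagation and the abstract theorem `fsm_abs`      (architect helper94)

TOP: `I N ≤ H^{k+2} ∑_z ∑_b cv (G N * G N) F_b (z)` (`φ(u) ≤ u`), `G N * G N = sx (jm K_N) * sx (ν') * st b (Gs (2 v N))`, `ν' = jq N * hm K_N * sp N` (independent of `b`), `Sm.Top`, moments.
BOTTOM: `f0 = cv (sx (jm K0)) F_b` satisfies `f0 (z - (a,0) - s(2b,1)) ≥ 2^{-Q} (1 + |a|/K0)^{-Q} e^{-c|s|} f0 z`, `c = cH/(H K0)`, `c √(v 0) ≤ cH`; `φ(λ u) ≥ λ φ(u)`, `φ(u) ≥ min(u, Mc)/2`.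
Every `sorry` is a LEAF (name in the docstring).  Statements frozen (tell helper94 at once if one is false or awkward); prove IN PLACE, helper lemmas directly above, prefix `fsm_<leaf>_`.
-/

set_option autoImplicit false

namespace Claimed.Agent.R257

open MeasureTheory ProbabilityTheory Metric Set
open scoped ENNReal NNReal InnerProductSpace

variable {k : ℕ} {β : Type}

/-- LEAF L-257-SM-TOP1: polynomial moments from `L^p` moments (Minkowski: `‖1 + |a|/K‖_p ≤ 1 + ‖a‖_p/K`; `p = 0` trivial) -/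
theorem fsm_poly_moment (ν : Measure (E k)) [IsProbabilityMeasure ν] (p : ℕ) {C K : ℝ} (hC : 0 ≤ C) (hK : 0 < K)
    (h : eLpNorm (fun a : E k => a) p ν ≤ ENNReal.ofReal (C * K)) :
    Integrable (fun a : E k => (1 + ‖a‖ / K) ^ p) ν ∧ ∫ a, (1 + ‖a‖ / K) ^ p ∂ν ≤ (1 + C) ^ p := by
  rcases Nat.eq_zero_or_pos p with rfl | hp
  · simp
  have hp0 : (p : ℝ≥0∞) ≠ 0 := by exact_mod_cast hp.ne'
  have hpt : (p : ℝ≥0∞) ≠ ∞ := ENNReal.natCast_ne_top p
  have hp1 : (1 : ℝ≥0∞) ≤ p := by exact_mod_cast hp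
  have hcont : Continuous fun a : E k => 1 + ‖a‖ / K := by fun_prop
  have hn : eLpNorm (fun a : E k => 1 + ‖a‖ / K) p ν ≤ ENNReal.ofReal (1 + C) := by
    have e1 : (fun a : E k => 1 + ‖a‖ / K) = (fun _ : E k => (1 : ℝ)) + (K⁻¹ • fun a : E k => ‖a‖) := by
      funext a
      simp only [Pi.add_apply, Pi.smul_apply, smul_eq_mul]
      rw [div_eq_inv_mul]
    rw [e1]
    refine (eLpNorm_add_le aestronglyMeasurable_const
      ((continuous_norm.aestronglyMeasurable).const_smul _) hp1).trans ?_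
    rw [eLpNorm_const_smul, eLpNorm_norm, eLpNorm_const _ hp0 (IsProbabilityMeasure.ne_zero ν), measure_univ,
      ENNReal.one_rpow, mul_one, ENNReal.ofReal_add zero_le_one hC]
    refine add_le_add (by simp) ?_
    calc ‖K⁻¹‖ₑ * eLpNorm (fun a : E k => a) p ν ≤ ‖K⁻¹‖ₑ * ENNReal.ofReal (C * K) := mul_le_mul' le_rfl h
      _ = ENNReal.ofReal C := by
          rw [Real.enorm_eq_ofReal (by positivity), ← ENNReal.ofReal_mul (by positivity)]
          congr 1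
          field_simp
  have hmem : MemLp (fun a : E k => 1 + ‖a‖ / K) p ν := ⟨hcont.aestronglyMeasurable, hn.trans_lt ENNReal.ofReal_lt_top⟩
  have hnorm : ∀ a : E k, ‖1 + ‖a‖ / K‖ = 1 + ‖a‖ / K := fun a => by
    rw [Real.norm_eq_abs, abs_of_nonneg (by positivity)]
  have hint := hmem.integrable_norm_pow hp.ne'
  simp only [hnorm] at hint
  refine ⟨hint, ?_⟩
  have h2 := hmem.eLpNorm_eq_integral_rpow_norm hp0 hpt
  rw [h2] at hn
  simp only [hnorm, ENNReal.toReal_natCast, Real.rpow_natCast] at hn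
  have h3 := (ENNReal.ofReal_le_ofReal_iff (by linarith)).1 hn
  have h4 : 0 ≤ ∫ a : E k, (1 + ‖a‖ / K) ^ p ∂ν := integral_nonneg fun a => by positivity
  have h5 := pow_le_pow_left₀ (Real.rpow_nonneg h4 _) h3 p
  rwa [← Real.rpow_natCast, ← Real.rpow_mul h4, inv_mul_cancel₀ (by exact_mod_cast hp.ne'), Real.rpow_one] at h5

/-- LEAF L-257-SM-TOP2: moments of the remaining spatial law at the top (`fsm_mom_sys`, `fsm_mom_hm`, `fsm_mom_conv`, `fsm_poly_moment`; `M2 = 0` trivial) -/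
theorem fsm_top_moment (k Q M2 : ℕ) (h : M2 + k < Q) : ∃ C : ℝ, 0 ≤ C ∧ ∀ {β : Type} (P : Sm k β) (n : ℕ), P.Q = Q → 0 < P.K0 →
    Integrable (fun a : E k => (1 + ‖a‖ / P.K n) ^ M2) ((P.jq n ∗ fsmHm (P.K n)) ∗ P.sp n) ∧
      ∫ a, (1 + ‖a‖ / P.K n) ^ M2 ∂((P.jq n ∗ fsmHm (P.K n)) ∗ P.sp n) ≤ C := by
  rcases Nat.eq_zero_or_pos M2 with rfl | hp
  · refine ⟨1, zero_le_one, ?_⟩
    intro β P n hPQ hK
    have hQ : k < P.Q := by omega
    have hKn := fsm_K_pos P hK n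
    have i3 := fsm_jq_prob P hQ hK n
    have i4 := fsm_hm_prob (k := k) hKn
    have i5 := fsm_sp_prob P hQ hK n
    simp
  obtain ⟨C1, hC1, h1⟩ := fsm_mom_sys k Q M2 hp h
  obtain ⟨C2, hC2, h2⟩ := fsm_mom_hm k M2 hp
  refine ⟨(1 + (C1 + C2 + C1)) ^ M2, by positivity, ?_⟩
  intro β P n hPQ hK
  have hQ : k < P.Q := by omega
  have hKn := fsm_K_pos P hK n
  have i3 := fsm_jq_prob P hQ hK n
  have i4 := fsm_hm_prob (k := k) hKn
  have i5 := fsm_sp_prob P hQ hK n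
  have hp1 : (1 : ℝ≥0∞) ≤ (M2 : ℝ≥0∞) := by exact_mod_cast hp
  obtain ⟨a1, _, a3, _⟩ := h1 P n hPQ hK
  have a2 := h2 (P.K n) hKn
  refine fsm_poly_moment _ M2 (by positivity) hKn ?_
  refine (fsm_mom_conv _ _ hp1).trans ?_
  refine (add_le_add ((fsm_mom_conv _ _ hp1).trans (add_le_add a1 a2)) a3).trans ?_
  rw [← ENNReal.ofReal_add (by positivity) (by positivity), ← ENNReal.ofReal_add (by positivity) (by positivity)]
  apply ENNReal.ofReal_le_ofReal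
  apply le_of_eq
  ring

/-- LEAF L-257-SM-TOP3: the doubled law -/
theorem fsm_GG (P : Sm k β) (hQ : k < P.Q) (hH : 1 ≤ P.H) (hK : 0 < P.K0) (n : ℕ) (b : β) :
    P.G n b ∗ P.G n b = fsmSx (fsmJm P.Q (P.K n)) ∗ (fsmSx ((P.jq n ∗ fsmHm (P.K n)) ∗ P.sp n) ∗ fsmSt (P.cb b) (fsmGs (2 * P.v n))) := by
  have hKn := fsm_K_pos P hK n
  have hv := (fsm_v_pos P hH hK n).le
  have i1 := fsm_jm_prob (k := k) hQ hKn
  have i2 := fsm_sx_prob (fsmJm P.Q (P.K n) : Measure (E k))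
  have i3 := fsm_jq_prob P hQ hK n
  have i4 := fsm_hm_prob (k := k) hKn
  have i5 := fsm_sx_prob (P.jq n ∗ fsmHm (P.K n))
  have i6 := fsm_st_prob (P.cb b) (fsmGs (P.v n))
  have i7 := fsm_sp_prob P hQ hK n
  have i8 := fsm_sx_prob (P.sp n)
  have e1 : P.G n b ∗ P.G n b = (fsmSx (fsmJm P.Q (P.K n)) ∗ (fsmSx (P.jq n ∗ fsmHm (P.K n)) ∗ fsmSt (P.cb b) (fsmGs (P.v n))))
      ∗ (fsmSx (P.sp n) ∗ fsmSt (P.cb b) (fsmGs (P.v n))) := by
    rw [← fsm_G_factor P hQ hK n b]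
    rfl
  rw [e1, fsm_sx_conv (P.jq n ∗ fsmHm (P.K n)) (P.sp n), two_mul, ← fsm_gs_conv hv hv, fsm_st_conv]
  generalize fsmSx (fsmJm P.Q (P.K n)) = A at *
  generalize fsmSx (P.jq n ∗ fsmHm (P.K n)) = B at *
  generalize fsmSt (P.cb b) (fsmGs (P.v n)) = S at *
  generalize fsmSx (P.sp n) = Cm at *
  rw [Measure.conv_assoc A, Measure.conv_assoc B S, ← Measure.conv_assoc S Cm S, Measure.conv_comm S Cm,
    Measure.conv_assoc Cm S S, ← Measure.conv_assoc B Cm]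

theorem fsm_TOP4_int {X V : Type*} [TopologicalSpace X] [MeasurableSpace X] [OpensMeasurableSpace X] [TopologicalSpace V]
    (μ : Measure X) [IsFiniteMeasure μ] {g : V → ℝ} (hg : fsmBC g) {φ : X → V} (hφ : Continuous φ) : Integrable (fun x => g (φ x)) μ := by
  obtain ⟨hc, B, hB⟩ := hg
  refine Integrable.of_bound (hc.comp hφ).aestronglyMeasurable B (Filter.Eventually.of_forall fun x => ?_)
  simpa using hB (φ x)

theorem fsm_TOP4_dir_cont (b : E k) : Continuous (fsmDir b) := by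
  unfold fsmDir
  fun_prop

/-- the doubled operator as an iterated integral -/
theorem fsm_TOP4_rep (P : Sm k β) {N : ℕ} {Rc Cs N0 N1 cH : ℝ} (h : P.Ok N Rc Cs N0 N1 cH) (n : ℕ) {b : β} (hb : b ∈ P.caps) (z : ST k) :
    fsmCv (P.G n b) (P.f n b) z = ∫ a, ∫ s, fsmCv (fsmSx (fsmJm P.Q (P.K n))) (P.F b) (z - ((a, (0 : ℝ)) + fsmDir (P.cb b) s)) ∂(fsmGs (2 * P.v n))
      ∂((P.jq n ∗ fsmHm (P.K n)) ∗ P.sp n) := by
  have hQ : k < P.Q := by have := h.hQ; omega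
  have hK0 : 0 < P.K0 := by linarith [h.hH, h.hK]
  have hKn := fsm_K_pos P hK0 n
  have := fsm_G_prob P hQ hK0 n b
  have := fsm_jm_prob (k := k) hQ hKn
  have := fsm_jq_prob P hQ hK0 n
  have := fsm_hm_prob (k := k) hKn
  have := fsm_sp_prob P hQ hK0 n
  have := fsm_sx_prob (fsmJm P.Q (P.K n) : Measure (E k))
  have := fsm_sx_prob ((P.jq n ∗ fsmHm (P.K n)) ∗ P.sp n)
  have := fsm_st_prob (P.cb b) (fsmGs (2 * P.v n))
  have hF := h.F_bc b hb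
  set u := fsmCv (fsmSx (fsmJm P.Q (P.K n))) (P.F b) with hu
  have hubc : fsmBC u := fsm_cv_bc _ hF
  have e1 : fsmCv (P.G n b) (P.f n b) = fsmCv (P.G n b ∗ P.G n b) (P.F b) := (fsm_cv_conv _ _ hF).symm
  rw [e1, fsm_GG P hQ h.hH hK0 n b, fsm_cv_conv _ _ hF, fsm_cv_comm _ _ hF, ← hu, fsm_cv_conv _ _ hubc,
    fsm_cv_sx _ _ (fsm_cv_bc _ hubc) z]
  refine integral_congr_ae (Filter.Eventually.of_forall fun a => ?_)
  show fsmCv (fsmSt (P.cb b) (fsmGs (2 * P.v n))) u (z.1 - a, z.2) = _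
  rw [fsm_cv_st _ _ _ hubc]
  refine integral_congr_ae (Filter.Eventually.of_forall fun s => ?_)
  show u _ = u _
  congr 1
  ext1
  · simp [sub_sub]
  · simp

/-- LEAF L-257-SM-TOP4: **top end** (see the header; `fsm_gs_moment M1` with `L = H K_N`, `2 v N ≤ 2 L²`) -/
theorem fsm_top (k Q M1 M2 : ℕ) (h : M2 + k < Q) : ∃ C : ℝ, 0 ≤ C ∧ FsmTop k Q M1 M2 C := by
  obtain ⟨Ca, hCa, hmom⟩ := fsm_top_moment k Q M2 h
  obtain ⟨Ct, hCt, hgs⟩ := fsm_gs_moment M1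
  refine ⟨Ca * Ct, by positivity, ?_⟩
  intro β P N Rc Cs N0 N1 cH G0 hPQ hOk hG ht
  have hQ : k < P.Q := by have := hOk.hQ; omega
  have hH0 : 0 < P.H := by linarith [hOk.hH]
  have hK0 : 0 < P.K0 := by linarith [hOk.hH, hOk.hK]
  have hKn := fsm_K_pos P hK0 N
  have := fsm_jm_prob (k := k) hQ hKn
  have := fsm_jq_prob P hQ hK0 N
  have := fsm_hm_prob (k := k) hKn
  have := fsm_sp_prob P hQ hK0 N
  have := fsm_sx_prob (fsmJm P.Q (P.K N) : Measure (E k))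
  set ν := (P.jq N ∗ fsmHm (P.K N)) ∗ P.sp N with hν
  set γ := fsmGs (2 * P.v N) with hγ
  set L := P.H * P.K N with hL
  have hL0 : 0 < L := by positivity
  obtain ⟨hai, hab⟩ := hmom P N hPQ hK0
  have hv := (fsm_v_bounds P hOk.hH hOk.hK N).2
  have hv0 := (fsm_v_pos P hOk.hH hK0 N).le
  obtain ⟨hsi, hsb⟩ := hgs (2 * P.v N) L (by positivity) hL0 (by linarith)
  set u : β → ST k → ℝ := fun b => fsmCv (fsmSx (fsmJm P.Q (P.K N))) (P.F b) with hu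
  have hubc : ∀ b ∈ P.caps, fsmBC (u b) := fun b hb => fsm_cv_bc _ (hOk.F_bc b hb)
  have hz : ∀ z ∈ P.Y, ∑ b ∈ P.caps, fsmCv (P.G N b) (P.psi N b) z ≤ Ca * Ct * G0 := by
    intro z hz
    have s1 : ∑ b ∈ P.caps, fsmCv (P.G N b) (P.psi N b) z
        ≤ ∑ b ∈ P.caps, ∫ a, ∫ s, u b (z - ((a, (0 : ℝ)) + fsmDir (P.cb b) s)) ∂γ ∂ν := by
      refine Finset.sum_le_sum fun b hb => ?_
      have := fsm_G_prob P hQ hK0 N b
      rw [← fsm_TOP4_rep P hOk N hb z]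
      exact fsm_cv_mono _ (fsm_psi_bc P hOk N hb).1 (fsm_f_bc P hOk N hb).1 (fsm_psi_bc P hOk N hb).2.2.1 z
    refine s1.trans ?_
    -- inner integrals are bounded continuous in a
    have hin : ∀ b ∈ P.caps, ∀ a : E k, Integrable (fun s => u b (z - ((a, (0 : ℝ)) + fsmDir (P.cb b) s))) γ := by
      intro b hb a
      refine fsm_TOP4_int γ (hubc b hb) ?_
      have := fsm_TOP4_dir_cont (P.cb b)
      fun_prop
    have hout : ∀ b ∈ P.caps, Integrable (fun a => ∫ s, u b (z - ((a, (0 : ℝ)) + fsmDir (P.cb b) s)) ∂γ) ν := by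
      intro b hb
      have := fsm_st_prob (P.cb b) γ
      have hg : fsmBC (fsmCv (fsmSt (P.cb b) γ) (u b)) := fsm_cv_bc _ (hubc b hb)
      have e : (fun a => ∫ s, u b (z - ((a, (0 : ℝ)) + fsmDir (P.cb b) s)) ∂γ)
          = fun a => fsmCv (fsmSt (P.cb b) γ) (u b) (z - (a, (0 : ℝ))) := by
        funext a
        rw [fsm_cv_st _ _ _ (hubc b hb)]
        refine integral_congr_ae (Filter.Eventually.of_forall fun s => ?_)
        show u b _ = u b _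
        rw [sub_sub]
      rw [e]
      exact fsm_TOP4_int ν hg (by fun_prop)
    rw [← integral_finsetSum _ hout]
    have hpt : ∀ a : E k, ∑ b ∈ P.caps, ∫ s, u b (z - ((a, (0 : ℝ)) + fsmDir (P.cb b) s)) ∂γ ≤ G0 * Ct * (1 + ‖a‖ / P.K N) ^ M2 := by
      intro a
      rw [← integral_finsetSum _ fun b hb => hin b hb a]
      have hA : 0 ≤ G0 * (1 + ‖a‖ / P.K N) ^ M2 := by positivity
      calc ∫ s, ∑ b ∈ P.caps, u b (z - ((a, (0 : ℝ)) + fsmDir (P.cb b) s)) ∂γ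
          ≤ ∫ s, G0 * (1 + ‖a‖ / P.K N) ^ M2 * (1 + |s| / L) ^ M1 ∂γ := by
            refine integral_mono (integrable_finsetSum _ fun b hb => hin b hb a) (hsi.const_mul _) fun s => ?_
            exact ht z hz a s
        _ = G0 * (1 + ‖a‖ / P.K N) ^ M2 * ∫ s, (1 + |s| / L) ^ M1 ∂γ := integral_const_mul _ _
        _ ≤ G0 * (1 + ‖a‖ / P.K N) ^ M2 * Ct := mul_le_mul_of_nonneg_left hsb hA
        _ = _ := by ring
    calc ∫ a, ∑ b ∈ P.caps, ∫ s, u b (z - ((a, (0 : ℝ)) + fsmDir (P.cb b) s)) ∂γ ∂ν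
        ≤ ∫ a, G0 * Ct * (1 + ‖a‖ / P.K N) ^ M2 ∂ν := integral_mono (integrable_finsetSum _ hout) (hai.const_mul _) hpt
      _ = G0 * Ct * ∫ a, (1 + ‖a‖ / P.K N) ^ M2 ∂ν := integral_const_mul _ _
      _ ≤ G0 * Ct * Ca := mul_le_mul_of_nonneg_left hab (by positivity)
      _ = _ := by ring
  unfold Sm.I
  rw [Finset.sum_comm]
  have hHp : 0 ≤ P.H ^ (k + 2) := by positivity
  calc P.H ^ (k + 2) * ∑ z ∈ P.Y, ∑ b ∈ P.caps, fsmCv (P.G N b) (P.psi N b) z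
      ≤ P.H ^ (k + 2) * ∑ z ∈ P.Y, Ca * Ct * G0 := mul_le_mul_of_nonneg_left (Finset.sum_le_sum hz) hHp
    _ = _ := by
        simp only [Finset.sum_const, nsmul_eq_mul]
        ring

/-- LEAF L-257-SM-BOT1: lower bound under a shift -/
theorem fsm_f0_shift (P : Sm k β) {N : ℕ} {Rc Cs N0 N1 cH : ℝ} (h : P.Ok N Rc Cs N0 N1 cH) {b : β} (hb : b ∈ P.caps) (z : ST k) (a : E k) (s : ℝ) :
    (2 ^ P.Q * (1 + ‖a‖ / P.K0) ^ P.Q)⁻¹ * Real.exp (-(cH / (P.H * P.K0) * |s|)) * P.f0 b z ≤ P.f0 b (z - ((a, (0 : ℝ)) + fsmDir (P.cb b) s)) := by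
  have hQ : k < P.Q := by have := h.hQ; omega
  have hK : 0 < P.K0 := by linarith [h.hH, h.hK]
  have h1 := h.har b hb 0 (Nat.zero_le _)
  rw [fsm_K_zero] at h1
  have h2 := fsm_cv_jm_peetre hQ hK (h.F_bc b hb) (h.F_nonneg b hb) z a
  have h3 := fsm_har_lower h1 (z - (a, (0 : ℝ))) s
  unfold Sm.f0
  rw [← sub_sub]
  refine le_trans ?_ h3
  have hpos : 0 < (2 : ℝ) ^ P.Q * (1 + ‖a‖ / P.K0) ^ P.Q := by positivity
  rw [mul_comm _ (Real.exp _), mul_assoc]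
  refine mul_le_mul_of_nonneg_left ?_ (Real.exp_pos _).le
  rw [inv_mul_le_iff₀ hpos]
  exact h2

/-- LEAF L-257-SM-BOT2: lower bound of the spatial average of the Peetre factor (Markov: `ν(|a| ≤ 2 C K) ≥ 1/2`) -/
theorem fsm_low_space (ν : Measure (E k)) [IsProbabilityMeasure ν] (Q : ℕ) {C K : ℝ} (hC : 0 ≤ C) (hK : 0 < K)
    (h : eLpNorm (fun a : E k => a) 1 ν ≤ ENNReal.ofReal (C * K)) :
    (2 * (1 + 2 * C) ^ Q)⁻¹ ≤ ∫ a, ((1 + ‖a‖ / K) ^ Q)⁻¹ ∂ν := by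
  have hid : Integrable (fun a : E k => a) ν :=
    memLp_one_iff_integrable.1 ⟨aestronglyMeasurable_id, h.trans_lt ENNReal.ofReal_lt_top⟩
  have hm : ∫ a : E k, ‖a‖ ∂ν ≤ C * K := by
    rw [integral_norm_eq_lintegral_enorm hid.aestronglyMeasurable, ← eLpNorm_one_eq_lintegral_enorm]
    exact ENNReal.toReal_le_of_le_ofReal (by positivity) h
  have hfi : Integrable (fun a : E k => 1 + ‖a‖ / K) ν := (integrable_const _).add (hid.norm.div_const K)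
  have hconv : ConvexOn ℝ (Ici (1 : ℝ)) fun x : ℝ => x ^ (-(Q : ℤ)) :=
    (convexOn_zpow _).subset (fun x hx => Set.mem_Ioi.2 (lt_of_lt_of_le zero_lt_one (Set.mem_Ici.1 hx))) (convex_Ici 1)
  have hcont : ContinuousOn (fun x : ℝ => x ^ (-(Q : ℤ))) (Ici (1 : ℝ)) := by
    intro x hx
    have hx0 : x ≠ 0 := (lt_of_lt_of_le zero_lt_one (Set.mem_Ici.1 hx)).ne'
    exact (continuousAt_zpow₀ x _ (Or.inl hx0)).continuousWithinAt
  have hval : ∀ a : E k, (1 + ‖a‖ / K) ^ (-(Q : ℤ)) = ((1 + ‖a‖ / K) ^ Q)⁻¹ := fun a => by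
    rw [zpow_neg, zpow_natCast]
  have hgi : Integrable ((fun x : ℝ => x ^ (-(Q : ℤ))) ∘ fun a : E k => 1 + ‖a‖ / K) ν := by
    have hc : Continuous fun a : E k => ((1 + ‖a‖ / K) ^ Q)⁻¹ := by
      refine Continuous.inv₀ (by fun_prop) fun a => ?_
      positivity
    have e : ((fun x : ℝ => x ^ (-(Q : ℤ))) ∘ fun a : E k => 1 + ‖a‖ / K) = fun a : E k => ((1 + ‖a‖ / K) ^ Q)⁻¹ := by
      funext a
      exact hval a
    rw [e]
    refine Integrable.of_bound hc.aestronglyMeasurable 1 (Filter.Eventually.of_forall fun a => ?_)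
    rw [Real.norm_eq_abs, abs_of_nonneg (by positivity)]
    refine inv_le_one_of_one_le₀ (one_le_pow₀ ?_)
    have : 0 ≤ ‖a‖ / K := by positivity
    linarith
  have hJ := hconv.map_integral_le hcont isClosed_Ici (Filter.Eventually.of_forall fun a : E k => by
    show (1 : ℝ) ≤ 1 + ‖a‖ / K
    have : 0 ≤ ‖a‖ / K := by positivity
    linarith) hfi hgi
  simp only [hval] at hJ
  refine le_trans ?_ hJ
  have e2 : ∫ a : E k, (1 + ‖a‖ / K) ∂ν = 1 + (∫ a : E k, ‖a‖ ∂ν) / K := by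
    rw [integral_add (integrable_const _) (hid.norm.div_const K), integral_div]
    simp
  rw [e2, zpow_neg, zpow_natCast]
  have hm0 : 0 ≤ ∫ a : E k, ‖a‖ ∂ν := integral_nonneg fun a => norm_nonneg a
  have h6 : (∫ a : E k, ‖a‖ ∂ν) / K ≤ C := by
    rw [div_le_iff₀ hK]
    exact hm
  have h7 : 0 ≤ (∫ a : E k, ‖a‖ ∂ν) / K := by positivity
  refine inv_anti₀ (by positivity) ?_
  have h8 : (1 + (∫ a : E k, ‖a‖ ∂ν) / K) ^ Q ≤ (1 + 2 * C) ^ Q := pow_le_pow_left₀ (by positivity) (by linarith) Q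
  have h9 : 0 ≤ (1 + 2 * C) ^ Q := by positivity
  linarith

/-- LEAF L-257-SM-BOT2: lower bound of the time average (Jensen for `exp`, or Markov; `fsm_gs_abs`) -/
theorem fsm_low_time {v c : ℝ} (hv : 0 ≤ v) (hc : 0 ≤ c) : Real.exp (-(c * Real.sqrt v)) ≤ ∫ s, Real.exp (-(c * |s|)) ∂(fsmGs v) := by
  obtain ⟨hai, hab⟩ := fsm_gs_abs hv
  have hfi : Integrable (fun s : ℝ => -(c * |s|)) (fsmGs v) := (hai.const_mul c).neg
  have hgi : Integrable (Real.exp ∘ fun s : ℝ => -(c * |s|)) (fsmGs v) := by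
    have hc2 : Continuous (Real.exp ∘ fun s : ℝ => -(c * |s|)) := by fun_prop
    refine Integrable.of_bound hc2.aestronglyMeasurable 1 (Filter.Eventually.of_forall fun s => ?_)
    rw [Real.norm_eq_abs, Function.comp_apply, abs_of_pos (Real.exp_pos _), Real.exp_le_one_iff]
    have : 0 ≤ c * |s| := by positivity
    linarith
  have hJ := convexOn_exp.map_integral_le Real.continuous_exp.continuousOn isClosed_univ
    (Filter.Eventually.of_forall fun _ => mem_univ _) hfi hgi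
  refine le_trans (Real.exp_le_exp.2 ?_) hJ
  rw [integral_neg, integral_const_mul]
  have := mul_le_mul_of_nonneg_left hab hc
  linarith

/-- iterated integral form of `cv (sx ν * st b γ)` -/
theorem fsm_BOT3_rep (ν : Measure (E k)) [IsProbabilityMeasure ν] (γ : Measure ℝ) [IsProbabilityMeasure γ] (b : E k) {χ : ST k → ℝ} (hχ : fsmBC χ) (z : ST k) :
    fsmCv (fsmSx ν ∗ fsmSt b γ) χ z = ∫ a, ∫ s, χ (z - ((a, (0 : ℝ)) + fsmDir b s)) ∂γ ∂ν := by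
  have := fsm_sx_prob ν
  have := fsm_st_prob b γ
  rw [fsm_cv_conv _ _ hχ, fsm_cv_sx _ _ (fsm_cv_bc _ hχ) z]
  refine integral_congr_ae (Filter.Eventually.of_forall fun a => ?_)
  show fsmCv (fsmSt b γ) χ (z.1 - a, z.2) = _
  rw [fsm_cv_st _ _ _ hχ]
  refine integral_congr_ae (Filter.Eventually.of_forall fun s => ?_)
  show χ _ = χ _
  congr 1
  ext1
  · simp [sub_sub]
  · simp

/-- lower bound of an average of a function with a Peetre-Harnack lower bound -/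
theorem fsm_BOT3_low (ν : Measure (E k)) [IsProbabilityMeasure ν] (Q : ℕ) {C K v c X : ℝ} (hC : 0 ≤ C) (hK : 0 < K) (hv : 0 ≤ v) (hc : 0 ≤ c) (hX : 0 ≤ X)
    (hm : eLpNorm (fun a : E k => a) 1 ν ≤ ENNReal.ofReal (C * K)) (b : E k) {χ : ST k → ℝ} (hχ : fsmBC χ) (z : ST k)
    (hlow : ∀ (a : E k) (s : ℝ), (2 ^ Q * (1 + ‖a‖ / K) ^ Q)⁻¹ * Real.exp (-(c * |s|)) * X ≤ χ (z - ((a, (0 : ℝ)) + fsmDir b s))) :
    (2 ^ Q)⁻¹ * (2 * (1 + 2 * C) ^ Q)⁻¹ * Real.exp (-(c * Real.sqrt v)) * X ≤ fsmCv (fsmSx ν ∗ fsmSt b (fsmGs v)) χ z := by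
  rw [fsm_BOT3_rep ν (fsmGs v) b hχ z]
  have h1 := fsm_low_space ν Q hC hK hm
  have h2 := fsm_low_time hv hc
  set γ := fsmGs v with hγ
  have hdir := fsm_TOP4_dir_cont b
  have hsi : Integrable (fun s : ℝ => Real.exp (-(c * |s|))) γ := by
    refine Integrable.of_bound (by fun_prop) 1 (Filter.Eventually.of_forall fun s => ?_)
    rw [Real.norm_eq_abs, abs_of_pos (Real.exp_pos _)]
    exact Real.exp_le_one_iff.2 (by have := abs_nonneg s; nlinarith)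
  have hai : Integrable (fun a : E k => ((1 + ‖a‖ / K) ^ Q)⁻¹) ν := by
    refine Integrable.of_bound ?_ 1 (Filter.Eventually.of_forall fun a => ?_)
    · refine Continuous.aestronglyMeasurable ?_
      refine Continuous.inv₀ (by fun_prop) fun a => ?_
      positivity
    · rw [Real.norm_eq_abs, abs_of_nonneg (by positivity)]
      apply inv_le_one_of_one_le₀
      apply one_le_pow₀
      have : 0 ≤ ‖a‖ / K := by positivity
      linarith
  have hin : ∀ a : E k, Integrable (fun s => χ (z - ((a, (0 : ℝ)) + fsmDir b s))) γ := fun a => fsm_TOP4_int γ hχ (by fun_prop)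
  have hout : Integrable (fun a => ∫ s, χ (z - ((a, (0 : ℝ)) + fsmDir b s)) ∂γ) ν := by
    have := fsm_st_prob b γ
    have hg : fsmBC (fsmCv (fsmSt b γ) χ) := fsm_cv_bc _ hχ
    have e : (fun a => ∫ s, χ (z - ((a, (0 : ℝ)) + fsmDir b s)) ∂γ) = fun a => fsmCv (fsmSt b γ) χ (z - (a, (0 : ℝ))) := by
      funext a
      rw [fsm_cv_st _ _ _ hχ]
      refine integral_congr_ae (Filter.Eventually.of_forall fun s => ?_)
      show χ _ = χ _
      rw [sub_sub]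
    rw [e]
    exact fsm_TOP4_int ν hg (by fun_prop)
  set It := ∫ s, Real.exp (-(c * |s|)) ∂γ with hIt
  have hIt0 : 0 ≤ It := le_trans (Real.exp_pos _).le h2
  have hpt : ∀ a : E k, (2 ^ Q)⁻¹ * It * X * ((1 + ‖a‖ / K) ^ Q)⁻¹ ≤ ∫ s, χ (z - ((a, (0 : ℝ)) + fsmDir b s)) ∂γ := by
    intro a
    calc (2 ^ Q)⁻¹ * It * X * ((1 + ‖a‖ / K) ^ Q)⁻¹ = ∫ s, (2 ^ Q * (1 + ‖a‖ / K) ^ Q)⁻¹ * X * Real.exp (-(c * |s|)) ∂γ := by
          rw [integral_const_mul, mul_inv]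
          ring
      _ ≤ _ := by
          refine integral_mono (hsi.const_mul _) (hin a) fun s => ?_
          have := hlow a s
          show (2 ^ Q * (1 + ‖a‖ / K) ^ Q)⁻¹ * X * Real.exp (-(c * |s|)) ≤ _
          linarith
  calc (2 ^ Q)⁻¹ * (2 * (1 + 2 * C) ^ Q)⁻¹ * Real.exp (-(c * Real.sqrt v)) * X
      ≤ (2 ^ Q)⁻¹ * (∫ a, ((1 + ‖a‖ / K) ^ Q)⁻¹ ∂ν) * It * X := by
        have p1 : (0 : ℝ) ≤ (2 ^ Q)⁻¹ := by positivity
        have p2 : (0 : ℝ) ≤ (2 * (1 + 2 * C) ^ Q)⁻¹ := by positivity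
        apply mul_le_mul_of_nonneg_right _ hX
        apply mul_le_mul _ h2 (Real.exp_pos _).le (mul_nonneg p1 (le_trans p2 h1))
        exact mul_le_mul_of_nonneg_left h1 p1
    _ = ∫ a, (2 ^ Q)⁻¹ * It * X * ((1 + ‖a‖ / K) ^ Q)⁻¹ ∂ν := by
        rw [integral_const_mul]
        ring
    _ ≤ _ := integral_mono (hai.const_mul _) hout hpt

/-- LEAF L-257-SM-BOT3: **bottom end** (see the header) -/
theorem fsm_bot (k Q : ℕ) (hQ : k + 3 ≤ Q) (cH : ℝ) : ∃ c : ℝ, 0 < c ∧ FsmBot k Q cH c := by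
  obtain ⟨C1, hC1, hsys⟩ := fsm_mom_sys k Q 1 le_rfl (by omega)
  obtain ⟨C2, hC2, hhm⟩ := fsm_mom_hm k 1 le_rfl
  set l1 : ℝ := (2 ^ Q)⁻¹ * (2 * (1 + 2 * (C1 + C2)) ^ Q)⁻¹ * Real.exp (-cH) with hl1
  set l2 : ℝ := (2 ^ Q)⁻¹ * (2 * (1 + 2 * C1) ^ Q)⁻¹ * Real.exp (-cH) with hl2
  have hl1p : 0 < l1 := by positivity
  have hl2p : 0 < l2 := by positivity
  refine ⟨l1 * l2 * (1 / 2), by positivity, ?_⟩
  intro β P N Rc Cs N0 N1 hPQ h
  have hQ' : k < P.Q := by have := h.hQ; omega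
  have hH0 : 0 < P.H := by linarith [h.hH]
  have hK0 : 0 < P.K0 := by linarith [h.hH, h.hK]
  have hKz : P.K 0 = P.K0 := fsm_K_zero P
  have hcH := h.hcH
  set c0 := cH / (P.H * P.K0) with hc0
  have hc00 : 0 ≤ c0 := by positivity
  have hv0 : 0 ≤ P.v 0 := (fsm_v_pos P h.hH hK0 0).le
  have hvb : Real.sqrt (P.v 0) ≤ P.H * P.K0 := by
    have := (fsm_v_bounds P h.hH h.hK 0).2
    rw [hKz] at this
    calc Real.sqrt (P.v 0) ≤ Real.sqrt ((P.H * P.K0) ^ 2) := Real.sqrt_le_sqrt this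
      _ = _ := Real.sqrt_sq (by positivity)
  have hexp : Real.exp (-cH) ≤ Real.exp (-(c0 * Real.sqrt (P.v 0))) := by
    apply Real.exp_le_exp.2
    have : c0 * Real.sqrt (P.v 0) ≤ c0 * (P.H * P.K0) := mul_le_mul_of_nonneg_left hvb hc00
    have e : c0 * (P.H * P.K0) = cH := by rw [hc0]; field_simp
    linarith
  have := fsm_jm_prob (k := k) hQ' hK0
  have := fsm_jq_prob P hQ' hK0 0
  have := fsm_hm_prob (k := k) hK0
  have := fsm_sp_prob P hQ' hK0 0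
  have := fsm_sx_prob (fsmJm P.Q P.K0 : Measure (E k))
  obtain ⟨mq, _, ms, _⟩ := hsys P 0 hPQ hK0
  rw [hKz] at mq ms
  have mh := hhm P.K0 hK0
  simp only [Nat.cast_one] at mq ms mh
  have m1 : eLpNorm (fun a : E k => a) 1 (P.jq 0 ∗ fsmHm P.K0) ≤ ENNReal.ofReal ((C1 + C2) * P.K0) := by
    refine (fsm_mom_conv _ _ le_rfl).trans ?_
    rw [add_mul, ENNReal.ofReal_add (by positivity) (by positivity)]
    exact add_le_add mq mh
  have l1le : l1 ≤ 1 := by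
    rw [hl1]
    have a1 : ((2 : ℝ) ^ Q)⁻¹ ≤ 1 := inv_le_one_of_one_le₀ (one_le_pow₀ (by norm_num))
    have a2 : (2 * (1 + 2 * (C1 + C2)) ^ Q)⁻¹ ≤ 1 := by
      apply inv_le_one_of_one_le₀
      have : (1 : ℝ) ≤ (1 + 2 * (C1 + C2)) ^ Q := one_le_pow₀ (by linarith)
      linarith
    have a3 : Real.exp (-cH) ≤ 1 := Real.exp_le_one_iff.2 (by linarith)
    calc _ ≤ (1 : ℝ) * 1 * 1 := by
          apply mul_le_mul (mul_le_mul a1 a2 (by positivity) (by norm_num)) a3 (Real.exp_pos _).le (by norm_num)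
      _ = 1 := by norm_num
  have key : ∀ b ∈ P.caps, ∀ z, l1 * l2 * (1 / 2) * min (P.f0 b z) P.Mc ≤ fsmCv (P.G 0 b) (P.psi 0 b) z := by
    intro b hb z
    have hF := h.F_bc b hb
    have hf0bc : fsmBC (P.f0 b) := fsm_cv_bc _ hF
    have hf0n : ∀ w, 0 ≤ P.f0 b w := fun w => fsm_cv_nonneg _ (h.F_nonneg b hb) w
    have := fsm_G_prob P hQ' hK0 0 b
    have := fsm_sx_prob (P.jq 0 ∗ fsmHm P.K0)
    have := fsm_st_prob (P.cb b) (fsmGs (P.v 0))
    -- step 1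
    have hfrep : P.f 0 b = fsmCv (fsmSx (P.jq 0 ∗ fsmHm P.K0) ∗ fsmSt (P.cb b) (fsmGs (P.v 0))) (P.f0 b) := by
      show fsmCv (P.G 0 b) (P.F b) = _
      rw [fsm_G_factor P hQ' hK0 0 b, hKz, fsm_cv_conv _ _ hF, fsm_cv_comm _ _ hF]
      rfl
    have s1 : ∀ w, l1 * P.f0 b w ≤ P.f 0 b w := by
      intro w
      rw [hfrep]
      have := fsm_BOT3_low (P.jq 0 ∗ fsmHm P.K0) P.Q (by positivity : 0 ≤ C1 + C2) hK0 hv0 hc00 (hf0n w) m1 (P.cb b) hf0bc w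
        (fun a s => fsm_f0_shift P h hb w a s)
      refine le_trans ?_ this
      rw [hl1, hPQ]
      apply mul_le_mul_of_nonneg_right _ (hf0n w)
      exact mul_le_mul_of_nonneg_left hexp (by positivity)
    -- step 2
    have s2 : ∀ w, l1 * fsmPhi P.Mc (P.f0 b w) ≤ P.psi 0 b w := by
      intro w
      calc l1 * fsmPhi P.Mc (P.f0 b w) ≤ fsmPhi P.Mc (l1 * P.f0 b w) := fsm_phi_scale h.hMc hl1p.le l1le
        _ ≤ fsmPhi P.Mc (P.f 0 b w) := fsm_phi_mono h.hMc (s1 w)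
    -- step 3
    set χ : ST k → ℝ := fun w => fsmPhi P.Mc (P.f0 b w) with hχ
    have hχbc : fsmBC χ := fsm_phi_bc h.hMc hf0bc
    have hχ0 : 0 ≤ χ z := fsm_phi_nonneg h.hMc (hf0n z)
    have s3 : l2 * χ z ≤ fsmCv (P.G 0 b) χ z := by
      have hG : P.G 0 b = fsmSx (P.sp 0) ∗ fsmSt (P.cb b) (fsmGs (P.v 0)) := rfl
      rw [hG]
      have := fsm_BOT3_low (P.sp 0) P.Q hC1 hK0 hv0 hc00 hχ0 ms (P.cb b) hχbc z (fun a s => by
        set lam := (2 ^ P.Q * (1 + ‖a‖ / P.K0) ^ P.Q)⁻¹ * Real.exp (-(c0 * |s|)) with hlam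
        have hlam0 : 0 ≤ lam := by positivity
        have hlam1 : lam ≤ 1 := by
          have a1 : (2 ^ P.Q * (1 + ‖a‖ / P.K0) ^ P.Q)⁻¹ ≤ 1 := by
            apply inv_le_one_of_one_le₀
            have b1 : (1 : ℝ) ≤ 2 ^ P.Q := one_le_pow₀ (by norm_num)
            have b0 : 0 ≤ ‖a‖ / P.K0 := by positivity
            have b2 : (1 : ℝ) ≤ (1 + ‖a‖ / P.K0) ^ P.Q := one_le_pow₀ (by linarith)
            nlinarith
          have a2 : Real.exp (-(c0 * |s|)) ≤ 1 := Real.exp_le_one_iff.2 (by have := abs_nonneg s; nlinarith)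
          calc lam ≤ 1 * 1 := mul_le_mul a1 a2 (Real.exp_pos _).le (by norm_num)
            _ = 1 := by norm_num
        calc lam * χ z ≤ fsmPhi P.Mc (lam * P.f0 b z) := fsm_phi_scale h.hMc hlam0 hlam1
          _ ≤ fsmPhi P.Mc (P.f0 b (z - ((a, (0 : ℝ)) + fsmDir (P.cb b) s))) := fsm_phi_mono h.hMc (fsm_f0_shift P h hb z a s))
      refine le_trans ?_ this
      rw [hl2, hPQ]
      apply mul_le_mul_of_nonneg_right _ hχ0
      exact mul_le_mul_of_nonneg_left hexp (by positivity)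
    have s4 : l1 * fsmCv (P.G 0 b) χ z ≤ fsmCv (P.G 0 b) (P.psi 0 b) z := by
      have e := congrFun (fsm_cv_const_mul (P.G 0 b) l1 χ) z
      rw [← e]
      refine fsm_cv_mono _ ?_ (fsm_psi_bc P h 0 hb).1 s2 z
      obtain ⟨hc, B, hB⟩ := hχbc
      refine ⟨continuous_const.mul hc, l1 * B, fun w => ?_⟩
      rw [abs_mul, abs_of_pos hl1p]
      exact mul_le_mul_of_nonneg_left (hB w) hl1p.le
    have s5 := fsm_phi_ge_min h.hMc (hf0n z)
    calc l1 * l2 * (1 / 2) * min (P.f0 b z) P.Mc = l1 * (l2 * ((1 / 2) * min (P.f0 b z) P.Mc)) := by ring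
      _ ≤ l1 * (l2 * χ z) := by
          apply mul_le_mul_of_nonneg_left _ hl1p.le
          exact mul_le_mul_of_nonneg_left s5 hl2p.le
      _ ≤ l1 * fsmCv (P.G 0 b) χ z := mul_le_mul_of_nonneg_left s3 hl1p.le
      _ ≤ _ := s4
  unfold Sm.I
  have hHp : 0 ≤ P.H ^ (k + 2) := by positivity
  rw [Finset.sum_comm]
  calc l1 * l2 * (1 / 2) * (P.H ^ (k + 2) * ∑ b ∈ P.caps, ∑ z ∈ P.Y, min (P.f0 b z) P.Mc)
      = P.H ^ (k + 2) * ∑ b ∈ P.caps, ∑ z ∈ P.Y, l1 * l2 * (1 / 2) * min (P.f0 b z) P.Mc := by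
        simp only [Finset.mul_sum]
        refine Finset.sum_congr rfl fun b _ => Finset.sum_congr rfl fun z _ => ?_
        ring
    _ ≤ _ := mul_le_mul_of_nonneg_left (Finset.sum_le_sum fun b hb => Finset.sum_le_sum fun z _ => key b hb z) hHp

/-- **the abstract smoothing theorem** -/
theorem fsm_abs (k Q M1 M2 : ℕ) (hQ : k + 3 ≤ Q) (hM : M2 + k < Q) (Rc cH : ℝ) (hcH : 0 ≤ cH) (hRc : 1 ≤ Rc) : ∃ C : ℝ, 0 ≤ C ∧
    ∀ {β : Type} (P : Sm k β) (N : ℕ) (Cs N0 N1 G0 : ℝ), P.Q = Q → P.Ok N Rc Cs N0 N1 cH → 0 ≤ G0 → P.Top N G0 M1 M2 →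
    ∑ z ∈ P.Y, ∑ b ∈ P.caps, min (P.f0 b z) P.Mc
      ≤ C * (G0 + (Cs * (P.Mc * P.H ^ k) + Real.sqrt (Cs * N0 * N1 * (P.Mc * P.H ^ k))) * ∑ n ∈ Finset.range N, P.mu n ^ (-(1 / 4 : ℝ))) * P.Y.card := by
  obtain ⟨C2, hC2, hX⟩ := fsm_space k Q hQ Rc
  obtain ⟨C3, hC3, hT⟩ := fsm_top k Q M1 M2 hM
  obtain ⟨c, hc, hB⟩ := fsm_bot k Q hQ cH
  have hC1 : (0 : ℝ) ≤ 3 * (Rc + 1) := by linarith
  refine ⟨c⁻¹ * (C3 + 3 * (Rc + 1) * cH + C2), by positivity, ?_⟩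
  intro β P N Cs N0 N1 G0 hPQ hOk hG ht
  exact fsm_abs_of hc hC1 hC2 hC3 hcH (fsm_step k) (fsm_time k Rc) hX hT hB P N Cs N0 N1 G0 hPQ hOk hG ht

end Claimed.Agent.R257
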