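import Claimed.Agent.R257.FR1.SmOp

/-!
# R257 / FR1 / SmKer : the kernels `fsmJ`, `fsmHk`, the laws `fsmJm`, `fsmHm`, `fsmGs`, `Sm.jq`, `Sm.jp`, `Sm.sp`, `Sm.G`, `Sm.mx`, `Sm.mt`      (architect helper94)

Every `sorry` is part of a LEAF (name in the docstring).  Statements frozen (tell helper94 at once if one is false or awkward); prove IN PLACE, helper lemmas directly above, prefix `fsm_<leaf>_`.
Mathlib: `integrable_rpow_neg_one_add_norm_sq`, `GaussianFourier.integral_rexp_neg_mul_sq_norm`, `fourierIntegral_gaussian_innerProductSpace`, `charFun_conv`, `Measure.ext_of_charFun`,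
`gaussianReal_conv_gaussianReal`, `Measure.map_conv_continuousLinearMap`, `Measure.conv_assoc`, `Measure.conv_comm`, `charFun_eq_fourierIntegral`.
-/

set_option autoImplicit false

namespace Claimed.Agent.R257

open MeasureTheory ProbabilityTheory Metric Set
open scoped ENNReal NNReal InnerProductSpace

variable {k : ℕ}

/-! ## the polynomial kernel -/

/-- LEAF L-257-SM-KJ -/
theorem fsm_W_pos (Q : ℕ) (x : E k) : 0 < fsmW Q x := by
  unfold fsmW
  positivity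

/-- LEAF L-257-SM-KJ -/
theorem fsm_W_continuous (Q : ℕ) : Continuous (fsmW Q : E k → ℝ) := by
  unfold fsmW
  exact Continuous.rpow_const (by fun_prop) (fun x => Or.inl (by positivity))

/-- LEAF L-257-SM-KJ -/
theorem fsm_W_le_one (Q : ℕ) (x : E k) : fsmW Q x ≤ 1 := by
  unfold fsmW
  apply Real.rpow_le_one_of_one_le_of_nonpos
  · have := sq_nonneg ‖x‖
    linarith
  · have : (0 : ℝ) ≤ Q := Nat.cast_nonneg Q
    linarith

/-- LEAF L-257-SM-KJ (`integrable_rpow_neg_one_add_norm_sq`) -/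
theorem fsm_W_integrable {Q : ℕ} (hQ : k < Q) : Integrable (fsmW Q : E k → ℝ) := by
  unfold fsmW
  apply integrable_rpow_neg_one_add_norm_sq
  rw [finrank_euclideanSpace, Fintype.card_fin]
  exact_mod_cast hQ

/-- LEAF L-257-SM-KJ -/
theorem fsm_W_anti {Q Q' : ℕ} (h : Q' ≤ Q) (x : E k) : fsmW Q x ≤ fsmW Q' x := by
  unfold fsmW
  apply Real.rpow_le_rpow_of_exponent_le
  · have := sq_nonneg ‖x‖
    linarith
  · have : (Q' : ℝ) ≤ Q := by exact_mod_cast h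
    linarith

/-- LEAF L-257-SM-KJ: `|x| ≤ |y|` gives `W(y) ≤ W(x)` -/
theorem fsm_W_anti_norm (Q : ℕ) {x y : E k} (h : ‖x‖ ≤ ‖y‖) : fsmW Q y ≤ fsmW Q x := by
  unfold fsmW
  apply Real.rpow_le_rpow_of_nonpos (by positivity)
  · have := pow_le_pow_left₀ (norm_nonneg x) h 2
    linarith
  · have : (0 : ℝ) ≤ Q := Nat.cast_nonneg Q
    linarith

/-- the weight as a power of the inverse bracket -/
theorem fsm_KJ_W_eq (Q : ℕ) (y : E k) : fsmW Q y = (Real.sqrt (1 + ‖y‖ ^ 2))⁻¹ ^ Q := by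
  unfold fsmW
  have h0 : (0 : ℝ) ≤ 1 + ‖y‖ ^ 2 := by positivity
  rw [Real.sqrt_eq_rpow, ← Real.rpow_neg h0, ← Real.rpow_natCast ((1 + ‖y‖ ^ 2) ^ (-(1 / 2 : ℝ))) Q, ← Real.rpow_mul h0]
  congr 1
  ring

theorem fsm_KJ_arith (a b n : ℝ) (hb : 0 ≤ b) (hn0 : 0 ≤ n) (hn : n ≤ a + b) :
    1 + n ^ 2 ≤ (2 * (1 + b)) ^ 2 * (1 + a ^ 2) := by
  have h1 : n ^ 2 ≤ (a + b) ^ 2 := pow_le_pow_left₀ hn0 hn 2
  nlinarith [sq_nonneg (a - b), mul_nonneg (sq_nonneg a) (sq_nonneg b), mul_nonneg hb (sq_nonneg a), hb]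

/-- LEAF L-257-SM-KJ: Peetre, `1 + |x|² ≤ 2 (1 + |x-u|²)(1 + |u|²)` -/
theorem fsm_W_peetre (Q : ℕ) (x u : E k) : fsmW Q (x - u) ≤ 2 ^ Q * (1 + ‖u‖) ^ Q * fsmW Q x := by
  rw [fsm_KJ_W_eq, fsm_KJ_W_eq, ← mul_pow, ← mul_pow]
  have hA : 0 < Real.sqrt (1 + ‖x‖ ^ 2) := Real.sqrt_pos.mpr (by positivity)
  have hB : 0 < Real.sqrt (1 + ‖x - u‖ ^ 2) := Real.sqrt_pos.mpr (by positivity)
  apply pow_le_pow_left₀ (by positivity)
  have hn : ‖x‖ ≤ ‖x - u‖ + ‖u‖ := by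
    have := norm_add_le (x - u) u
    rwa [sub_add_cancel] at this
  have h1 := fsm_KJ_arith ‖x - u‖ ‖u‖ ‖x‖ (norm_nonneg _) (norm_nonneg _) hn
  have h2 : Real.sqrt (1 + ‖x‖ ^ 2) ≤ 2 * (1 + ‖u‖) * Real.sqrt (1 + ‖x - u‖ ^ 2) := by
    calc Real.sqrt (1 + ‖x‖ ^ 2) ≤ Real.sqrt ((2 * (1 + ‖u‖)) ^ 2 * (1 + ‖x - u‖ ^ 2)) := Real.sqrt_le_sqrt h1
      _ = 2 * (1 + ‖u‖) * Real.sqrt (1 + ‖x - u‖ ^ 2) := by
        rw [Real.sqrt_mul (by positivity), Real.sqrt_sq (by positivity)]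
  rw [← div_eq_mul_inv, inv_eq_one_div, div_le_div_iff₀ hB hA]
  linarith

theorem fsm_KJ_W_int_pos {Q : ℕ} (hQ : k < Q) : 0 < ∫ y : E k, fsmW Q y := by
  rw [integral_pos_iff_support_of_nonneg (fun y => (fsm_W_pos Q y).le) (fsm_W_integrable hQ)]
  have : Function.support (fsmW Q : E k → ℝ) = univ := by
    ext y
    simp only [Function.mem_support, mem_univ, iff_true]
    exact (fsm_W_pos Q y).ne'
  rw [this]
  exact Measure.measure_univ_pos.mpr (NeZero.ne _)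

/-- LEAF L-257-SM-KJ -/
theorem fsm_J_pos {Q : ℕ} (hQ : k < Q) {K : ℝ} (hK : 0 < K) (x : E k) : 0 < fsmJ Q K x := by
  unfold fsmJ
  exact mul_pos (mul_pos (inv_pos.mpr (fsm_KJ_W_int_pos hQ)) (inv_pos.mpr (pow_pos hK k))) (fsm_W_pos _ _)

/-- LEAF L-257-SM-KJ -/
theorem fsm_J_continuous (Q : ℕ) (K : ℝ) : Continuous (fsmJ Q K : E k → ℝ) := by
  unfold fsmJ
  exact continuous_const.mul ((fsm_W_continuous Q).comp (continuous_const_smul _))

/-- LEAF L-257-SM-KJ -/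
theorem fsm_J_integrable {Q : ℕ} (hQ : k < Q) {K : ℝ} (hK : 0 < K) : Integrable (fsmJ Q K : E k → ℝ) := by
  unfold fsmJ
  exact ((fsm_W_integrable hQ).comp_smul (inv_ne_zero hK.ne')).const_mul _

/-- LEAF L-257-SM-KJ -/
theorem fsm_J_integral {Q : ℕ} (hQ : k < Q) {K : ℝ} (hK : 0 < K) : ∫ x : E k, fsmJ Q K x = 1 := by
  unfold fsmJ
  have h0 := fsm_KJ_W_int_pos (k := k) hQ
  rw [integral_const_mul, Measure.integral_comp_inv_smul_of_nonneg _ _ hK.le, finrank_euclideanSpace, Fintype.card_fin, smul_eq_mul]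
  field_simp

/-- LEAF L-257-SM-KJ -/
theorem fsm_J_neg (Q : ℕ) (K : ℝ) (x : E k) : fsmJ Q K (-x) = fsmJ Q K x := by
  unfold fsmJ fsmW
  rw [smul_neg, norm_neg]

/-- LEAF L-257-SM-KJ -/
theorem fsm_J_peetre {Q : ℕ} (hQ : k < Q) {K : ℝ} (hK : 0 < K) (x u : E k) : fsmJ Q K (x - u) ≤ 2 ^ Q * (1 + ‖u‖ / K) ^ Q * fsmJ Q K x := by
  unfold fsmJ
  have h0 := fsm_KJ_W_int_pos (k := k) hQ
  have h1 := fsm_W_peetre Q (K⁻¹ • x) (K⁻¹ • u)
  rw [← smul_sub, norm_smul, norm_inv, Real.norm_of_nonneg hK.le, inv_mul_eq_div] at h1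
  calc (∫ y : E k, fsmW Q y)⁻¹ * (K ^ k)⁻¹ * fsmW Q (K⁻¹ • (x - u))
      ≤ (∫ y : E k, fsmW Q y)⁻¹ * (K ^ k)⁻¹ * (2 ^ Q * (1 + ‖u‖ / K) ^ Q * fsmW Q (K⁻¹ • x)) :=
        mul_le_mul_of_nonneg_left h1 (by positivity)
    _ = _ := by ring

/-- LEAF L-257-SM-KJ -/
theorem fsm_jm_prob {Q : ℕ} (hQ : k < Q) {K : ℝ} (hK : 0 < K) : IsProbabilityMeasure (fsmJm Q K : Measure (E k)) := by
  constructor
  unfold fsmJm
  rw [withDensity_apply _ MeasurableSet.univ, Measure.restrict_univ,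
    ← ofReal_integral_eq_lintegral_ofReal (fsm_J_integrable hQ hK) (Filter.Eventually.of_forall fun x => (fsm_J_pos hQ hK x).le),
    fsm_J_integral hQ hK, ENNReal.ofReal_one]

/-- LEAF L-257-SM-KJ: scaling -/
theorem fsm_jm_map {Q : ℕ} (hQ : k < Q) {K : ℝ} (hK : 0 < K) : (fsmJm Q K : Measure (E k)) = (fsmJm Q 1).map fun x => K • x := by
  have hm : Measurable (fun x : E k => K • x) := measurable_const_smul K
  ext s hs
  rw [Measure.map_apply hm hs]
  unfold fsmJm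
  rw [withDensity_apply _ hs, withDensity_apply _ (hm hs), ← lintegral_indicator hs, ← lintegral_indicator (hm hs)]
  have hg : Measurable (fun y : E k => s.indicator (fun x => ENNReal.ofReal (fsmJ Q 1 (K⁻¹ • x))) y) :=
    (((fsm_J_continuous Q 1).measurable.comp (measurable_const_smul K⁻¹)).ennreal_ofReal).indicator hs
  have e1 : ∀ x : E k, ((fun x => K • x) ⁻¹' s).indicator (fun x => ENNReal.ofReal (fsmJ Q 1 x)) x
      = (fun y : E k => s.indicator (fun x => ENNReal.ofReal (fsmJ Q 1 (K⁻¹ • x))) y) (K • x) := by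
    intro x
    by_cases hx : K • x ∈ s
    · rw [indicator_of_mem (show x ∈ (fun x => K • x) ⁻¹' s from hx)]
      simp only [indicator_of_mem hx]
      rw [inv_smul_smul₀ hK.ne']
    · rw [indicator_of_notMem (show x ∉ (fun x => K • x) ⁻¹' s from hx)]
      simp only [indicator_of_notMem hx]
  simp_rw [e1]
  rw [← lintegral_map hg hm, Measure.map_addHaar_smul _ hK.ne', lintegral_smul_measure, finrank_euclideanSpace, Fintype.card_fin,
    smul_eq_mul, ← lintegral_const_mul _ hg]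
  apply lintegral_congr
  intro y
  by_cases hy : y ∈ s
  · rw [indicator_of_mem hy, indicator_of_mem hy, ← ENNReal.ofReal_mul (abs_nonneg _)]
    congr 1
    unfold fsmJ
    rw [abs_of_pos (by positivity), inv_one, one_smul, one_pow, inv_one]
    ring
  · rw [indicator_of_notMem hy, indicator_of_notMem hy, mul_zero]

/-- LEAF L-257-SM-KJ: the operator of `j_K` in integral form -/
theorem fsm_cv_jm {Q : ℕ} (hQ : k < Q) {K : ℝ} (hK : 0 < K) {F : ST k → ℝ} (hF : fsmBC F) (z : ST k) :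
    fsmCv (fsmSx (fsmJm Q K)) F z = ∫ y : E k, fsmJ Q K (z.1 - y) * F (y, z.2) := by
  rw [fsm_cv_sx _ _ hF]
  unfold fsmJm
  rw [integral_withDensity_eq_integral_toReal_smul (fsm_J_continuous Q K).measurable.ennreal_ofReal
    (Filter.Eventually.of_forall fun x => ENNReal.ofReal_lt_top)]
  rw [← integral_sub_left_eq_self _ _ z.1]
  apply integral_congr_ae
  refine Filter.Eventually.of_forall fun y => ?_
  simp only [smul_eq_mul]
  rw [ENNReal.toReal_ofReal (fsm_J_pos hQ hK _).le, sub_sub_cancel]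

theorem fsm_KJ_int {Q : ℕ} (hQ : k < Q) {K : ℝ} (hK : 0 < K) {F : ST k → ℝ} (hF : fsmBC F) (a : E k) (t : ℝ) :
    Integrable (fun y : E k => fsmJ Q K (a - y) * F (y, t)) := by
  obtain ⟨hc, B, hB⟩ := hF
  refine Integrable.mul_bdd (c := B) ((fsm_J_integrable hQ hK).comp_sub_left a) ?_ (Filter.Eventually.of_forall fun y => ?_)
  · exact (hc.comp (by fun_prop : Continuous fun y : E k => (y, t))).aestronglyMeasurable
  · rw [Real.norm_eq_abs]; exact hB _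

/-- LEAF L-257-SM-KJ: Peetre for the smoothed density -/
theorem fsm_cv_jm_peetre {Q : ℕ} (hQ : k < Q) {K : ℝ} (hK : 0 < K) {F : ST k → ℝ} (hF : fsmBC F) (h0 : ∀ z, 0 ≤ F z) (z : ST k) (u : E k) :
    fsmCv (fsmSx (fsmJm Q K)) F z ≤ 2 ^ Q * (1 + ‖u‖ / K) ^ Q * fsmCv (fsmSx (fsmJm Q K)) F (z - (u, (0 : ℝ))) := by
  rw [fsm_cv_jm hQ hK hF, fsm_cv_jm hQ hK hF, ← integral_const_mul]
  apply integral_mono (fsm_KJ_int hQ hK hF _ _) ((fsm_KJ_int hQ hK hF _ _).const_mul _)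
  intro y
  have h1 := fsm_J_peetre hQ hK (z.1 - u - y) (-u)
  rw [norm_neg] at h1
  have e : z.1 - u - y - -u = z.1 - y := by abel
  rw [e] at h1
  simp only [Prod.fst_sub, Prod.snd_sub, sub_zero]
  calc fsmJ Q K (z.1 - y) * F (y, z.2) ≤ (2 ^ Q * (1 + ‖u‖ / K) ^ Q * fsmJ Q K (z.1 - u - y)) * F (y, z.2) :=
        mul_le_mul_of_nonneg_right h1 (h0 _)
    _ = _ := by ring

/-! ## the heat kernel and the Gaussian in time -/

/-- LEAF L-257-SM-KH -/
theorem fsm_Hk_pos {s : ℝ} (hs : 0 < s) (x : E k) : 0 < fsmHk s x := by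
  unfold fsmHk
  positivity

/-- LEAF L-257-SM-KH -/
theorem fsm_Hk_bc (s : ℝ) : fsmBC (fsmHk s : E k → ℝ) := by
  refine ⟨?_, (Real.sqrt (2 * Real.pi * s ^ 2) ^ k)⁻¹, fun x => ?_⟩
  · unfold fsmHk
    fun_prop
  · unfold fsmHk
    have h0 : 0 ≤ (Real.sqrt (2 * Real.pi * s ^ 2) ^ k)⁻¹ := by positivity
    rw [abs_of_nonneg (by positivity)]
    have h1 : Real.exp (-‖x‖ ^ 2 / (2 * s ^ 2)) ≤ 1 := by
      rw [Real.exp_le_one_iff, neg_div]
      have : 0 ≤ ‖x‖ ^ 2 / (2 * s ^ 2) := by positivity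
      linarith
    calc _ ≤ (Real.sqrt (2 * Real.pi * s ^ 2) ^ k)⁻¹ * 1 := mul_le_mul_of_nonneg_left h1 h0
      _ = _ := mul_one _

/-- helper of L-257-SM-KH: the exponent in the form of Mathlib -/
theorem fsm_KH_exp (s : ℝ) (x : E k) : Real.exp (-‖x‖ ^ 2 / (2 * s ^ 2)) = Real.exp (-(1 / (2 * s ^ 2)) * ‖x‖ ^ 2) := by
  congr 1
  ring

/-- helper of L-257-SM-KH: the Gaussian integral -/
theorem fsm_KH_gauss {s : ℝ} (hs : 0 < s) :
    ∫ x : E k, Real.exp (-(1 / (2 * s ^ 2)) * ‖x‖ ^ 2) = Real.sqrt (2 * Real.pi * s ^ 2) ^ k := by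
  have hb : 0 < 1 / (2 * s ^ 2) := by positivity
  rw [GaussianFourier.integral_rexp_neg_mul_sq_norm hb, finrank_euclideanSpace, Fintype.card_fin]
  have e : Real.pi / (1 / (2 * s ^ 2)) = 2 * Real.pi * s ^ 2 := by
    field_simp
  rw [e, Real.sqrt_eq_rpow, ← Real.rpow_natCast ((2 * Real.pi * s ^ 2) ^ (1 / 2 : ℝ)) k, ← Real.rpow_mul (by positivity)]
  congr 1
  ring

/-- helper of L-257-SM-KH -/
theorem fsm_KH_gauss_integrable {s : ℝ} (hs : 0 < s) :
    Integrable fun x : E k => Real.exp (-(1 / (2 * s ^ 2)) * ‖x‖ ^ 2) := by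
  by_contra h
  have h1 := fsm_KH_gauss (k := k) hs
  rw [integral_undef h] at h1
  have : 0 < Real.sqrt (2 * Real.pi * s ^ 2) ^ k := by positivity
  linarith

/-- LEAF L-257-SM-KH -/
theorem fsm_Hk_integrable {s : ℝ} (hs : 0 < s) : Integrable (fsmHk s : E k → ℝ) := by
  unfold fsmHk
  simp only [fsm_KH_exp]
  exact (fsm_KH_gauss_integrable hs).const_mul _

/-- LEAF L-257-SM-KH (`GaussianFourier.integral_rexp_neg_mul_sq_norm`) -/
theorem fsm_Hk_integral {s : ℝ} (hs : 0 < s) : ∫ x : E k, fsmHk s x = 1 := by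
  unfold fsmHk
  simp only [fsm_KH_exp]
  rw [integral_const_mul, fsm_KH_gauss hs]
  exact inv_mul_cancel₀ (by positivity)

/-- LEAF L-257-SM-KH -/
theorem fsm_hm_prob {s : ℝ} (hs : 0 < s) : IsProbabilityMeasure (fsmHm s : Measure (E k)) := by
  refine ⟨?_⟩
  unfold fsmHm
  rw [withDensity_apply _ MeasurableSet.univ, Measure.restrict_univ,
    ← ofReal_integral_eq_lintegral_ofReal (fsm_Hk_integrable hs) (Filter.Eventually.of_forall fun x => (fsm_Hk_pos hs x).le),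
    fsm_Hk_integral hs, ENNReal.ofReal_one]

/-- LEAF L-257-SM-KH (`fourierIntegral_gaussian_innerProductSpace`) -/
theorem fsm_hm_charFun {s : ℝ} (hs : 0 < s) (ξ : E k) : charFun (fsmHm s : Measure (E k)) ξ = Complex.exp (-((s ^ 2 * ‖ξ‖ ^ 2 / 2 : ℝ) : ℂ)) := by
  have hm : Measurable fun x : E k => ENNReal.ofReal (fsmHk s x) := (fsm_Hk_bc s).1.measurable.ennreal_ofReal
  rw [charFun_apply]
  unfold fsmHm
  rw [integral_withDensity_eq_integral_toReal_smul hm (Filter.Eventually.of_forall fun x => ENNReal.ofReal_lt_top)]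
  obtain ⟨c0, hc0⟩ : ∃ c0 : ℝ, c0 = Real.sqrt (2 * Real.pi * s ^ 2) ^ k := ⟨_, rfl⟩
  have hc0p : 0 < c0 := by rw [hc0]; positivity
  have hb : 0 < (((1 / (2 * s ^ 2) : ℝ)) : ℂ).re := by
    rw [Complex.ofReal_re]
    positivity
  have e1 : ∀ x : E k, (ENNReal.ofReal (fsmHk s x)).toReal • Complex.exp ((⟪x, ξ⟫_ℝ : ℂ) * Complex.I)
      = ((c0⁻¹ : ℝ) : ℂ) * Complex.exp (-(((1 / (2 * s ^ 2) : ℝ)) : ℂ) * (‖x‖ : ℂ) ^ 2 + Complex.I * (⟪ξ, x⟫_ℝ : ℂ)) := by
    intro x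
    rw [ENNReal.toReal_ofReal (fsm_Hk_pos hs x).le, Complex.real_smul]
    unfold fsmHk
    rw [fsm_KH_exp, ← hc0, Complex.ofReal_mul, Complex.ofReal_exp, mul_assoc, ← Complex.exp_add, real_inner_comm]
    congr 2
    push_cast
    ring
  simp only [e1]
  rw [integral_const_mul, GaussianFourier.integral_cexp_neg_mul_sq_norm_add hb Complex.I ξ]
  have e2 : ((Real.pi : ℂ) / (((1 / (2 * s ^ 2) : ℝ)) : ℂ)) ^ ((Module.finrank ℝ (E k) : ℂ) / 2) = ((c0 : ℝ) : ℂ) := by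
    have h1 := fsm_KH_gauss (k := k) hs
    rw [GaussianFourier.integral_rexp_neg_mul_sq_norm (by positivity), ← hc0] at h1
    rw [← h1, ← Complex.ofReal_div, Complex.ofReal_cpow (by positivity)]
    push_cast
    rfl
  rw [e2, ← mul_assoc, ← Complex.ofReal_mul, inv_mul_cancel₀ hc0p.ne', Complex.ofReal_one, one_mul]
  congr 1
  rw [Complex.I_sq]
  push_cast
  field_simp
  ring

/-- LEAF L-257-SM-KH (`Measure.ext_of_charFun`, `charFun_conv`) -/
theorem fsm_hm_conv {s s' : ℝ} (hs : 0 < s) (hs' : 0 < s') : (fsmHm s : Measure (E k)) ∗ fsmHm s' = fsmHm (Real.sqrt (s ^ 2 + s' ^ 2)) := by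
  have h1 := fsm_hm_prob (k := k) hs
  have h2 := fsm_hm_prob (k := k) hs'
  have hq : 0 < Real.sqrt (s ^ 2 + s' ^ 2) := Real.sqrt_pos.2 (by positivity)
  have h3 := fsm_hm_prob (k := k) hq
  refine Measure.ext_of_charFun ?_
  funext ξ
  rw [charFun_conv, fsm_hm_charFun hs, fsm_hm_charFun hs', fsm_hm_charFun hq, ← Complex.exp_add,
    Real.sq_sqrt (by positivity)]
  congr 1
  push_cast
  ring

/-- LEAF L-257-SM-KH: scaling -/
theorem fsm_hm_map {s : ℝ} (hs : 0 < s) : (fsmHm s : Measure (E k)) = (fsmHm 1).map fun x => s • x := by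
  have h1 := fsm_hm_prob (k := k) hs
  have h2 := fsm_hm_prob (k := k) one_pos
  have h3 : IsProbabilityMeasure ((fsmHm 1 : Measure (E k)).map fun x => s • x) :=
    Measure.isProbabilityMeasure_map (by fun_prop)
  refine Measure.ext_of_charFun ?_
  funext ξ
  rw [charFun_map_smul, fsm_hm_charFun hs, fsm_hm_charFun one_pos, norm_smul, Real.norm_of_nonneg hs.le]
  congr 3
  ring

/-- LEAF L-257-SM-KH (`gaussianReal_conv_gaussianReal`) -/
theorem fsm_gs_conv {v v' : ℝ} (hv : 0 ≤ v) (hv' : 0 ≤ v') : fsmGs v ∗ fsmGs v' = fsmGs (v + v') := by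
  unfold fsmGs
  rw [gaussianReal_conv_gaussianReal, add_zero, Real.toNNReal_add hv hv']

instance fsm_gs_prob (v : ℝ) : IsProbabilityMeasure (fsmGs v) := by
  unfold fsmGs
  infer_instance

/-- LEAF L-257-SM-KH: first absolute moment -/
theorem fsm_gs_abs {v : ℝ} (hv : 0 ≤ v) : Integrable (fun s : ℝ => |s|) (fsmGs v) ∧ ∫ s, |s| ∂(fsmGs v) ≤ Real.sqrt v := by
  have hid : MemLp (id : ℝ → ℝ) 2 (fsmGs v) := memLp_id_gaussianReal 2
  have habs : MemLp (fun s : ℝ => |s|) 2 (fsmGs v) := hid.norm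
  refine ⟨habs.integrable one_le_two, ?_⟩
  have h1 := variance_eq_sub habs
  have h2 := variance_eq_sub hid
  have h3 : variance (id : ℝ → ℝ) (fsmGs v) = v := by
    unfold fsmGs
    rw [variance_id_gaussianReal, Real.coe_toNNReal v hv]
  have h4 : ∫ s, (id : ℝ → ℝ) s ∂(fsmGs v) = 0 := by
    unfold fsmGs
    exact integral_id_gaussianReal
  have h5 : ∫ s, ((fun s : ℝ => |s|) ^ 2) s ∂(fsmGs v) = ∫ s, ((id : ℝ → ℝ) ^ 2) s ∂(fsmGs v) := by
    refine integral_congr_ae (Filter.Eventually.of_forall fun s => ?_)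
    simp only [Pi.pow_apply, id, sq_abs]
  have h6 := variance_nonneg (fun s : ℝ => |s|) (fsmGs v)
  rw [h3, h4] at h2
  rw [h5] at h1
  refine Real.le_sqrt_of_sq_le ?_
  nlinarith

/-- helper of L-257-SM-KH: the Gaussian of variance `v` is the image of the standard Gaussian -/
theorem fsm_KH_gs_map {v : ℝ} (hv : 0 ≤ v) : fsmGs v = (fsmGs 1).map fun x => Real.sqrt v * x := by
  unfold fsmGs
  rw [gaussianReal_map_const_mul, mul_zero]
  congr 1
  ext
  simp [Real.sq_sqrt hv, Real.coe_toNNReal v hv]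

/-- helper of L-257-SM-KH: polynomial moments of the standard Gaussian -/
theorem fsm_KH_gs_int (M1 : ℕ) {c : ℝ} (hc : 0 ≤ c) : Integrable (fun x : ℝ => (1 + c * |x|) ^ M1) (fsmGs 1) := by
  have hid : MemLp (id : ℝ → ℝ) (M1 : ℝ≥0∞) (fsmGs 1) := by
    unfold fsmGs
    exact memLp_id_gaussianReal' _ (ENNReal.natCast_ne_top M1)
  have h00 : MemLp (fun x : ℝ => |x|) (M1 : ℝ≥0∞) (fsmGs 1) := by
    have := hid.norm
    exact this
  have h0 : MemLp (fun x : ℝ => c * |x|) (M1 : ℝ≥0∞) (fsmGs 1) := by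
    have := h00.const_mul c
    exact this
  have h1 : MemLp (fun x : ℝ => 1 + c * |x|) (M1 : ℝ≥0∞) (fsmGs 1) := by
    have := (memLp_const (1 : ℝ) (p := (M1 : ℝ≥0∞)) (μ := fsmGs 1)).add h0
    exact this
  have h2 := h1.integrable_norm_pow'
  refine h2.congr (Filter.Eventually.of_forall fun x => ?_)
  have : 0 ≤ 1 + c * |x| := by positivity
  simp only [Real.norm_of_nonneg this]

/-- LEAF L-257-SM-KH: polynomial moments, uniformly -/
theorem fsm_gs_moment (M1 : ℕ) : ∃ C : ℝ, 0 ≤ C ∧ ∀ v L : ℝ, 0 ≤ v → 0 < L → v ≤ 2 * L ^ 2 →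
    Integrable (fun s : ℝ => (1 + |s| / L) ^ M1) (fsmGs v) ∧ ∫ s, (1 + |s| / L) ^ M1 ∂(fsmGs v) ≤ C := by
  refine ⟨∫ x, (1 + Real.sqrt 2 * |x|) ^ M1 ∂(fsmGs 1), integral_nonneg fun x => by positivity, ?_⟩
  intro v L hv hL hvL
  obtain ⟨c, hc⟩ : ∃ c, c = Real.sqrt v / L := ⟨_, rfl⟩
  have hc0 : 0 ≤ c := by rw [hc]; positivity
  have hc2 : c ≤ Real.sqrt 2 := by
    rw [hc, div_le_iff₀ hL]
    calc Real.sqrt v ≤ Real.sqrt (2 * L ^ 2) := Real.sqrt_le_sqrt hvL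
      _ = Real.sqrt 2 * L := by rw [Real.sqrt_mul (by norm_num), Real.sqrt_sq hL.le]
  have hφ : Measurable fun x : ℝ => Real.sqrt v * x := by fun_prop
  have hg : Measurable fun s : ℝ => (1 + |s| / L) ^ M1 := by fun_prop
  have e : ∀ x : ℝ, (1 + |Real.sqrt v * x| / L) ^ M1 = (1 + c * |x|) ^ M1 := by
    intro x
    rw [abs_mul, abs_of_nonneg (Real.sqrt_nonneg v), hc]
    congr 2
    ring
  rw [fsm_KH_gs_map hv]
  constructor
  · rw [integrable_map_measure hg.aestronglyMeasurable hφ.aemeasurable]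
    refine (fsm_KH_gs_int M1 hc0).congr (Filter.Eventually.of_forall fun x => ?_)
    exact (e x).symm
  · rw [integral_map hφ.aemeasurable hg.aestronglyMeasurable]
    simp only [e]
    refine integral_mono (fsm_KH_gs_int M1 hc0) (fsm_KH_gs_int M1 (Real.sqrt_nonneg 2)) fun x => ?_
    have : c * |x| ≤ Real.sqrt 2 * |x| := mul_le_mul_of_nonneg_right hc2 (abs_nonneg x)
    exact pow_le_pow_left₀ (by positivity) (by linarith) M1

/-! ## embeddings into space-time -/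

/-- LEAF L-257-SM-KE -/
theorem fsm_sx_prob (ν : Measure (E k)) [IsProbabilityMeasure ν] : IsProbabilityMeasure (fsmSx ν) := by
  unfold fsmSx
  exact Measure.isProbabilityMeasure_map (by fun_prop)

theorem fsm_KE_dir_meas (b : E k) : Measurable (fsmDir b) := by
  unfold fsmDir
  fun_prop

/-- LEAF L-257-SM-KE -/
theorem fsm_st_prob (b : E k) (γ : Measure ℝ) [IsProbabilityMeasure γ] : IsProbabilityMeasure (fsmSt b γ) := by
  unfold fsmSt
  exact Measure.isProbabilityMeasure_map (fsm_KE_dir_meas b).aemeasurable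

/-- LEAF L-257-SM-KE (`Measure.map_conv_continuousLinearMap` or `map_conv_addMonoidHom`) -/
theorem fsm_sx_conv (μ ν : Measure (E k)) [IsFiniteMeasure μ] [IsFiniteMeasure ν] : fsmSx (μ ∗ ν) = fsmSx μ ∗ fsmSx ν := by
  have hm : Measurable (AddMonoidHom.inl (E k) ℝ) := by
    show Measurable (fun y : E k => (y, (0 : ℝ)))
    fun_prop
  exact Measure.map_conv_addMonoidHom (AddMonoidHom.inl (E k) ℝ) hm

/-- LEAF L-257-SM-KE -/
theorem fsm_st_conv (b : E k) (μ ν : Measure ℝ) [IsFiniteMeasure μ] [IsFiniteMeasure ν] : fsmSt b (μ ∗ ν) = fsmSt b μ ∗ fsmSt b ν := by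
  let L : ℝ →+ ST k :=
    { toFun := fsmDir b
      map_zero' := by simp [fsmDir]
      map_add' := by
        intro x y
        simp [fsmDir, add_smul] }
  exact Measure.map_conv_addMonoidHom L (fsm_KE_dir_meas b)

/-! ## the system -/

variable {β : Type} (P : Sm k β)

/-- LEAF L-257-SM-KS -/
theorem fsm_K_pos (hK : 0 < P.K0) (n : ℕ) : 0 < P.K n := by
  unfold Sm.K
  positivity

theorem fsm_K_succ (n : ℕ) : P.K (n + 1) = 2 * P.K n := by
  unfold Sm.K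
  ring

theorem fsm_K_zero : P.K 0 = P.K0 := by
  unfold Sm.K
  simp

/-- LEAF L-257-SM-KS -/
theorem fsm_K_ge (hK : 0 < P.K0) (n : ℕ) : P.K0 ≤ P.K n := by
  unfold Sm.K
  exact le_mul_of_one_le_left hK.le (one_le_pow₀ one_le_two)

/-- LEAF L-257-SM-KS -/
theorem fsm_jq_prob (hQ : k < P.Q) (hK : 0 < P.K0) (n : ℕ) : IsProbabilityMeasure (P.jq n) := by
  induction n with
  | zero =>
    unfold Sm.jq
    infer_instance
  | succ n ih =>
    unfold Sm.jq
    have := ih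
    have := fsm_jm_prob (k := k) hQ (fsm_K_pos P hK n)
    infer_instance

/-- LEAF L-257-SM-KS -/
theorem fsm_jp_prob (hQ : k < P.Q) (hK : 0 < P.K0) (n : ℕ) : IsProbabilityMeasure (P.jp n) := by
  unfold Sm.jp
  have := fsm_jq_prob P hQ hK n
  have := fsm_jm_prob (k := k) hQ (fsm_K_pos P hK n)
  infer_instance

/-- LEAF L-257-SM-KS -/
theorem fsm_sp_prob (hQ : k < P.Q) (hK : 0 < P.K0) (n : ℕ) : IsProbabilityMeasure (P.sp n) := by
  unfold Sm.sp
  have := fsm_jp_prob P hQ hK n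
  have := fsm_hm_prob (k := k) (fsm_K_pos P hK n)
  infer_instance

/-- LEAF L-257-SM-KS -/
theorem fsm_mx_prob (hQ : k < P.Q) (hK : 0 < P.K0) (n : ℕ) : IsProbabilityMeasure (P.mx n) := by
  unfold Sm.mx
  have := fsm_jm_prob (k := k) hQ (fsm_K_pos P hK (n + 1))
  have := fsm_hm_prob (k := k) (mul_pos (Real.sqrt_pos.mpr (by norm_num : (0 : ℝ) < 3)) (fsm_K_pos P hK n))
  infer_instance

instance fsm_mt_prob (n : ℕ) : IsProbabilityMeasure (P.mt n) := by
  unfold Sm.mt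
  infer_instance

/-- LEAF L-257-SM-KS -/
theorem fsm_G_prob (hQ : k < P.Q) (hK : 0 < P.K0) (n : ℕ) (b : β) : IsProbabilityMeasure (P.G n b) := by
  unfold Sm.G
  have := fsm_sp_prob P hQ hK n
  have := fsm_sx_prob (P.sp n)
  have := fsm_st_prob (P.cb b) (fsmGs (P.v n))
  infer_instance

/-- LEAF L-257-SM-KS -/
theorem fsm_v_mono (hH : 1 ≤ P.H) (hK : 0 < P.K0) (n : ℕ) : P.v n ≤ P.v (n + 1) := by
  unfold Sm.v
  rw [fsm_K_succ]
  have h0 := fsm_K_pos P hK n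
  have hH0 : 0 < P.H := by linarith
  apply max_le_max
  · have : 0 < P.K n ^ 2 * P.H := by positivity
    nlinarith
  · have : 0 < P.K n * P.H ^ 3 := by positivity
    nlinarith

/-- LEAF L-257-SM-KS -/
theorem fsm_v_pos (hH : 1 ≤ P.H) (hK : 0 < P.K0) (n : ℕ) : 0 < P.v n := by
  unfold Sm.v
  have h0 := fsm_K_pos P hK n
  have hH0 : 0 < P.H := by linarith
  exact lt_max_of_lt_left (by positivity)

/-- LEAF L-257-SM-KS: `K_n² ≤ v_n ≤ (H K_n)²` -/
theorem fsm_v_bounds (hH : 1 ≤ P.H) (hK : P.H ≤ P.K0) (n : ℕ) : P.K n ^ 2 ≤ P.v n ∧ P.v n ≤ (P.H * P.K n) ^ 2 := by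
  have hH0 : 0 < P.H := by linarith
  have hK0 : 0 < P.K0 := by linarith
  have h0 := fsm_K_pos P hK0 n
  have h1 : P.H ≤ P.K n := hK.trans (fsm_K_ge P hK0 n)
  unfold Sm.v
  constructor
  · refine le_trans ?_ (le_max_left _ _)
    exact le_mul_of_one_le_right (by positivity) hH
  · apply max_le
    · have : P.K n ^ 2 * P.H ≤ P.K n ^ 2 * P.H ^ 2 := by
        apply mul_le_mul_of_nonneg_left _ (by positivity)
        nlinarith
      nlinarith
    · have : P.K n * P.H ^ 3 = (P.K n * P.H ^ 2) * P.H := by ring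
      have h2 : (P.K n * P.H ^ 2) * P.H ≤ (P.K n * P.H ^ 2) * P.K n := mul_le_mul_of_nonneg_left h1 (by positivity)
      nlinarith

/-- LEAF L-257-SM-KS: `v_n = (H K_n)² / μ_n` -/
theorem fsm_v_eq (hH : 1 ≤ P.H) (hK : P.H ≤ P.K0) (n : ℕ) : P.v n * P.mu n = (P.H * P.K n) ^ 2 := by
  have hH0 : 0 < P.H := by linarith
  have hK0 : 0 < P.K0 := by linarith
  have h0 := fsm_K_pos P hK0 n
  unfold Sm.v Sm.mu
  rcases le_total (P.H ^ 2) (P.K n) with h | h
  · have h1 : P.H ≤ P.K n / P.H := by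
      rw [le_div_iff₀ hH0]; nlinarith
    have h2 : P.K n * P.H ^ 3 ≤ P.K n ^ 2 * P.H := by
      have : (P.K n * P.H) * P.H ^ 2 ≤ (P.K n * P.H) * P.K n := mul_le_mul_of_nonneg_left h (by positivity)
      nlinarith
    rw [min_eq_left h1, max_eq_left h2]
    ring
  · have h1 : P.K n / P.H ≤ P.H := by
      rw [div_le_iff₀ hH0]; nlinarith
    have h2 : P.K n ^ 2 * P.H ≤ P.K n * P.H ^ 3 := by
      have : (P.K n * P.H) * P.K n ≤ (P.K n * P.H) * P.H ^ 2 := mul_le_mul_of_nonneg_left h (by positivity)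
      nlinarith
    rw [min_eq_right h1, max_eq_right h2]
    field_simp

/-- LEAF L-257-SM-KS -/
theorem fsm_mu_ge_one (hH : 1 ≤ P.H) (hK : P.H ≤ P.K0) (n : ℕ) : 1 ≤ P.mu n := by
  have hH0 : 0 < P.H := by linarith
  have hK0 : 0 < P.K0 := by linarith
  have h1 : P.H ≤ P.K n := hK.trans (fsm_K_ge P hK0 n)
  unfold Sm.mu
  refine le_min hH ?_
  rw [le_div_iff₀ hH0]
  linarith

/-- LEAF L-257-SM-KS: `μ_n ≤ μ_{n+1} ≤ 2 μ_n` -/
theorem fsm_mu_succ (hH : 1 ≤ P.H) (hK : P.H ≤ P.K0) (n : ℕ) : P.mu n ≤ P.mu (n + 1) ∧ P.mu (n + 1) ≤ 2 * P.mu n := by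
  have hH0 : 0 < P.H := by linarith
  have hK0 : 0 < P.K0 := by linarith
  have h0 := fsm_K_pos P hK0 n
  unfold Sm.mu
  rw [fsm_K_succ]
  have h2 : 0 < P.K n / P.H := by positivity
  have e : 2 * P.K n / P.H = 2 * (P.K n / P.H) := by ring
  rw [e]
  constructor
  · exact min_le_min le_rfl (by linarith)
  · rcases le_total P.H (P.K n / P.H) with h | h
    · rw [min_eq_left h]
      exact (min_le_left _ _).trans (by linarith)
    · rw [min_eq_right h]
      exact min_le_right _ _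

/-- LEAF L-257-SM-KS: `sp (n+1) = mx n * sp n` -/
theorem fsm_sp_succ (hQ : k < P.Q) (hK : 0 < P.K0) (n : ℕ) : P.sp (n + 1) = P.mx n ∗ P.sp n := by
  have h0 := fsm_K_pos P hK n
  have h3 : 0 < Real.sqrt 3 * P.K n := mul_pos (Real.sqrt_pos.mpr (by norm_num : (0 : ℝ) < 3)) h0
  have := fsm_jp_prob P hQ hK n
  have := fsm_hm_prob (k := k) h0
  have := fsm_hm_prob (k := k) h3
  have := fsm_jm_prob (k := k) hQ (fsm_K_pos P hK (n + 1))
  have e1 : P.jq (n + 1) = P.jp n := rfl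
  have e2 : (fsmHm (Real.sqrt 3 * P.K n) : Measure (E k)) ∗ fsmHm (P.K n) = fsmHm (P.K (n + 1)) := by
    rw [fsm_hm_conv h3 h0, fsm_K_succ]
    congr 1
    have : (Real.sqrt 3 * P.K n) ^ 2 + P.K n ^ 2 = (2 * P.K n) ^ 2 := by
      rw [mul_pow, Real.sq_sqrt (by norm_num)]
      ring
    rw [this, Real.sqrt_sq (by positivity)]
  unfold Sm.sp Sm.mx
  rw [← e2]
  conv_lhs => unfold Sm.jp
  rw [e1, Measure.conv_assoc, Measure.conv_assoc]
  congr 1
  rw [← Measure.conv_assoc, ← Measure.conv_assoc, Measure.conv_comm (P.jp n)]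

/-- LEAF L-257-SM-KS: the recursion of the space-time laws -/
theorem fsm_G_succ (hQ : k < P.Q) (hH : 1 ≤ P.H) (hK : 0 < P.K0) (n : ℕ) (b : β) :
    P.G (n + 1) b = (fsmSx (P.mx n) ∗ fsmSt (P.cb b) (P.mt n)) ∗ P.G n b := by
  have := fsm_sp_prob P hQ hK n
  have := fsm_mx_prob P hQ hK n
  have := fsm_sx_prob (P.sp n)
  have := fsm_sx_prob (P.mx n)
  have := fsm_st_prob (P.cb b) (fsmGs (P.v n))
  have := fsm_st_prob (P.cb b) (P.mt n)
  have e1 : fsmGs (P.v (n + 1)) = P.mt n ∗ fsmGs (P.v n) := by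
    unfold Sm.mt
    rw [fsm_gs_conv (sub_nonneg.mpr (fsm_v_mono P hH hK n)) (fsm_v_pos P hH hK n).le, sub_add_cancel]
  unfold Sm.G
  rw [fsm_sp_succ P hQ hK n, e1, fsm_sx_conv, fsm_st_conv, Measure.conv_assoc, Measure.conv_assoc]
  congr 1
  rw [← Measure.conv_assoc, ← Measure.conv_assoc, Measure.conv_comm (fsmSx (P.sp n))]

/-- LEAF L-257-SM-KS: the top jump is a factor -/
theorem fsm_G_factor (hQ : k < P.Q) (hK : 0 < P.K0) (n : ℕ) (b : β) :
    P.G n b = fsmSx (fsmJm P.Q (P.K n)) ∗ (fsmSx (P.jq n ∗ fsmHm (P.K n)) ∗ fsmSt (P.cb b) (fsmGs (P.v n))) := by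
  have h0 := fsm_K_pos P hK n
  have := fsm_jq_prob P hQ hK n
  have := fsm_hm_prob (k := k) h0
  have := fsm_jm_prob (k := k) hQ h0
  have := fsm_sx_prob (P.jq n ∗ fsmHm (P.K n))
  have := fsm_st_prob (P.cb b) (fsmGs (P.v n))
  unfold Sm.G Sm.sp Sm.jp
  rw [Measure.conv_assoc, fsm_sx_conv, Measure.conv_assoc]

end Claimed.Agent.R257
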