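import Claimed.Agent.R257.FR1.SmDefs

/-!
# R257 / FR1 / SmOp : API of the Markov operators `fsmCv`, of the clipping function `fsmPhi` and of the Harnack predicate `fsmHar`      (architect helper94)

Every `sorry` is part of a LEAF (name in the docstring).  Statements frozen (tell helper94 at once if one is false or awkward); prove IN PLACE, helper lemmas directly above, prefix `fsm_<leaf>_`.
-/

set_option autoImplicit false

namespace Claimed.Agent.R257

open MeasureTheory ProbabilityTheory Metric Set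
open scoped ENNReal NNReal InnerProductSpace

section op

variable {V : Type*} [NormedAddCommGroup V] [MeasurableSpace V] [BorelSpace V] [SecondCountableTopology V]

/-- LEAF L-257-SM-OP1 -/
theorem fsm_cv_integrable (ν : Measure V) [IsFiniteMeasure ν] {f : V → ℝ} (hf : fsmBC f) (z : V) : Integrable (fun w => f (z - w)) ν := by
  obtain ⟨hc, B, hB⟩ := hf
  have hc' : Continuous fun w => f (z - w) := hc.comp (continuous_const.sub continuous_id)
  exact Integrable.of_bound hc'.aestronglyMeasurable B (Filter.Eventually.of_forall fun w => by rw [Real.norm_eq_abs]; exact hB _)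

/-- LEAF L-257-SM-OP1 (dominated convergence) -/
theorem fsm_cv_bc (ν : Measure V) [IsFiniteMeasure ν] {f : V → ℝ} (hf : fsmBC f) : fsmBC (fsmCv ν f) := by
  obtain ⟨hc, B, hB⟩ := hf
  refine ⟨?_, B * ν.real univ, fun z => ?_⟩
  · unfold fsmCv
    refine continuous_of_dominated (bound := fun _ => B) (fun z => ?_) (fun z => ?_) (integrable_const B) ?_
    · exact (hc.comp (continuous_const.sub continuous_id)).aestronglyMeasurable
    · exact Filter.Eventually.of_forall fun w => by rw [Real.norm_eq_abs]; exact hB _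
    · exact Filter.Eventually.of_forall fun w => hc.comp (continuous_id.sub continuous_const)
  · unfold fsmCv
    rw [← Real.norm_eq_abs]
    exact norm_integral_le_of_norm_le_const (Filter.Eventually.of_forall fun w => by rw [Real.norm_eq_abs]; exact hB _)

/-- LEAF L-257-SM-OP1 (`integral_conv`, Fubini) -/
theorem fsm_cv_conv (μ ν : Measure V) [IsFiniteMeasure μ] [IsFiniteMeasure ν] {f : V → ℝ} (hf : fsmBC f) :
    fsmCv (μ ∗ ν) f = fsmCv μ (fsmCv ν f) := by
  funext z
  unfold fsmCv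
  rw [integral_conv (fsm_cv_integrable (μ ∗ ν) hf z)]
  simp only [sub_add_eq_sub_sub]

/-- LEAF L-257-SM-OP1 -/
theorem fsm_cv_comm (μ ν : Measure V) [IsFiniteMeasure μ] [IsFiniteMeasure ν] {f : V → ℝ} (hf : fsmBC f) :
    fsmCv μ (fsmCv ν f) = fsmCv ν (fsmCv μ f) := by
  rw [← fsm_cv_conv μ ν hf, ← fsm_cv_conv ν μ hf, Measure.conv_comm]

/-- LEAF L-257-SM-OP1 -/
theorem fsm_cv_mono (ν : Measure V) [IsFiniteMeasure ν] {f g : V → ℝ} (hf : fsmBC f) (hg : fsmBC g) (h : ∀ z, f z ≤ g z) (z : V) :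
    fsmCv ν f z ≤ fsmCv ν g z := by
  exact integral_mono (fsm_cv_integrable ν hf z) (fsm_cv_integrable ν hg z) fun w => h _

/-- LEAF L-257-SM-OP1 -/
theorem fsm_cv_nonneg (ν : Measure V) {f : V → ℝ} (h : ∀ z, 0 ≤ f z) (z : V) : 0 ≤ fsmCv ν f z :=
  integral_nonneg fun _ => h _

/-- LEAF L-257-SM-OP1 -/
theorem fsm_cv_le (ν : Measure V) [IsProbabilityMeasure ν] {f : V → ℝ} (hf : fsmBC f) {B : ℝ} (h : ∀ z, f z ≤ B) (z : V) : fsmCv ν f z ≤ B := by
  have := integral_mono (fsm_cv_integrable ν hf z) (integrable_const B) fun w => h _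
  unfold fsmCv
  simpa using this

/-- LEAF L-257-SM-OP1 -/
theorem fsm_cv_add (ν : Measure V) [IsFiniteMeasure ν] {f g : V → ℝ} (hf : fsmBC f) (hg : fsmBC g) :
    fsmCv ν (fun w => f w + g w) = fun z => fsmCv ν f z + fsmCv ν g z := by
  funext z
  exact integral_add (fsm_cv_integrable ν hf z) (fsm_cv_integrable ν hg z)

/-- LEAF L-257-SM-OP1 -/
theorem fsm_cv_sub (ν : Measure V) [IsFiniteMeasure ν] {f g : V → ℝ} (hf : fsmBC f) (hg : fsmBC g) :
    fsmCv ν (fun w => f w - g w) = fun z => fsmCv ν f z - fsmCv ν g z := by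
  funext z
  exact integral_sub (fsm_cv_integrable ν hf z) (fsm_cv_integrable ν hg z)

/-- LEAF L-257-SM-OP1 -/
theorem fsm_cv_sum (ν : Measure V) [IsFiniteMeasure ν] {ι : Type*} (s : Finset ι) {f : ι → V → ℝ} (hf : ∀ i ∈ s, fsmBC (f i)) :
    fsmCv ν (fun w => ∑ i ∈ s, f i w) = fun z => ∑ i ∈ s, fsmCv ν (f i) z := by
  funext z
  exact integral_finsetSum s fun i hi => fsm_cv_integrable ν (hf i hi) z

/-- LEAF L-257-SM-OP1 -/
theorem fsm_cv_const_mul (ν : Measure V) (c : ℝ) (f : V → ℝ) : fsmCv ν (fun w => c * f w) = fun z => c * fsmCv ν f z := by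
  funext z
  exact integral_const_mul c _

/-- LEAF L-257-SM-OP1 -/
theorem fsm_bc_add {f g : V → ℝ} (hf : fsmBC f) (hg : fsmBC g) : fsmBC fun w => f w + g w := by
  obtain ⟨hc, B, hB⟩ := hf
  obtain ⟨hc', B', hB'⟩ := hg
  exact ⟨hc.add hc', B + B', fun z => (abs_add_le _ _).trans (add_le_add (hB z) (hB' z))⟩

/-- LEAF L-257-SM-OP1 -/
theorem fsm_bc_sub {f g : V → ℝ} (hf : fsmBC f) (hg : fsmBC g) : fsmBC fun w => f w - g w := by
  obtain ⟨hc, B, hB⟩ := hf
  obtain ⟨hc', B', hB'⟩ := hg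
  exact ⟨hc.sub hc', B + B', fun z => (abs_sub _ _).trans (add_le_add (hB z) (hB' z))⟩

/-- LEAF L-257-SM-OP1 -/
theorem fsm_bc_sum {ι : Type*} (s : Finset ι) {f : ι → V → ℝ} (hf : ∀ i ∈ s, fsmBC (f i)) : fsmBC fun w => ∑ i ∈ s, f i w := by
  classical
  induction s using Finset.induction_on with
  | empty => exact ⟨by simpa using continuous_const, 0, fun z => by simp⟩
  | insert a s ha ih =>
    have h1 := fsm_bc_add (hf a (Finset.mem_insert_self a s)) (ih fun i hi => hf i (Finset.mem_insert_of_mem hi))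
    simpa [Finset.sum_insert ha] using h1

end op

section phi

variable {M : ℝ}

/-- LEAF L-257-SM-PHI -/
theorem fsm_phi_continuous (M : ℝ) : Continuous (fsmPhi M) := by
  unfold fsmPhi
  fun_prop

/-- LEAF L-257-SM-PHI -/
theorem fsm_phi_concave (hM : 0 < M) : ConcaveOn ℝ univ (fsmPhi M) := by
  refine ⟨convex_univ, fun x _ y _ a b ha hb hab => ?_⟩
  have h := convexOn_exp.2 (mem_univ (-x / M)) (mem_univ (-y / M)) ha hb hab
  simp only [smul_eq_mul] at h ⊢
  unfold fsmPhi
  have e : -(a * x + b * y) / M = a * (-x / M) + b * (-y / M) := by ring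
  rw [e]
  have h2 := mul_le_mul_of_nonneg_left h hM.le
  have e2 : a * (M * (1 - Real.exp (-x / M))) + b * (M * (1 - Real.exp (-y / M))) = M * (a + b) - M * (a * Real.exp (-x / M) + b * Real.exp (-y / M)) := by ring
  rw [e2, hab]
  linarith

/-- LEAF L-257-SM-PHI -/
theorem fsm_phi_mono (hM : 0 < M) : Monotone (fsmPhi M) := by
  intro x y hxy
  unfold fsmPhi
  have : Real.exp (-y / M) ≤ Real.exp (-x / M) := Real.exp_le_exp.2 (div_le_div_of_nonneg_right (by linarith) hM.le)
  exact mul_le_mul_of_nonneg_left (by linarith) hM.le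

/-- LEAF L-257-SM-PHI -/
theorem fsm_phi_nonneg (hM : 0 < M) {u : ℝ} (hu : 0 ≤ u) : 0 ≤ fsmPhi M u := by
  unfold fsmPhi
  have : Real.exp (-u / M) ≤ 1 := Real.exp_le_one_iff.2 (div_nonpos_of_nonpos_of_nonneg (by linarith) hM.le)
  exact mul_nonneg hM.le (by linarith)

/-- LEAF L-257-SM-PHI -/
theorem fsm_phi_le_self (hM : 0 < M) (u : ℝ) : fsmPhi M u ≤ u := by
  unfold fsmPhi
  have h := Real.add_one_le_exp (-u / M)
  have h2 : M * (1 - Real.exp (-u / M)) ≤ M * (u / M) := mul_le_mul_of_nonneg_left (by rw [neg_div] at h ⊢; linarith) hM.le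
  rwa [mul_div_cancel₀ _ hM.ne'] at h2

/-- LEAF L-257-SM-PHI -/
theorem fsm_phi_le (hM : 0 < M) (u : ℝ) : fsmPhi M u ≤ M := by
  unfold fsmPhi
  have := Real.exp_pos (-u / M)
  nlinarith

/-- LEAF L-257-SM-PHI -/
theorem fsm_phi_sq_le (hM : 0 < M) {u : ℝ} (hu : 0 ≤ u) : fsmPhi M u ^ 2 ≤ M * u := by
  rw [sq]
  exact mul_le_mul (fsm_phi_le hM u) (fsm_phi_le_self hM u) (fsm_phi_nonneg hM hu) hM.le

theorem fsm_phi_scale_aux (hM : 0 < M) {c u : ℝ} (hc : 0 ≤ c) (hc1 : c ≤ 1) : c * fsmPhi M u ≤ fsmPhi M (c * u) := by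
  have h := (fsm_phi_concave hM).2 (mem_univ u) (mem_univ 0) hc (by linarith : 0 ≤ 1 - c) (by ring)
  have h0 : fsmPhi M 0 = 0 := by simp [fsmPhi]
  simpa [h0] using h

/-- LEAF L-257-SM-PHI -/
theorem fsm_phi_ge_min (hM : 0 < M) {u : ℝ} (hu : 0 ≤ u) : (1 / 2 : ℝ) * min u M ≤ fsmPhi M u := by
  have hMM : M / 2 ≤ fsmPhi M M := by
    unfold fsmPhi
    rw [neg_div, div_self hM.ne']
    have h1 : Real.exp (-1) ≤ 1 / 2 := by
      rw [Real.exp_neg, inv_eq_one_div]
      refine one_div_le_one_div_of_le (by norm_num) ?_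
      have := Real.add_one_le_exp 1
      linarith
    nlinarith
  rcases le_total u M with h | h
  · rw [min_eq_left h]
    have h1 := fsm_phi_scale_aux (M := M) hM (c := u / M) (u := M) (by positivity) ((div_le_one hM).2 h)
    rw [div_mul_cancel₀ _ hM.ne'] at h1
    have h2 : u / M * (M / 2) ≤ u / M * fsmPhi M M := mul_le_mul_of_nonneg_left hMM (by positivity)
    have e : u / M * (M / 2) = 1 / 2 * u := by field_simp
    linarith
  · rw [min_eq_right h]
    have := fsm_phi_mono hM h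
    linarith

/-- LEAF L-257-SM-PHI (concavity and `φ 0 = 0`) -/
theorem fsm_phi_scale (hM : 0 < M) {c u : ℝ} (hc : 0 ≤ c) (hc1 : c ≤ 1) : c * fsmPhi M u ≤ fsmPhi M (c * u) := by
  exact fsm_phi_scale_aux hM hc hc1

/-- LEAF L-257-SM-PHI (`u φ'(u) ≤ M/e`; for `a ≥ 1` use `φ ≤ M`, for `a ≤ 1`: `M e^{-cx}(1 - e^{-(1-c)x}) ≤ M (1-c) x e^{-cx} ≤ M (e^a - 1)/e`, `c = e^{-a}`, `x = u/M`) -/
theorem fsm_phi_harnack (hM : 0 < M) {a u : ℝ} (ha : 0 ≤ a) (hu : 0 ≤ u) : fsmPhi M u - fsmPhi M (Real.exp (-a) * u) ≤ M * a := by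
  have hc0 : 0 ≤ Real.exp (-a) := (Real.exp_pos _).le
  have hc1 : Real.exp (-a) ≤ 1 := Real.exp_le_one_iff.2 (by linarith)
  have h1 := fsm_phi_scale (M := M) hM (u := u) hc0 hc1
  have h2 := fsm_phi_le hM u
  have h3 := Real.add_one_le_exp (-a)
  have h4 := fsm_phi_nonneg hM hu
  have h5 : (1 - Real.exp (-a)) * fsmPhi M u ≤ a * M := mul_le_mul (by linarith) h2 h4 ha
  linarith

/-- LEAF L-257-SM-PHI -/
theorem fsm_phi_bc {V : Type*} [TopologicalSpace V] (hM : 0 < M) {f : V → ℝ} (hf : fsmBC f) : fsmBC fun w => fsmPhi M (f w) := by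
  obtain ⟨hc, B, hB⟩ := hf
  refine ⟨(fsm_phi_continuous M).comp hc, max M (-fsmPhi M (-B)), fun z => ?_⟩
  rw [abs_le]
  constructor
  · have := fsm_phi_mono hM (abs_le.1 (hB z)).1
    have h2 := le_max_right M (-fsmPhi M (-B))
    linarith
  · exact (fsm_phi_le hM _).trans (le_max_left _ _)

end phi

section jensen

variable {V : Type*} [NormedAddCommGroup V] [MeasurableSpace V] [BorelSpace V] [SecondCountableTopology V]

/-- LEAF L-257-SM-OP2 (Jensen: `ConcaveOn.le_map_integral`) -/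
theorem fsm_cv_jensen (ν : Measure V) [IsProbabilityMeasure ν] {M : ℝ} (hM : 0 < M) {f : V → ℝ} (hf : fsmBC f) (z : V) :
    fsmCv ν (fun w => fsmPhi M (f w)) z ≤ fsmPhi M (fsmCv ν f z) := by
  exact (fsm_phi_concave hM).le_map_integral (fsm_phi_continuous M).continuousOn isClosed_univ (Filter.Eventually.of_forall fun _ => mem_univ _)
    (fsm_cv_integrable ν hf z) (fsm_cv_integrable ν (fsm_phi_bc hM hf) z)

end jensen

section st

variable {k : ℕ}

/-- LEAF L-257-SM-OP2 (Fubini and translation invariance of the volume of `ST k`) -/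
theorem fsm_cv_integral (ν : Measure (ST k)) [IsProbabilityMeasure ν] {f : ST k → ℝ} (hf : fsmBC f) (hi : Integrable f) :
    Integrable (fsmCv ν f) ∧ ∫ z, fsmCv ν f z = ∫ z, f z := by
  haveI : (volume : Measure (ST k)).IsAddHaarMeasure := by
    rw [Measure.volume_eq_prod]
    infer_instance
  have hc : Continuous fun p : ST k × ST k => f (p.1 - p.2) := hf.1.comp (continuous_fst.sub continuous_snd)
  have hint : Integrable (fun p : ST k × ST k => f (p.1 - p.2)) ((volume : Measure (ST k)).prod ν) := by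
    rw [integrable_prod_iff' hc.aestronglyMeasurable]
    refine ⟨Filter.Eventually.of_forall fun w => hi.comp_sub_right w, ?_⟩
    have : (fun w : ST k => ∫ z, ‖f (z - w)‖) = fun _ => ∫ z, ‖f z‖ := by
      funext w
      exact integral_sub_right_eq_self (fun z => ‖f z‖) w
    simp only [this]
    exact integrable_const _
  refine ⟨hint.integral_prod_left, ?_⟩
  unfold fsmCv
  rw [integral_integral_swap hint]
  have : (fun w : ST k => ∫ z, f (z - w)) = fun _ => ∫ z, f z := by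
    funext w
    exact integral_sub_right_eq_self f w
  simp only [this]
  simp

/-- LEAF L-257-SM-OP2 -/
theorem fsm_har_cv (ν : Measure (ST k)) [IsFiniteMeasure ν] {b : E k} {c : ℝ} {f : ST k → ℝ} (hf : fsmBC f) (h : fsmHar b c f) :
    fsmHar b c (fsmCv ν f) := by
  intro z s
  unfold fsmCv
  rw [← integral_const_mul]
  refine integral_mono (fsm_cv_integrable ν hf _) ((fsm_cv_integrable ν hf z).const_mul _) fun w => ?_
  have := h (z - w) s
  rwa [sub_add_eq_add_sub] at this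

/-- LEAF L-257-SM-OP2 -/
theorem fsm_har_sum {ι : Type*} (s : Finset ι) {b : E k} {c : ℝ} {f : ι → ST k → ℝ} (h : ∀ i ∈ s, fsmHar b c (f i)) :
    fsmHar b c fun w => ∑ i ∈ s, f i w := by
  intro z t
  rw [Finset.mul_sum]
  exact Finset.sum_le_sum fun i hi => h i hi z t

/-- LEAF L-257-SM-OP2 -/
theorem fsm_har_mono {b : E k} {c c' : ℝ} {f : ST k → ℝ} (hf : ∀ z, 0 ≤ f z) (hc : c ≤ c') (h : fsmHar b c f) : fsmHar b c' f := by
  intro z s
  refine (h z s).trans (mul_le_mul_of_nonneg_right (Real.exp_le_exp.2 (mul_le_mul_of_nonneg_right hc (abs_nonneg s))) (hf z))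

/-- LEAF L-257-SM-OP2: the lower bound `f (z - s(2b,1)) ≥ e^{-c|s|} f z` -/
theorem fsm_har_lower {b : E k} {c : ℝ} {f : ST k → ℝ} (h : fsmHar b c f) (z : ST k) (s : ℝ) :
    Real.exp (-(c * |s|)) * f z ≤ f (z - fsmDir b s) := by
  have h1 := h (z - fsmDir b s) s
  rw [sub_add_cancel] at h1
  have h2 := mul_le_mul_of_nonneg_left h1 (Real.exp_pos (-(c * |s|))).le
  rwa [← mul_assoc, ← Real.exp_add, neg_add_cancel, Real.exp_zero, one_mul] at h2

/-- LEAF L-257-SM-OP2 -/
theorem fsm_cv_sx (ν : Measure (E k)) (f : ST k → ℝ) (hf : fsmBC f) (z : ST k) : fsmCv (fsmSx ν) f z = ∫ y, f (z.1 - y, z.2) ∂ν := by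
  unfold fsmCv fsmSx
  have hm : Measurable fun y : E k => (y, (0 : ℝ)) := by fun_prop
  have hc : Continuous fun w : ST k => f (z - w) := hf.1.comp (continuous_const.sub continuous_id)
  rw [integral_map hm.aemeasurable hc.aestronglyMeasurable]
  refine integral_congr_ae (Filter.Eventually.of_forall fun y => ?_)
  show f (z - (y, (0 : ℝ))) = f (z.1 - y, z.2)
  congr 1
  ext <;> simp

/-- LEAF L-257-SM-OP2 -/
theorem fsm_cv_st (b : E k) (γ : Measure ℝ) (f : ST k → ℝ) (hf : fsmBC f) (z : ST k) : fsmCv (fsmSt b γ) f z = ∫ s, f (z - fsmDir b s) ∂γ := by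
  unfold fsmCv fsmSt
  have hm : Measurable (fsmDir b) := by
    unfold fsmDir
    fun_prop
  have hc : Continuous fun w : ST k => f (z - w) := hf.1.comp (continuous_const.sub continuous_id)
  rw [integral_map hm.aemeasurable hc.aestronglyMeasurable]

end st

end Claimed.Agent.R257
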