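import Claimed.Agent.R257.FR1.SmStep
import Claimed.Agent.R257.Infra.Str.L2

/-!
# R257 / FR1 / SmSpace : the spatial error = (f:rho-generator) + Cauchy-Schwarz      (architect helper94)

`Ex n = H^{k+2} ∑_b ∫ r_b ψ_b`, `r_b(w) = ∑_{z ∈ Y} a_b(z - w)`, `a_b(x,t) = α(x - 2tb) g_{vs}(t)`, `α = (jp - jp * mx * mx) * heat(K_n)`, `vs = 2 v(n+1) - v(n)`.
Iterated Plancherel (in `x`, then in `t`; `inf_str_pl_plancherel` of `Infra/Str/L2.lean` or `ls_plancherel` of `R256/Top/Tools.lean`; copy it if the import is heavy):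
  `∫ r_b² = ∫_ξ ∫_τ |𝓕α(ξ)|² e^{-4π² vs (τ + 2 b·ξ)²} |∑_z e^{2πi(x_z·ξ + t_z τ)}|²`.
Multiplier: `|𝓕α(ξ)| ≤ e^{-2π²K²|ξ|²} min(2, C K|ξ|)`;   `e^{-4π² vs u²} = e^{-2π² vs u²} e^{-2π² vs u²}`, `u = τ + 2 b·ξ`, `vs ≥ K²`, `u² ≥ τ²/2 - 4 Rc² |ξ|²`:
  `e^{-2π² vs u²} ≤ e^{-2π² K² u² /(4Rc²)} ≤ e^{-π² K² τ²/(4Rc²) + 2π² K² |ξ|²}`;   `∑_b e^{-2π² vs u_b²} ≤ C Cs H^k (1/(√vs |ξ|) + 1/H)` (slab count + `fsm_layer`).
Hence `|𝓕α|² ∑_b e^{..} ≤ C Cs H^k (K/√vs + 1/H) e^{-2π²K²|ξ|² - π²K²τ²/(4Rc²)}`: ONE Gaussian; its integral against `|∑_z e^{..}|²` is explicit.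
Every `sorry` is a LEAF (name in the docstring).  Statements frozen (tell helper94 at once if one is false or awkward); prove IN PLACE, helper lemmas directly above, prefix `fsm_<leaf>_`.
-/

set_option autoImplicit false

namespace Claimed.Agent.R257

open MeasureTheory ProbabilityTheory Metric Set
open scoped ENNReal NNReal InnerProductSpace FourierTransform

variable {k : ℕ} {β : Type}

/-- the signed spatial kernel -/
noncomputable def Sm.al (P : Sm k β) (n : ℕ) (x : E k) : ℝ :=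
  fsmCv (P.jp n) (fsmHk (P.K n)) x - fsmCv (P.jp n ∗ (P.mx n ∗ P.mx n)) (fsmHk (P.K n)) x

/-- variance of the time kernel of the spatial error -/
noncomputable def Sm.vs (P : Sm k β) (n : ℕ) : ℝ := 2 * P.v (n + 1) - P.v n

/-- sheared product kernel `α(x - 2tb) g_v(t)` -/
noncomputable def fsmShear (α : E k → ℝ) (b : E k) (v : ℝ) (z : ST k) : ℝ := α (z.1 - z.2 • ((2 : ℝ) • b)) * gaussianPDFReal 0 v.toNNReal z.2

/-- `r_b(w) = ∑_{z ∈ Y} a_b(z - w)` -/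
noncomputable def Sm.r (P : Sm k β) (n : ℕ) (b : β) (w : ST k) : ℝ := ∑ z ∈ P.Y, fsmShear (P.al n) (P.cb b) (P.vs n) (z - w)

/-- the exponential sum of the witnesses -/
noncomputable def fsmES (Y : Finset (ST k)) (ξ : E k) (τ : ℝ) : ℂ := ∑ z ∈ Y, Complex.exp (2 * Real.pi * Complex.I * ((⟪z.1, ξ⟫_ℝ + z.2 * τ : ℝ) : ℂ))

/-! ## paper-free tools -/

theorem fsm_layer_summable (m : ℕ) : Summable fun j : ℕ => ((j : ℝ) + 1) ^ m * Real.exp (-(j : ℝ) ^ 2 / 2) := by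
  have hr : ‖Real.exp (-(1 / 2))‖ < 1 := by
    rw [Real.norm_of_nonneg (Real.exp_pos _).le, Real.exp_lt_one_iff]
    norm_num
  have h1 := summable_pow_mul_geometric_of_norm_lt_one m hr
  have h2 := (summable_nat_add_iff 1).2 h1
  have h3 := h2.mul_left (Real.exp (1 / 2))
  refine Summable.of_nonneg_of_le (fun j => by positivity) (fun j => ?_) h3
  have e : Real.exp (1 / 2) * (((j + 1 : ℕ) : ℝ) ^ m * Real.exp (-(1 / 2)) ^ (j + 1)) =
      ((j : ℝ) + 1) ^ m * Real.exp (-(j : ℝ) / 2) := by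
    rw [← Real.exp_nat_mul, mul_left_comm, ← Real.exp_add]
    push_cast
    congr 2
    ring
  rw [e]
  gcongr
  have : (j : ℝ) ≤ (j : ℝ) ^ 2 := by
    rcases Nat.eq_zero_or_pos j with rfl | h
    · simp
    · have : (1 : ℝ) ≤ j := by exact_mod_cast h
      nlinarith
  linarith

/-- LEAF L-257-SM-LAYER: Gaussian sums from counting.  (`e^{-d²/2} ≤ ∑_j e^{-j²/2} 1_{d ≤ j+1}`, `∑_j (j+1)^m e^{-j²/2} < ∞`.) -/
theorem fsm_layer (m : ℕ) : ∃ C : ℝ, 0 ≤ C ∧ ∀ {ι : Type} (s : Finset ι) (d : ι → ℝ) (A : ℝ), (∀ i ∈ s, 0 ≤ d i) →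
    (∀ j : ℕ, ((s.filter fun i => d i ≤ j + 1).card : ℝ) ≤ A * ((j : ℝ) + 1) ^ m) → ∑ i ∈ s, Real.exp (-(d i) ^ 2 / 2) ≤ C * A := by
  classical
  have hsum := fsm_layer_summable m
  refine ⟨∑' j : ℕ, ((j : ℝ) + 1) ^ m * Real.exp (-(j : ℝ) ^ 2 / 2), tsum_nonneg fun j => by positivity, ?_⟩
  intro ι s d A hd hc
  have hA : 0 ≤ A := by
    have := hc 0
    simp only [Nat.cast_zero, zero_add, one_pow, mul_one] at this
    exact le_trans (Nat.cast_nonneg _) this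
  have hfib := Finset.sum_fiberwise_of_maps_to (s := s) (t := s.image fun i => ⌊d i⌋₊) (g := fun i => ⌊d i⌋₊)
    (fun i hi => Finset.mem_image_of_mem _ hi) (fun i => Real.exp (-(d i) ^ 2 / 2))
  rw [← hfib]
  calc ∑ j ∈ s.image fun i => ⌊d i⌋₊, ∑ i ∈ s with ⌊d i⌋₊ = j, Real.exp (-(d i) ^ 2 / 2)
      ≤ ∑ j ∈ s.image fun i => ⌊d i⌋₊, A * (((j : ℝ) + 1) ^ m * Real.exp (-(j : ℝ) ^ 2 / 2)) := by
        refine Finset.sum_le_sum fun j _ => ?_
        have h1 : ∑ i ∈ s with ⌊d i⌋₊ = j, Real.exp (-(d i) ^ 2 / 2) ≤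
            (s.filter fun i => ⌊d i⌋₊ = j).card • Real.exp (-(j : ℝ) ^ 2 / 2) := by
          refine Finset.sum_le_card_nsmul _ _ _ fun i hi => ?_
          rw [Finset.mem_filter] at hi
          have h2 : (j : ℝ) ≤ d i := by
            rw [← hi.2]
            exact Nat.floor_le (hd i hi.1)
          have h3 : (j : ℝ) ^ 2 ≤ d i ^ 2 := pow_le_pow_left₀ (Nat.cast_nonneg j) h2 2
          apply Real.exp_le_exp.2
          linarith
        have h4 : ((s.filter fun i => ⌊d i⌋₊ = j).card : ℝ) ≤ ((s.filter fun i => d i ≤ j + 1).card : ℝ) := by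
          have : (s.filter fun i => ⌊d i⌋₊ = j) ⊆ s.filter fun i => d i ≤ j + 1 := by
            intro i hi
            rw [Finset.mem_filter] at hi ⊢
            refine ⟨hi.1, ?_⟩
            rw [← hi.2]
            exact (Nat.lt_floor_add_one (d i)).le
          exact_mod_cast Finset.card_le_card this
        rw [nsmul_eq_mul] at h1
        calc _ ≤ ((s.filter fun i => ⌊d i⌋₊ = j).card : ℝ) * Real.exp (-(j : ℝ) ^ 2 / 2) := h1
          _ ≤ (A * ((j : ℝ) + 1) ^ m) * Real.exp (-(j : ℝ) ^ 2 / 2) := by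
              gcongr
              exact h4.trans (hc j)
          _ = _ := by ring
    _ = A * ∑ j ∈ s.image fun i => ⌊d i⌋₊, (((j : ℝ) + 1) ^ m * Real.exp (-(j : ℝ) ^ 2 / 2)) := by rw [Finset.mul_sum]
    _ ≤ A * ∑' j : ℕ, ((j : ℝ) + 1) ^ m * Real.exp (-(j : ℝ) ^ 2 / 2) := by
        gcongr
        exact hsum.sum_le_tsum _ fun j _ => by positivity
    _ = _ := mul_comm _ _

/-- Fourier transform of a reflected translate -/
theorem fsm_plx_refl {V : Type*} [NormedAddCommGroup V] [InnerProductSpace ℝ V] [FiniteDimensional ℝ V] [MeasurableSpace V] [BorelSpace V]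
    (α : V → ℂ) (y ξ : V) :
    𝓕 (fun x => α (y - x)) ξ = Complex.exp (2 * Real.pi * Complex.I * ((⟪y, -ξ⟫_ℝ : ℝ) : ℂ)) * 𝓕 α (-ξ) := by
  rw [Real.fourier_eq', Real.fourier_eq', ← integral_const_mul]
  rw [← integral_sub_left_eq_self (fun v => Complex.exp (2 * Real.pi * Complex.I * ((⟪y, -ξ⟫_ℝ : ℝ) : ℂ)) * Complex.exp (↑(-2 * Real.pi * ⟪v, -ξ⟫_ℝ) * Complex.I) • α v) volume y]
  refine integral_congr_ae (Filter.Eventually.of_forall fun v => ?_)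
  simp only [smul_eq_mul]
  rw [← mul_assoc, ← Complex.exp_add]
  congr 2
  rw [inner_sub_left, inner_neg_right, inner_neg_right]
  push_cast
  ring

theorem fsm_plx_lint {V : Type*} [MeasurableSpace V] {μ : Measure V} {h : V → ℂ} (hh : MemLp h 2 μ) :
    ∫⁻ x, ENNReal.ofReal (‖h x‖ ^ 2) ∂μ = ENNReal.ofReal (∫ x, ‖h x‖ ^ 2 ∂μ) := by
  have hi : Integrable (fun x => ‖h x‖ ^ 2) μ := MemLp.integrable_norm_pow (p := 2) (by exact_mod_cast hh) (by norm_num)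
  rw [ofReal_integral_eq_lintegral_ofReal hi (Filter.Eventually.of_forall fun x => by positivity)]

/-- Plancherel for a finite combination of reflected translates, general version -/
theorem fsm_plx_gen {V : Type*} [NormedAddCommGroup V] [InnerProductSpace ℝ V] [FiniteDimensional ℝ V] [MeasurableSpace V] [BorelSpace V]
    (α : V → ℂ) (h1 : Integrable α) (h2 : MemLp α 2 volume) {ι : Type} (s : Finset ι) (c : ι → ℂ) (y : ι → V) :
    ∫⁻ x : V, ENNReal.ofReal (‖∑ i ∈ s, c i * α (y i - x)‖ ^ 2)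
      = ∫⁻ ξ : V, ENNReal.ofReal (‖𝓕 α ξ‖ ^ 2 * ‖∑ i ∈ s, c i * Complex.exp (2 * Real.pi * Complex.I * ((⟪y i, ξ⟫_ℝ : ℝ) : ℂ))‖ ^ 2) := by
  have hi1 : ∀ i, Integrable (fun x => α (y i - x)) := fun i => h1.comp_sub_left (y i)
  have hg1 : Integrable (fun x => ∑ i ∈ s, c i * α (y i - x)) := integrable_finsetSum _ fun i _ => (hi1 i).const_mul _
  have hg2 : MemLp (fun x => ∑ i ∈ s, c i * α (y i - x)) 2 volume :=
    memLp_finsetSum _ fun i _ => (h2.comp_measurePreserving (Measure.measurePreserving_sub_left volume (y i))).const_mul _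
  obtain ⟨hm, he⟩ := inf_str_pl_plancherel hg1 hg2
  rw [fsm_plx_lint hg2, ← he, ← fsm_plx_lint hm, ← lintegral_neg_eq_self]
  refine lintegral_congr fun ξ => ?_
  congr 1
  have e : 𝓕 (fun x => ∑ i ∈ s, c i * α (y i - x)) (-ξ) = 𝓕 α ξ * ∑ i ∈ s, c i * Complex.exp (2 * Real.pi * Complex.I * ((⟪y i, ξ⟫_ℝ : ℝ) : ℂ)) := by
    have e1 : 𝓕 (fun x => ∑ i ∈ s, c i * α (y i - x)) (-ξ) = ∑ i ∈ s, c i * 𝓕 (fun x => α (y i - x)) (-ξ) := by
      simp only [Real.fourier_eq, Finset.smul_sum]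
      rw [integral_finsetSum]
      · refine Finset.sum_congr rfl fun i _ => ?_
        rw [← integral_const_mul]
        refine integral_congr_ae (Filter.Eventually.of_forall fun v => ?_)
        simp only [Circle.smul_def, smul_eq_mul]
        ring
      · intro i _
        exact (Real.fourierIntegral_convergent_iff _).2 ((hi1 i).const_mul _)
    rw [e1, Finset.mul_sum]
    refine Finset.sum_congr rfl fun i _ => ?_
    rw [fsm_plx_refl, neg_neg]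
    ring
  rw [e, norm_mul, mul_pow]





/-- bounded and integrable implies square integrable -/
theorem fsm_plx_l2 {V : Type*} [MeasurableSpace V] {μ : Measure V} {α : V → ℂ} (h1 : Integrable α μ) {B : ℝ} (hB : ∀ x, ‖α x‖ ≤ B) : MemLp α 2 μ := by
  rw [memLp_two_iff_integrable_sq_norm h1.aestronglyMeasurable]
  refine (h1.norm.const_mul B).mono' (h1.aestronglyMeasurable.norm.pow 2) (Filter.Eventually.of_forall fun x => ?_)
  rw [Real.norm_of_nonneg (by positivity), sq]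
  exact mul_le_mul_of_nonneg_right (hB x) (norm_nonneg _)

/-- LEAF L-257-SM-PLX: Plancherel in `x` for a finite combination of reflected translates.   `𝓕 (x ↦ α(y - x)) (ξ) = e^{-2πi y·ξ} 𝓕α(-ξ)`, then `ξ → -ξ`. -/
theorem fsm_planch_x (α : E k → ℝ) (hα : fsmBC α) (hi : Integrable α) {ι : Type} (s : Finset ι) (c : ι → ℝ) (y : ι → E k) :
    ∫⁻ x : E k, ENNReal.ofReal ((∑ i ∈ s, c i * α (y i - x)) ^ 2)
      = ∫⁻ ξ : E k, ENNReal.ofReal (‖𝓕 (fun x => (α x : ℂ)) ξ‖ ^ 2 * ‖∑ i ∈ s, (c i : ℂ) * Complex.exp (2 * Real.pi * Complex.I * ((⟪y i, ξ⟫_ℝ : ℝ) : ℂ))‖ ^ 2) := by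
  obtain ⟨B, hB⟩ := hα.2
  have h2 : MemLp (fun x => (α x : ℂ)) 2 volume := fsm_plx_l2 hi.ofReal (B := B) fun x => by
    rw [Complex.norm_real]
    exact hB x
  rw [← fsm_plx_gen (fun x => (α x : ℂ)) hi.ofReal h2 s (fun i => (c i : ℂ)) y]
  refine lintegral_congr fun x => ?_
  congr 1
  have e : ∑ i ∈ s, (c i : ℂ) * (α (y i - x) : ℂ) = ((∑ i ∈ s, c i * α (y i - x) : ℝ) : ℂ) := by
    push_cast
    rfl
  rw [e, Complex.norm_real, Real.norm_eq_abs, sq_abs]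

/-- the modulated Gaussian -/
noncomputable def fsmPltG (v ω r : ℝ) : ℂ := ((gaussianPDFReal 0 v.toNNReal r : ℝ) : ℂ) * Complex.exp (2 * Real.pi * Complex.I * ((ω * r : ℝ) : ℂ))

theorem fsm_plt_norm (v ω r : ℝ) : ‖fsmPltG v ω r‖ = gaussianPDFReal 0 v.toNNReal r := by
  unfold fsmPltG
  have e : 2 * Real.pi * Complex.I * ((ω * r : ℝ) : ℂ) = ((2 * Real.pi * (ω * r) : ℝ) : ℂ) * Complex.I := by
    push_cast
    ring
  rw [norm_mul, e, Complex.norm_exp_ofReal_mul_I, mul_one, Complex.norm_real, Real.norm_of_nonneg (gaussianPDFReal_nonneg _ _ _)]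

theorem fsm_plt_int (v ω : ℝ) : Integrable (fsmPltG v ω) := by
  have hm : AEStronglyMeasurable (fsmPltG v ω) volume := by
    unfold fsmPltG
    refine AEStronglyMeasurable.mul ?_ ?_
    · exact (Complex.measurable_ofReal.comp (measurable_gaussianPDFReal 0 _)).aestronglyMeasurable
    · exact Continuous.aestronglyMeasurable (by fun_prop)
  refine (integrable_gaussianPDFReal 0 v.toNNReal).mono' hm (Filter.Eventually.of_forall fun r => ?_)
  rw [fsm_plt_norm]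

theorem fsm_plt_l2 (v ω : ℝ) : MemLp (fsmPltG v ω) 2 volume := by
  refine fsm_plx_l2 (fsm_plt_int v ω) (B := (Real.sqrt (2 * Real.pi * v.toNNReal))⁻¹) fun r => ?_
  rw [fsm_plt_norm, gaussianPDFReal_def]
  refine mul_le_of_le_one_right (by positivity) ?_
  rw [Real.exp_le_one_iff]
  have : 0 ≤ (r - 0) ^ 2 / (2 * (v.toNNReal : ℝ)) := by positivity
  rw [neg_div]
  linarith

theorem fsm_plt_fourier {v : ℝ} (hv : 0 < v) (ω τ : ℝ) : 𝓕 (fsmPltG v ω) τ = Complex.exp (-((2 * Real.pi ^ 2 * v * (τ - ω) ^ 2 : ℝ) : ℂ)) := by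
  have hv' : v.toNNReal ≠ 0 := by
    rw [Ne, Real.toNNReal_eq_zero, not_le]
    exact hv
  have h := charFun_gaussianReal (μ := 0) (v := v.toNNReal) (2 * Real.pi * (ω - τ))
  rw [charFun_apply_real, integral_gaussianReal_eq_integral_smul hv'] at h
  rw [Real.fourier_real_eq_integral_exp_smul]
  have e : ∀ r : ℝ, Complex.exp (↑(-2 * Real.pi * r * τ) * Complex.I) • fsmPltG v ω r
      = gaussianPDFReal 0 v.toNNReal r • Complex.exp (↑(2 * Real.pi * (ω - τ)) * ↑r * Complex.I) := by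
    intro r
    unfold fsmPltG
    rw [smul_eq_mul, Complex.real_smul, mul_left_comm, ← Complex.exp_add]
    congr 2
    push_cast
    ring
  simp only [e]
  rw [h]
  congr 1
  rw [Real.coe_toNNReal v hv.le]
  push_cast
  ring

/-- LEAF L-257-SM-PLT: Plancherel in `t` for modulated Gaussians.   `∫ g_v(s) e^{2πi s σ} ds = e^{-2π² v σ²}`. -/
theorem fsm_planch_t {v : ℝ} (hv : 0 < v) (ω : ℝ) {ι : Type} (s : Finset ι) (d : ι → ℂ) (t : ι → ℝ) :
    ∫⁻ u : ℝ, ENNReal.ofReal (‖∑ i ∈ s, d i * ((gaussianPDFReal 0 v.toNNReal (t i - u) : ℝ) : ℂ) * Complex.exp (2 * Real.pi * Complex.I * ((ω * (t i - u) : ℝ) : ℂ))‖ ^ 2)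
      = ∫⁻ τ : ℝ, ENNReal.ofReal (Real.exp (-(4 * Real.pi ^ 2 * v * (τ - ω) ^ 2)) * ‖∑ i ∈ s, d i * Complex.exp (2 * Real.pi * Complex.I * ((t i * τ : ℝ) : ℂ))‖ ^ 2) := by
  have h := fsm_plx_gen (fsmPltG v ω) (fsm_plt_int v ω) (fsm_plt_l2 v ω) s d t
  have e1 : ∀ u : ℝ, ∑ i ∈ s, d i * ((gaussianPDFReal 0 v.toNNReal (t i - u) : ℝ) : ℂ) * Complex.exp (2 * Real.pi * Complex.I * ((ω * (t i - u) : ℝ) : ℂ))
      = ∑ i ∈ s, d i * fsmPltG v ω (t i - u) := by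
    intro u
    refine Finset.sum_congr rfl fun i _ => ?_
    unfold fsmPltG
    ring
  simp only [e1]
  rw [h]
  refine lintegral_congr fun τ => ?_
  congr 2
  · rw [fsm_plt_fourier hv, Complex.norm_exp, ← Real.exp_nat_mul]
    congr 1
    rw [Complex.neg_re, Complex.ofReal_re]
    push_cast
    ring
  · congr 2
    refine Finset.sum_congr rfl fun i _ => ?_
    congr 4
    simp [mul_comm]

theorem fsm_pl_meas (α : E k → ℝ) (hα : fsmBC α) (b : E k) (v : ℝ) : Measurable (fsmShear α b v) := by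
  unfold fsmShear
  refine Measurable.mul ?_ ?_
  · exact hα.1.measurable.comp (by fun_prop)
  · exact (measurable_gaussianPDFReal 0 _).comp measurable_snd

/-- LEAF L-257-SM-PL: iterated Plancherel (Tonelli + `fsm_planch_x` with `c z = g_v(t_z - t)`, `y z = x_z - 2 (t_z - t) b` + `fsm_planch_t` with `ω = -2 b·ξ`, `d z = e^{2πi x_z·ξ}`) -/
theorem fsm_planch (α : E k → ℝ) (hα : fsmBC α) (hi : Integrable α) (b : E k) {v : ℝ} (hv : 0 < v) (Y : Finset (ST k)) :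
    ∫⁻ w : ST k, ENNReal.ofReal ((∑ z ∈ Y, fsmShear α b v (z - w)) ^ 2)
      = ∫⁻ ξ : E k, ∫⁻ τ : ℝ, ENNReal.ofReal (‖𝓕 (fun x => (α x : ℂ)) ξ‖ ^ 2 * Real.exp (-(4 * Real.pi ^ 2 * v * (τ + 2 * ⟪b, ξ⟫_ℝ) ^ 2)) * ‖fsmES Y ξ τ‖ ^ 2) := by
  have hm : Measurable fun w : ST k => ENNReal.ofReal ((∑ z ∈ Y, fsmShear α b v (z - w)) ^ 2) := by
    refine ENNReal.measurable_ofReal.comp (Measurable.pow_const (Finset.measurable_sum _ fun z _ => ?_) 2)
    exact (fsm_pl_meas α hα b v).comp (measurable_const.sub measurable_id)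
  have hF : Continuous (𝓕 (fun x => (α x : ℂ))) := inf_str_pl_cont hi.ofReal
  rw [Measure.volume_eq_prod, lintegral_prod_symm _ hm.aemeasurable]
  have s1 : ∀ u : ℝ, ∫⁻ x : E k, ENNReal.ofReal ((∑ z ∈ Y, fsmShear α b v (z - (x, u))) ^ 2)
      = ∫⁻ ξ : E k, ENNReal.ofReal (‖𝓕 (fun x => (α x : ℂ)) ξ‖ ^ 2 * ‖∑ z ∈ Y, ((gaussianPDFReal 0 v.toNNReal (z.2 - u) : ℝ) : ℂ)
          * Complex.exp (2 * Real.pi * Complex.I * ((⟪z.1 - (z.2 - u) • ((2 : ℝ) • b), ξ⟫_ℝ : ℝ) : ℂ))‖ ^ 2) := by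
    intro u
    rw [← fsm_planch_x α hα hi Y (fun z => gaussianPDFReal 0 v.toNNReal (z.2 - u)) (fun z => z.1 - (z.2 - u) • ((2 : ℝ) • b))]
    refine lintegral_congr fun x => ?_
    congr 2
    refine Finset.sum_congr rfl fun z _ => ?_
    unfold fsmShear
    simp only [Prod.fst_sub, Prod.snd_sub]
    rw [mul_comm, sub_right_comm]
  simp only [s1]
  rw [lintegral_lintegral_swap]
  · refine lintegral_congr fun ξ => ?_
    have h := fsm_planch_t hv (-(2 * ⟪b, ξ⟫_ℝ)) Y (fun z => 𝓕 (fun x => (α x : ℂ)) ξ * Complex.exp (2 * Real.pi * Complex.I * ((⟪z.1, ξ⟫_ℝ : ℝ) : ℂ))) (fun z => z.2)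
    have a1 : ∀ u : ℝ, ‖𝓕 (fun x => (α x : ℂ)) ξ‖ ^ 2 * ‖∑ z ∈ Y, ((gaussianPDFReal 0 v.toNNReal (z.2 - u) : ℝ) : ℂ)
          * Complex.exp (2 * Real.pi * Complex.I * ((⟪z.1 - (z.2 - u) • ((2 : ℝ) • b), ξ⟫_ℝ : ℝ) : ℂ))‖ ^ 2
        = ‖∑ z ∈ Y, 𝓕 (fun x => (α x : ℂ)) ξ * Complex.exp (2 * Real.pi * Complex.I * ((⟪z.1, ξ⟫_ℝ : ℝ) : ℂ)) * ((gaussianPDFReal 0 v.toNNReal (z.2 - u) : ℝ) : ℂ)
            * Complex.exp (2 * Real.pi * Complex.I * ((-(2 * ⟪b, ξ⟫_ℝ) * (z.2 - u) : ℝ) : ℂ))‖ ^ 2 := by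
      intro u
      rw [← mul_pow, ← norm_mul, Finset.mul_sum]
      congr 2
      refine Finset.sum_congr rfl fun z _ => ?_
      have ee : Complex.exp (2 * Real.pi * Complex.I * ((⟪z.1 - (z.2 - u) • ((2 : ℝ) • b), ξ⟫_ℝ : ℝ) : ℂ))
          = Complex.exp (2 * Real.pi * Complex.I * ((⟪z.1, ξ⟫_ℝ : ℝ) : ℂ)) * Complex.exp (2 * Real.pi * Complex.I * ((-(2 * ⟪b, ξ⟫_ℝ) * (z.2 - u) : ℝ) : ℂ)) := by
        rw [← Complex.exp_add]
        congr 1
        rw [inner_sub_left, inner_smul_left, inner_smul_left]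
        simp only [conj_trivial]
        push_cast
        ring
      rw [ee]
      ring
    have a2 : ∀ τ : ℝ, ‖𝓕 (fun x => (α x : ℂ)) ξ‖ ^ 2 * Real.exp (-(4 * Real.pi ^ 2 * v * (τ + 2 * ⟪b, ξ⟫_ℝ) ^ 2)) * ‖fsmES Y ξ τ‖ ^ 2
        = Real.exp (-(4 * Real.pi ^ 2 * v * (τ - -(2 * ⟪b, ξ⟫_ℝ)) ^ 2)) * ‖∑ z ∈ Y, 𝓕 (fun x => (α x : ℂ)) ξ * Complex.exp (2 * Real.pi * Complex.I * ((⟪z.1, ξ⟫_ℝ : ℝ) : ℂ))
            * Complex.exp (2 * Real.pi * Complex.I * ((z.2 * τ : ℝ) : ℂ))‖ ^ 2 := by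
      intro τ
      rw [sub_neg_eq_add, mul_comm (‖_‖ ^ 2), mul_assoc, ← mul_pow, ← norm_mul]
      unfold fsmES
      rw [Finset.mul_sum]
      congr 3
      refine Finset.sum_congr rfl fun z _ => ?_
      rw [mul_assoc (𝓕 (fun x => (α x : ℂ)) ξ), ← Complex.exp_add]
      congr 2
      push_cast
      ring
    simp only [a1, a2]
    exact h
  · refine Measurable.aemeasurable ?_
    refine ENNReal.measurable_ofReal.comp ?_
    refine Measurable.mul ?_ ?_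
    · exact ((hF.measurable.comp measurable_snd).norm).pow_const 2
    · refine Measurable.pow_const (Measurable.norm (Finset.measurable_sum _ fun z _ => ?_)) 2
      refine Measurable.mul ?_ ?_
      · exact Complex.measurable_ofReal.comp ((measurable_gaussianPDFReal 0 _).comp (by fun_prop))
      · exact Continuous.measurable (by fun_prop)

/-- the modulated Gaussian on `V` -/
noncomputable def fsmGevF {V : Type*} [NormedAddCommGroup V] [InnerProductSpace ℝ V] (p : ℝ) (a ξ : V) : ℂ :=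
  ((Real.exp (-(p * ‖ξ‖ ^ 2)) : ℝ) : ℂ) * Complex.exp (2 * Real.pi * Complex.I * ((⟪a, ξ⟫_ℝ : ℝ) : ℂ))

theorem fsm_gev_eq {V : Type*} [NormedAddCommGroup V] [InnerProductSpace ℝ V] (p : ℝ) (a ξ : V) :
    fsmGevF p a ξ = Complex.exp (-(p : ℂ) * (‖ξ‖ : ℂ) ^ 2 + (2 * Real.pi * Complex.I) * ((⟪a, ξ⟫_ℝ : ℝ) : ℂ)) := by
  unfold fsmGevF
  rw [Complex.exp_add, Complex.ofReal_exp]
  congr 2
  push_cast
  ring

theorem fsm_gev_int {V : Type*} [NormedAddCommGroup V] [InnerProductSpace ℝ V] [FiniteDimensional ℝ V] [MeasurableSpace V] [BorelSpace V]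
    {p : ℝ} (hp : 0 < p) (a : V) : Integrable (fsmGevF p a) := by
  have h := GaussianFourier.integrable_cexp_neg_mul_sq_norm_add (b := (p : ℂ)) (by simpa using hp) (2 * Real.pi * Complex.I) a
  refine h.congr (Filter.Eventually.of_forall fun ξ => ?_)
  exact (fsm_gev_eq p a ξ).symm

theorem fsm_gev_cpow {x : ℝ} (hx : 0 ≤ x) (m : ℕ) : (x : ℂ) ^ ((m : ℂ) / 2) = ((Real.sqrt x ^ m : ℝ) : ℂ) := by
  have e : ((m : ℂ) / 2) = (((m : ℝ) / 2 : ℝ) : ℂ) := by push_cast; rfl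
  rw [e, ← Complex.ofReal_cpow hx]
  congr 1
  rw [Real.sqrt_eq_rpow, ← Real.rpow_natCast, ← Real.rpow_mul hx]
  congr 1
  ring

theorem fsm_gev_integral {V : Type*} [NormedAddCommGroup V] [InnerProductSpace ℝ V] [FiniteDimensional ℝ V] [MeasurableSpace V] [BorelSpace V]
    {p : ℝ} (hp : 0 < p) (a : V) :
    ∫ ξ, fsmGevF p a ξ = ((Real.sqrt (Real.pi / p) ^ (Module.finrank ℝ V) * Real.exp (-(Real.pi ^ 2 * ‖a‖ ^ 2 / p)) : ℝ) : ℂ) := by
  have h := GaussianFourier.integral_cexp_neg_mul_sq_norm_add (b := (p : ℂ)) (by simpa using hp) (2 * Real.pi * Complex.I) a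
  simp only [fsm_gev_eq]
  rw [h]
  have e1 : ((Real.pi : ℂ) / (p : ℂ)) = ((Real.pi / p : ℝ) : ℂ) := by push_cast; rfl
  rw [e1, fsm_gev_cpow (by positivity)]
  push_cast
  congr 2
  have hp' : (p : ℂ) ≠ 0 := by exact_mod_cast hp.ne'
  rw [mul_pow, mul_pow, Complex.I_sq]
  field_simp
  ring

theorem fsm_gev_expand (p q : ℝ) (Y : Finset (ST k)) (ξ : E k) (τ : ℝ) :
    ((Real.exp (-(p * ‖ξ‖ ^ 2) - q * τ ^ 2) * ‖fsmES Y ξ τ‖ ^ 2 : ℝ) : ℂ)
      = ∑ z ∈ Y, ∑ z' ∈ Y, fsmGevF p (z.1 - z'.1) ξ * fsmGevF q (z.2 - z'.2) τ := by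
  have e1 : ((‖fsmES Y ξ τ‖ ^ 2 : ℝ) : ℂ) = fsmES Y ξ τ * (starRingEnd ℂ) (fsmES Y ξ τ) := by
    rw [Complex.mul_conj']
    push_cast
    rfl
  rw [Complex.ofReal_mul, e1]
  unfold fsmES
  rw [map_sum, Finset.sum_mul_sum, Finset.mul_sum]
  refine Finset.sum_congr rfl fun z _ => ?_
  rw [Finset.mul_sum]
  refine Finset.sum_congr rfl fun z' _ => ?_
  unfold fsmGevF
  rw [← Complex.exp_conj, ← Complex.exp_add, sub_eq_add_neg, Real.exp_add, mul_mul_mul_comm, ← Complex.exp_add, Real.norm_eq_abs, sq_abs]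
  push_cast
  congr 2
  simp only [map_mul, Complex.conj_I, Complex.conj_ofReal, map_ofNat, map_add]
  rw [inner_sub_left]
  simp only [RCLike.inner_apply, conj_trivial]
  push_cast
  ring

/-- LEAF L-257-SM-GEV: Gaussian evaluation (expand the square; `fourierIntegral_gaussian_innerProductSpace`, `fourierIntegral_gaussian`) -/
theorem fsm_gauss_eval {p q : ℝ} (hp : 0 < p) (hq : 0 < q) (Y : Finset (ST k)) :
    ∫⁻ ξ : E k, ∫⁻ τ : ℝ, ENNReal.ofReal (Real.exp (-(p * ‖ξ‖ ^ 2) - q * τ ^ 2) * ‖fsmES Y ξ τ‖ ^ 2)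
      = ENNReal.ofReal (Real.sqrt (Real.pi / p) ^ k * Real.sqrt (Real.pi / q) *
          ∑ z ∈ Y, ∑ z' ∈ Y, Real.exp (-(Real.pi ^ 2 * ‖z.1 - z'.1‖ ^ 2 / p) - Real.pi ^ 2 * (z.2 - z'.2) ^ 2 / q)) := by
  have hI : ∀ z z' : ST k, Integrable (fun w : E k × ℝ => fsmGevF p (z.1 - z'.1) w.1 * fsmGevF q (z.2 - z'.2) w.2) (volume.prod volume) :=
    fun z z' => (fsm_gev_int hp _).mul_prod (fsm_gev_int hq _)
  have hIC : Integrable (fun w : E k × ℝ => ((Real.exp (-(p * ‖w.1‖ ^ 2) - q * w.2 ^ 2) * ‖fsmES Y w.1 w.2‖ ^ 2 : ℝ) : ℂ)) (volume.prod volume) := by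
    simp only [fsm_gev_expand]
    exact integrable_finsetSum _ fun z _ => integrable_finsetSum _ fun z' _ => hI z z'
  have hIR : Integrable (fun w : E k × ℝ => Real.exp (-(p * ‖w.1‖ ^ 2) - q * w.2 ^ 2) * ‖fsmES Y w.1 w.2‖ ^ 2) (volume.prod volume) := by
    exact hIC.re
  rw [← lintegral_prod (fun w : E k × ℝ => ENNReal.ofReal (Real.exp (-(p * ‖w.1‖ ^ 2) - q * w.2 ^ 2) * ‖fsmES Y w.1 w.2‖ ^ 2))
    (ENNReal.measurable_ofReal.comp_aemeasurable hIR.aemeasurable),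
    ← ofReal_integral_eq_lintegral_ofReal hIR (Filter.Eventually.of_forall fun w => by positivity)]
  congr 1
  apply Complex.ofReal_injective
  rw [← integral_complex_ofReal]
  simp only [fsm_gev_expand]
  rw [integral_finsetSum _ fun z _ => integrable_finsetSum _ fun z' _ => hI z z']
  rw [Complex.ofReal_mul, Complex.ofReal_sum, Finset.mul_sum]
  refine Finset.sum_congr rfl fun z _ => ?_
  rw [integral_finsetSum _ fun z' _ => hI z z', Complex.ofReal_sum, Finset.mul_sum]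
  refine Finset.sum_congr rfl fun z' _ => ?_
  rw [integral_prod_mul, fsm_gev_integral hp, fsm_gev_integral hq, ← Complex.ofReal_mul, ← Complex.ofReal_mul]
  congr 1
  rw [finrank_euclideanSpace_fin, Module.finrank_self, pow_one, Real.exp_sub, Real.exp_neg (Real.pi ^ 2 * ‖z.2 - z'.2‖ ^ 2 / q), Real.norm_eq_abs, sq_abs]
  ring

theorem fsm_fh_int (ν : Measure (E k)) [IsFiniteMeasure ν] {g : E k → ℝ} (hg : Integrable g) : Integrable (fsmCv ν g) := by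
  have h := (Integrable.convolution_integrand (ContinuousLinearMap.mul ℝ ℝ) (f := fun _ : E k => (1 : ℝ)) (ν := ν) (μ := volume) (integrable_const 1) hg).integral_prod_left
  have h2 : fsmCv ν g = fun x => ∫ y, g (x - y) ∂ν := rfl
  rw [h2]
  simpa using h

theorem fsm_fh_conv (ν : Measure (E k)) [IsFiniteMeasure ν] {g : E k → ℝ} (hg : Integrable g) (ξ : E k) :
    𝓕 (fun x => ((fsmCv ν g x : ℝ) : ℂ)) ξ = charFun ν (-(2 * Real.pi) • ξ) * 𝓕 (fun x => (g x : ℂ)) ξ := by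
  have hf1 : Integrable (fun w : E k => Complex.exp (↑(-2 * Real.pi * ⟪w, ξ⟫_ℝ) * Complex.I)) ν := by
    refine (integrable_const (1 : ℝ)).mono' (Continuous.aestronglyMeasurable (by fun_prop)) (Filter.Eventually.of_forall fun a => ?_)
    rw [Complex.norm_exp_ofReal_mul_I]
  have hg1 : Integrable (fun u : E k => Complex.exp (↑(-2 * Real.pi * ⟪u, ξ⟫_ℝ) * Complex.I) * (g u : ℂ)) volume := by
    refine hg.ofReal.bdd_mul (c := 1) (Continuous.aestronglyMeasurable (by fun_prop)) (Filter.Eventually.of_forall fun a => ?_)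
    rw [Complex.norm_exp_ofReal_mul_I]
  have h := integral_convolution (ContinuousLinearMap.mul ℂ ℂ) (μ := volume) (ν := ν) hf1 hg1
  rw [Real.fourier_eq', Real.fourier_eq', charFun_apply]
  simp only [smul_eq_mul]
  have e1 : ∀ w : E k, Complex.exp (((⟪w, -(2 * Real.pi) • ξ⟫_ℝ : ℝ) : ℂ) * Complex.I) = Complex.exp (↑(-2 * Real.pi * ⟪w, ξ⟫_ℝ) * Complex.I) := by
    intro w
    rw [inner_smul_right]
    congr 3
    ring
  simp only [e1]
  rw [ContinuousLinearMap.mul_apply'] at h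
  rw [← h]
  refine integral_congr_ae (Filter.Eventually.of_forall fun v => ?_)
  simp only [convolution_def, ContinuousLinearMap.mul_apply', fsmCv]
  rw [← integral_complex_ofReal, ← integral_const_mul]
  refine integral_congr_ae (Filter.Eventually.of_forall fun t => ?_)
  simp only
  rw [← mul_assoc, ← Complex.exp_add]
  congr 2
  rw [inner_sub_left]
  push_cast
  ring

theorem fsm_fh_hk {s : ℝ} (hs : 0 < s) (ξ : E k) :
    𝓕 (fun x : E k => ((fsmHk s x : ℝ) : ℂ)) ξ = Complex.exp (-((2 * Real.pi ^ 2 * s ^ 2 * ‖ξ‖ ^ 2 : ℝ) : ℂ)) := by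
  have h := fsm_gev_integral (V := E k) (p := 1 / (2 * s ^ 2)) (by positivity) (-ξ)
  rw [Real.fourier_eq']
  have e : ∀ v : E k, Complex.exp (↑(-2 * Real.pi * ⟪v, ξ⟫_ℝ) * Complex.I) • ((fsmHk s v : ℝ) : ℂ)
      = (((Real.sqrt (2 * Real.pi * s ^ 2) ^ k)⁻¹ : ℝ) : ℂ) * fsmGevF (1 / (2 * s ^ 2)) (-ξ) v := by
    intro v
    unfold fsmHk fsmGevF
    have a1 : -‖v‖ ^ 2 / (2 * s ^ 2) = -(1 / (2 * s ^ 2) * ‖v‖ ^ 2) := by ring
    have a2 : Complex.exp (↑(-2 * Real.pi * ⟪v, ξ⟫_ℝ) * Complex.I) = Complex.exp (2 * Real.pi * Complex.I * ((⟪-ξ, v⟫_ℝ : ℝ) : ℂ)) := by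
      congr 1
      rw [inner_neg_left, real_inner_comm]
      push_cast
      ring
    rw [smul_eq_mul, a1, a2, Complex.ofReal_mul]
    ring
  simp only [e]
  rw [integral_const_mul, h, ← Complex.ofReal_mul, ← Complex.ofReal_neg, ← Complex.ofReal_exp]
  congr 1
  rw [finrank_euclideanSpace_fin, norm_neg]
  have e2 : Real.pi / (1 / (2 * s ^ 2)) = 2 * Real.pi * s ^ 2 := by
    field_simp
  have e3 : Real.pi ^ 2 * ‖ξ‖ ^ 2 / (1 / (2 * s ^ 2)) = 2 * Real.pi ^ 2 * s ^ 2 * ‖ξ‖ ^ 2 := by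
    field_simp
  rw [e2, e3, ← mul_assoc, inv_mul_cancel₀ (by positivity), one_mul]

/-- LEAF L-257-SM-FH: Fourier transform of a heat kernel smeared by a law -/
theorem fsm_fourier_cv_hk (ν : Measure (E k)) [IsProbabilityMeasure ν] {s : ℝ} (hs : 0 < s) :
    fsmBC (fsmCv ν (fsmHk s)) ∧ Integrable (fsmCv ν (fsmHk s)) ∧
      ∀ ξ : E k, 𝓕 (fun x => ((fsmCv ν (fsmHk s) x : ℝ) : ℂ)) ξ = charFun ν (-(2 * Real.pi) • ξ) * Complex.exp (-((2 * Real.pi ^ 2 * s ^ 2 * ‖ξ‖ ^ 2 : ℝ) : ℂ)) := by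
  refine ⟨fsm_cv_bc ν (fsm_Hk_bc s), fsm_fh_int ν (fsm_Hk_integrable hs), fun ξ => ?_⟩
  rw [fsm_fh_conv ν (fsm_Hk_integrable hs), fsm_fh_hk hs]

/-- LEAF L-257-SM-CF: first order bound of a characteristic function -/
theorem fsm_charFun_sub_one (ν : Measure (E k)) [IsProbabilityMeasure ν] (hi : Integrable (fun a => ‖a‖) ν) (η : E k) :
    ‖1 - charFun ν η‖ ≤ ‖η‖ * ∫ a, ‖a‖ ∂ν := by
  have hm : Integrable (fun a : E k => Complex.exp ((⟪a, η⟫_ℝ : ℝ) * Complex.I)) ν := by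
    refine (integrable_const (1 : ℝ)).mono' (by fun_prop) (Filter.Eventually.of_forall fun a => ?_)
    rw [Complex.norm_exp_ofReal_mul_I]
  have e : 1 - charFun ν η = ∫ a, (1 - Complex.exp ((⟪a, η⟫_ℝ : ℝ) * Complex.I)) ∂ν := by
    rw [integral_sub (integrable_const _) hm, charFun_apply]
    simp
  rw [e, ← integral_const_mul]
  refine (norm_integral_le_integral_norm _).trans (integral_mono_of_nonneg (Filter.Eventually.of_forall fun a => norm_nonneg _) (hi.const_mul _)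
    (Filter.Eventually.of_forall fun a => ?_))
  have h1 := Real.norm_exp_I_mul_ofReal_sub_one_le (x := ⟪a, η⟫_ℝ)
  simp only
  rw [norm_sub_rev, mul_comm ((⟪a, η⟫_ℝ : ℝ) : ℂ)]
  refine h1.trans ?_
  rw [mul_comm]
  exact norm_inner_le_norm a η

/-- LEAF L-257-SM-MOM1: Minkowski for the moments of a convolution of laws -/
theorem fsm_mom_conv (μ ν : Measure (E k)) [IsProbabilityMeasure μ] [IsProbabilityMeasure ν] {p : ℝ≥0∞} (hp : 1 ≤ p) :
    eLpNorm (fun a : E k => a) p (μ ∗ ν) ≤ eLpNorm (fun a : E k => a) p μ + eLpNorm (fun a : E k => a) p ν := by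
  have hid : ∀ ρ : Measure (E k), AEStronglyMeasurable (fun a : E k => a) ρ := fun ρ => aestronglyMeasurable_id
  have h1 : eLpNorm (fun a : E k => a) p (μ ∗ ν) = eLpNorm (fun x : E k × E k => x.1 + x.2) p (μ.prod ν) := by
    unfold Measure.conv
    have hm : Measurable fun x : E k × E k => x.1 + x.2 := measurable_fst.add measurable_snd
    rw [eLpNorm_map_measure (hid _) hm.aemeasurable]
    rfl
  have h2 : eLpNorm (fun x : E k × E k => x.1) p (μ.prod ν) = eLpNorm (fun a : E k => a) p μ :=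
    eLpNorm_comp_measurePreserving (hid μ) (measurePreserving_fst (μ := μ) (ν := ν))
  have h3 : eLpNorm (fun x : E k × E k => x.2) p (μ.prod ν) = eLpNorm (fun a : E k => a) p ν :=
    eLpNorm_comp_measurePreserving (hid ν) (measurePreserving_snd (μ := μ) (ν := ν))
  rw [h1, ← h2, ← h3]
  exact eLpNorm_add_le measurable_fst.aestronglyMeasurable measurable_snd.aestronglyMeasurable hp

/-- scaling of the moments -/
theorem fsm_mom2_scale (μ : Measure (E k)) (p : ℝ≥0∞) {K : ℝ} (hK : 0 < K) :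
    eLpNorm (fun a : E k => a) p (μ.map fun x => K • x) = ENNReal.ofReal K * eLpNorm (fun a : E k => a) p μ := by
  have hm : Measurable fun x : E k => K • x := measurable_const_smul K
  rw [eLpNorm_map_measure (g := fun a : E k => a) aestronglyMeasurable_id hm.aemeasurable]
  have e : ((fun a : E k => a) ∘ fun x : E k => K • x) = K • (fun a : E k => a) := rfl
  rw [e, eLpNorm_const_smul, Real.enorm_eq_ofReal_abs, abs_of_pos hK]

/-- finiteness of the moments of a law with a density -/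
theorem fsm_mom2_fin {ρ : E k → ℝ} (hρm : Measurable ρ) {p : ℕ} (hp : 1 ≤ p)
    (hi : Integrable fun x : E k => ‖x‖ ^ p * ρ x) :
    eLpNorm (fun a : E k => a) p (volume.withDensity fun x => ENNReal.ofReal (ρ x)) < ⊤ := by
  have hp0 : (p : ℝ≥0∞) ≠ 0 := by
    have : p ≠ 0 := by omega
    exact_mod_cast this
  rw [eLpNorm_lt_top_iff_lintegral_rpow_enorm_lt_top hp0 (ENNReal.natCast_ne_top p)]
  rw [lintegral_withDensity_eq_lintegral_mul _ hρm.ennreal_ofReal (by fun_prop)]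
  refine lt_of_le_of_lt (le_of_eq ?_) hi.lintegral_lt_top
  refine lintegral_congr fun x => ?_
  simp only [Pi.mul_apply, ENNReal.toReal_natCast, ENNReal.rpow_natCast]
  rw [mul_comm, ENNReal.ofReal_mul (by positivity), ENNReal.ofReal_pow (norm_nonneg x), ofReal_norm]

theorem fsm_mom2_W {Q p : ℕ} (h : p ≤ Q) (x : E k) : ‖x‖ ^ p * fsmW Q x ≤ fsmW (Q - p) x := by
  unfold fsmW
  have h1 : (0 : ℝ) < 1 + ‖x‖ ^ 2 := by positivity
  have h2 : ‖x‖ ^ p ≤ (1 + ‖x‖ ^ 2) ^ ((p : ℝ) / 2) := by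
    have h3 : ‖x‖ ^ p = (‖x‖ ^ 2) ^ ((p : ℝ) / 2) := by
      rw [← Real.rpow_natCast (‖x‖) 2, ← Real.rpow_mul (norm_nonneg x), ← Real.rpow_natCast (‖x‖) p]
      congr 1
      push_cast
      ring
    rw [h3]
    exact Real.rpow_le_rpow (by positivity) (by linarith) (by positivity)
  calc ‖x‖ ^ p * (1 + ‖x‖ ^ 2) ^ (-(Q : ℝ) / 2) ≤ (1 + ‖x‖ ^ 2) ^ ((p : ℝ) / 2) * (1 + ‖x‖ ^ 2) ^ (-(Q : ℝ) / 2) :=
        mul_le_mul_of_nonneg_right h2 (by positivity)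
    _ = (1 + ‖x‖ ^ 2) ^ (-((Q - p : ℕ) : ℝ) / 2) := by
        rw [← Real.rpow_add h1]
        congr 1
        rw [Nat.cast_sub h]
        ring

/-- LEAF L-257-SM-MOM2: moments of the polynomial law (scaling `fsm_jm_map`; `|x|^p (1+|x|²)^{-Q/2}` is integrable for `p + k < Q`) -/
theorem fsm_mom_jm (k Q p : ℕ) (hp : 1 ≤ p) (h : p + k < Q) : ∃ C : ℝ, 0 ≤ C ∧ ∀ K : ℝ, 0 < K →
    eLpNorm (fun a : E k => a) p (fsmJm Q K) ≤ ENNReal.ofReal (C * K) := by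
  have hQ : k < Q := by omega
  have hfin : eLpNorm (fun a : E k => a) p (fsmJm Q 1) < ⊤ := by
    unfold fsmJm
    refine fsm_mom2_fin (fsm_J_continuous Q 1).measurable hp ?_
    have hW : Integrable (fsmW (Q - p) : E k → ℝ) := fsm_W_integrable (by omega)
    have hc : 0 ≤ (∫ y : E k, fsmW Q y)⁻¹ := inv_nonneg.2 (integral_nonneg fun y => (fsm_W_pos Q y).le)
    refine (hW.const_mul ((∫ y : E k, fsmW Q y)⁻¹)).mono' ?_ (Filter.Eventually.of_forall fun x => ?_)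
    · exact ((continuous_norm.pow p).mul (fsm_J_continuous Q 1)).aestronglyMeasurable
    · have h0 := (fsm_J_pos hQ one_pos x).le
      rw [Real.norm_eq_abs, abs_of_nonneg (by positivity)]
      unfold fsmJ
      simp only [one_pow, inv_one, mul_one, one_smul]
      calc ‖x‖ ^ p * ((∫ y : E k, fsmW Q y)⁻¹ * fsmW Q x) = (∫ y : E k, fsmW Q y)⁻¹ * (‖x‖ ^ p * fsmW Q x) := by ring
        _ ≤ _ := mul_le_mul_of_nonneg_left (fsm_mom2_W (by omega) x) hc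
  refine ⟨(eLpNorm (fun a : E k => a) p (fsmJm Q 1)).toReal, ENNReal.toReal_nonneg, fun K hK => ?_⟩
  rw [fsm_jm_map hQ hK, fsm_mom2_scale _ _ hK, mul_comm _ K, ENNReal.ofReal_mul hK.le, ENNReal.ofReal_toReal hfin.ne]

/-- LEAF L-257-SM-MOM2: moments of the heat law -/
theorem fsm_mom_hm (k p : ℕ) (hp : 1 ≤ p) : ∃ C : ℝ, 0 ≤ C ∧ ∀ s : ℝ, 0 < s →
    eLpNorm (fun a : E k => a) p (fsmHm s) ≤ ENNReal.ofReal (C * s) := by
  have hfin : eLpNorm (fun a : E k => a) p (fsmHm 1 : Measure (E k)) < ⊤ := by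
    unfold fsmHm
    refine fsm_mom2_fin (fsm_Hk_bc 1).1.measurable hp ?_
    have hs2 : (0 : ℝ) < Real.sqrt 2 := by positivity
    have hH : Integrable (fsmHk (Real.sqrt 2) : E k → ℝ) := fsm_Hk_integrable hs2
    -- `|x|^p e^{-|x|²/2} ≤ p! e e^{-|x|²/4}`
    set c1 : ℝ := (Real.sqrt (2 * Real.pi * (1 : ℝ) ^ 2) ^ k)⁻¹ with hc1
    set c2 : ℝ := (Real.sqrt (2 * Real.pi * (Real.sqrt 2) ^ 2) ^ k)⁻¹ with hc2
    have hc1p : 0 < c1 := by rw [hc1]; positivity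
    have hc2p : 0 < c2 := by rw [hc2]; positivity
    refine (hH.const_mul (c1 * (p.factorial * Real.exp 1) / c2)).mono' ?_ (Filter.Eventually.of_forall fun x => ?_)
    · exact ((continuous_norm.pow p).mul (fsm_Hk_bc 1).1).aestronglyMeasurable
    · have h0 := (fsm_Hk_pos one_pos x).le
      rw [Real.norm_eq_abs, abs_of_nonneg (by positivity)]
      unfold fsmHk
      rw [← hc1, ← hc2]
      have h1 : ‖x‖ ^ p ≤ p.factorial * Real.exp ‖x‖ := by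
        have := Real.pow_div_factorial_le_exp ‖x‖ (norm_nonneg x) p
        rwa [div_le_iff₀ (by positivity), mul_comm] at this
      have h2 : Real.exp ‖x‖ * Real.exp (-‖x‖ ^ 2 / (2 * 1 ^ 2)) ≤ Real.exp 1 * Real.exp (-‖x‖ ^ 2 / (2 * Real.sqrt 2 ^ 2)) := by
        rw [← Real.exp_add, ← Real.exp_add, Real.sq_sqrt (by norm_num)]
        refine Real.exp_le_exp.2 ?_
        nlinarith [sq_nonneg (‖x‖ / 2 - 1)]
      have e1 : c1 * (p.factorial * Real.exp 1) / c2 * (c2 * Real.exp (-‖x‖ ^ 2 / (2 * Real.sqrt 2 ^ 2)))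
          = c1 * (p.factorial * (Real.exp 1 * Real.exp (-‖x‖ ^ 2 / (2 * Real.sqrt 2 ^ 2)))) := by
        field_simp
      rw [e1]
      calc ‖x‖ ^ p * (c1 * Real.exp (-‖x‖ ^ 2 / (2 * 1 ^ 2))) = c1 * (‖x‖ ^ p * Real.exp (-‖x‖ ^ 2 / (2 * 1 ^ 2))) := by ring
        _ ≤ c1 * ((p.factorial * Real.exp ‖x‖) * Real.exp (-‖x‖ ^ 2 / (2 * 1 ^ 2))) := by
            refine mul_le_mul_of_nonneg_left (mul_le_mul_of_nonneg_right h1 (Real.exp_pos _).le) hc1p.le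
        _ = c1 * (p.factorial * (Real.exp ‖x‖ * Real.exp (-‖x‖ ^ 2 / (2 * 1 ^ 2)))) := by ring
        _ ≤ _ := by
            refine mul_le_mul_of_nonneg_left (mul_le_mul_of_nonneg_left h2 (by positivity)) hc1p.le
  refine ⟨(eLpNorm (fun a : E k => a) p (fsmHm 1 : Measure (E k))).toReal, ENNReal.toReal_nonneg, fun s hs => ?_⟩
  rw [fsm_hm_map hs, fsm_mom2_scale _ _ hs, mul_comm _ s, ENNReal.ofReal_mul hs.le, ENNReal.ofReal_toReal hfin.ne]

theorem fsm_mom3_add {μ ν : Measure (E k)} [IsProbabilityMeasure μ] [IsProbabilityMeasure ν] {p : ℕ} (hp : 1 ≤ p) {a b c : ℝ}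
    (ha : 0 ≤ a) (hb : 0 ≤ b) (hμ : eLpNorm (fun a : E k => a) p μ ≤ ENNReal.ofReal a)
    (hν : eLpNorm (fun a : E k => a) p ν ≤ ENNReal.ofReal b) (hc : a + b ≤ c) :
    eLpNorm (fun a : E k => a) p (μ ∗ ν) ≤ ENNReal.ofReal c := by
  have hp' : (1 : ℝ≥0∞) ≤ (p : ℝ≥0∞) := by exact_mod_cast hp
  refine (fsm_mom_conv μ ν hp').trans ((add_le_add hμ hν).trans ?_)
  rw [← ENNReal.ofReal_add ha hb]
  exact ENNReal.ofReal_le_ofReal hc

/-- LEAF L-257-SM-MOM3: moments of the laws of the system (`∑_{i<n} K i ≤ K n`) -/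
theorem fsm_mom_sys (k Q p : ℕ) (hp : 1 ≤ p) (h : p + k < Q) : ∃ C : ℝ, 0 ≤ C ∧ ∀ {β : Type} (P : Sm k β) (n : ℕ), P.Q = Q → 0 < P.K0 →
    eLpNorm (fun a : E k => a) p (P.jq n) ≤ ENNReal.ofReal (C * P.K n) ∧ eLpNorm (fun a : E k => a) p (P.jp n) ≤ ENNReal.ofReal (C * P.K n) ∧
    eLpNorm (fun a : E k => a) p (P.sp n) ≤ ENNReal.ofReal (C * P.K n) ∧ eLpNorm (fun a : E k => a) p (P.mx n) ≤ ENNReal.ofReal (C * P.K n) := by
  obtain ⟨CJ, hCJ, hJ⟩ := fsm_mom_jm k Q p hp h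
  obtain ⟨CH, hCH, hH⟩ := fsm_mom_hm k p hp
  refine ⟨2 * CJ + 2 * CH, by positivity, ?_⟩
  intro β P n hPQ hK0
  have hQ : k < P.Q := by omega
  have hKn : ∀ n, 0 < P.K n := fsm_K_pos P hK0
  have hJP : ∀ K : ℝ, 0 < K → eLpNorm (fun a : E k => a) p (fsmJm P.Q K) ≤ ENNReal.ofReal (CJ * K) := by
    rw [hPQ]; exact hJ
  have hjq : ∀ n, eLpNorm (fun a : E k => a) p (P.jq n) ≤ ENNReal.ofReal (CJ * P.K n) := by
    intro n
    induction n with
    | zero =>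
      have h1 : eLpNorm (fun a : E k => a) p (P.jq 0) = 0 := by
        show eLpNorm (fun a : E k => a) p (Measure.dirac 0) = 0
        have h2 : (fun a : E k => a) =ᵐ[Measure.dirac (0 : E k)] (0 : E k → E k) := ae_eq_dirac _
        rw [eLpNorm_congr_ae h2, eLpNorm_zero]
      rw [h1]; exact zero_le
    | succ n ih =>
      have := fsm_jm_prob (k := k) hQ (hKn n)
      have := fsm_jq_prob P hQ hK0 n
      show eLpNorm (fun a : E k => a) p (fsmJm P.Q (P.K n) ∗ P.jq n) ≤ _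
      refine fsm_mom3_add hp (mul_nonneg hCJ (hKn n).le) (mul_nonneg hCJ (hKn n).le) (hJP _ (hKn n)) ih ?_
      rw [fsm_K_succ]; linarith
  have hK := hKn n
  have p1 : 0 ≤ CJ * P.K n := mul_nonneg hCJ hK.le
  have p2 : 0 ≤ CH * P.K n := mul_nonneg hCH hK.le
  have := fsm_jm_prob (k := k) hQ hK
  have := fsm_jq_prob P hQ hK0 n
  have := fsm_jp_prob P hQ hK0 n
  have := fsm_hm_prob (k := k) hK
  have hjp : eLpNorm (fun a : E k => a) p (P.jp n) ≤ ENNReal.ofReal (2 * CJ * P.K n) := by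
    show eLpNorm (fun a : E k => a) p (fsmJm P.Q (P.K n) ∗ P.jq n) ≤ _
    exact fsm_mom3_add hp p1 p1 (hJP _ hK) (hjq n) (by linarith)
  refine ⟨(hjq n).trans (ENNReal.ofReal_le_ofReal (by linarith)), hjp.trans (ENNReal.ofReal_le_ofReal (by linarith)), ?_, ?_⟩
  · show eLpNorm (fun a : E k => a) p (P.jp n ∗ fsmHm (P.K n)) ≤ _
    exact fsm_mom3_add hp (by linarith) p2 hjp (hH _ hK) (by linarith)
  · have h3 : 0 < Real.sqrt 3 * P.K n := by positivity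
    have := fsm_jm_prob (k := k) hQ (hKn (n + 1))
    have := fsm_hm_prob (k := k) h3
    show eLpNorm (fun a : E k => a) p (fsmJm P.Q (P.K (n + 1)) ∗ fsmHm (Real.sqrt 3 * P.K n)) ≤ _
    refine fsm_mom3_add hp (mul_nonneg hCJ (hKn (n + 1)).le) (mul_nonneg hCH h3.le) (hJP _ (hKn (n + 1))) (hH _ h3) ?_
    rw [fsm_K_succ]
    have h4 : Real.sqrt 3 ≤ 2 := by
      rw [show (2 : ℝ) = Real.sqrt (2 ^ 2) by rw [Real.sqrt_sq (by norm_num)]]
      exact Real.sqrt_le_sqrt (by norm_num)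
    have h5 : CH * (Real.sqrt 3 * P.K n) ≤ CH * (2 * P.K n) :=
      mul_le_mul_of_nonneg_left (mul_le_mul_of_nonneg_right h4 hK.le) hCH
    linarith

/-! ## the system -/

/-- first moment from the `L¹` norm of the identity -/
theorem fsm_al_mom {ν : Measure (E k)} {c : ℝ} (h : eLpNorm (fun a : E k => a) 1 ν ≤ ENNReal.ofReal c) (hc : 0 ≤ c) :
    Integrable (fun a : E k => ‖a‖) ν ∧ ∫ a, ‖a‖ ∂ν ≤ c := by
  have hm : MemLp (fun a : E k => a) 1 ν := ⟨aestronglyMeasurable_id, lt_of_le_of_lt h ENNReal.ofReal_lt_top⟩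
  have hi : Integrable (fun a : E k => a) ν := memLp_one_iff_integrable.1 hm
  refine ⟨hi.norm, ?_⟩
  rw [integral_norm_eq_lintegral_enorm (f := fun a : E k => a) aestronglyMeasurable_id, ← eLpNorm_one_eq_lintegral_enorm]
  exact ENNReal.toReal_le_of_le_ofReal hc h

/-- LEAF L-257-SM-AL: the signed kernel and its multiplier (`fsm_fourier_cv_hk`, `charFun_conv`, `norm_charFun_le_one`, `fsm_charFun_sub_one`, `fsm_mom_sys` with `p = 1`) -/
theorem fsm_al (k Q : ℕ) (hQ : k + 3 ≤ Q) : ∃ C : ℝ, 0 ≤ C ∧ ∀ {β : Type} (P : Sm k β) (n : ℕ), P.Q = Q → 0 < P.K0 →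
    fsmBC (P.al n) ∧ Integrable (P.al n) ∧
      ∀ ξ : E k, ‖𝓕 (fun x => (P.al n x : ℂ)) ξ‖ ≤ Real.exp (-(2 * Real.pi ^ 2 * P.K n ^ 2 * ‖ξ‖ ^ 2)) * min 2 (C * P.K n * ‖ξ‖) := by
  obtain ⟨C1, hC1, hsys⟩ := fsm_mom_sys k Q 1 le_rfl (by omega)
  refine ⟨4 * Real.pi * C1, by positivity, ?_⟩
  intro β P n hPQ hK0
  have hQ' : k < P.Q := by omega
  have hK : 0 < P.K n := fsm_K_pos P hK0 n
  have := fsm_jp_prob P hQ' hK0 n
  have := fsm_mx_prob P hQ' hK0 n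
  obtain ⟨b1, i1, F1⟩ := fsm_fourier_cv_hk (P.jp n) hK
  obtain ⟨b2, i2, F2⟩ := fsm_fourier_cv_hk (P.jp n ∗ (P.mx n ∗ P.mx n)) hK
  refine ⟨fsm_bc_sub b1 b2, i1.sub i2, fun ξ => ?_⟩
  have hmx := (hsys P n hPQ hK0).2.2.2
  simp only [Nat.cast_one] at hmx
  have p1 : 0 ≤ C1 * P.K n := mul_nonneg hC1 hK.le
  have hmm : eLpNorm (fun a : E k => a) 1 (P.mx n ∗ P.mx n) ≤ ENNReal.ofReal (2 * C1 * P.K n) := by
    have := fsm_mom3_add (p := 1) le_rfl p1 p1 (by simpa using hmx) (by simpa using hmx) (c := 2 * C1 * P.K n) (by linarith)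
    simpa using this
  obtain ⟨hint, hmom⟩ := fsm_al_mom hmm (by linarith)
  have hF : 𝓕 (fun x => (P.al n x : ℂ)) ξ = 𝓕 (fun x => ((fsmCv (P.jp n) (fsmHk (P.K n)) x : ℝ) : ℂ)) ξ
      - 𝓕 (fun x => ((fsmCv (P.jp n ∗ (P.mx n ∗ P.mx n)) (fsmHk (P.K n)) x : ℝ) : ℂ)) ξ := by
    rw [Real.fourier_eq, Real.fourier_eq, Real.fourier_eq,
      ← integral_sub ((Real.fourierIntegral_convergent_iff ξ).2 i1.ofReal) ((Real.fourierIntegral_convergent_iff ξ).2 i2.ofReal)]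
    refine integral_congr_ae (Filter.Eventually.of_forall fun x => ?_)
    simp only [Sm.al]
    rw [← smul_sub]
    push_cast
    rfl
  rw [hF, F1, F2, charFun_conv]
  set η : E k := -(2 * Real.pi) • ξ with hη
  have e1 : charFun (P.jp n) η * Complex.exp (-((2 * Real.pi ^ 2 * P.K n ^ 2 * ‖ξ‖ ^ 2 : ℝ) : ℂ))
      - charFun (P.jp n) η * charFun (P.mx n ∗ P.mx n) η * Complex.exp (-((2 * Real.pi ^ 2 * P.K n ^ 2 * ‖ξ‖ ^ 2 : ℝ) : ℂ))
      = Complex.exp (-((2 * Real.pi ^ 2 * P.K n ^ 2 * ‖ξ‖ ^ 2 : ℝ) : ℂ)) * (charFun (P.jp n) η * (1 - charFun (P.mx n ∗ P.mx n) η)) := by ring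
  rw [e1, norm_mul, norm_mul]
  have e2 : ‖Complex.exp (-((2 * Real.pi ^ 2 * P.K n ^ 2 * ‖ξ‖ ^ 2 : ℝ) : ℂ))‖ = Real.exp (-(2 * Real.pi ^ 2 * P.K n ^ 2 * ‖ξ‖ ^ 2)) := by
    rw [← Complex.ofReal_neg, Complex.norm_exp_ofReal]
  rw [e2]
  refine mul_le_mul_of_nonneg_left ?_ (Real.exp_pos _).le
  have h1 : ‖charFun (P.jp n) η‖ ≤ 1 := norm_charFun_le_one η
  have h2 : ‖1 - charFun (P.mx n ∗ P.mx n) η‖ ≤ 2 := norm_one_sub_charFun_le_two
  have h3 : ‖1 - charFun (P.mx n ∗ P.mx n) η‖ ≤ 4 * Real.pi * C1 * P.K n * ‖ξ‖ := by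
    refine (fsm_charFun_sub_one _ hint η).trans ?_
    have h4 : ‖η‖ = 2 * Real.pi * ‖ξ‖ := by
      rw [hη, norm_smul, norm_neg, Real.norm_eq_abs, abs_of_pos (by positivity)]
    rw [h4]
    calc 2 * Real.pi * ‖ξ‖ * ∫ a, ‖a‖ ∂(P.mx n ∗ P.mx n) ≤ 2 * Real.pi * ‖ξ‖ * (2 * C1 * P.K n) :=
          mul_le_mul_of_nonneg_left hmom (by positivity)
      _ = _ := by ring
  calc ‖charFun (P.jp n) η‖ * ‖1 - charFun (P.mx n ∗ P.mx n) η‖ ≤ 1 * ‖1 - charFun (P.mx n ∗ P.mx n) η‖ :=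
        mul_le_mul_of_nonneg_right h1 (norm_nonneg _)
    _ = ‖1 - charFun (P.mx n ∗ P.mx n) η‖ := one_mul _
    _ ≤ _ := le_min h2 h3

/-- LEAF L-257-SM-SLAB: the Gaussian sum over the caps (`Ok.slab` with `e = ξ/|ξ|`, `c = -τ/(2|ξ|)`; `fsm_layer 1` with `d b = 2π √(2a) ... `) -/
theorem fsm_slab_sum : ∃ C : ℝ, 0 ≤ C ∧ ∀ {k : ℕ} {β : Type} (P : Sm k β) (N : ℕ) (Rc Cs N0 N1 cH : ℝ), P.Ok N Rc Cs N0 N1 cH →
    ∀ (a : ℝ) (ξ : E k) (τ : ℝ), 0 < a → ξ ≠ 0 →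
      ∑ b ∈ P.caps, Real.exp (-(a * (τ + 2 * ⟪P.cb b, ξ⟫_ℝ) ^ 2)) ≤ C * Cs * P.H ^ k * (1 / (Real.sqrt a * ‖ξ‖) + 1 / P.H) := by
  obtain ⟨C, hC, hlay⟩ := fsm_layer 1
  refine ⟨C, hC, fun {k β} P N Rc Cs N0 N1 cH h a ξ τ ha hξ => ?_⟩
  have hn : 0 < ‖ξ‖ := norm_pos_iff.2 hξ
  have hsa : 0 < Real.sqrt a := Real.sqrt_pos.2 ha
  have hH : 0 < P.H := lt_of_lt_of_le zero_lt_one h.hH
  set e : E k := ‖ξ‖⁻¹ • ξ with he
  have hen : ‖e‖ = 1 := by rw [he, norm_smul, norm_inv, norm_norm, inv_mul_cancel₀ hn.ne']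
  set c : ℝ := -τ / (2 * ‖ξ‖) with hc
  set w : ℝ := 2 * Real.sqrt 2 * Real.sqrt a * ‖ξ‖ with hw
  have hw0 : 0 < w := by positivity
  have hin : ∀ b, ⟪P.cb b, e⟫_ℝ = ‖ξ‖⁻¹ * ⟪P.cb b, ξ⟫_ℝ := fun b => by rw [he, inner_smul_right]
  have key : ∀ b, a * (τ + 2 * ⟪P.cb b, ξ⟫_ℝ) ^ 2 = (w * |⟪P.cb b, e⟫_ℝ - c|) ^ 2 / 2 := fun b => by
    rw [mul_pow, sq_abs, hin, hc, hw]
    have e1 : (2 * Real.sqrt 2 * Real.sqrt a * ‖ξ‖) ^ 2 = 8 * a * ‖ξ‖ ^ 2 := by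
      rw [mul_pow, mul_pow, mul_pow, Real.sq_sqrt (by norm_num), Real.sq_sqrt ha.le]; ring
    rw [e1]
    field_simp
    ring
  have hsum := hlay P.caps (fun b => w * |⟪P.cb b, e⟫_ℝ - c|) (Cs * P.H ^ k * (1 / (Real.sqrt a * ‖ξ‖) + 1 / P.H)) (fun b _ => by positivity) (fun j => by
    have hj : (0 : ℝ) < (j : ℝ) + 1 := by positivity
    have hj1 : (1 : ℝ) ≤ (j : ℝ) + 1 := by linarith [(Nat.cast_nonneg j : (0 : ℝ) ≤ j)]
    have e1 : (P.caps.filter fun b => w * |⟪P.cb b, e⟫_ℝ - c| ≤ (j : ℝ) + 1) = P.caps.filter fun b => |⟪P.cb b, e⟫_ℝ - c| ≤ ((j : ℝ) + 1) / w := by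
      refine Finset.filter_congr fun b _ => ?_
      rw [le_div_iff₀ hw0, mul_comm]
    rw [e1, pow_one]
    refine (h.slab e c (((j : ℝ) + 1) / w) hen (by positivity)).trans ?_
    have hCsH : 0 ≤ Cs * P.H ^ k := mul_nonneg h.hCs (by positivity)
    rw [mul_assoc (Cs * P.H ^ k)]
    refine mul_le_mul_of_nonneg_left ?_ hCsH
    have e2 : ((j : ℝ) + 1) / w ≤ ((j : ℝ) + 1) * (1 / (Real.sqrt a * ‖ξ‖)) := by
      rw [mul_one_div]
      refine div_le_div_of_nonneg_left hj.le (by positivity) ?_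
      rw [hw]
      have : (1 : ℝ) ≤ 2 * Real.sqrt 2 := by
        have : (1 : ℝ) ≤ Real.sqrt 2 := Real.one_le_sqrt.2 (by norm_num)
        linarith
      have h3 : 0 < Real.sqrt a * ‖ξ‖ := by positivity
      nlinarith
    have e3 : 1 / P.H ≤ ((j : ℝ) + 1) * (1 / P.H) := by
      have : 0 < 1 / P.H := by positivity
      nlinarith
    linarith)
  calc ∑ b ∈ P.caps, Real.exp (-(a * (τ + 2 * ⟪P.cb b, ξ⟫_ℝ) ^ 2)) = ∑ b ∈ P.caps, Real.exp (-(w * |⟪P.cb b, e⟫_ℝ - c|) ^ 2 / 2) := by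
        refine Finset.sum_congr rfl fun b _ => ?_
        rw [key b, neg_div]
    _ ≤ C * (Cs * P.H ^ k * (1 / (Real.sqrt a * ‖ξ‖) + 1 / P.H)) := hsum
    _ = C * Cs * P.H ^ k * (1 / (Real.sqrt a * ‖ξ‖) + 1 / P.H) := by ring

/-- the elementary inequality behind the splitting of the Gaussian -/
theorem fsm_mult_exp {K Rc vs x τ c : ℝ} (hRc : 1 ≤ Rc) (hvs : K ^ 2 ≤ vs) (hc : |c| ≤ Rc * x) :
    Real.exp (-(4 * Real.pi ^ 2 * vs * (τ + 2 * c) ^ 2))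
      ≤ Real.exp (2 * Real.pi ^ 2 * K ^ 2 * x ^ 2 - Real.pi ^ 2 * K ^ 2 / (4 * Rc ^ 2) * τ ^ 2) * Real.exp (-(2 * Real.pi ^ 2 * vs * (τ + 2 * c) ^ 2)) := by
  rw [← Real.exp_add]
  refine Real.exp_le_exp.2 ?_
  have hRc0 : 0 < Rc := by linarith
  have hπ : 0 ≤ Real.pi ^ 2 := by positivity
  set u := τ + 2 * c with hu
  -- `u² ≥ τ²/2 - 4 c²`
  have h1 : τ ^ 2 / 2 - 4 * c ^ 2 ≤ u ^ 2 := by
    rw [hu]
    nlinarith [sq_nonneg (τ + 4 * c)]
  have h2 : c ^ 2 ≤ Rc ^ 2 * x ^ 2 := by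
    have := pow_le_pow_left₀ (abs_nonneg c) hc 2
    rwa [sq_abs, mul_pow] at this
  have h3 : K ^ 2 / (4 * Rc ^ 2) ≤ vs := by
    refine le_trans ?_ hvs
    rw [div_le_iff₀ (by positivity)]
    have : 1 ≤ Rc ^ 2 := one_le_pow₀ hRc
    nlinarith [sq_nonneg K]
  have h4 : K ^ 2 / (4 * Rc ^ 2) * (τ ^ 2 / 2 - 4 * (Rc ^ 2 * x ^ 2)) ≤ vs * u ^ 2 := by
    calc K ^ 2 / (4 * Rc ^ 2) * (τ ^ 2 / 2 - 4 * (Rc ^ 2 * x ^ 2)) ≤ K ^ 2 / (4 * Rc ^ 2) * u ^ 2 :=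
          mul_le_mul_of_nonneg_left (by linarith) (by positivity)
      _ ≤ vs * u ^ 2 := mul_le_mul_of_nonneg_right h3 (sq_nonneg _)
  have h5 : K ^ 2 / (4 * Rc ^ 2) * (τ ^ 2 / 2 - 4 * (Rc ^ 2 * x ^ 2)) = K ^ 2 / (4 * Rc ^ 2) * τ ^ 2 / 2 - K ^ 2 * x ^ 2 := by
    field_simp
  rw [h5] at h4
  have h6 : 2 * Real.pi ^ 2 * (K ^ 2 / (4 * Rc ^ 2) * τ ^ 2 / 2 - K ^ 2 * x ^ 2) ≤ 2 * Real.pi ^ 2 * (vs * u ^ 2) :=
    mul_le_mul_of_nonneg_left h4 (by positivity)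
  have e1 : Real.pi ^ 2 * K ^ 2 / (4 * Rc ^ 2) * τ ^ 2 = Real.pi ^ 2 * (K ^ 2 / (4 * Rc ^ 2) * τ ^ 2) := by ring
  rw [e1]
  nlinarith

/-- LEAF L-257-SM-MULT: **the multiplier is dominated by one Gaussian** (see the header) -/
theorem fsm_mult (k Q : ℕ) (hQ : k + 3 ≤ Q) (Rc : ℝ) : ∃ C : ℝ, 0 ≤ C ∧ ∀ {β : Type} (P : Sm k β) (N : ℕ) (Cs N0 N1 cH : ℝ), P.Q = Q → P.Ok N Rc Cs N0 N1 cH →
    ∀ (n : ℕ) (ξ : E k) (τ : ℝ),
      ‖𝓕 (fun x => (P.al n x : ℂ)) ξ‖ ^ 2 * ∑ b ∈ P.caps, Real.exp (-(4 * Real.pi ^ 2 * P.vs n * (τ + 2 * ⟪P.cb b, ξ⟫_ℝ) ^ 2))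
        ≤ C * Cs * P.H ^ k * (P.K n / Real.sqrt (P.vs n) + 1 / P.H)
          * Real.exp (-(2 * Real.pi ^ 2 * P.K n ^ 2 * ‖ξ‖ ^ 2) - Real.pi ^ 2 * P.K n ^ 2 / (4 * Rc ^ 2) * τ ^ 2) := by
  obtain ⟨C1, hC1, hal⟩ := fsm_al k Q hQ
  obtain ⟨C2, hC2, hsl⟩ := fsm_slab_sum
  refine ⟨C2 * (2 * C1 + 4), by positivity, ?_⟩
  intro β P N Cs N0 N1 cH hPQ h n ξ τ
  have hH0 : 0 < P.H := by linarith [h.hH]
  have hK00 : 0 < P.K0 := by linarith [h.hH, h.hK]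
  have hK : 0 < P.K n := fsm_K_pos P hK00 n
  have hCs := h.hCs
  have hv1 := fsm_v_mono P h.hH hK00 n
  have hv2 := (fsm_v_bounds P h.hH h.hK n).1
  have hvs : P.K n ^ 2 ≤ P.vs n := by
    unfold Sm.vs
    linarith
  have hvs0 : 0 < P.vs n := lt_of_lt_of_le (by positivity) hvs
  have hF := (hal P n hPQ hK00).2.2 ξ
  set A := ‖𝓕 (fun x => (P.al n x : ℂ)) ξ‖ with hA
  have hA0 : 0 ≤ A := norm_nonneg _
  set R := P.K n / Real.sqrt (P.vs n) + 1 / P.H with hR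
  have hsq : 0 < Real.sqrt (P.vs n) := Real.sqrt_pos.2 hvs0
  have hR0 : 0 ≤ R := by positivity
  by_cases hξ : ξ = 0
  · have hA' : A = 0 := by
      have : A ≤ 0 := by
        refine hF.trans (le_of_eq ?_)
        rw [hξ]
        simp
      exact le_antisymm this hA0
    rw [hA']
    have : 0 ≤ C2 * (2 * C1 + 4) * Cs * P.H ^ k * R * Real.exp (-(2 * Real.pi ^ 2 * P.K n ^ 2 * ‖ξ‖ ^ 2) - Real.pi ^ 2 * P.K n ^ 2 / (4 * Rc ^ 2) * τ ^ 2) := by
      positivity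
    simpa using this
  · have hx : 0 < ‖ξ‖ := norm_pos_iff.2 hξ
    set x := ‖ξ‖ with hxd
    set G := Real.exp (2 * Real.pi ^ 2 * P.K n ^ 2 * x ^ 2 - Real.pi ^ 2 * P.K n ^ 2 / (4 * Rc ^ 2) * τ ^ 2) with hG
    have hsum : ∑ b ∈ P.caps, Real.exp (-(4 * Real.pi ^ 2 * P.vs n * (τ + 2 * ⟪P.cb b, ξ⟫_ℝ) ^ 2))
        ≤ G * (C2 * Cs * P.H ^ k * (1 / (Real.sqrt (2 * Real.pi ^ 2 * P.vs n) * x) + 1 / P.H)) := by
      calc ∑ b ∈ P.caps, Real.exp (-(4 * Real.pi ^ 2 * P.vs n * (τ + 2 * ⟪P.cb b, ξ⟫_ℝ) ^ 2))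
          ≤ ∑ b ∈ P.caps, G * Real.exp (-(2 * Real.pi ^ 2 * P.vs n * (τ + 2 * ⟪P.cb b, ξ⟫_ℝ) ^ 2)) := by
            refine Finset.sum_le_sum fun b hb => ?_
            refine fsm_mult_exp h.hRc hvs ?_
            exact (abs_real_inner_le_norm _ _).trans (mul_le_mul_of_nonneg_right (h.cb_le b hb) hx.le)
        _ = G * ∑ b ∈ P.caps, Real.exp (-(2 * Real.pi ^ 2 * P.vs n * (τ + 2 * ⟪P.cb b, ξ⟫_ℝ) ^ 2)) := by rw [Finset.mul_sum]
        _ ≤ _ := mul_le_mul_of_nonneg_left (hsl P N Rc Cs N0 N1 cH h _ ξ τ (by positivity) hξ) (Real.exp_pos _).le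
    set m := min 2 (C1 * P.K n * x) with hm
    have hm0 : 0 ≤ m := le_min (by norm_num) (by positivity)
    have hm2 : m ≤ 2 := min_le_left _ _
    have hm1 : m ≤ C1 * P.K n * x := min_le_right _ _
    have hAsq : A ^ 2 ≤ Real.exp (-(4 * Real.pi ^ 2 * P.K n ^ 2 * x ^ 2)) * m ^ 2 := by
      have := pow_le_pow_left₀ hA0 hF 2
      rw [mul_pow, ← Real.exp_nat_mul] at this
      refine this.trans (le_of_eq ?_)
      congr 2
      push_cast
      ring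
    -- the bracket
    have hsq2 : Real.sqrt (P.vs n) ≤ Real.sqrt (2 * Real.pi ^ 2 * P.vs n) := by
      refine Real.sqrt_le_sqrt ?_
      have : 1 ≤ 2 * Real.pi ^ 2 := by nlinarith [Real.pi_gt_three]
      nlinarith
    have hbr : m ^ 2 * (1 / (Real.sqrt (2 * Real.pi ^ 2 * P.vs n) * x) + 1 / P.H) ≤ (2 * C1 + 4) * R := by
      have b1 : m ^ 2 * (1 / (Real.sqrt (2 * Real.pi ^ 2 * P.vs n) * x)) ≤ 2 * C1 * (P.K n / Real.sqrt (P.vs n)) := by
        have c1 : m ^ 2 ≤ 2 * (C1 * P.K n * x) := by nlinarith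
        have c2 : 1 / (Real.sqrt (2 * Real.pi ^ 2 * P.vs n) * x) ≤ 1 / (Real.sqrt (P.vs n) * x) :=
          one_div_le_one_div_of_le (by positivity) (mul_le_mul_of_nonneg_right hsq2 hx.le)
        calc m ^ 2 * (1 / (Real.sqrt (2 * Real.pi ^ 2 * P.vs n) * x)) ≤ 2 * (C1 * P.K n * x) * (1 / (Real.sqrt (P.vs n) * x)) :=
              mul_le_mul c1 c2 (by positivity) (by positivity)
          _ = 2 * C1 * (P.K n / Real.sqrt (P.vs n)) := by
              field_simp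
      have b2 : m ^ 2 * (1 / P.H) ≤ 4 * (1 / P.H) := by
        refine mul_le_mul_of_nonneg_right ?_ (by positivity)
        nlinarith
      have b3 : 0 ≤ P.K n / Real.sqrt (P.vs n) := by positivity
      have b4 : 0 ≤ 1 / P.H := by positivity
      rw [hR, mul_add]
      nlinarith
    have hGG : Real.exp (-(4 * Real.pi ^ 2 * P.K n ^ 2 * x ^ 2)) * G
        = Real.exp (-(2 * Real.pi ^ 2 * P.K n ^ 2 * x ^ 2) - Real.pi ^ 2 * P.K n ^ 2 / (4 * Rc ^ 2) * τ ^ 2) := by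
      rw [hG, ← Real.exp_add]
      congr 1
      ring
    have hpos : 0 ≤ ∑ b ∈ P.caps, Real.exp (-(4 * Real.pi ^ 2 * P.vs n * (τ + 2 * ⟪P.cb b, ξ⟫_ℝ) ^ 2)) :=
      Finset.sum_nonneg fun _ _ => (Real.exp_pos _).le
    calc A ^ 2 * ∑ b ∈ P.caps, Real.exp (-(4 * Real.pi ^ 2 * P.vs n * (τ + 2 * ⟪P.cb b, ξ⟫_ℝ) ^ 2))
        ≤ (Real.exp (-(4 * Real.pi ^ 2 * P.K n ^ 2 * x ^ 2)) * m ^ 2)
            * (G * (C2 * Cs * P.H ^ k * (1 / (Real.sqrt (2 * Real.pi ^ 2 * P.vs n) * x) + 1 / P.H))) :=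
          mul_le_mul hAsq hsum hpos (by positivity)
      _ = (C2 * Cs * P.H ^ k) * (m ^ 2 * (1 / (Real.sqrt (2 * Real.pi ^ 2 * P.vs n) * x) + 1 / P.H))
            * (Real.exp (-(4 * Real.pi ^ 2 * P.K n ^ 2 * x ^ 2)) * G) := by ring
      _ ≤ (C2 * Cs * P.H ^ k) * ((2 * C1 + 4) * R) * (Real.exp (-(4 * Real.pi ^ 2 * P.K n ^ 2 * x ^ 2)) * G) := by
          refine mul_le_mul_of_nonneg_right (mul_le_mul_of_nonneg_left hbr (by positivity)) (by positivity)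
      _ = _ := by
          rw [hGG]
          ring

theorem fsm_rreg_shear {α : E k → ℝ} (hα : fsmBC α) (hi : Integrable α) (b : E k) (v : ℝ) :
    fsmBC (fsmShear α b v) ∧ Integrable (fsmShear α b v) := by
  obtain ⟨hc, B, hB⟩ := hα
  have hg : Continuous (gaussianPDFReal 0 v.toNNReal) := by
    unfold gaussianPDFReal
    fun_prop
  have hcont : Continuous (fsmShear α b v) := by
    unfold fsmShear
    exact (hc.comp (by fun_prop)).mul (hg.comp continuous_snd)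
  have hB0 : 0 ≤ B := (abs_nonneg _).trans (hB 0)
  have hg0 : ∀ t, 0 ≤ gaussianPDFReal 0 v.toNNReal t := gaussianPDFReal_nonneg 0 _
  have hgb : ∀ t, gaussianPDFReal 0 v.toNNReal t ≤ (Real.sqrt (2 * Real.pi * v.toNNReal))⁻¹ := by
    intro t
    unfold gaussianPDFReal
    have h1 : Real.exp (-(t - 0) ^ 2 / (2 * (v.toNNReal : ℝ))) ≤ 1 := by
      rw [Real.exp_le_one_iff]
      have : (0 : ℝ) ≤ v.toNNReal := NNReal.coe_nonneg _
      rw [neg_div]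
      have : 0 ≤ (t - 0) ^ 2 / (2 * (v.toNNReal : ℝ)) := by positivity
      linarith
    calc (Real.sqrt (2 * Real.pi * v.toNNReal))⁻¹ * Real.exp (-(t - 0) ^ 2 / (2 * (v.toNNReal : ℝ)))
        ≤ (Real.sqrt (2 * Real.pi * v.toNNReal))⁻¹ * 1 := mul_le_mul_of_nonneg_left h1 (by positivity)
      _ = _ := mul_one _
  refine ⟨⟨hcont, B * (Real.sqrt (2 * Real.pi * v.toNNReal))⁻¹, fun z => ?_⟩, ?_⟩
  · unfold fsmShear
    rw [abs_mul, abs_of_nonneg (hg0 _)]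
    exact mul_le_mul (hB _) (hgb _) (hg0 _) hB0
  · have hvol : (volume : Measure (ST k)) = (volume : Measure (E k)).prod (volume : Measure ℝ) := rfl
    rw [hvol, integrable_prod_iff' hcont.aestronglyMeasurable]
    constructor
    · refine Filter.Eventually.of_forall fun t => ?_
      unfold fsmShear
      show Integrable (fun x : E k => α (x - t • ((2 : ℝ) • b)) * gaussianPDFReal 0 v.toNNReal t) volume
      exact (hi.comp_sub_right (t • ((2 : ℝ) • b))).mul_const _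
    · have e : (fun t : ℝ => ∫ x : E k, ‖fsmShear α b v (x, t)‖) = fun t => (∫ x : E k, ‖α x‖) * gaussianPDFReal 0 v.toNNReal t := by
        funext t
        unfold fsmShear
        simp only [norm_mul]
        rw [integral_mul_const, Real.norm_eq_abs (gaussianPDFReal _ _ _), abs_of_nonneg (hg0 t)]
        congr 1
        exact integral_sub_right_eq_self (fun x => ‖α x‖) (t • ((2 : ℝ) • b))
      rw [e]
      exact (integrable_gaussianPDFReal 0 _).const_mul _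

/-- LEAF L-257-SM-RREG: regularity of `r` -/
theorem fsm_r_reg (P : Sm k β) (hQ : k + 3 ≤ P.Q) (hH : 1 ≤ P.H) (hK : 0 < P.K0) (n : ℕ) (b : β) :
    fsmBC (P.r n b) ∧ Integrable (P.r n b) ∧ Integrable (fun w => P.r n b w ^ 2) := by
  obtain ⟨C, -, hal⟩ := fsm_al k P.Q hQ
  obtain ⟨ha1, ha2, -⟩ := hal P n rfl hK
  obtain ⟨⟨hc, B, hB⟩, hi⟩ := fsm_rreg_shear ha1 ha2 (P.cb b) (P.vs n)
  have hbc : fsmBC (P.r n b) := by
    unfold Sm.r
    refine fsm_bc_sum P.Y fun z _ => ⟨hc.comp (by fun_prop), B, fun w => hB _⟩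
  have hint : Integrable (P.r n b) := by
    have hh : (volume : Measure (ST k)).IsAddHaarMeasure := by rw [Measure.volume_eq_prod]; infer_instance
    unfold Sm.r
    exact integrable_finsetSum _ fun z _ => hi.comp_sub_left z
  refine ⟨hbc, hint, ?_⟩
  obtain ⟨hc', B', hB'⟩ := hbc
  refine (hint.norm.const_mul B').mono' (hc'.pow 2).aestronglyMeasurable (Filter.Eventually.of_forall fun w => ?_)
  rw [Real.norm_eq_abs, Real.norm_eq_abs, abs_pow, sq]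
  exact mul_le_mul_of_nonneg_right (hB' w) (abs_nonneg _)

/-- superadditivity of the lower integral (no measurability) -/
theorem fsm_rg_sum_lintegral {α ι : Type*} [MeasurableSpace α] (μ : Measure α) (s : Finset ι) (f : ι → α → ℝ≥0∞) :
    ∑ i ∈ s, ∫⁻ a, f i a ∂μ ≤ ∫⁻ a, ∑ i ∈ s, f i a ∂μ := by
  classical
  induction s using Finset.induction_on with
  | empty => simp
  | insert i s hi ih =>
    simp only [Finset.sum_insert hi]
    exact (add_le_add le_rfl ih).trans (le_lintegral_add _ _)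

/-- the constant of the Gaussian evaluation -/
theorem fsm_rg_const (k : ℕ) {K Rc : ℝ} (hK : 0 < K) (hRc : 1 ≤ Rc) :
    Real.sqrt (Real.pi / (2 * Real.pi ^ 2 * K ^ 2)) ^ k * Real.sqrt (Real.pi / (Real.pi ^ 2 * K ^ 2 / (4 * Rc ^ 2))) ≤ 2 * Rc * (K ^ (k + 1))⁻¹ := by
  have hπ := Real.pi_gt_three
  have hπ0 : 0 < Real.pi := by linarith
  have hRc0 : 0 < Rc := by linarith
  have h1 : Real.sqrt (Real.pi / (2 * Real.pi ^ 2 * K ^ 2)) ≤ 1 / K := by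
    rw [Real.sqrt_le_iff]
    refine ⟨by positivity, ?_⟩
    rw [div_pow, one_pow, div_le_div_iff₀ (by positivity) (by positivity)]
    nlinarith [sq_nonneg K, mul_pos hπ0 (pow_pos hK 2)]
  have h2 : Real.sqrt (Real.pi / (Real.pi ^ 2 * K ^ 2 / (4 * Rc ^ 2))) ≤ 2 * Rc / K := by
    rw [Real.sqrt_le_iff]
    refine ⟨by positivity, ?_⟩
    have e : Real.pi / (Real.pi ^ 2 * K ^ 2 / (4 * Rc ^ 2)) = (2 * Rc / K) ^ 2 / Real.pi := by
      field_simp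
      ring
    rw [e, div_le_iff₀ hπ0]
    have : 0 ≤ (2 * Rc / K) ^ 2 := by positivity
    nlinarith
  calc Real.sqrt (Real.pi / (2 * Real.pi ^ 2 * K ^ 2)) ^ k * Real.sqrt (Real.pi / (Real.pi ^ 2 * K ^ 2 / (4 * Rc ^ 2)))
      ≤ (1 / K) ^ k * (2 * Rc / K) := mul_le_mul (pow_le_pow_left₀ (Real.sqrt_nonneg _) h1 k) h2 (Real.sqrt_nonneg _) (by positivity)
    _ = 2 * Rc * (K ^ (k + 1))⁻¹ := by
        rw [pow_succ, div_pow, one_pow]
        field_simp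

/-- comparison of the exponents -/
theorem fsm_rg_exp {K Rc : ℝ} (hK : 0 < K) (hRc : 1 ≤ Rc) (z z' : ST k) :
    Real.exp (-(Real.pi ^ 2 * ‖z.1 - z'.1‖ ^ 2 / (2 * Real.pi ^ 2 * K ^ 2)) - Real.pi ^ 2 * (z.2 - z'.2) ^ 2 / (Real.pi ^ 2 * K ^ 2 / (4 * Rc ^ 2)))
      ≤ Real.exp (-‖z - z'‖ ^ 2 / (2 * K ^ 2)) := by
  refine Real.exp_le_exp.2 ?_
  have hπ0 : 0 < Real.pi := Real.pi_pos
  have hRc0 : 0 < Rc := by linarith
  have e1 : Real.pi ^ 2 * ‖z.1 - z'.1‖ ^ 2 / (2 * Real.pi ^ 2 * K ^ 2) = ‖z.1 - z'.1‖ ^ 2 / (2 * K ^ 2) := by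
    field_simp
  have e2 : Real.pi ^ 2 * (z.2 - z'.2) ^ 2 / (Real.pi ^ 2 * K ^ 2 / (4 * Rc ^ 2)) = 8 * Rc ^ 2 * (z.2 - z'.2) ^ 2 / (2 * K ^ 2) := by
    field_simp
    ring
  rw [e1, e2, ← neg_div, ← sub_div]
  refine div_le_div_of_nonneg_right ?_ (by positivity)
  have h1 : ‖z - z'‖ ^ 2 ≤ ‖z.1 - z'.1‖ ^ 2 + (z.2 - z'.2) ^ 2 := by
    rw [Prod.norm_def, Prod.fst_sub, Prod.snd_sub, Real.norm_eq_abs]
    rcases max_cases ‖z.1 - z'.1‖ |z.2 - z'.2| with ⟨h, -⟩ | ⟨h, -⟩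
    · rw [h]
      nlinarith [sq_nonneg (z.2 - z'.2)]
    · rw [h, sq_abs]
      nlinarith [sq_nonneg ‖z.1 - z'.1‖]
  have h2 : (z.2 - z'.2) ^ 2 ≤ 8 * Rc ^ 2 * (z.2 - z'.2) ^ 2 := by
    have : 1 ≤ Rc ^ 2 := one_le_pow₀ hRc
    nlinarith [sq_nonneg (z.2 - z'.2)]
  linarith

/-- LEAF L-257-SM-RG: **(f:rho-generator)** (`fsm_planch`, sum over `b` inside the `lintegral`, `fsm_mult`, `fsm_gauss_eval` with `p = 2π²K²`, `q = π²K²/(4Rc²)`; `|x|² /(2K²) + 4Rc² t²/K² ≥ ‖(x,t)‖²/(2K²)`) -/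
theorem fsm_rg (k Q : ℕ) (hQ : k + 3 ≤ Q) (Rc : ℝ) : ∃ C : ℝ, 0 ≤ C ∧ ∀ {β : Type} (P : Sm k β) (N : ℕ) (Cs N0 N1 cH : ℝ), P.Q = Q → P.Ok N Rc Cs N0 N1 cH → ∀ n : ℕ,
    ∑ b ∈ P.caps, ∫ w, P.r n b w ^ 2 ≤ C * Cs * P.H ^ k * (P.K n / Real.sqrt (P.vs n) + 1 / P.H) * (P.K n ^ (k + 1))⁻¹
      * ∑ z ∈ P.Y, ∑ z' ∈ P.Y, Real.exp (-‖z - z'‖ ^ 2 / (2 * P.K n ^ 2)) := by
  obtain ⟨C1, -, hal⟩ := fsm_al k Q hQ
  obtain ⟨Cm, hCm, hmult⟩ := fsm_mult k Q hQ Rc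
  refine ⟨Cm * (2 * |Rc|), by positivity, ?_⟩
  intro β P N Cs N0 N1 cH hPQ h n
  have hRc := h.hRc
  have hRc0 : 0 < Rc := by linarith
  rw [abs_of_pos hRc0]
  have hH0 : 0 < P.H := by linarith [h.hH]
  have hK00 : 0 < P.K0 := by linarith [h.hH, h.hK]
  have hK : 0 < P.K n := fsm_K_pos P hK00 n
  have hCs := h.hCs
  have hv1 := fsm_v_mono P h.hH hK00 n
  have hv2 := fsm_v_pos P h.hH hK00 n
  have hvs0 : 0 < P.vs n := by
    unfold Sm.vs
    linarith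
  have hsq : 0 < Real.sqrt (P.vs n) := Real.sqrt_pos.2 hvs0
  obtain ⟨hbc, hint, -⟩ := hal P n hPQ hK00
  set R := P.K n / Real.sqrt (P.vs n) + 1 / P.H with hR
  have hR0 : 0 ≤ R := by positivity
  set C' := Cm * Cs * P.H ^ k * R with hC'
  have hC'0 : 0 ≤ C' := by positivity
  set S := ∑ z ∈ P.Y, ∑ z' ∈ P.Y, Real.exp (-‖z - z'‖ ^ 2 / (2 * P.K n ^ 2)) with hS
  have hS0 : 0 ≤ S := Finset.sum_nonneg fun _ _ => Finset.sum_nonneg fun _ _ => (Real.exp_pos _).le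
  have hπ0 : 0 < Real.pi := Real.pi_pos
  have hp : 0 < 2 * Real.pi ^ 2 * P.K n ^ 2 := by positivity
  have hq : 0 < Real.pi ^ 2 * P.K n ^ 2 / (4 * Rc ^ 2) := by positivity
  have hrhs : 0 ≤ Cm * (2 * Rc) * Cs * P.H ^ k * R * (P.K n ^ (k + 1))⁻¹ * S := by positivity
  rw [← ENNReal.ofReal_le_ofReal_iff hrhs]
  have hreg := fun b => fsm_r_reg P (hPQ ▸ hQ) h.hH hK00 n b
  calc ENNReal.ofReal (∑ b ∈ P.caps, ∫ w, P.r n b w ^ 2)
      = ∑ b ∈ P.caps, ENNReal.ofReal (∫ w, P.r n b w ^ 2) :=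
        ENNReal.ofReal_sum_of_nonneg fun b _ => integral_nonneg fun w => sq_nonneg _
    _ = ∑ b ∈ P.caps, ∫⁻ w, ENNReal.ofReal (P.r n b w ^ 2) :=
        Finset.sum_congr rfl fun b _ => ofReal_integral_eq_lintegral_ofReal (hreg b).2.2 (Filter.Eventually.of_forall fun w => sq_nonneg _)
    _ = ∑ b ∈ P.caps, ∫⁻ ξ : E k, ∫⁻ τ : ℝ, ENNReal.ofReal (‖𝓕 (fun x => (P.al n x : ℂ)) ξ‖ ^ 2
          * Real.exp (-(4 * Real.pi ^ 2 * P.vs n * (τ + 2 * ⟪P.cb b, ξ⟫_ℝ) ^ 2)) * ‖fsmES P.Y ξ τ‖ ^ 2) :=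
        Finset.sum_congr rfl fun b _ => fsm_planch (P.al n) hbc hint (P.cb b) hvs0 P.Y
    _ ≤ ∫⁻ ξ : E k, ∑ b ∈ P.caps, ∫⁻ τ : ℝ, ENNReal.ofReal (‖𝓕 (fun x => (P.al n x : ℂ)) ξ‖ ^ 2
          * Real.exp (-(4 * Real.pi ^ 2 * P.vs n * (τ + 2 * ⟪P.cb b, ξ⟫_ℝ) ^ 2)) * ‖fsmES P.Y ξ τ‖ ^ 2) := fsm_rg_sum_lintegral _ _ _
    _ ≤ ∫⁻ ξ : E k, ∫⁻ τ : ℝ, ∑ b ∈ P.caps, ENNReal.ofReal (‖𝓕 (fun x => (P.al n x : ℂ)) ξ‖ ^ 2
          * Real.exp (-(4 * Real.pi ^ 2 * P.vs n * (τ + 2 * ⟪P.cb b, ξ⟫_ℝ) ^ 2)) * ‖fsmES P.Y ξ τ‖ ^ 2) :=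
        lintegral_mono fun ξ => fsm_rg_sum_lintegral _ _ _
    _ ≤ ∫⁻ ξ : E k, ∫⁻ τ : ℝ, ENNReal.ofReal C' * ENNReal.ofReal (Real.exp (-(2 * Real.pi ^ 2 * P.K n ^ 2 * ‖ξ‖ ^ 2)
          - Real.pi ^ 2 * P.K n ^ 2 / (4 * Rc ^ 2) * τ ^ 2) * ‖fsmES P.Y ξ τ‖ ^ 2) := by
        refine lintegral_mono fun ξ => lintegral_mono fun τ => ?_
        rw [← ENNReal.ofReal_sum_of_nonneg (fun b _ => by positivity), ← ENNReal.ofReal_mul hC'0]
        refine ENNReal.ofReal_le_ofReal ?_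
        rw [← Finset.sum_mul, ← Finset.mul_sum, ← mul_assoc]
        exact mul_le_mul_of_nonneg_right (hmult P N Cs N0 N1 cH hPQ h n ξ τ) (by positivity)
    _ = ENNReal.ofReal C' * ∫⁻ ξ : E k, ∫⁻ τ : ℝ, ENNReal.ofReal (Real.exp (-(2 * Real.pi ^ 2 * P.K n ^ 2 * ‖ξ‖ ^ 2)
          - Real.pi ^ 2 * P.K n ^ 2 / (4 * Rc ^ 2) * τ ^ 2) * ‖fsmES P.Y ξ τ‖ ^ 2) := by
        rw [← lintegral_const_mul' _ _ ENNReal.ofReal_ne_top]
        refine lintegral_congr fun ξ => ?_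
        rw [lintegral_const_mul' _ _ ENNReal.ofReal_ne_top]
    _ = ENNReal.ofReal C' * ENNReal.ofReal (Real.sqrt (Real.pi / (2 * Real.pi ^ 2 * P.K n ^ 2)) ^ k * Real.sqrt (Real.pi / (Real.pi ^ 2 * P.K n ^ 2 / (4 * Rc ^ 2))) *
          ∑ z ∈ P.Y, ∑ z' ∈ P.Y, Real.exp (-(Real.pi ^ 2 * ‖z.1 - z'.1‖ ^ 2 / (2 * Real.pi ^ 2 * P.K n ^ 2))
            - Real.pi ^ 2 * (z.2 - z'.2) ^ 2 / (Real.pi ^ 2 * P.K n ^ 2 / (4 * Rc ^ 2)))) := by
        rw [fsm_gauss_eval hp hq P.Y]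
    _ ≤ ENNReal.ofReal (Cm * (2 * Rc) * Cs * P.H ^ k * R * (P.K n ^ (k + 1))⁻¹ * S) := by
        rw [← ENNReal.ofReal_mul hC'0]
        refine ENNReal.ofReal_le_ofReal ?_
        have h1 := fsm_rg_const k hK hRc
        have h2 : ∑ z ∈ P.Y, ∑ z' ∈ P.Y, Real.exp (-(Real.pi ^ 2 * ‖z.1 - z'.1‖ ^ 2 / (2 * Real.pi ^ 2 * P.K n ^ 2))
            - Real.pi ^ 2 * (z.2 - z'.2) ^ 2 / (Real.pi ^ 2 * P.K n ^ 2 / (4 * Rc ^ 2))) ≤ S :=
          Finset.sum_le_sum fun z _ => Finset.sum_le_sum fun z' _ => fsm_rg_exp hK hRc z z'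
        have h3 : 0 ≤ ∑ z ∈ P.Y, ∑ z' ∈ P.Y, Real.exp (-(Real.pi ^ 2 * ‖z.1 - z'.1‖ ^ 2 / (2 * Real.pi ^ 2 * P.K n ^ 2))
            - Real.pi ^ 2 * (z.2 - z'.2) ^ 2 / (Real.pi ^ 2 * P.K n ^ 2 / (4 * Rc ^ 2))) :=
          Finset.sum_nonneg fun _ _ => Finset.sum_nonneg fun _ _ => (Real.exp_pos _).le
        calc C' * (_ * _) ≤ C' * (2 * Rc * (P.K n ^ (k + 1))⁻¹ * S) :=
              mul_le_mul_of_nonneg_left (mul_le_mul h1 h2 h3 (by positivity)) hC'0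
          _ = _ := by
              rw [hC']
              ring

/-- LEAF L-257-SM-CNT: Gaussian count of the witnesses (`Ok.ball` with `r = (j+1) K n ≥ H`, `fsm_layer (k+1)` with `d z' = ‖z - z'‖ / K n`) -/
theorem fsm_count (k : ℕ) : ∃ C : ℝ, 0 ≤ C ∧ ∀ {β : Type} (P : Sm k β) (N : ℕ) (Rc Cs N0 N1 cH : ℝ), P.Ok N Rc Cs N0 N1 cH → ∀ n : ℕ, ∀ z ∈ P.Y,
    ∑ z' ∈ P.Y, Real.exp (-‖z - z'‖ ^ 2 / (2 * P.K n ^ 2)) ≤ C * N0 * (P.K n / P.H) ^ k * (1 + P.K n / P.H ^ 2) := by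
  obtain ⟨C, hC, hlay⟩ := fsm_layer (k + 1)
  refine ⟨C, hC, fun {β} P N Rc Cs N0 N1 cH h n z hz => ?_⟩
  have hH : 1 ≤ P.H := h.hH
  have hH0 : 0 < P.H := by linarith
  have hKn : P.H ≤ P.K n := by
    unfold Sm.K
    have h2 : (1 : ℝ) ≤ 2 ^ n := one_le_pow₀ (by norm_num)
    nlinarith [h.hK]
  have hK0 : 0 < P.K n := by linarith
  have hN0 := h.hN0
  have key := hlay P.Y (fun z' => ‖z - z'‖ / P.K n) (N0 * (P.K n / P.H) ^ k * (1 + P.K n / P.H ^ 2))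
    (fun _ _ => by positivity) (fun j => ?_)
  · refine le_trans (le_of_eq (Finset.sum_congr rfl fun z' _ => ?_)) (key.trans (le_of_eq (by ring)))
    congr 1
    field_simp
  · have hj : (0 : ℝ) ≤ j := Nat.cast_nonneg j
    have hb := h.ball z hz (((j : ℝ) + 1) * P.K n) (by nlinarith)
    have e : (P.Y.filter fun z' => ‖z - z'‖ / P.K n ≤ (j : ℝ) + 1) = P.Y.filter fun z' => ‖z' - z‖ ≤ ((j : ℝ) + 1) * P.K n := by
      refine Finset.filter_congr fun z' _ => ?_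
      rw [div_le_iff₀ hK0, norm_sub_rev]
    rw [e]
    refine hb.trans ?_
    have h1 : 1 + ((j : ℝ) + 1) * P.K n / P.H ^ 2 ≤ ((j : ℝ) + 1) * (1 + P.K n / P.H ^ 2) := by
      rw [mul_div_assoc]
      nlinarith
    calc N0 * (((j : ℝ) + 1) * P.K n / P.H) ^ k * (1 + ((j : ℝ) + 1) * P.K n / P.H ^ 2)
        ≤ N0 * (((j : ℝ) + 1) * P.K n / P.H) ^ k * (((j : ℝ) + 1) * (1 + P.K n / P.H ^ 2)) := by gcongr
      _ = _ := by
        rw [mul_div_assoc, mul_pow, pow_succ]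
        ring

/-- a law convolved with the heat law has the density `cv ν hk` -/
theorem fsm_dual_dens (ν : Measure (E k)) [IsProbabilityMeasure ν] {s : ℝ} (hs : 0 < s) :
    ν ∗ (fsmHm s : Measure (E k)) = volume.withDensity fun x => ENNReal.ofReal (fsmCv ν (fsmHk s) x) := by
  have hc : Continuous (fsmHk s : E k → ℝ) := (fsm_Hk_bc s).1
  have : IsProbabilityMeasure (fsmHm s : Measure (E k)) := fsm_hm_prob hs
  ext A hA
  have hind : Measurable (A.indicator (1 : E k → ℝ≥0∞)) := measurable_one.indicator hA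
  rw [← lintegral_indicator_one hA, Measure.lintegral_conv hind, withDensity_apply _ hA, ← lintegral_indicator hA]
  have h1 : ∀ a : E k, ∫⁻ y, A.indicator (1 : E k → ℝ≥0∞) (a + y) ∂(fsmHm s)
      = ∫⁻ x, ENNReal.ofReal (fsmHk s (x - a)) * A.indicator (1 : E k → ℝ≥0∞) x := by
    intro a
    unfold fsmHm
    have hm : Measurable fun y : E k => A.indicator (1 : E k → ℝ≥0∞) (a + y) := hind.comp (measurable_const_add a)
    rw [lintegral_withDensity_eq_lintegral_mul _ hc.measurable.ennreal_ofReal hm,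
      ← lintegral_add_left_eq_self (fun x => ENNReal.ofReal (fsmHk s (x - a)) * A.indicator (1 : E k → ℝ≥0∞) x) a]
    simp only [add_sub_cancel_left, Pi.mul_apply]
  simp_rw [h1]
  rw [lintegral_lintegral_swap]
  · refine lintegral_congr fun x => ?_
    rw [lintegral_mul_const' _ _ (by by_cases hx : x ∈ A <;> simp [hx]),
      ← ofReal_integral_eq_lintegral_ofReal (fsm_cv_integrable ν (fsm_Hk_bc s) x) (ae_of_all _ fun a => (fsm_Hk_pos hs _).le)]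
    by_cases hx : x ∈ A <;> simp [hx, fsmCv]
  · refine Measurable.aemeasurable ?_
    refine Measurable.mul ?_ (hind.comp measurable_snd)
    exact (hc.measurable.comp (measurable_snd.sub measurable_fst)).ennreal_ofReal

/-- the shear preserves the volume of space-time -/
theorem fsm_dual_shear (c : E k) : MeasurePreserving (fun p : ST k => (p.1 + p.2 • c, p.2)) volume volume := by
  have h1 : MeasurePreserving (fun p : ℝ × E k => (p.1, p.2 + p.1 • c)) (volume.prod volume) (volume.prod volume) :=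
    MeasurePreserving.skew_product (MeasurePreserving.id volume) (g := fun (s : ℝ) (y : E k) => y + s • c) (by fun_prop)
      (ae_of_all _ fun s => (measurePreserving_add_right volume (s • c)).map_eq)
  exact (Measure.measurePreserving_swap (μ := (volume : Measure ℝ)) (ν := (volume : Measure (E k)))).comp
    (h1.comp (Measure.measurePreserving_swap (μ := (volume : Measure (E k))) (ν := (volume : Measure ℝ))))

/-- the operator of a spatial density followed by the Gaussian along `(2b,1)` is the integral against the sheared kernel -/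
theorem fsm_dual_core {h : E k → ℝ} (hbc : fsmBC h) (hi : Integrable h) (h0 : ∀ x, 0 ≤ h x) (b : E k) {v : ℝ} (hv : 0 < v)
    {ψ : ST k → ℝ} (hψ : fsmBC ψ) (z : ST k) :
    Integrable (fun w => fsmShear h b v (z - w) * ψ w) ∧
      fsmCv (fsmSx (volume.withDensity fun x => ENNReal.ofReal (h x))) (fsmCv (fsmSt b (fsmGs v)) ψ) z
        = ∫ w, fsmShear h b v (z - w) * ψ w := by
  obtain ⟨B, hB⟩ := hψ.2
  have hv' : v.toNNReal ≠ 0 := by
    rw [Ne, Real.toNNReal_eq_zero, not_le]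
    exact hv
  obtain ⟨pdf, hpdf⟩ : ∃ pdf : ℝ → ℝ, pdf = gaussianPDFReal 0 v.toNNReal := ⟨_, rfl⟩
  have hpm : Measurable pdf := hpdf ▸ measurable_gaussianPDFReal _ _
  have hpi : Integrable pdf := hpdf ▸ integrable_gaussianPDFReal _ _
  have hp0 : ∀ s, 0 ≤ pdf s := fun s => hpdf ▸ gaussianPDFReal_nonneg _ _ s
  have : IsProbabilityMeasure (fsmSt b (fsmGs v)) := fsm_st_prob b _
  have : (volume : Measure (ST k)).IsAddHaarMeasure :=
    inferInstanceAs ((volume : Measure (E k)).prod (volume : Measure ℝ)).IsAddHaarMeasure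
  set G : ST k → ℝ := fun q => fsmShear h b v q * ψ (z - q) with hG
  set Φ : ST k → ST k := fun p => (p.1 + p.2 • ((2 : ℝ) • b), p.2) with hΦ
  have hΦm : MeasurePreserving Φ volume volume := fsm_dual_shear ((2 : ℝ) • b)
  set F : ST k → ℝ := fun p => h p.1 * (pdf p.2 * ψ ((z.1 - p.1, z.2) - fsmDir b p.2)) with hF
  have hGF : ∀ p, G (Φ p) = F p := by
    intro p
    simp only [hG, hΦ, hF, fsmShear, fsmDir, ← hpdf]
    rw [add_sub_cancel_right, mul_assoc]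
    congr 3
    refine Prod.ext ?_ ?_
    · simp [sub_sub]
    · simp
  have hGm : Measurable G := by
    refine Measurable.mul ?_ (hψ.1.measurable.comp (measurable_const.sub measurable_id))
    unfold fsmShear
    rw [← hpdf]
    exact (hbc.1.measurable.comp (by fun_prop)).mul (hpm.comp measurable_snd)
  have hFm : Measurable F := by
    have : F = G ∘ Φ := by
      funext p
      exact (hGF p).symm
    rw [this]
    exact hGm.comp hΦm.measurable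
  have hFi : Integrable F (volume.prod volume) := by
    refine Integrable.mono' ((hi.mul_prod hpi).mul_const B) hFm.aestronglyMeasurable (ae_of_all _ fun p => ?_)
    rw [hF, Real.norm_eq_abs, abs_mul, abs_mul, abs_of_nonneg (h0 _), abs_of_nonneg (hp0 _), ← mul_assoc]
    exact mul_le_mul_of_nonneg_left (hB _) (mul_nonneg (h0 _) (hp0 _))
  have hGi : Integrable G := by
    refine (hΦm.integrable_comp hGm.aestronglyMeasurable).1 ?_
    have : G ∘ Φ = F := by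
      funext p
      exact hGF p
    rw [this]
    exact hFi
  have e1 : ∫ q, G q = ∫ p, F p ∂(volume.prod volume) :=
    calc ∫ q, G q = ∫ q, G q ∂(Measure.map Φ volume) := by rw [hΦm.map_eq]
      _ = ∫ p, G (Φ p) := integral_map hΦm.measurable.aemeasurable hGm.aestronglyMeasurable
      _ = ∫ p, F p ∂(volume.prod volume) := by
          simp_rw [hGF]
          rfl
  have e2 : ∀ w, G (z - w) = fsmShear h b v (z - w) * ψ w := by
    intro w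
    simp only [hG, sub_sub_cancel]
  constructor
  · have := hGi.comp_sub_left z
    simpa only [e2] using this
  · rw [fsm_cv_sx _ _ (fsm_cv_bc _ hψ) z,
      integral_withDensity_eq_integral_toReal_smul hbc.1.measurable.ennreal_ofReal (ae_of_all _ fun _ => ENNReal.ofReal_lt_top)]
    have e3 : ∀ y : E k, (ENNReal.ofReal (h y)).toReal • fsmCv (fsmSt b (fsmGs v)) ψ (z.1 - y, z.2) = ∫ s, F (y, s) := by
      intro y
      rw [ENNReal.toReal_ofReal (h0 y), fsm_cv_st b _ ψ hψ, fsmGs, integral_gaussianReal_eq_integral_smul hv', smul_eq_mul,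
        ← integral_const_mul, ← hpdf]
      rfl
    simp_rw [e3]
    rw [← integral_prod F hFi, ← e1, ← integral_sub_left_eq_self G volume z]
    simp_rw [e2]

/-- LEAF L-257-SM-DUAL: duality.   `cv (G n b) ∘ cv (st (mt*mt)) = cv (sx (jp n)) ∘ cv (sx (hm K_n)) ∘ cv (st (Gs vs))`, and `cv (sx (hm K)) (cv (st b (Gs v)) ψ) z = ∫ hk(x - 2tb) g_v(t) ψ(z - (x,t)) d(x,t)`
(shear, measure preserving). -/
theorem fsm_dual (P : Sm k β) {N : ℕ} {Rc Cs N0 N1 cH : ℝ} (h : P.Ok N Rc Cs N0 N1 cH) (n : ℕ) (b : β) {ψ : ST k → ℝ} (hψ : fsmBC ψ) (z : ST k) :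
    fsmCv (P.G n b) (fsmCv (fsmSt (P.cb b) (P.mt n ∗ P.mt n)) (fun w => ψ w - fsmCv (fsmSx (P.mx n ∗ P.mx n)) ψ w)) z
      = ∫ w, fsmShear (P.al n) (P.cb b) (P.vs n) (z - w) * ψ w := by
  have hkQ : k < P.Q := by
    have := h.hQ
    omega
  have hK00 : 0 < P.K0 := by linarith [h.hH, h.hK]
  have hK : 0 < P.K n := fsm_K_pos P hK00 n
  have hv1 := fsm_v_mono P h.hH hK00 n
  have hv2 := fsm_v_pos P h.hH hK00 n
  have hvs0 : 0 < P.vs n := by
    unfold Sm.vs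
    linarith
  have i1 : IsProbabilityMeasure (P.jp n) := fsm_jp_prob P hkQ hK00 n
  have i2 : IsProbabilityMeasure (P.sp n) := fsm_sp_prob P hkQ hK00 n
  have i3 : IsProbabilityMeasure (P.mx n) := fsm_mx_prob P hkQ hK00 n
  have i4 : IsProbabilityMeasure (fsmHm (P.K n) : Measure (E k)) := fsm_hm_prob hK
  obtain ⟨X, hX⟩ : ∃ X : Measure (E k), X = P.mx n ∗ P.mx n := ⟨_, rfl⟩
  have i5 : IsProbabilityMeasure X := by
    rw [hX]
    infer_instance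
  obtain ⟨c, hc⟩ : ∃ c : E k, c = P.cb b := ⟨_, rfl⟩
  have i6 : IsProbabilityMeasure (fsmSx X) := fsm_sx_prob X
  have i7 : IsProbabilityMeasure (fsmSx (P.sp n)) := fsm_sx_prob _
  have i8 : IsProbabilityMeasure (fsmSt c (fsmGs (P.v n))) := fsm_st_prob _ _
  have i9 : IsProbabilityMeasure (fsmSt c (P.mt n ∗ P.mt n)) := fsm_st_prob _ _
  have i10 : IsProbabilityMeasure (fsmSt c (fsmGs (P.vs n))) := fsm_st_prob _ _
  have hγ : fsmSt c (fsmGs (P.v n)) ∗ fsmSt c (P.mt n ∗ P.mt n) = fsmSt c (fsmGs (P.vs n)) := by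
    rw [← fsm_st_conv]
    congr 1
    unfold Sm.mt
    rw [fsm_gs_conv (by linarith) (by linarith), fsm_gs_conv hv2.le (by linarith)]
    congr 1
    unfold Sm.vs
    ring
  obtain ⟨γ, hγd⟩ : ∃ γ : Measure (ST k), γ = fsmSt c (fsmGs (P.vs n)) := ⟨_, rfl⟩
  have i11 : IsProbabilityMeasure γ := by
    rw [hγd]
    exact i10
  have hXψ : fsmBC (fsmCv (fsmSx X) ψ) := fsm_cv_bc _ hψ
  have hφ : fsmBC (fun w => ψ w - fsmCv (fsmSx X) ψ w) := fsm_bc_sub hψ hXψ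
  have hg : fsmBC (fsmCv γ ψ) := fsm_cv_bc _ hψ
  have t1 : fsmCv (P.G n b) (fsmCv (fsmSt c (P.mt n ∗ P.mt n)) (fun w => ψ w - fsmCv (fsmSx X) ψ w))
      = fsmCv (fsmSx (P.sp n)) (fsmCv γ (fun w => ψ w - fsmCv (fsmSx X) ψ w)) := by
    unfold Sm.G
    rw [← hc, fsm_cv_conv _ _ (fsm_cv_bc _ hφ), ← fsm_cv_conv _ _ hφ, hγ, hγd]
  have t2 : fsmCv γ (fun w => ψ w - fsmCv (fsmSx X) ψ w) = fun w => fsmCv γ ψ w - fsmCv (fsmSx X) (fsmCv γ ψ) w := by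
    rw [fsm_cv_sub γ hψ hXψ, fsm_cv_comm γ (fsmSx X) hψ]
  have hconv : P.sp n ∗ X = (P.jp n ∗ X) ∗ fsmHm (P.K n) := by
    unfold Sm.sp
    rw [Measure.conv_assoc, Measure.conv_comm (fsmHm (P.K n)) X, ← Measure.conv_assoc]
  have t3 : fsmCv (fsmSx (P.sp n)) (fun w => fsmCv γ ψ w - fsmCv (fsmSx X) (fsmCv γ ψ) w)
      = fun w => fsmCv (fsmSx (P.sp n)) (fsmCv γ ψ) w - fsmCv (fsmSx ((P.jp n ∗ X) ∗ fsmHm (P.K n))) (fsmCv γ ψ) w := by
    rw [fsm_cv_sub _ hg (fsm_cv_bc _ hg), ← fsm_cv_conv _ _ hg, ← fsm_sx_conv, hconv]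
  have d1 : P.sp n = volume.withDensity fun x => ENNReal.ofReal (fsmCv (P.jp n) (fsmHk (P.K n)) x) := by
    unfold Sm.sp
    exact fsm_dual_dens _ hK
  have d2 := fsm_dual_dens (P.jp n ∗ X) hK
  obtain ⟨a1, a2, -⟩ := fsm_fourier_cv_hk (P.jp n) hK
  obtain ⟨b1, b2, -⟩ := fsm_fourier_cv_hk (P.jp n ∗ X) hK
  obtain ⟨I1, E1⟩ := fsm_dual_core a1 a2 (fun x => fsm_cv_nonneg _ (fun y => (fsm_Hk_pos hK y).le) x) c hvs0 hψ z
  obtain ⟨I2, E2⟩ := fsm_dual_core b1 b2 (fun x => fsm_cv_nonneg _ (fun y => (fsm_Hk_pos hK y).le) x) c hvs0 hψ z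
  rw [← hX, ← hc, t1, t2, t3]
  show fsmCv (fsmSx (P.sp n)) (fsmCv γ ψ) z - fsmCv (fsmSx ((P.jp n ∗ X) ∗ fsmHm (P.K n))) (fsmCv γ ψ) z = _
  rw [d1, d2, hγd, E1, E2, ← integral_sub I1 I2]
  refine integral_congr_ae (ae_of_all _ fun w => ?_)
  simp only [fsmShear, Sm.al, ← hX]
  ring

theorem fsm_CS_int {α : Type*} [MeasurableSpace α] {μ : Measure α} {f g : α → ℝ} (hf : AEStronglyMeasurable f μ)
    (hg : AEStronglyMeasurable g μ) (hf2 : Integrable (fun x => f x ^ 2) μ) (hg2 : Integrable (fun x => g x ^ 2) μ) :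
    ∫ x, f x * g x ∂μ ≤ Real.sqrt (∫ x, f x ^ 2 ∂μ) * Real.sqrt (∫ x, g x ^ 2 ∂μ) := by
  have hfL : MemLp f 2 μ := (memLp_two_iff_integrable_sq hf).2 hf2
  have hgL : MemLp g 2 μ := (memLp_two_iff_integrable_sq hg).2 hg2
  have h1 : ∫ x, f x * g x ∂μ ≤ ∫ x, |f x| * |g x| ∂μ := by
    refine (le_abs_self _).trans ((abs_integral_le_integral_abs).trans (le_of_eq ?_))
    simp only [abs_mul]
  have h2 := integral_mul_le_Lp_mul_Lq_of_nonneg (μ := μ) (p := 2) (q := 2) Real.HolderConjugate.two_two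
    (f := fun y => |f y|) (g := fun y => |g y|) (Filter.Eventually.of_forall fun _ => abs_nonneg _)
    (Filter.Eventually.of_forall fun _ => abs_nonneg _)
    (by simpa using hfL.norm) (by simpa using hgL.norm)
  refine h1.trans (h2.trans (le_of_eq ?_))
  simp only [Real.rpow_two, Real.sqrt_eq_rpow, sq_abs]

theorem fsm_CS_jq (P : Sm k β) (Y' : Finset (ST k)) (n : ℕ) : ({P with Y := Y'} : Sm k β).jq n = P.jq n := by
  induction n with
  | zero => rfl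
  | succ n ih =>
    simp only [Sm.jq]
    rw [ih]
    rfl

theorem fsm_CS_ker (P : Sm k β) (hQ : k + 3 ≤ P.Q) (hH : 1 ≤ P.H) (hK : 0 < P.K0) (n : ℕ) (b : β) (z : ST k) :
    Integrable fun w => fsmShear (P.al n) (P.cb b) (P.vs n) (z - w) := by
  have h := (fsm_r_reg ({P with Y := {z}} : Sm k β) hQ hH hK n b).2.1
  have e : ({P with Y := {z}} : Sm k β).r n b = fun w => fsmShear (P.al n) (P.cb b) (P.vs n) (z - w) := by
    funext w
    unfold Sm.r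
    simp only [Finset.sum_singleton]
    have e1 : ({P with Y := {z}} : Sm k β).al n = P.al n := by
      funext x
      unfold Sm.al Sm.jp
      rw [fsm_CS_jq]
      rfl
    rw [e1]
    rfl
  rwa [e] at h

/-- LEAF L-257-SM-CS: Cauchy-Schwarz.  `Ex n = H^{k+2} ∑_b ∫ r_b ψ_b ≤ H^{k+2} (∑_b ∫ r_b²)^{1/2} (∑_b ∫ ψ_b²)^{1/2}`, `∫ ψ_b² ≤ Mc ∫ f_b = Mc ∫ F_b`, `Ok.energy`. -/
theorem fsm_space_cs (P : Sm k β) {N : ℕ} {Rc Cs N0 N1 cH : ℝ} (h : P.Ok N Rc Cs N0 N1 cH) (n : ℕ) :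
    P.Ex n ≤ P.H ^ (k + 2) * Real.sqrt (∑ b ∈ P.caps, ∫ w, P.r n b w ^ 2) * Real.sqrt (P.Mc * (N1 * (P.H ^ (k + 2) * P.Y.card))) := by
  have hH0 : 0 < P.H := by linarith [h.hH]
  have hK0 : 0 < P.K0 := by linarith [h.hH, h.hK]
  have hb : ∀ b ∈ P.caps, ∑ z ∈ P.Y, fsmCv (P.G n b) (fsmCv (fsmSt (P.cb b) (P.mt n ∗ P.mt n))
      (fun w => P.psi n b w - fsmCv (fsmSx (P.mx n ∗ P.mx n)) (P.psi n b) w)) z ≤
      Real.sqrt (∫ w, P.r n b w ^ 2) * Real.sqrt (∫ w, P.psi n b w ^ 2) := by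
    intro b hb
    obtain ⟨hψbc, hψ0, hψf, hψ2⟩ := fsm_psi_bc P h n hb
    obtain ⟨hfbc, hf0, hfi, hfe⟩ := fsm_f_bc P h n hb
    obtain ⟨hrbc, hri, hr2⟩ := fsm_r_reg P h.hQ h.hH hK0 n b
    obtain ⟨B, hB⟩ := hψbc.2
    have e1 : ∑ z ∈ P.Y, fsmCv (P.G n b) (fsmCv (fsmSt (P.cb b) (P.mt n ∗ P.mt n))
        (fun w => P.psi n b w - fsmCv (fsmSx (P.mx n ∗ P.mx n)) (P.psi n b) w)) z = ∫ w, P.r n b w * P.psi n b w := by
      rw [Finset.sum_congr rfl fun z _ => fsm_dual P h n b hψbc z, ← integral_finsetSum _ (fun z _ =>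
        (fsm_CS_ker P h.hQ h.hH hK0 n b z).mul_bdd hψbc.1.aestronglyMeasurable (Filter.Eventually.of_forall hB))]
      refine integral_congr_ae (Filter.Eventually.of_forall fun w => ?_)
      beta_reduce
      unfold Sm.r
      rw [Finset.sum_mul]
    have hψ2i : Integrable (fun w => P.psi n b w ^ 2) :=
      (hfi.const_mul P.Mc).mono' (hψbc.1.pow 2).aestronglyMeasurable (Filter.Eventually.of_forall fun w => by
        rw [Real.norm_of_nonneg (sq_nonneg _)]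
        exact hψ2 w)
    rw [e1]
    exact fsm_CS_int hrbc.1.aestronglyMeasurable hψbc.1.aestronglyMeasurable hr2 hψ2i
  have hψE : ∑ b ∈ P.caps, ∫ w, P.psi n b w ^ 2 ≤ P.Mc * (N1 * (P.H ^ (k + 2) * P.Y.card)) := by
    calc ∑ b ∈ P.caps, ∫ w, P.psi n b w ^ 2 ≤ ∑ b ∈ P.caps, P.Mc * ∫ z, P.F b z := by
          refine Finset.sum_le_sum fun b hb => ?_
          obtain ⟨hψbc, hψ0, hψf, hψ2⟩ := fsm_psi_bc P h n hb
          obtain ⟨hfbc, hf0, hfi, hfe⟩ := fsm_f_bc P h n hb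
          rw [← hfe, ← integral_const_mul]
          refine integral_mono_of_nonneg (Filter.Eventually.of_forall fun w => sq_nonneg _) (hfi.const_mul _)
            (Filter.Eventually.of_forall hψ2)
      _ = P.Mc * ∑ b ∈ P.caps, ∫ z, P.F b z := by rw [Finset.mul_sum]
      _ ≤ _ := mul_le_mul_of_nonneg_left h.energy h.hMc.le
  unfold Sm.Ex
  rw [mul_assoc]
  refine mul_le_mul_of_nonneg_left ?_ (by positivity)
  calc _ ≤ ∑ b ∈ P.caps, Real.sqrt (∫ w, P.r n b w ^ 2) * Real.sqrt (∫ w, P.psi n b w ^ 2) := Finset.sum_le_sum hb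
    _ ≤ Real.sqrt (∑ b ∈ P.caps, ∫ w, P.r n b w ^ 2) * Real.sqrt (∑ b ∈ P.caps, ∫ w, P.psi n b w ^ 2) :=
        Real.sum_sqrt_mul_sqrt_le _ (fun b => integral_nonneg fun w => sq_nonneg _) (fun b => integral_nonneg fun w => sq_nonneg _)
    _ ≤ _ := by
        gcongr

theorem fsm_space_arith_core {k : ℕ} {H K m v v' vs : ℝ} (hH : 1 ≤ H) (hK : H ≤ K) (hm : m = min H (K / H))
    (hv : v = max (K ^ 2 * H) (K * H ^ 3)) (hv' : v' = max ((2 * K) ^ 2 * H) ((2 * K) * H ^ 3)) (hvs : vs = 2 * v' - v) :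
    (K / Real.sqrt vs + 1 / H) * (K ^ (k + 1))⁻¹ * ((K / H) ^ k * (1 + K / H ^ 2)) * H ^ (k + 2)
      ≤ 4 * m ^ (-(1 / 2 : ℝ)) := by
  have hH0 : 0 < H := by linarith
  have hK0 : 0 < K := by linarith
  have hm1 : 1 ≤ m := by
    rw [hm]
    refine le_min hH ?_
    rw [le_div_iff₀ hH0]
    linarith
  have hm0 : 0 < m := by linarith
  obtain ⟨s, hs⟩ : ∃ s, s = Real.sqrt m := ⟨_, rfl⟩
  have hs2 : s ^ 2 = m := by
    rw [hs]
    exact Real.sq_sqrt hm0.le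
  have hs0 : 0 < s := by
    rw [hs]
    exact Real.sqrt_pos.mpr hm0
  have hs1 : 1 ≤ s := by
    rw [hs]
    exact Real.one_le_sqrt.mpr hm1
  have hrp : m ^ (-(1 / 2 : ℝ)) = 1 / s := by
    rw [Real.rpow_neg hm0.le, ← Real.sqrt_eq_rpow, ← hs, one_div]
  have hvm : v * m = (K * H) ^ 2 := by
    rw [hv, hm]
    rcases le_total (H ^ 2) K with h | h
    · have h1 : H ≤ K / H := by
        rw [le_div_iff₀ hH0]
        nlinarith
      have h2 : K * H ^ 3 ≤ K ^ 2 * H := by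
        have : K * H * H ^ 2 ≤ K * H * K := by
          apply mul_le_mul_of_nonneg_left h
          positivity
        nlinarith
      rw [min_eq_left h1, max_eq_left h2]
      ring
    · have h1 : K / H ≤ H := by
        rw [div_le_iff₀ hH0]
        nlinarith
      have h2 : K ^ 2 * H ≤ K * H ^ 3 := by
        have : K * H * K ≤ K * H * H ^ 2 := by
          apply mul_le_mul_of_nonneg_left h
          positivity
        nlinarith
      rw [min_eq_right h1, max_eq_right h2]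
      field_simp
  have hvv : v ≤ v' := by
    rw [hv, hv']
    apply max_le_max
    · have : 0 ≤ K ^ 2 * H := by positivity
      nlinarith
    · have : 0 ≤ K * H ^ 3 := by positivity
      nlinarith
  have hvvs : v ≤ vs := by
    rw [hvs]
    linarith
  have hveq : v = (K * H / s) ^ 2 := by
    rw [div_pow, hs2, ← hvm]
    field_simp
  have hsq : K * H / s ≤ Real.sqrt vs := by
    apply Real.le_sqrt_of_sq_le
    rw [← hveq]
    exact hvvs
  have hpos : 0 < K * H / s := by positivity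
  have hA : K / Real.sqrt vs ≤ s / H := by
    calc K / Real.sqrt vs ≤ K / (K * H / s) := by
          apply div_le_div_of_nonneg_left hK0.le hpos hsq
      _ = s / H := by field_simp
  have hA2 : K / Real.sqrt vs + 1 / H ≤ 2 * s / H := by
    have : 1 / H ≤ s / H := by
      apply div_le_div_of_nonneg_right hs1 hH0.le
    have h2 : 2 * s / H = s / H + s / H := by ring
    rw [h2]
    linarith
  have hB : H ^ 2 / K + 1 ≤ 2 * H / m := by
    rw [le_div_iff₀ hm0]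
    have hmH : m ≤ H := by
      rw [hm]
      exact min_le_left _ _
    have hmK : m ≤ K / H := by
      rw [hm]
      exact min_le_right _ _
    have h1 : H ^ 2 / K * m ≤ H := by
      calc H ^ 2 / K * m ≤ H ^ 2 / K * (K / H) := by
            apply mul_le_mul_of_nonneg_left hmK
            positivity
        _ = H := by field_simp
    nlinarith
  have hsimp : (K / Real.sqrt vs + 1 / H) * (K ^ (k + 1))⁻¹ * ((K / H) ^ k * (1 + K / H ^ 2)) * H ^ (k + 2)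
      = (K / Real.sqrt vs + 1 / H) * (H ^ 2 / K + 1) := by
    have : (K ^ (k + 1))⁻¹ * ((K / H) ^ k * (1 + K / H ^ 2)) * H ^ (k + 2) = H ^ 2 / K + 1 := by
      rw [div_pow]
      field_simp
      ring
    calc _ = (K / Real.sqrt vs + 1 / H) * ((K ^ (k + 1))⁻¹ * ((K / H) ^ k * (1 + K / H ^ 2)) * H ^ (k + 2)) := by ring
      _ = _ := by rw [this]
  rw [hsimp, hrp]
  calc (K / Real.sqrt vs + 1 / H) * (H ^ 2 / K + 1) ≤ (2 * s / H) * (2 * H / m) := by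
        apply mul_le_mul hA2 hB (by positivity) (by positivity)
    _ = 4 * (1 / s) := by
        rw [← hs2]
        field_simp
        ring

/-- LEAF L-257-SM-XAR: arithmetic.  `vs n ≥ v (n+1) ≥ v n`, `K_n/√(v n) = √(μ n)/H`, `1 + H²/K_n ≤ 2H/μ n`. -/
theorem fsm_space_arith (P : Sm k β) (hH : 1 ≤ P.H) (hK : P.H ≤ P.K0) (n : ℕ) :
    (P.K n / Real.sqrt (P.vs n) + 1 / P.H) * (P.K n ^ (k + 1))⁻¹ * ((P.K n / P.H) ^ k * (1 + P.K n / P.H ^ 2)) * P.H ^ (k + 2)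
      ≤ 4 * P.mu n ^ (-(1 / 2 : ℝ)) := by
  have hKn : P.H ≤ P.K n := by
    have h2 : (1 : ℝ) ≤ 2 ^ n := one_le_pow₀ (by norm_num)
    unfold Sm.K
    nlinarith
  refine fsm_space_arith_core hH hKn rfl rfl ?_ rfl
  unfold Sm.v
  rw [fsm_K_succ]

/-- LEAF L-257-SM-X: **spatial error** (glue of `fsm_space_cs`, `fsm_rg`, `fsm_count`, `fsm_space_arith`) -/
theorem fsm_space (k Q : ℕ) (hQ : k + 3 ≤ Q) (Rc : ℝ) : ∃ C : ℝ, 0 ≤ C ∧ FsmSpace k Q Rc C := by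
  obtain ⟨C1, hC1, hrg⟩ := fsm_rg k Q hQ Rc
  obtain ⟨C2, hC2, hcnt⟩ := fsm_count k
  refine ⟨Real.sqrt (4 * C1 * C2), Real.sqrt_nonneg _, ?_⟩
  intro β P N Cs N0 N1 cH hPQ h n hn
  have hH0 : 0 < P.H := by linarith [h.hH]
  have hK0 : 0 < P.K0 := by linarith [h.hH, h.hK]
  have hKn : 0 < P.K n := fsm_K_pos P hK0 n
  have hCs := h.hCs; have hN0 := h.hN0; have hN1 := h.hN1; have hMc := h.hMc
  have cs := fsm_space_cs P h n
  have rg := hrg P N Cs N0 N1 cH hPQ h n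
  have ar := fsm_space_arith (k := k) P h.hH h.hK n
  set m := P.mu n ^ (-(1 / 4 : ℝ)) with hm
  have hmu : 0 < P.mu n := by linarith [fsm_mu_ge_one P h.hH h.hK n]
  have hm0 : 0 ≤ m := Real.rpow_nonneg hmu.le _
  have hm2 : P.mu n ^ (-(1 / 2 : ℝ)) = m ^ 2 := by
    rw [hm, ← Real.rpow_natCast, ← Real.rpow_mul hmu.le]
    norm_num
  rw [hm2] at ar
  set a := P.K n / Real.sqrt (P.vs n) + 1 / P.H with ha
  have ha0 : 0 ≤ a := by positivity
  set D := (P.K n / P.H) ^ k * (1 + P.K n / P.H ^ 2) with hD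
  have hD0 : 0 ≤ D := by positivity
  set y := (P.Y.card : ℝ) with hy
  have hy0 : 0 ≤ y := by positivity
  set Hp := P.H ^ (k + 2) with hHp
  have hHp0 : 0 < Hp := by positivity
  have cnt : ∑ z ∈ P.Y, ∑ z' ∈ P.Y, Real.exp (-‖z - z'‖ ^ 2 / (2 * P.K n ^ 2)) ≤ y * (C2 * N0 * D) := by
    calc _ ≤ ∑ z ∈ P.Y, C2 * N0 * D := by
          refine Finset.sum_le_sum fun z hz => ?_
          have := hcnt P N Rc Cs N0 N1 cH h n z hz
          calc _ ≤ C2 * N0 * (P.K n / P.H) ^ k * (1 + P.K n / P.H ^ 2) := this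
            _ = C2 * N0 * D := by rw [hD]; ring
      _ = _ := by simp [Finset.sum_const, nsmul_eq_mul, hy]
  set S := ∑ b ∈ P.caps, ∫ w, P.r n b w ^ 2 with hS
  have hS1 : S * Hp ≤ C1 * C2 * Cs * N0 * P.H ^ k * y * (4 * m ^ 2) := by
    have e1 : S ≤ C1 * Cs * P.H ^ k * a * (P.K n ^ (k + 1))⁻¹ * (y * (C2 * N0 * D)) :=
      rg.trans (mul_le_mul_of_nonneg_left cnt (by positivity))
    calc S * Hp ≤ C1 * Cs * P.H ^ k * a * (P.K n ^ (k + 1))⁻¹ * (y * (C2 * N0 * D)) * Hp := mul_le_mul_of_nonneg_right e1 hHp0.le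
      _ = C1 * C2 * Cs * N0 * P.H ^ k * y * (a * (P.K n ^ (k + 1))⁻¹ * D * Hp) := by ring
      _ ≤ _ := mul_le_mul_of_nonneg_left ar (by positivity)
  have e2 : Real.sqrt S * Real.sqrt (P.Mc * (N1 * (Hp * y))) ≤ Real.sqrt (4 * C1 * C2) * Real.sqrt (Cs * N0 * N1 * (P.Mc * P.H ^ k)) * y * m := by
    rw [← Real.sqrt_mul' _ (by positivity), ← Real.sqrt_mul (by positivity)]
    have : Real.sqrt (4 * C1 * C2 * (Cs * N0 * N1 * (P.Mc * P.H ^ k))) * y * m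
        = Real.sqrt (4 * C1 * C2 * (Cs * N0 * N1 * (P.Mc * P.H ^ k)) * (y * m) ^ 2) := by
      rw [Real.sqrt_mul (x := 4 * C1 * C2 * (Cs * N0 * N1 * (P.Mc * P.H ^ k))) (by positivity) ((y * m) ^ 2), Real.sqrt_sq (by positivity)]
      ring
    rw [this]
    apply Real.sqrt_le_sqrt
    calc S * (P.Mc * (N1 * (Hp * y))) = (S * Hp) * (P.Mc * N1 * y) := by ring
      _ ≤ (C1 * C2 * Cs * N0 * P.H ^ k * y * (4 * m ^ 2)) * (P.Mc * N1 * y) := mul_le_mul_of_nonneg_right hS1 (by positivity)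
      _ = _ := by ring
  calc P.Ex n ≤ Hp * Real.sqrt S * Real.sqrt (P.Mc * (N1 * (Hp * y))) := cs
    _ = Hp * (Real.sqrt S * Real.sqrt (P.Mc * (N1 * (Hp * y)))) := by ring
    _ ≤ Hp * (Real.sqrt (4 * C1 * C2) * Real.sqrt (Cs * N0 * N1 * (P.Mc * P.H ^ k)) * y * m) := mul_le_mul_of_nonneg_left e2 hHp0.le
    _ = _ := by ring

end Claimed.Agent.R257
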