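import Claimed.Agent.R257.FR1.SmKer
import Claimed.Agent.R257.FR1.SmAbs

/-!
# R257 / FR1 / SmStep : discrete Jensen step and the time error      (architect helper94)

Every `sorry` is a LEAF (name in the docstring).  Statements frozen (tell helper94 at once if one is false or awkward); prove IN PLACE, helper lemmas directly above, prefix `fsm_<leaf>_`.
-/

set_option autoImplicit false

namespace Claimed.Agent.R257

open MeasureTheory ProbabilityTheory Metric Set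
open scoped ENNReal NNReal InnerProductSpace

variable {k : ℕ} {β : Type} (P : Sm k β)

/-- LEAF L-257-SM-REG: regularity of the smoothed densities -/
theorem fsm_f_bc {N : ℕ} {Rc Cs N0 N1 cH : ℝ} (h : P.Ok N Rc Cs N0 N1 cH) (n : ℕ) {b : β} (hb : b ∈ P.caps) :
    fsmBC (P.f n b) ∧ (∀ z, 0 ≤ P.f n b z) ∧ Integrable (P.f n b) ∧ ∫ z, P.f n b z = ∫ z, P.F b z := by
  have hQ : k < P.Q := by have := h.hQ; omega
  have hK : 0 < P.K0 := by linarith [h.hH, h.hK]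
  have := fsm_G_prob P hQ hK n b
  unfold Sm.f
  refine ⟨fsm_cv_bc _ (h.F_bc b hb), fsm_cv_nonneg _ (h.F_nonneg b hb), ?_⟩
  exact fsm_cv_integral _ (h.F_bc b hb) (h.F_int b hb)

/-- LEAF L-257-SM-REG -/
theorem fsm_psi_bc {N : ℕ} {Rc Cs N0 N1 cH : ℝ} (h : P.Ok N Rc Cs N0 N1 cH) (n : ℕ) {b : β} (hb : b ∈ P.caps) :
    fsmBC (P.psi n b) ∧ (∀ z, 0 ≤ P.psi n b z) ∧ (∀ z, P.psi n b z ≤ P.f n b z) ∧ (∀ z, P.psi n b z ^ 2 ≤ P.Mc * P.f n b z) := by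
  obtain ⟨h1, h2, _, _⟩ := fsm_f_bc P h n hb
  unfold Sm.psi
  exact ⟨fsm_phi_bc h.hMc h1, fun z => fsm_phi_nonneg h.hMc (h2 z), fun z => fsm_phi_le_self h.hMc _,
    fun z => fsm_phi_sq_le h.hMc (h2 z)⟩

theorem fsm_STEP_pt (P : Sm k β) {N : ℕ} {Rc Cs N0 N1 cH : ℝ} (h : P.Ok N Rc Cs N0 N1 cH) (n : ℕ) {b : β} (hb : b ∈ P.caps) (z : ST k) :
    fsmCv (P.G n b) (P.psi n b) z ≤ fsmCv (P.G (n + 1) b) (P.psi (n + 1) b) z
      + fsmCv (P.G n b) (fun w => P.psi n b w - fsmCv (fsmSt (P.cb b) (P.mt n ∗ P.mt n)) (P.psi n b) w) z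
      + fsmCv (P.G n b) (fsmCv (fsmSt (P.cb b) (P.mt n ∗ P.mt n)) (fun w => P.psi n b w - fsmCv (fsmSx (P.mx n ∗ P.mx n)) (P.psi n b) w)) z := by
  have hQ : k < P.Q := by have := h.hQ; omega
  have hK0 : 0 < P.K0 := by linarith [h.hH, h.hK]
  have := fsm_G_prob P hQ hK0 n b
  have := fsm_G_prob P hQ hK0 (n + 1) b
  have := fsm_mx_prob P hQ hK0 n
  have := fsm_sx_prob (P.mx n)
  have := fsm_st_prob (P.cb b) (P.mt n)
  have := fsm_sx_prob (P.mx n ∗ P.mx n)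
  have := fsm_st_prob (P.cb b) (P.mt n ∗ P.mt n)
  set Gn := P.G n b with hGn
  set Mx := fsmSx (P.mx n) with hMx
  set Mt := fsmSt (P.cb b) (P.mt n) with hMt
  set ψ := P.psi n b with hψ
  have hψbc : fsmBC ψ := (fsm_psi_bc P h n hb).1
  have hfbc : fsmBC (P.f n b) := (fsm_f_bc P h n hb).1
  have hGs : P.G (n + 1) b = (Mx ∗ Mt) ∗ Gn := fsm_G_succ P hQ h.hH hK0 n b
  have hxx : fsmSx (P.mx n ∗ P.mx n) = Mx ∗ Mx := fsm_sx_conv _ _
  have htt : fsmSt (P.cb b) (P.mt n ∗ P.mt n) = Mt ∗ Mt := fsm_st_conv _ _ _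
  -- f (n+1) = cv M f
  have hf1 : P.f (n + 1) b = fsmCv (Mx ∗ Mt) (P.f n b) := by
    show fsmCv (P.G (n + 1) b) (P.F b) = _
    rw [hGs, fsm_cv_conv _ _ (h.F_bc b hb)]
    rfl
  -- Jensen
  have hJ : ∀ w, fsmCv (Mx ∗ Mt) ψ w ≤ P.psi (n + 1) b w := by
    intro w
    show _ ≤ fsmPhi P.Mc (P.f (n + 1) b w)
    rw [hf1]
    exact fsm_cv_jensen (Mx ∗ Mt) h.hMc hfbc w
  have hMψ : fsmBC (fsmCv (Mx ∗ Mt) ψ) := fsm_cv_bc _ hψbc
  have h1 : fsmCv (P.G (n + 1) b) (fsmCv (Mx ∗ Mt) ψ) z ≤ fsmCv (P.G (n + 1) b) (P.psi (n + 1) b) z :=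
    fsm_cv_mono _ hMψ (fsm_psi_bc P h (n + 1) hb).1 hJ z
  set At := fsmCv (fsmSt (P.cb b) (P.mt n ∗ P.mt n)) with hAt
  set Ax := fsmCv (fsmSx (P.mx n ∗ P.mx n)) with hAx
  have hMM : fsmCv (Mx ∗ Mt) (fsmCv (Mx ∗ Mt) ψ) = At (Ax ψ) := by
    rw [hAt, hAx, hxx, htt]
    have c1 : ∀ f : ST k → ℝ, fsmBC f → fsmCv Mt (fsmCv Mx f) = fsmCv Mx (fsmCv Mt f) := fun f hf => fsm_cv_comm Mt Mx hf
    have b1 : fsmBC (fsmCv Mt ψ) := fsm_cv_bc _ hψbc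
    have b2 : fsmBC (fsmCv Mx ψ) := fsm_cv_bc _ hψbc
    calc fsmCv (Mx ∗ Mt) (fsmCv (Mx ∗ Mt) ψ) = fsmCv Mx (fsmCv Mt (fsmCv Mx (fsmCv Mt ψ))) := by
          rw [fsm_cv_conv Mx Mt hψbc, fsm_cv_conv Mx Mt (fsm_cv_bc _ b1)]
      _ = fsmCv Mx (fsmCv Mx (fsmCv Mt (fsmCv Mt ψ))) := by rw [c1 _ b1]
      _ = fsmCv Mx (fsmCv Mt (fsmCv Mx (fsmCv Mt ψ))) := by rw [c1 _ b1]
      _ = fsmCv Mt (fsmCv Mx (fsmCv Mx (fsmCv Mt ψ))) := by rw [c1 _ (fsm_cv_bc _ b1)]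
      _ = fsmCv Mt (fsmCv Mx (fsmCv Mt (fsmCv Mx ψ))) := by rw [c1 _ hψbc]
      _ = fsmCv Mt (fsmCv Mt (fsmCv Mx (fsmCv Mx ψ))) := by rw [c1 _ b2]
      _ = fsmCv (Mt ∗ Mt) (fsmCv (Mx ∗ Mx) ψ) := by
          rw [fsm_cv_conv Mx Mx hψbc, fsm_cv_conv Mt Mt (fsm_cv_bc _ b2)]
  have h2 : fsmCv (P.G (n + 1) b) (fsmCv (Mx ∗ Mt) ψ) = fsmCv Gn (At (Ax ψ)) := by
    rw [hGs, fsm_cv_conv _ _ hMψ, fsm_cv_comm _ _ hMψ, hMM]
  have hAxψ : fsmBC (Ax ψ) := fsm_cv_bc _ hψbc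
  have hAtψ : fsmBC (At ψ) := fsm_cv_bc _ hψbc
  have hAtAxψ : fsmBC (At (Ax ψ)) := fsm_cv_bc _ hAxψ
  have h3 : At (fun w => ψ w - Ax ψ w) = fun w => At ψ w - At (Ax ψ) w := fsm_cv_sub _ hψbc hAxψ
  have h4 : fsmCv Gn (fun w => ψ w - At ψ w) z = fsmCv Gn ψ z - fsmCv Gn (At ψ) z := by
    rw [fsm_cv_sub _ hψbc hAtψ]
  have h5 : fsmCv Gn (At (fun w => ψ w - Ax ψ w)) z = fsmCv Gn (At ψ) z - fsmCv Gn (At (Ax ψ)) z := by
    rw [h3, fsm_cv_sub _ hAtψ hAtAxψ]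
  rw [h4, h5]
  rw [h2] at h1
  linarith

/-- LEAF L-257-SM-STEP: **discrete Jensen.**   With `M = sx (mx n) * st (mt n)`: `G (n+1) = M * G n` (`fsm_G_succ`), `f (n+1) = cv M (f n)`, `φ (cv M (f n)) ≥ cv M (ψ n)` (`fsm_cv_jensen`), hence
`cv (G (n+1)) (ψ (n+1)) ≥ cv (G n) (cv M (cv M (ψ n)))`, `cv M ∘ cv M = cv (st (mt*mt)) ∘ cv (sx (mx*mx))` (`fsm_cv_conv`, `fsm_cv_comm`, `fsm_sx_conv`, `fsm_st_conv`) and
`ψ - cv(st²) cv(sx²) ψ = (ψ - cv(st²) ψ) + cv(st²) (ψ - cv(sx²) ψ)`. -/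
theorem fsm_step (k : ℕ) : FsmStep k := by
  intro β P N Rc Cs N0 N1 cH h n _
  have hH : 0 ≤ P.H ^ (k + 2) := pow_nonneg (by linarith [h.hH]) _
  unfold Sm.I Sm.Et Sm.Ex
  rw [← mul_add, ← mul_add]
  refine mul_le_mul_of_nonneg_left ?_ hH
  rw [← Finset.sum_add_distrib, ← Finset.sum_add_distrib]
  refine Finset.sum_le_sum fun b hb => ?_
  rw [← Finset.sum_add_distrib, ← Finset.sum_add_distrib]
  exact Finset.sum_le_sum fun z _ => fsm_STEP_pt P h n hb z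

/-- LEAF L-257-SM-T1: number of caps (`slab` with a unit vector, `c = 0`, `lam = Rc`; `1 ≤ k`) -/
theorem fsm_caps_card {N : ℕ} {Rc Cs N0 N1 cH : ℝ} (h : P.Ok N Rc Cs N0 N1 cH) : (P.caps.card : ℝ) ≤ Cs * P.H ^ k * (Rc + 1) := by
  have hk := h.hk
  have hH := h.hH
  have hRc := h.hRc
  obtain ⟨e, he⟩ : ∃ e : E k, ‖e‖ = 1 := ⟨EuclideanSpace.single ⟨0, hk⟩ 1, by simp⟩
  have h1 := h.slab e 0 Rc he (by linarith)
  have h2 : (P.caps.filter fun b => |⟪P.cb b, e⟫_ℝ - 0| ≤ Rc) = P.caps := by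
    apply Finset.filter_true_of_mem
    intro b hb
    rw [sub_zero]
    refine (abs_real_inner_le_norm _ _).trans ?_
    rw [he, mul_one]
    exact h.cb_le b hb
  rw [h2] at h1
  refine h1.trans ?_
  refine mul_le_mul_of_nonneg_left ?_ (mul_nonneg h.hCs (by positivity))
  have : 1 / P.H ≤ 1 := by
    rw [div_le_one (by linarith)]
    exact hH
  linarith

/-- LEAF L-257-SM-T1: Harnack for the smoothed density (`fsm_G_factor`, `fsm_cv_conv`, `fsm_har_cv`) -/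
theorem fsm_f_har {N : ℕ} {Rc Cs N0 N1 cH : ℝ} (h : P.Ok N Rc Cs N0 N1 cH) {n : ℕ} (hn : n ≤ N) {b : β} (hb : b ∈ P.caps) :
    fsmHar (P.cb b) (cH / (P.H * P.K n)) (P.f n b) := by
  have hQ : k < P.Q := by have := h.hQ; omega
  have hK : 0 < P.K0 := by linarith [h.hH, h.hK]
  have hKn := fsm_K_pos P hK n
  have i1 := fsm_jm_prob (k := k) hQ hKn
  have i2 := fsm_sx_prob (fsmJm P.Q (P.K n) : Measure (E k))
  have i3 := fsm_jq_prob P hQ hK n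
  have i4 := fsm_hm_prob (k := k) hKn
  have i5 := fsm_sx_prob (P.jq n ∗ fsmHm (P.K n))
  have i6 := fsm_st_prob (P.cb b) (fsmGs (P.v n))
  unfold Sm.f
  rw [fsm_G_factor P hQ hK n b, fsm_cv_conv _ _ (h.F_bc b hb), fsm_cv_comm _ _ (h.F_bc b hb)]
  exact fsm_har_cv _ (fsm_cv_bc _ (h.F_bc b hb)) (h.har b hb n hn)

theorem fsm_time_pt_int {b : E k} (γ : Measure ℝ) [IsFiniteMeasure γ] {g : ST k → ℝ} (hg : fsmBC g) (w : ST k) :
    Integrable (fun s => g (w - fsmDir b s)) γ := by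
  obtain ⟨hc, B, hB⟩ := hg
  have hd : Continuous (fsmDir b) := by
    unfold fsmDir
    fun_prop
  have hc2 : Continuous fun s => g (w - fsmDir b s) := hc.comp (continuous_const.sub hd)
  refine Integrable.of_bound hc2.aestronglyMeasurable B ?_
  exact Filter.Eventually.of_forall fun s => by
    rw [Real.norm_eq_abs]
    exact hB _

/-- LEAF L-257-SM-T2: pointwise time error.  `ψ(w) - ψ(w - s(2b,1)) ≤ Mc c_n |s|` (`fsm_har_lower`, `fsm_phi_mono`, `fsm_phi_harnack`), `mt * mt = Gs (2 (v (n+1) - v n))`, `fsm_gs_abs`. -/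
theorem fsm_time_pt {N : ℕ} {Rc Cs N0 N1 cH : ℝ} (h : P.Ok N Rc Cs N0 N1 cH) {n : ℕ} (hn : n ≤ N) {b : β} (hb : b ∈ P.caps) (w : ST k) :
    P.psi n b w - fsmCv (fsmSt (P.cb b) (P.mt n ∗ P.mt n)) (P.psi n b) w ≤ P.Mc * (cH / (P.H * P.K n)) * Real.sqrt (2 * P.v (n + 1)) := by
  have hK : 0 < P.K0 := by linarith [h.hH, h.hK]
  have hKn := fsm_K_pos P hK n
  have hH0 : 0 < P.H := by linarith [h.hH]
  have hv := fsm_v_mono P h.hH hK n
  have hvp := fsm_v_pos P h.hH hK n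
  obtain ⟨hbc, _, _, _⟩ := fsm_psi_bc P h n hb
  obtain ⟨_, hf0, _, _⟩ := fsm_f_bc P h n hb
  have hhar := fsm_f_har P h hn hb
  obtain ⟨c, hc⟩ : ∃ c, c = cH / (P.H * P.K n) := ⟨_, rfl⟩
  have hc0 : 0 ≤ c := by rw [hc]; exact div_nonneg h.hcH (by positivity)
  rw [← hc] at hhar ⊢
  have hmt : P.mt n ∗ P.mt n = fsmGs (2 * (P.v (n + 1) - P.v n)) := by
    unfold Sm.mt
    rw [fsm_gs_conv (by linarith) (by linarith), two_mul]
  rw [hmt, fsm_cv_st _ _ _ hbc]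
  obtain ⟨v', hv'⟩ : ∃ v', v' = 2 * (P.v (n + 1) - P.v n) := ⟨_, rfl⟩
  have hv'0 : 0 ≤ v' := by rw [hv']; linarith
  rw [← hv']
  obtain ⟨hai, hab⟩ := fsm_gs_abs hv'0
  have hint := fsm_time_pt_int (b := P.cb b) (fsmGs v') hbc w
  have e1 : P.psi n b w - ∫ s, P.psi n b (w - fsmDir (P.cb b) s) ∂(fsmGs v')
      = ∫ s, (P.psi n b w - P.psi n b (w - fsmDir (P.cb b) s)) ∂(fsmGs v') := by
    rw [integral_sub (integrable_const _) hint, integral_const]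
    simp
  rw [e1]
  have hpt : ∀ s, P.psi n b w - P.psi n b (w - fsmDir (P.cb b) s) ≤ P.Mc * c * |s| := by
    intro s
    have h1 := fsm_har_lower hhar w s
    have h2 := fsm_phi_mono h.hMc h1
    have h3 := fsm_phi_harnack h.hMc (a := c * |s|) (u := P.f n b w) (by positivity) (hf0 w)
    unfold Sm.psi
    linarith
  calc ∫ s, (P.psi n b w - P.psi n b (w - fsmDir (P.cb b) s)) ∂(fsmGs v')
      ≤ ∫ s, P.Mc * c * |s| ∂(fsmGs v') := integral_mono ((integrable_const _).sub hint) (hai.const_mul _) hpt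
    _ = P.Mc * c * ∫ s, |s| ∂(fsmGs v') := integral_const_mul _ _
    _ ≤ P.Mc * c * Real.sqrt (2 * P.v (n + 1)) := by
        refine mul_le_mul_of_nonneg_left ?_ (mul_nonneg h.hMc.le hc0)
        refine hab.trans (Real.sqrt_le_sqrt ?_)
        rw [hv']
        linarith

theorem fsm_time_arith_core {H K m v t : ℝ} (hH : 1 ≤ H) (hK : H ≤ K) (hm : m = min H (K / H))
    (hv : v = max ((2 * K) ^ 2 * H) ((2 * K) * H ^ 3)) (ht : t = m ^ (-(1 / 4 : ℝ))) :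
    Real.sqrt (2 * v) / (H * K) ≤ 3 * t := by
  have hH0 : 0 < H := by linarith
  have hK0 : 0 < K := by linarith
  have hm1 : 1 ≤ m := by
    rw [hm]
    refine le_min hH ?_
    rw [le_div_iff₀ hH0]
    linarith
  have hm0 : 0 < m := by linarith
  have ht0 : 0 < t := by
    rw [ht]
    exact Real.rpow_pos_of_pos hm0 _
  have ht1 : t ≤ 1 := by
    rw [ht]
    exact Real.rpow_le_one_of_one_le_of_nonpos hm1 (by norm_num)
  have ht4 : t ^ 4 * m = 1 := by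
    rw [ht, ← Real.rpow_natCast, ← Real.rpow_mul hm0.le]
    norm_num
    rw [Real.rpow_neg_one]
    field_simp
  have hmH : m ≤ H := by
    rw [hm]
    exact min_le_left _ _
  have hmK : m * H ≤ K := by
    have : m ≤ K / H := by
      rw [hm]
      exact min_le_right _ _
    rwa [le_div_iff₀ hH0] at this
  have hvm : 2 * v * m ≤ 8 * (H * K) ^ 2 := by
    rw [hv]
    rcases max_cases ((2 * K) ^ 2 * H) ((2 * K) * H ^ 3) with ⟨h1, -⟩ | ⟨h1, -⟩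
    · rw [h1]
      have : K ^ 2 * H * m ≤ K ^ 2 * H * H := by
        apply mul_le_mul_of_nonneg_left hmH
        positivity
      nlinarith [this]
    · rw [h1]
      have : K * H ^ 2 * (m * H) ≤ K * H ^ 2 * K := by
        apply mul_le_mul_of_nonneg_left hmK
        positivity
      nlinarith [this]
  have ht2 : t ^ 4 ≤ t ^ 2 := by
    have : t ^ 2 ≤ 1 := by nlinarith
    nlinarith [sq_nonneg t]
  have hv2 : 2 * v ≤ 8 * (H * K) ^ 2 * t ^ 4 := by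
    have h1 : 2 * v = 2 * v * m * t ^ 4 := by
      calc 2 * v = 2 * v * (t ^ 4 * m) := by rw [ht4]; ring
        _ = 2 * v * m * t ^ 4 := by ring
    rw [h1]
    apply mul_le_mul_of_nonneg_right hvm
    positivity
  rw [div_le_iff₀ (by positivity)]
  apply Real.sqrt_le_iff.mpr
  refine ⟨by positivity, ?_⟩
  have h3 : 8 * (H * K) ^ 2 * t ^ 4 ≤ 8 * (H * K) ^ 2 * t ^ 2 := by
    apply mul_le_mul_of_nonneg_left ht2
    positivity
  have h4 : 0 ≤ (H * K) ^ 2 * t ^ 2 := by positivity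
  nlinarith [h3, h4, hv2]

/-- LEAF L-257-SM-T3: arithmetic, `v (n+1) μ (n+1) = (2 H K_n)²`, `μ (n+1) ≥ μ n ≥ 1` -/
theorem fsm_time_arith (hH : 1 ≤ P.H) (hK : P.H ≤ P.K0) (n : ℕ) : Real.sqrt (2 * P.v (n + 1)) / (P.H * P.K n) ≤ 3 * P.mu n ^ (-(1 / 4 : ℝ)) := by
  have hK0 : 0 < P.K0 := by linarith
  have hKn : P.H ≤ P.K n := by
    have h2 : (1 : ℝ) ≤ 2 ^ n := one_le_pow₀ (by norm_num)
    unfold Sm.K
    nlinarith
  refine fsm_time_arith_core hH hKn rfl ?_ rfl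
  unfold Sm.v
  rw [fsm_K_succ]

/-- LEAF L-257-SM-T4: **time error** (glue of T1-T3 and `fsm_cv_le`) -/
theorem fsm_time (k : ℕ) (Rc : ℝ) : FsmTime k Rc (3 * (Rc + 1)) := by
  intro β P N Cs N0 N1 cH h n hn
  have hQ : k < P.Q := by have := h.hQ; omega
  have hH0 : 0 < P.H := by linarith [h.hH]
  have hK0 : 0 < P.K0 := by linarith [h.hH, h.hK]
  have hKn : 0 < P.K n := fsm_K_pos P hK0 n
  set B := P.Mc * (cH / (P.H * P.K n)) * Real.sqrt (2 * P.v (n + 1)) with hB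
  set m := P.mu n ^ (-(1 / 4 : ℝ)) with hm
  have hm0 : 0 ≤ m := Real.rpow_nonneg (by linarith [fsm_mu_ge_one P h.hH h.hK n]) _
  have hB0 : 0 ≤ B := by
    have := h.hMc; have := h.hcH
    positivity
  have hBle : B ≤ P.Mc * cH * (3 * m) := by
    have := fsm_time_arith P h.hH h.hK n
    have e : B = P.Mc * cH * (Real.sqrt (2 * P.v (n + 1)) / (P.H * P.K n)) := by
      rw [hB]; field_simp
    rw [e]
    exact mul_le_mul_of_nonneg_left this (mul_nonneg h.hMc.le h.hcH)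
  have pt : ∀ b ∈ P.caps, ∀ z ∈ P.Y,
      fsmCv (P.G n b) (fun w => P.psi n b w - fsmCv (fsmSt (P.cb b) (P.mt n ∗ P.mt n)) (P.psi n b) w) z ≤ B := by
    intro b hb z _
    have := fsm_G_prob P hQ hK0 n b
    have := fsm_st_prob (P.cb b) (P.mt n ∗ P.mt n)
    have hψ := (fsm_psi_bc P h n hb).1
    exact fsm_cv_le _ (fsm_bc_sub hψ (fsm_cv_bc _ hψ)) (fun w => fsm_time_pt P h hn.le hb w) z
  have hcard := fsm_caps_card P h
  have s1 : ∑ b ∈ P.caps, ∑ z ∈ P.Y,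
      fsmCv (P.G n b) (fun w => P.psi n b w - fsmCv (fsmSt (P.cb b) (P.mt n ∗ P.mt n)) (P.psi n b) w) z
      ≤ (P.caps.card : ℝ) * ((P.Y.card : ℝ) * B) := by
    calc _ ≤ ∑ b ∈ P.caps, ∑ z ∈ P.Y, B := Finset.sum_le_sum fun b hb => Finset.sum_le_sum fun z hz => pt b hb z hz
      _ = _ := by simp [Finset.sum_const, nsmul_eq_mul]
  have hHp : 0 ≤ P.H ^ (k + 2) := by positivity
  unfold Sm.Et
  calc P.H ^ (k + 2) * _ ≤ P.H ^ (k + 2) * ((P.caps.card : ℝ) * ((P.Y.card : ℝ) * B)) := mul_le_mul_of_nonneg_left s1 hHp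
    _ ≤ P.H ^ (k + 2) * ((Cs * P.H ^ k * (Rc + 1)) * ((P.Y.card : ℝ) * (P.Mc * cH * (3 * m)))) := by
        apply mul_le_mul_of_nonneg_left _ hHp
        apply mul_le_mul hcard _ (by positivity) (le_trans (by positivity) hcard)
        exact mul_le_mul_of_nonneg_left hBle (by positivity)
    _ = _ := by ring

end Claimed.Agent.R257
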