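import Claimed.Agent.R257.FR1.HvMain
import Claimed.Agent.R257.FR1.BdC

/-!
# ROW 257, package FR1, file 7: THE STAGES OF THE NORMALISATION FOR ONE FIELD, IN THE LANGUAGE `T2`      (architect helper249)

Leaves `L-F1-S7..S9` (each = one abstract lemma of `FR1/Abs.lean` + adapters of `FR1/Ad.lean`, `FR1/BdC.lean`; 60-200 lines).    H `frame.tex` l.540-577.     The stages of l.147-265 (classes, heavy masks, ball count, balance) are the block HV: `FR1/HvMain.lean` (helper240).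
Notation: `t : T2 k` a two-height tree with `t.Good c`; `φ S q = t.loc c S z * t.pre S.1 z` at `z = t.pt q`; `t.fldM c U z = ∑_{S ∈ U} φ`; `t.amp c S` the original amplitude; `t.d1 S z` the native distance.
-/

set_option autoImplicit false

namespace Claimed.Agent.R257.FR1

open Claimed.Agent.R257 Claimed.Agent.R257.FR2 Claimed.Agent.R257.Tree
open scoped BigOperators Classical BoundedContinuousFunction

noncomputable section

variable {k : ℕ}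

theorem fs_eb_nonneg (t : T2 k) (A : ℝ) (b : t.Λ1) (z : ST k) : 0 ≤ t.eb A b z := by
  unfold T2.eb
  refine Finset.sum_nonneg fun T _ => ?_
  split_ifs
  · refine mul_nonneg (sq_nonneg _) ?_
    unfold T2.w0 pw
    positivity
  · exact le_rfl

/-- **LEAF L-F1-S7: the masks with `e_b²(z_S) > M_c` are negligible** (H l.540-549).   The masks and their amplitudes belong to the tree `t`; the envelopes `eb` to a tree `t'` with the same bins and masks scale (in the application `t = tH`, `t' = tF`): here ONE tree, the fields are compared elsewhere.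
PLAN: `fa_removed` with `bn S = S.1`, `ez b = eb c.P b z`, `ec S = eb c.P S.1 (ctr1 S)`, `Cp = (1+2Cc)^P` (`t2_eb_cmp`), `Cl` (`t2_sum_bin`, `A = c.M`), `τ` (`t2_tail`), `φ`, `s` as in `fs_near`. -/
theorem fs_removed (c : TCls k) (hc : c.Ok) : ∃ C : ℝ, 1 ≤ C ∧ ∀ t : T2 k, t.Good c → ∀ (L : Finset (t.Λ1 × Lat k)) (z : ST k) (s r Mc ϖ : ℝ) (φ : t.Λ1 × Lat k → ℂ), 0 ≤ s → 0 ≤ r → 0 < Mc →
    (∀ S ∈ L, ‖φ S‖ ≤ s * (1 + t.d1 S z) ^ (-c.M)) → ∑ b : t.Λ1, min (t.eb c.P b z) Mc ≤ ϖ →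
    ‖∑ S ∈ L.filter (fun S => Mc < t.eb c.P S.1 (t.ctr1 S)), φ S‖ ≤ s * C * (ϖ * (1 + r) ^ c.P / Mc + t.κ1 ^ k * (1 + r) ^ (-(c.M - k - 2))) := by
  have hk0 : (0 : ℝ) ≤ k := Nat.cast_nonneg k
  have hP0 : 0 ≤ c.P := by linarith [hc.P_gt]
  have hM1 : (k : ℝ) + 1 < c.M := by linarith [hc.P_gt, hc.P_lt, hc.M_gt]
  have hM2 : (k : ℝ) + 2 ≤ c.M := by linarith [hc.P_gt, hc.P_lt, hc.M_gt]
  obtain ⟨C1, hC1, h1⟩ := t2_sum_bin (k := k) hM1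
  obtain ⟨C2, hC2, h2⟩ := t2_tail k
  have hCc := hc.one_le_Cc
  have hCm := hc.one_le_Cm
  have hCp : 1 ≤ (1 + 2 * c.Cc) ^ c.P := Real.one_le_rpow (by linarith) hP0
  refine ⟨(1 + 2 * c.Cc) ^ c.P * C1 + C2 * c.Cm, by nlinarith, fun t ht L z s r Mc ϖ φ hs hr hMc hφ hclip => ?_⟩
  have hκ : 0 ≤ t.κ1 := by linarith [ht.one_le_κ1]
  have hϖ : 0 ≤ ϖ := le_trans (Finset.sum_nonneg fun b _ => le_min (fs_eb_nonneg t _ b z) hMc.le) hclip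
  have key := fa_removed L (fun S => S.1) φ (fun S => t.d1 S z) (fun S => t.eb c.P S.1 (t.ctr1 S)) (fun b => t.eb c.P b z) s c.M c.P r
    (C2 * c.Cm * t.κ1 ^ k * (1 + r) ^ (-(c.M - k - 2))) Mc ϖ ((1 + 2 * c.Cc) ^ c.P) C1 hs hP0 hr hMc hCp (by linarith)
    (fun S _ => norm_nonneg _) (fun b => fs_eb_nonneg t _ b z) hφ (fun S _ => t2_eb_cmp t c ht hP0 S z) (fun b => h1 t L b z)
    (h2 t c ht L z c.M r hM2 hr) hclip
  refine key.trans ?_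
  rw [mul_assoc s]
  refine mul_le_mul_of_nonneg_left ?_ hs
  obtain ⟨a, ha⟩ : ∃ a, a = ϖ * (1 + r) ^ c.P / Mc := ⟨_, rfl⟩
  obtain ⟨b, hb⟩ : ∃ b, b = t.κ1 ^ k * (1 + r) ^ (-(c.M - k - 2)) := ⟨_, rfl⟩
  have ha0 : 0 ≤ a := by rw [ha]; positivity
  have hb0 : 0 ≤ b := by rw [hb]; positivity
  have e1 : ϖ * (1 + 2 * c.Cc) ^ c.P * (1 + r) ^ c.P / Mc * C1 = (1 + 2 * c.Cc) ^ c.P * C1 * a := by rw [ha]; ring
  have e2 : C2 * c.Cm * t.κ1 ^ k * (1 + r) ^ (-(c.M - k - 2)) = C2 * c.Cm * b := by rw [hb]; ring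
  rw [e1, e2, ← ha, ← hb]
  have p1 : 0 ≤ (1 + 2 * c.Cc) ^ c.P * C1 := by positivity
  have p2 : 0 ≤ C2 * c.Cm := by positivity
  nlinarith [mul_nonneg p1 hb0, mul_nonneg p2 ha0]

/-- **LEAF L-F1-S8: `sq0` from the clipped sum** (H l.551-558).   PLAN: `t2_sq0_eq`, `fa_sample` with `w S = w1 c.P S z`, `ec`, `ez` as in `fs_removed`, `Cv` (`t2_eb_conv`), `Cl` (`t2_sum_bin`). -/
theorem fs_sq0 (c : TCls k) (hc : c.Ok) : ∃ C : ℝ, 1 ≤ C ∧ ∀ t : T2 k, t.Geo c → 0 < t.Mc → (∀ S ∈ t.W1, t.eb c.P S.1 (t.ctr1 S) ≤ t.Mc) → ∀ z : ST k,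
    ∑ T ∈ t.W0, t.s0 T ^ 2 * t.ker0 c.P T z ≤ C * ∑ b : t.Λ1, min (t.eb c.P b z) t.Mc := by
  have hCc : 0 ≤ c.Cc := by linarith [hc.one_le_Cc]
  obtain ⟨Cv, hCv1, hCv⟩ := t2_eb_conv (k := k) hc.P_gt c.Cc hCc
  obtain ⟨Cl, hCl1, hCl⟩ := t2_sum_bin (k := k) (A := c.P) (by linarith [hc.P_gt])
  refine ⟨max Cv Cl, hCv1.trans (le_max_left _ _), fun t g hMc hret z => ?_⟩
  obtain ⟨Mc', ϖ', hg⟩ := fb_good_aux t c g
  rw [t2_sq0_eq]
  refine fa_sample t.W1 (fun S => S.1) (fun S => t.w1 c.P S z) (fun S => t.eb c.P S.1 (t.ctr1 S)) (fun b => t.eb c.P b z)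
    t.Mc Cv Cl hMc (by linarith) (by linarith) ?_ (fun S _ => fb_B6_eb_nonneg t _ _ _) (fun b => fb_B6_eb_nonneg t _ _ _) hret ?_
    (fun b => hCl t t.W1 b z)
  · intro S _
    unfold T2.w1 pw
    exact Real.rpow_nonneg (by positivity) _
  · intro b
    have h1 : ∑ S ∈ t.W1.filter (fun S => S.1 = b), t.w1 c.P S z * t.eb c.P b (t.ctr1 S) ≤ Cv * t.eb c.P b z :=
      hCv _ c rfl hg t.W1 b z
    refine le_trans (le_of_eq ?_) h1
    refine Finset.sum_congr rfl fun S hS => ?_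
    rw [(Finset.mem_filter.1 hS).2]

/-- **LEAF L-F1-S9: a tree without clipping is `Good`** (power case; trees `tH`, `tK`): if the leaf envelope of order `c.P` is `≤ B` at the witnesses.
PLAN: `Mc := 1 + ∑_{S ∈ W1} eb …` (so `ret` holds), `clip`: `min ≤ left`, `t2_eb_sum`; `sq0`: `fs_sq0` + `clip`; `T2.Geo.good`.   The record update does not change `Geo` (copy the fields). -/
theorem fs_good_pow (c : TCls k) (hc : c.Ok) : ∃ C : ℝ, 1 ≤ C ∧ ∀ t : T2 k, t.Geo c → ∀ B : ℝ, 1 ≤ B → (∀ q ∈ t.Yf, ∑ T ∈ t.W0, t.s0 T ^ 2 * t.w0 c.P T (t.pt q) ≤ B) →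
    ∃ Mc : ℝ, T2.Good { t with G0 := 2 * (1 + 2 * c.Cc), G1 := 1, Mc := Mc, ηw := 0, ϖ := C * B } c := by
  obtain ⟨C, hC1, hC⟩ := fs_sq0 c hc
  refine ⟨C, hC1, fun t g B hB hle => ?_⟩
  have hM : 0 ≤ ∑ S ∈ t.W1, t.eb c.P S.1 (t.ctr1 S) := Finset.sum_nonneg fun S _ => fb_B6_eb_nonneg t _ _ _
  obtain ⟨Mc, hMc⟩ : ∃ Mc : ℝ, Mc = 1 + ∑ S ∈ t.W1, t.eb c.P S.1 (t.ctr1 S) := ⟨_, rfl⟩
  have hMc0 : 0 < Mc := by rw [hMc]; linarith
  have hret : ∀ S ∈ t.W1, t.eb c.P S.1 (t.ctr1 S) ≤ Mc := by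
    intro S hS
    have := Finset.single_le_sum (f := fun S : t.Λ1 × Lat k => t.eb c.P S.1 (t.ctr1 S)) (fun S _ => fb_B6_eb_nonneg t _ _ _) hS
    beta_reduce at this
    rw [hMc]; linarith
  have hclip : ∀ q ∈ t.Yf, ∑ b : t.Λ1, min (t.eb c.P b (t.pt q)) Mc ≤ B := by
    intro q hq
    calc ∑ b : t.Λ1, min (t.eb c.P b (t.pt q)) Mc ≤ ∑ b : t.Λ1, t.eb c.P b (t.pt q) := Finset.sum_le_sum fun b _ => min_le_left _ _
      _ = ∑ T ∈ t.W0, t.s0 T ^ 2 * t.w0 c.P T (t.pt q) := t2_eb_sum t c.P _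
      _ ≤ B := hle q hq
  have g' : T2.Geo { t with G0 := 2 * (1 + 2 * c.Cc), G1 := 1, Mc := Mc, ηw := 0, ϖ := C * B } c :=
    ⟨g.one_le_κ1, g.κ_le, g.par_near, g.top_bdd, g.mult0, g.mult1, g.nlab0, g.nlab1, g.nch, g.leaf, g.sep⟩
  have hCB : B ≤ C * B := le_mul_of_one_le_left (by linarith) hC1
  refine ⟨Mc, T2.Geo.good g' le_rfl le_rfl ?_ ?_ hMc0 ?_ hret ?_⟩
  · show 2 * (1 + 2 * c.Cc) * 1 ≤ 2 * (1 + 2 * c.Cc)
    rw [mul_one]
  · show 1 ≤ C * B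
    linarith
  · intro q hq
    have h1 := hC _ g' hMc0 hret (t.pt q)
    refine h1.trans ?_
    exact mul_le_mul_of_nonneg_left (hclip q hq) (by linarith)
  · intro q hq
    exact (hclip q hq).trans hCB

end

end Claimed.Agent.R257.FR1
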