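import Claimed.Agent.R257.FR1.Defs

/-!
# ROW 257, package FR1, file 2: TWO-HEIGHT TREES FROM PLAIN DATA      (helper249)

`T2 k` = plain data of a two-height tree (leaves of scale `κ0`, masks of scale `κ1`), witnesses = a `Finset` of unit cubes `Yf` with points `pt`.     `T2.dat t c : TDat c` = the tree of helper155 (heights `≥ 1` are constant).
`T2.Good t c` = the hypotheses in plain form;   `t2_good : c.ℓ = 1 → c.tr = 1 → t.Good c → (t.dat c).Good`.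
Restrictions are record updates: `{t with W1 := W'}`, `{t with Yf := Y'}`.
Plain versions of the objects of `Tree/Defs` at the heights `0, 1`:  `t.pre b` (pre-cutoff field of the bin `b`), `t.amp c S` (fresh amplitude of the mask `S`), `t.msk c b` (sum of the localisers of the retained masks of `b`), `t.root c` (masked leaf field),
`t.w0 A T`, `t.w1 A S` (envelopes), `t.ctr1 S`, `t.ker0 A T`, `t.eb A b`.
-/

set_option autoImplicit false

namespace Claimed.Agent.R257.FR1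

open Claimed.Agent.R257 Claimed.Agent.R257.FR2 Claimed.Agent.R257.Tree
open scoped BigOperators Classical BoundedContinuousFunction

noncomputable section

variable {k : ℕ}

/-- the class with the Fourier radii shifted by one height (class of the leaves produced by one assembly step) -/
def shiftC (c : TCls k) : TCls k := { c with ρ := fun i => c.ρ (i + 1) }

/-- plain data of a two-height tree -/
structure T2 (k : ℕ) where
  κ0 : ℝ
  κ1 : ℝ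
  Λ0 : Type
  f0 : Fintype Λ0
  Λ1 : Type
  f1 : Fintype Λ1
  fr0 : Λ0 → E k
  fr1 : Λ1 → E k
  par : Λ0 → Λ1
  W0 : Finset (Λ0 × Lat k)
  W1 : Finset (Λ1 × Lat k)
  Yf : Finset (Lat k)
  pt : Lat k → ST k
  g0 : Λ0 × Lat k → (ST k →ᵇ ℂ)
  s0 : Λ0 × Lat k → ℝ
  G0 : ℝ
  G1 : ℝ
  Mc : ℝ
  ηw : ℝ
  ϖ : ℝ

attribute [instance] T2.f0 T2.f1

namespace T2

variable (t : T2 k)

/-- labels -/
def Lb : ℕ → Type
  | 0 => t.Λ0
  | _ + 1 => t.Λ1

instance fLb : ∀ i, Fintype (t.Lb i)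
  | 0 => t.f0
  | _ + 1 => t.f1

def fr : ∀ i, t.Lb i → E k
  | 0 => t.fr0
  | _ + 1 => t.fr1

def parr : ∀ i, t.Lb i → t.Lb (i + 1)
  | 0 => t.par
  | _ + 1 => id

def W : ∀ i, Finset (t.Lb i × Lat k)
  | 0 => t.W0
  | _ + 1 => t.W1

def bin : ∀ i, t.Lb i → t.Λ1
  | 0 => t.par
  | _ + 1 => id

/-- **the tree of the plain data** -/
def dat (c : TCls k) : TDat c where
  κ := fun i => if i = 0 then t.κ0 else t.κ1
  Lb := t.Lb
  fLb := t.fLb
  fr := t.fr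
  par := t.parr
  W := t.W
  Bin := t.Λ1
  bin := t.bin
  Y := {q : Lat k // q ∈ t.Yf}
  fY := inferInstance
  pt := fun q => t.pt q.1
  g0 := t.g0
  s0 := t.s0
  G := fun i => if i = 0 then t.G0 else t.G1
  Mc := t.Mc
  ηw := t.ηw
  ϖ := t.ϖ

/-- envelope of order `A` of a leaf cell -/
def w0 (A : ℝ) (T : t.Λ0 × Lat k) (z : ST k) : ℝ := pw A t.κ0 (t.fr0 T.1) (lat T.2) z

/-- envelope of order `A` of a mask -/
def w1 (A : ℝ) (S : t.Λ1 × Lat k) (z : ST k) : ℝ := pw A t.κ1 (t.fr1 S.1) (lat S.2) z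

/-- native distance to a mask -/
def d1 (S : t.Λ1 × Lat k) (z : ST k) : ℝ := ‖natX t.κ1 (t.fr1 S.1) z - lat S.2‖

/-- the physical centre of a mask -/
def ctr1 (S : t.Λ1 × Lat k) : ST k := natI t.κ1 (t.fr1 S.1) (lat S.2)

/-- the pre-cutoff field of the bin `b` -/
def pre (b : t.Λ1) : ST k →ᵇ ℂ := ∑ T ∈ t.W0, if t.par T.1 = b then t.g0 T else 0

/-- the fresh amplitude of the mask `S` (H (p:parent-amplitude)); it does not depend on `W1` -/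
def amp (c : TCls k) (S : t.Λ1 × Lat k) : ℝ := c.Cχ * ⨆ z, ‖t.pre S.1 z‖ * t.w1 c.C0 S z

/-- the localiser of the mask `S` -/
def loc (c : TCls k) (S : t.Λ1 × Lat k) (z : ST k) : ℂ := c.χ (natX t.κ1 (t.fr1 S.1) z - lat S.2)

/-- the field of the masks `U`: `∑_{S ∈ U} χ_S V_{b(S)}` -/
def fldM (c : TCls k) (U : Finset (t.Λ1 × Lat k)) (z : ST k) : ℂ := ∑ S ∈ U, t.loc c S z * t.pre S.1 z

/-- the masked leaf field -/
def root (c : TCls k) (z : ST k) : ℂ := t.fldM c t.W1 z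

/-- the unmasked leaf field -/
def full (z : ST k) : ℂ := ∑ T ∈ t.W0, t.g0 T z

/-- the two-step kernel of order `A` -/
def ker0 (A : ℝ) (T : t.Λ0 × Lat k) (z : ST k) : ℝ := ∑ S ∈ t.W1, if S.1 = t.par T.1 then t.w1 A S z * t.w0 A T (t.ctr1 S) else 0

/-- the leaf square envelope of the bin `b` -/
def eb (A : ℝ) (b : t.Λ1) (z : ST k) : ℝ := ∑ T ∈ t.W0, if t.par T.1 = b then t.s0 T ^ 2 * t.w0 A T z else 0

/-- the leaf energy -/
def en : ℝ := t.κ0 ^ (k + 2) * ∑ T ∈ t.W0, t.s0 T ^ 2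

/-- **the hypotheses in plain form** -/
structure Good (c : TCls k) : Prop where
  one_le_κ1 : 1 ≤ t.κ1
  κ_le : t.κ1 ≤ t.κ0
  par_near : ∀ v, ‖t.fr0 v - t.fr1 (t.par v)‖ ≤ c.Cc / t.κ1
  top_bdd : ∀ b, ‖t.fr1 b‖ ≤ c.Cc
  mult0 : ∀ ξ : E k, ((Finset.univ.filter fun v => ‖t.fr0 v - ξ‖ ≤ t.κ0⁻¹).card : ℝ) ≤ c.Cm
  mult1 : ∀ ξ : E k, ((Finset.univ.filter fun b => ‖t.fr1 b - ξ‖ ≤ t.κ1⁻¹).card : ℝ) ≤ c.Cm
  nlab0 : (Fintype.card t.Λ0 : ℝ) ≤ c.Cm * t.κ0 ^ k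
  nlab1 : (Fintype.card t.Λ1 : ℝ) ≤ c.Cm * t.κ1 ^ k
  nch : ∀ b, ((Finset.univ.filter fun v => t.par v = b).card : ℝ) ≤ c.Cm * (t.κ0 / t.κ1) ^ k
  leaf : ∀ T ∈ t.W0, IsPk (c.ρ 0) c.M t.κ0 (t.fr0 T.1) (lat T.2) (t.s0 T) (t.g0 T)
  sep : ∀ q ∈ t.Yf, ∀ q' ∈ t.Yf, q ≠ q' → 1 ≤ ‖t.pt q - t.pt q'‖
  ηw_nonneg : 0 ≤ t.ηw
  one_le_G1 : 1 ≤ t.G1
  G_step : 2 * (1 + 2 * c.Cc) * t.G1 ≤ t.G0
  one_le_ϖ : 1 ≤ t.ϖ
  Mc_pos : 0 < t.Mc
  sq0 : ∀ q ∈ t.Yf, ∑ T ∈ t.W0, t.s0 T ^ 2 * t.ker0 c.P T (t.pt q) ≤ t.ϖ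
  ret : ∀ S ∈ t.W1, t.eb c.P S.1 (t.ctr1 S) ≤ t.Mc
  clip : ∀ q ∈ t.Yf, ∑ b : t.Λ1, min (t.eb c.P b (t.pt q)) t.Mc ≤ t.ϖ

end T2

/-- **GLUE: the plain hypotheses give `TDat.Good`** -/
theorem t2_good (t : T2 k) (c : TCls k) (hc : c.Ok) (hℓ : c.ℓ = 1) (htr : c.tr = 1) (h : t.Good c) : (t.dat c).Good := by
  obtain ⟨ℓ, tr, P, Q, M, C0, ρ, χ, ρχ, Cχ, Cc, Cm⟩ := c
  dsimp only at hℓ htr
  subst hℓ htr
  have h1Cm : (1 : ℝ) ≤ Cm := hc.one_le_Cm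
  have h1Cc : (1 : ℝ) ≤ Cc := hc.one_le_Cc
  have hκ1 : 0 < t.κ1 := lt_of_lt_of_le one_pos h.one_le_κ1
  refine
    { one_le_κ := ?_, κ_anti := ?_, par_near := ?_, top_bdd := h.top_bdd, mult := ?_, nlab := ?_, nch := ?_, bin_par := ?_, bin_inj := fun _ _ h => h,
      leaf := h.leaf, sep := ?_, ηw_nonneg := h.ηw_nonneg, win := ?_, one_le_G := ?_, G_step := ?_, one_le_ϖ := h.one_le_ϖ, Mc_pos := h.Mc_pos,
      sq0 := ?_, ret := ?_, clip := ?_ }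
  · intro i
    show 1 ≤ if i = 0 then t.κ0 else t.κ1
    split_ifs
    · exact h.one_le_κ1.trans h.κ_le
    · exact h.one_le_κ1
  · intro i
    show (if i + 1 = 0 then t.κ0 else t.κ1) ≤ if i = 0 then t.κ0 else t.κ1
    rw [if_neg (Nat.succ_ne_zero i)]
    split_ifs
    · exact h.κ_le
    · exact le_rfl
  · intro i v
    cases i with
    | zero => exact h.par_near v
    | succ i =>
      show ‖t.fr1 v - t.fr1 v‖ ≤ Cc / (if i + 1 + 1 = 0 then t.κ0 else t.κ1)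
      rw [sub_self, norm_zero]
      rw [if_neg (Nat.succ_ne_zero _)]
      positivity
  · intro i ξ
    cases i with
    | zero => exact h.mult0 ξ
    | succ i => exact h.mult1 ξ
  · intro i
    cases i with
    | zero => exact h.nlab0
    | succ i => exact h.nlab1
  · intro i v
    cases i with
    | zero => exact h.nch v
    | succ i =>
      have hcard : ∀ v : t.Λ1, ((Finset.univ.filter fun v' : t.Λ1 => v' = v).card : ℝ) ≤ Cm * (t.κ1 / t.κ1) ^ k := by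
        intro v
        rw [div_self hκ1.ne', one_pow, mul_one, Finset.filter_eq' Finset.univ v]
        simp only [Finset.mem_univ, if_true, Finset.card_singleton, Nat.cast_one]
        exact h1Cm
      exact hcard v
  · intro i hi v
    have : i = 0 := by
      have : i + 1 ≤ 1 := hi
      omega
    subst this
    rfl
  · intro y y' hy
    exact h.sep y.1 y.2 y'.1 y'.2 (fun e => hy (Subtype.ext e))
  · intro i hi hne
    exfalso
    have h1 : i < 1 := hi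
    have : i = 0 := by omega
    subst this
    exact hne rfl
  · intro i hi
    show 1 ≤ if i = 0 then t.G0 else t.G1
    split_ifs
    · have := h.G_step
      have := h.one_le_G1
      nlinarith
    · exact h.one_le_G1
  · intro i hi
    have h1 : i < 1 := hi
    have : i = 0 := by omega
    subst this
    exact h.G_step
  · intro y
    exact h.sq0 y.1 y.2
  · intro S hS
    exact h.ret S hS
  · intro y
    exact h.clip y.1 y.2

/-! ## bridges between the plain objects and the objects of `Tree/Defs` (LEAVES `L-F1-T2*`; in all of them start with `obtain ⟨ℓ, tr, P, Q, M, C0, ρ, χ, ρχ, Cχ, Cc, Cm⟩ := c; dsimp only at hℓ htr; subst hℓ htr` as in `t2_good`) -/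

/-- the leaf family of the tree -/
def T2.lf (t : T2 k) (c : TCls k) : (t.dat c).Cl 0 → (ST k →ᵇ ℂ) := fun T => t.g0 T.1

/-- **LEAF L-F1-T2A**: the pre-cutoff field.   PLAN: unfold `TDat.pre`, `T2.pre`; `Finset.sum_coe_sort` / `Finset.sum_subtype` turns the sum over the subtype `Cl 0` into the sum over `t.W0`. -/
theorem t2_pre (t : T2 k) (c : TCls k) (b : t.Λ1) : (t.dat c).pre 0 (t.lf c) b = t.pre b := by
  exact Finset.sum_coe_sort t.W0 (fun T => if t.par T.1 = b then t.g0 T else 0)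

/-- **LEAF L-F1-T2B**: the fresh amplitude.   PLAN: unfold `TDat.amp`, `T2.amp`, rewrite with `t2_pre`; `TDat.wA`, `TDat.X`, `T2.w1`, `pw` agree by `rfl` (`(t.dat c).κ 1 = t.κ1` by `if_neg`). -/
theorem t2_amp (t : T2 k) (c : TCls k) (S : (t.dat c).Cl 1) : (t.dat c).amp 0 (t.lf c) S = t.amp c S.1 := by
  have h : (t.dat c).pre 0 (t.lf c) S.1.1 = t.pre S.1.1 := t2_pre t c S.1.1
  have h2 : ∀ z, ‖(t.dat c).pre 0 (t.lf c) S.1.1 z‖ * (t.dat c).wA c.C0 1 S.1 z = ‖t.pre S.1.1 z‖ * t.w1 c.C0 S.1 z :=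
    fun z => congrArg₂ (· * ·) (congrArg norm (DFunLike.congr_fun h z)) rfl
  exact congrArg (fun x => c.Cχ * x) (iSup_congr h2)

/-- **LEAF L-F1-T2C**: the output packet.   PLAN: `TDat.asm_apply`, `t2_pre`, `TDat.loc_apply`. -/
theorem t2_asm (t : T2 k) (c : TCls k) (S : (t.dat c).Cl 1) (z : ST k) : (t.dat c).asm 0 (t.lf c) S z = t.loc c S.1 z * t.pre S.1.1 z := by
  have h : (t.dat c).pre 0 (t.lf c) S.1.1 = t.pre S.1.1 := t2_pre t c S.1.1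
  exact congrArg (fun x => t.loc c S.1 z * x) (DFunLike.congr_fun h z)

/-- **LEAF L-F1-T2D**: the masked leaf field.   PLAN: unfold `TDat.Ev`, `TDat.msk` (`if_pos : 0 < 1`), `T2.root`, `T2.fldM`, `T2.pre`; sum over the subtype = sum over `t.W0`; `Finset.sum_comm`; `Finset.mul_sum`; `BoundedContinuousFunction` sums evaluate pointwise (`BoundedContinuousFunction.coe_sum`, `Finset.sum_apply`). -/
theorem t2_root (t : T2 k) (c : TCls k) (hℓ : c.ℓ = 1) (htr : c.tr = 1) (z : ST k) : (t.dat c).Ev 0 (t.lf c) z = t.root c z := by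
  obtain ⟨ℓ, tr, P, Q, M, C0, ρ, χ, ρχ, Cχ, Cc, Cm⟩ := c
  dsimp only at hℓ htr
  subst hℓ htr
  have h1 : ∀ T : t.Λ0 × Lat k, (t.dat ⟨1, 1, P, Q, M, C0, ρ, χ, ρχ, Cχ, Cc, Cm⟩).msk 0 T.1 z
      = ∑ S ∈ t.W1, if S.1 = t.par T.1 then t.loc ⟨1, 1, P, Q, M, C0, ρ, χ, ρχ, Cχ, Cc, Cm⟩ S z else 0 := by
    intro T
    exact if_pos Nat.zero_lt_one
  have h2 : (t.dat ⟨1, 1, P, Q, M, C0, ρ, χ, ρχ, Cχ, Cc, Cm⟩).Ev 0 (t.lf _) z
      = ∑ T ∈ t.W0, (t.dat ⟨1, 1, P, Q, M, C0, ρ, χ, ρχ, Cχ, Cc, Cm⟩).msk 0 T.1 z * t.g0 T z :=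
    Finset.sum_coe_sort t.W0 (fun T => (t.dat ⟨1, 1, P, Q, M, C0, ρ, χ, ρχ, Cχ, Cc, Cm⟩).msk 0 T.1 z * t.g0 T z)
  rw [h2]
  simp only [h1]
  unfold T2.root T2.fldM T2.pre
  simp only [BoundedContinuousFunction.coe_sum, Finset.sum_apply, Finset.sum_mul, Finset.mul_sum]
  rw [Finset.sum_comm]
  refine Finset.sum_congr rfl fun S _ => Finset.sum_congr rfl fun T _ => ?_
  by_cases h : S.1 = t.par T.1
  · rw [if_pos h, if_pos h.symm]
  · rw [if_neg h, if_neg (fun e => h e.symm)]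
    simp

/-- **LEAF L-F1-T2E**: the field of the top layer.   PLAN: `TDat.Ev`, `TDat.msk` (`if_neg : ¬ 1 < 1`), `one_mul`, `t2_asm`, sum over the subtype. -/
theorem t2_top (t : T2 k) (c : TCls k) (hℓ : c.ℓ = 1) (htr : c.tr = 1) (z : ST k) : (t.dat c).Ev 1 ((t.dat c).asm 0 (t.lf c)) z = t.root c z := by
  obtain ⟨ℓ, tr, P, Q, M, C0, ρ, χ, ρχ, Cχ, Cc, Cm⟩ := c
  dsimp only at hℓ htr
  subst hℓ htr
  have h1 : ∀ S : (t.dat ⟨1, 1, P, Q, M, C0, ρ, χ, ρχ, Cχ, Cc, Cm⟩).Cl 1,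
      (t.dat ⟨1, 1, P, Q, M, C0, ρ, χ, ρχ, Cχ, Cc, Cm⟩).msk 1 S.1.1 z * (t.dat _).asm 0 (t.lf _) S z
      = t.loc ⟨1, 1, P, Q, M, C0, ρ, χ, ρχ, Cχ, Cc, Cm⟩ S.1 z * t.pre S.1.1 z := by
    intro S
    rw [t2_asm]
    have : (t.dat ⟨1, 1, P, Q, M, C0, ρ, χ, ρχ, Cχ, Cc, Cm⟩).msk 1 S.1.1 z = 1 := if_neg (lt_irrefl 1)
    rw [this, one_mul]
  unfold TDat.Ev
  rw [Finset.sum_congr rfl fun S _ => h1 S]
  exact Finset.sum_coe_sort t.W1 (fun S => t.loc ⟨1, 1, P, Q, M, C0, ρ, χ, ρχ, Cχ, Cc, Cm⟩ S z * t.pre S.1 z)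

/-- **LEAF L-F1-T2F**: the leaf energy.   PLAN: unfold `TSys.D`, `TSys.en`, `TDat.sys`, `TDat.bb`; sum over the subtype; `Finset.mul_sum`. -/
theorem t2_en (t : T2 k) (c : TCls k) : (t.dat c).sys.D = t.en := by
  have h : (t.dat c).sys.D = ∑ T ∈ t.W0, t.κ0 ^ (k + 2) * t.s0 T ^ 2 :=
    Finset.sum_coe_sort t.W0 (fun T => t.κ0 ^ (k + 2) * t.s0 T ^ 2)
  rw [h, T2.en, Finset.mul_sum]

/-- the leaf family is admissible -/
theorem t2_adm (t : T2 k) (c : TCls k) (h : t.Good c) : (t.dat c).Adm 0 (t.lf c) (fun T => t.s0 T.1) := fun T => h.leaf T.1 T.2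

end

end Claimed.Agent.R257.FR1
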